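import Crest.Prelude.Def_Sched3
import Crest.Agent.Lib.PT.Typed

/-!
# Row 286: the algorithm as a pure list program, and the interface to the combinatorial theorem

`Fam lt nu d`: sets obtained from the atoms by `d` levels of NAND / strict up-set / strict down-set.
`Tree lt nu d`: recursive splitting into described sets.
`MathClaim d`: every perfectly packable order has a splitting tree.
`algo d`: the algorithm.
-/

set_option autoImplicit false
set_option linter.dupNamespace false

namespace Crest.Agent.R286

/-! ### interface to the combinatorial theorem -/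

/-- Sets described by the atoms and `i` levels of operations. -/
inductive Fam {α : Type} (lt : α → α → Prop) (nu : α → ℕ) : ℕ → Set α → Prop
  | empty : Fam lt nu 0 ∅
  | univ : Fam lt nu 0 Set.univ
  | single (a : α) : Fam lt nu 0 {a}
  | up (a : α) : Fam lt nu 0 {z | lt a z}
  | down (a : α) : Fam lt nu 0 {z | lt z a}
  | pre (k : ℕ) : Fam lt nu 0 {z | nu z < k}
  | mono {i : ℕ} {A : Set α} : Fam lt nu i A → Fam lt nu (i + 1) A
  | nand {i : ℕ} {A B : Set α} : Fam lt nu i A → Fam lt nu i B → Fam lt nu (i + 1) (A ∩ B)ᶜ
  | ups {i : ℕ} {A : Set α} : Fam lt nu i A → Fam lt nu (i + 1) {z | ∃ a ∈ A, lt a z}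
  | downs {i : ℕ} {A : Set α} : Fam lt nu i A → Fam lt nu (i + 1) {z | ∃ a ∈ A, lt z a}

/-- Splitting trees. -/
inductive Tree {α : Type} (lt : α → α → Prop) (nu : α → ℕ) (d : ℕ) : Set α → Prop
  | empty : Tree lt nu d ∅
  | leaf (X : Set α) : X.ncard = 3 → (∀ a ∈ X, ∀ b ∈ X, ¬ lt a b) → Tree lt nu d X
  | node (Y Z : Set α) : Fam lt nu d Y → Fam lt nu d Z → Disjoint Y Z →
      (∀ y ∈ Y, ∀ z ∈ Z, ¬ lt z y) → Tree lt nu d Y → Tree lt nu d Z → Tree lt nu d (Y ∪ Z)

/-- The combinatorial theorem: a finite strict order with a perfect packing (`T` slots of exactly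
three jobs) has a splitting tree, for every linear extension `nu`. -/
def MathClaim (d : ℕ) : Prop :=
  ∀ (α : Type) [Fintype α] [DecidableEq α] (lt : α → α → Prop) (nu : α → ℕ),
    (∀ a, ¬ lt a a) → (∀ a b c, lt a b → lt b c → lt a c) →
    Function.Injective nu → (∀ a b, lt a b → nu a < nu b) →
    ∀ (T : ℕ) (s : α → Fin T), (∀ t, (Finset.univ.filter fun a => s a = t).card = 3) →
      (∀ a b, lt a b → s a < s b) → Tree lt nu d Set.univ

/-! ### the algorithm -/

/-- relations as lists of pairs -/
abbrev Rel : Type := List (ℕ × ℕ)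

/-- parser state: jobs seen (increasing), row, column, relation -/
abbrev PSt : Type := List ℕ × ℕ × ℕ × Rel

/-- process one table bit; `nb` are the bits of `n` -/
def pstep (nb : List Bool) (s : PSt) (b : Bool) : PSt :=
  let jobs := if s.2.2.1 = 0 then s.1 ++ [s.2.1] else s.1
  let R := if b then (s.2.1, s.2.2.1) :: s.2.2.2 else s.2.2.2
  if (s.2.2.1 + 1).bits = nb then (jobs, s.2.1 + 1, 0, R) else (jobs, s.2.1, s.2.2.1 + 1, R)

/-- parse the input into (jobs, number of rows, relation) -/
def parseIn (x : List Bool) : List ℕ × ℕ × Rel :=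
  let s := ((Lib.PT.snd x).tail).foldl (pstep (Lib.PT.fst x)) ([], 0, 0, [])
  (s.1, s.2.1, s.2.2.2)

/-- all pairs -/
def pairsL (J : List ℕ) : Rel := J.flatMap fun x => J.map fun y => (x, y)

/-- one step of the transitive closure -/
def tcStep (J : List ℕ) (P R : Rel) : Rel :=
  P.filter fun p => R.contains p || J.any fun z => R.contains (p.1, z) && R.contains (z, p.2)

/-- transitive closure -/
def tc (J : List ℕ) (R : Rel) : Rel := J.foldl (fun R' _ => tcStep J (pairsL J) R') R

/-- one level of the topological order: (remaining, done) -/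
def topoStep (R : Rel) (s : List ℕ × List ℕ) : List ℕ × List ℕ :=
  (s.1.filter fun x => s.1.any fun y => R.contains (y, x),
    s.2 ++ s.1.filter fun x => !(s.1.any fun y => R.contains (y, x)))

/-- topological order -/
def topo (R : Rel) (J : List ℕ) : List ℕ := (J.foldl (fun s _ => topoStep R s) (J, [])).2

/-- the atoms, as sublists of `J` -/
def fam0 (J : List ℕ) (R : Rel) : List (List ℕ) :=
  [] :: J :: (J.map (fun a => [a]) ++ (J.map (fun a => J.filter fun z => R.contains (a, z)) ++
    (J.map (fun a => J.filter fun z => R.contains (z, a)) ++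
      J.map (fun a => J.takeWhile fun z => z != a))))

/-- one level of operations -/
def famStep (J : List ℕ) (R : Rel) (F : List (List ℕ)) : List (List ℕ) :=
  F ++ ((F.flatMap fun A => F.map fun B => J.filter fun z => !(A.contains z && B.contains z)) ++
    (F.map (fun A => J.filter fun z => A.any fun a => R.contains (a, z)) ++
      F.map (fun A => J.filter fun z => A.any fun a => R.contains (z, a))))

/-- the family of described sets, as sublists of `J` -/
def fam : ℕ → List ℕ → Rel → List (List ℕ)
  | 0, J, R => fam0 J R
  | d + 1, J, R => famStep J R (fam d J R)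

/-- tables: sets with a packing if one is known -/
abbrev Tab : Type := List (List ℕ × Option (List ℕ))

/-- leaves: empty set or antichain of three -/
def isLeaf (R : Rel) (X : List ℕ) : Bool :=
  X.isEmpty || ((!X.tail.tail.isEmpty && X.tail.tail.tail.isEmpty) &&
    !(X.any fun x => X.any fun y => R.contains (x, y)))

/-- `w1 ++ w2` is a packing of `X` if `w1`, `w2` are packings -/
def good (R : Rel) (X w1 w2 : List ℕ) : Bool :=
  decide ((w1 ++ w2).Nodup) && ((w1 ++ w2).all (fun a => X.contains a) &&
    (X.all (fun a => (w1 ++ w2).contains a) &&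
      !(w2.any fun z => w1.any fun y => R.contains (z, y))))

/-- first `some` value in the list -/
def firstSome {α β : Type} (f : α → Option β) (l : List α) : Option β :=
  l.foldl (fun acc x => match acc with | some r => some r | none => f x) none

/-- search for a splitting of `X` with known packings -/
def search (R : Rel) (T : Tab) (X : List ℕ) : Option (List ℕ) :=
  firstSome (fun p : List ℕ × Option (List ℕ) => match p.2 with
    | none => none
    | some w1 => firstSome (fun q : List ℕ × Option (List ℕ) => match q.2 with
      | none => none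
      | some w2 => if good R X w1 w2 then some (w1 ++ w2) else none) T) T

/-- one round -/
def tabRound (R : Rel) (T : Tab) : Tab :=
  T.map fun p => (p.1, match p.2 with
    | some w => some w
    | none => if isLeaf R p.1 then some p.1 else search R T p.1)

/-- packing of the full set, if found -/
def solve (d : ℕ) (J : List ℕ) (R : Rel) : Option (List ℕ) :=
  firstSome (fun p : List ℕ × Option (List ℕ) => if p.1 = J then p.2 else none)
    ((0 :: J).foldl (fun T _ => tabRound R T) ((fam d J R).map fun X => (X, none)))

/-- try with the current fillers, then add a filler -/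
def fillStep (d : ℕ) (R : Rel) (s : List ℕ × ℕ × Option (List ℕ)) : List ℕ × ℕ × Option (List ℕ) :=
  if s.2.2.isSome then s else (s.1 ++ [s.2.1], s.2.1 + 1, solve d s.1 R)

/-- slot of the job `v` in the packing `w` -/
def slotOf (w : List ℕ) (v : ℕ) : ℕ := w.idxOf v / 3 + 1

/-- the algorithm on parsed input -/
def mainAlg (d : ℕ) (J0 : List ℕ) (n : ℕ) (R0 : Rel) : Option (List ℕ) :=
  let R := tc J0 R0
  ((J0 ++ (J0 ++ J0)).foldl (fun s _ => fillStep d R s) (topo R J0, n, none)).2.2

/-- the algorithm -/
def algo (d : ℕ) (x : List Bool) : List Bool :=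
  match mainAlg d (parseIn x).1 (parseIn x).2.1 (parseIn x).2.2 with
  | none => []
  | some w => Crest.Enc.listCode ((parseIn x).1.map (slotOf w))

/-- correctness of the algorithm (target of the pure side) -/
def AlgoCorrect (d : ℕ) : Prop :=
  ∀ (n : ℕ) (E : Fin n → Fin n → Bool), 1 ≤ n → Crest.Sched3.Acyclic E →
    ∃ τ : Fin n → ℕ, algo d (Crest.Sched3.precCode n E) = Crest.Enc.listCode (List.ofFn τ) ∧
      Crest.Sched3.IsSchedule E τ ∧
        ∀ τ' : Fin n → ℕ, Crest.Sched3.IsSchedule E τ' →
          Finset.univ.sup τ ≤ Finset.univ.sup τ'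

end Crest.Agent.R286
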