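import Mathlib

/-!
# Row 286, node T, list form (captain's independent run)
-/

set_option autoImplicit false
set_option linter.unusedVariables false

namespace Crest.Agent.R286.CapT

variable {α : Type} [DecidableEq α]

/-- packing as a list of slots, the head is the last slot -/
def IsPk (r : α → α → Prop) : List (Finset α) → Finset α → Prop
  | [], D => D = ∅
  | S :: l, D => S ⊆ D ∧ S.card = 3 ∧ (∀ x ∈ S, ∀ y ∈ D, ¬ r x y) ∧ IsPk r l (D \ S)

open Classical in
/-- successors of the smallest left separator -/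
noncomputable def AL (r : α → α → Prop) : List (Finset α) → Set α
  | [] => ∅
  | S :: l => if (∀ s ∈ S, s ∈ AL r l) then AL r l else {z | ∃ s ∈ S, r s z}

theorem AL_cons_pos {r : α → α → Prop} {S : Finset α} {l : List (Finset α)}
    (h : ∀ s ∈ S, s ∈ AL r l) : AL r (S :: l) = AL r l := by
  rw [AL, if_pos h]

theorem AL_cons_neg {r : α → α → Prop} {S : Finset α} {l : List (Finset α)}
    (h : ¬ ∀ s ∈ S, s ∈ AL r l) : AL r (S :: l) = {z | ∃ s ∈ S, r s z} := by
  rw [AL, if_neg h]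

theorem AL_up {r : α → α → Prop} (htr : ∀ a b c, r a b → r b c → r a c) :
    ∀ (l : List (Finset α)) (x y : α), x ∈ AL r l → r x y → y ∈ AL r l := by
  intro l
  induction l with
  | nil => intro x y hx; exact absurd hx (by simp [AL])
  | cons S l ih =>
    intro x y hx hxy
    by_cases h : ∀ s ∈ S, s ∈ AL r l
    · rw [AL_cons_pos h] at hx ⊢
      exact ih x y hx hxy
    · rw [AL_cons_neg h] at hx ⊢
      obtain ⟨s, hs, hsx⟩ := hx
      exact ⟨s, hs, htr _ _ _ hsx hxy⟩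

theorem not_pred_of_not_AL {r : α → α → Prop} (htr : ∀ a b c, r a b → r b c → r a c)
    {S : Finset α} {l : List (Finset α)} {g : α} (h : g ∉ AL r (S :: l)) :
    ∀ s ∈ S, ¬ r s g := by
  intro s hs hsg
  by_cases hc : ∀ s ∈ S, s ∈ AL r l
  · rw [AL_cons_pos hc] at h
    exact h (AL_up htr l s g (hc s hs) hsg)
  · rw [AL_cons_neg hc] at h
    exact h ⟨s, hs, hsg⟩

theorem exch {r : α → α → Prop} (htr : ∀ a b c, r a b → r b c → r a c)
    (hirr : ∀ a, ¬ r a a) :
    ∀ (l : List (Finset α)) (D : Finset α) (g y : α), IsPk r l D → g ∉ D → (∀ x ∈ D, ¬ r g x) →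
      g ∉ AL r l → y ∈ D → (∀ x ∈ D, ¬ r y x) → ¬ r y g →
      ∃ l', IsPk r l' (insert g (D.erase y)) := by
  intro l
  induction l with
  | nil =>
    intro D g y hp _ _ _ hy
    rw [IsPk] at hp
    subst hp
    simp at hy
  | cons T l ih =>
    intro D g y hp hgD hgmax hgA hyD hymax hyg
    obtain ⟨hTD, hT3, hTmax, hpl⟩ := hp
    have hnp : ∀ s ∈ T, ¬ r s g := not_pred_of_not_AL htr hgA
    have hgT : g ∉ T := fun h => hgD (hTD h)
    by_cases hyT : y ∈ T
    · -- replace y by g in T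
      refine ⟨insert g (T.erase y) :: l, ?_, ?_, ?_, ?_⟩
      · exact Finset.insert_subset_insert _ (Finset.erase_subset_erase _ hTD)
      · rw [Finset.card_insert_of_notMem (by simp [hgT]), Finset.card_erase_of_mem hyT, hT3]
      · intro x hx z hz
        rw [Finset.mem_insert, Finset.mem_erase] at hx hz
        rcases hx with rfl | ⟨_, hx⟩
        · rcases hz with rfl | ⟨_, hz⟩
          · exact hirr _
          · exact hgmax z hz
        · rcases hz with rfl | ⟨_, hz⟩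
          · exact hnp x hx
          · exact hTmax x hx z hz
      · have : insert g (D.erase y) \ insert g (T.erase y) = D \ T := by
          ext z
          simp only [Finset.mem_sdiff, Finset.mem_insert, Finset.mem_erase]
          constructor
          · rintro ⟨h1 | h1, h2⟩
            · exact absurd (Or.inl h1) h2
            · push Not at h2
              exact ⟨h1.2, fun h => (h2.2 h1.1) h⟩
          · rintro ⟨h1, h2⟩
            have hzy : z ≠ y := fun h => h2 (h ▸ hyT)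
            have hzg : z ≠ g := fun h => hgD (h ▸ h1)
            exact ⟨Or.inr ⟨hzy, h1⟩, by
              rintro (h | h)
              · exact hzg h
              · exact h2 h.2⟩
        rw [this]
        exact hpl
    · have hyD1 : y ∈ D \ T := Finset.mem_sdiff.2 ⟨hyD, hyT⟩
      have hymax1 : ∀ x ∈ D \ T, ¬ r y x := fun x hx => hymax x (Finset.mem_sdiff.1 hx).1
      by_cases hc : ∀ s ∈ T, s ∈ AL r l
      · -- last slot unchanged
        rw [AL_cons_pos hc] at hgA
        obtain ⟨l', hl'⟩ := ih (D \ T) g y hpl (fun h => hgD (Finset.mem_sdiff.1 h).1)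
          (fun x hx => hgmax x (Finset.mem_sdiff.1 hx).1) hgA hyD1 hymax1 hyg
        refine ⟨T :: l', ?_, hT3, ?_, ?_⟩
        · intro z hz
          rw [Finset.mem_insert, Finset.mem_erase]
          exact Or.inr ⟨fun h => hyT (h ▸ hz), hTD hz⟩
        · intro x hx z hz
          rw [Finset.mem_insert, Finset.mem_erase] at hz
          rcases hz with rfl | ⟨_, hz⟩
          · exact hnp x hx
          · exact hTmax x hx z hz
        · have : insert g (D.erase y) \ T = insert g ((D \ T).erase y) := by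
            ext z
            simp only [Finset.mem_sdiff, Finset.mem_insert, Finset.mem_erase]
            constructor
            · rintro ⟨h1 | h1, h2⟩
              · exact Or.inl h1
              · exact Or.inr ⟨h1.1, h1.2, h2⟩
            · rintro (h | ⟨h1, h2, h3⟩)
              · exact ⟨Or.inl h, h ▸ hgT⟩
              · exact ⟨Or.inr ⟨h1, h2⟩, h3⟩
          rw [this]
          exact hl'
      · -- a free job w of T moves left
        push Not at hc
        obtain ⟨w, hwT, hwA⟩ := hc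
        have hwD : w ∈ D := hTD hwT
        have hwy : w ≠ y := fun h => hyT (h ▸ hwT)
        obtain ⟨l', hl'⟩ := ih (D \ T) w y hpl (fun h => (Finset.mem_sdiff.1 h).2 hwT)
          (fun x hx => hTmax w hwT x (Finset.mem_sdiff.1 hx).1) hwA hyD1 hymax1
          (hymax w hwD)
        refine ⟨insert g (T.erase w) :: l', ?_, ?_, ?_, ?_⟩
        · intro z hz
          rw [Finset.mem_insert, Finset.mem_erase] at hz ⊢
          rcases hz with h | ⟨_, h⟩
          · exact Or.inl h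
          · exact Or.inr ⟨fun h' => hyT (h' ▸ h), hTD h⟩
        · rw [Finset.card_insert_of_notMem (by simp [hgT]), Finset.card_erase_of_mem hwT, hT3]
        · intro x hx z hz
          rw [Finset.mem_insert, Finset.mem_erase] at hx hz
          rcases hx with rfl | ⟨_, hx⟩
          · rcases hz with rfl | ⟨_, hz⟩
            · exact hirr _
            · exact hgmax z hz
          · rcases hz with rfl | ⟨_, hz⟩
            · exact hnp x hx
            · exact hTmax x hx z hz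
        · have : insert g (D.erase y) \ insert g (T.erase w) = insert w ((D \ T).erase y) := by
            ext z
            simp only [Finset.mem_sdiff, Finset.mem_insert, Finset.mem_erase]
            constructor
            · rintro ⟨h1 | h1, h2⟩
              · exact absurd (Or.inl h1) h2
              · by_cases hzw : z = w
                · exact Or.inl hzw
                · push Not at h2
                  exact Or.inr ⟨h1.1, h1.2, h2.2 hzw⟩
            · rintro (h | ⟨h1, h2, h3⟩)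
              · subst h
                refine ⟨Or.inr ⟨hwy, hwD⟩, ?_⟩
                rintro (h | h)
                · exact hgD (h ▸ hwD)
                · exact h.1 rfl
              · refine ⟨Or.inr ⟨h1, h2⟩, ?_⟩
                rintro (h | h)
                · exact hgD (h ▸ h2)
                · exact h3 h.2
          rw [this]
          exact hl'

/-- feasible last slot -/
def Feas (r : α → α → Prop) (D S : Finset α) : Prop := ∃ l, IsPk r (S :: l) D

/-- `g` is free in some packing with last slot `S` -/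
def Fr (r : α → α → Prop) (D S : Finset α) (g : α) : Prop :=
  ∃ l, IsPk r (S :: l) D ∧ g ∉ AL r l

theorem feas_exch {r : α → α → Prop} (htr : ∀ a b c, r a b → r b c → r a c)
    (hirr : ∀ a, ¬ r a a) {D S : Finset α} {g y : α} (hg : g ∈ S) (hf : Fr r D S g)
    (hy : y ∈ D) (hyS : y ∉ S) (hymax : ∀ x ∈ D, ¬ r y x) :
    Feas r D (insert y (S.erase g)) := by
  obtain ⟨l, ⟨hSD, hS3, hSmax, hl⟩, hgA⟩ := hf
  have hgD : g ∈ D := hSD hg
  obtain ⟨l', hl'⟩ := exch htr hirr l (D \ S) g y hl (fun h => (Finset.mem_sdiff.1 h).2 hg)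
    (fun x hx => hSmax g hg x (Finset.mem_sdiff.1 hx).1) hgA (Finset.mem_sdiff.2 ⟨hy, hyS⟩)
    (fun x hx => hymax x (Finset.mem_sdiff.1 hx).1) (hymax g hgD)
  refine ⟨l', ?_, ?_, ?_, ?_⟩
  · intro z hz
    rw [Finset.mem_insert, Finset.mem_erase] at hz
    rcases hz with rfl | ⟨_, h⟩
    · exact hy
    · exact hSD h
  · rw [Finset.card_insert_of_notMem (by simp [hyS]), Finset.card_erase_of_mem hg, hS3]
  · intro x hx z hz
    rw [Finset.mem_insert, Finset.mem_erase] at hx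
    rcases hx with rfl | ⟨_, hx⟩
    · exact hymax z hz
    · exact hSmax x hx z hz
  · have : D \ insert y (S.erase g) = insert g ((D \ S).erase y) := by
      ext z
      simp only [Finset.mem_sdiff, Finset.mem_insert, Finset.mem_erase]
      constructor
      · rintro ⟨h1, h2⟩
        push Not at h2
        by_cases hzg : z = g
        · exact Or.inl hzg
        · exact Or.inr ⟨h2.1, h1, h2.2 hzg⟩
      · rintro (h | ⟨h1, h2, h3⟩)
        · subst h
          refine ⟨hgD, ?_⟩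
          rintro (h | h)
          · exact hyS (h ▸ hg)
          · exact h.1 rfl
        · refine ⟨h2, ?_⟩
          rintro (h | h)
          · exact h1 h
          · exact h3 h.2
    rw [this]
    exact hl'

/-! ### the greedy choice -/

/-- number of cells hit -/
def hit (I : Finset ℕ) (c : α → ℕ) (S : Finset α) : ℕ := (S.image c ∩ I).card

/-- better-than relation -/
def Best (r : α → α → Prop) (ν : α → ℕ) (I : Finset ℕ) (c : α → ℕ) (D S : Finset α) : Prop :=
  Feas r D S ∧ ∀ S', Feas r D S' → hit I c S' < hit I c S ∨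
    (hit I c S' = hit I c S ∧ ∑ x ∈ S', ν x ≤ ∑ x ∈ S, ν x)

theorem exists_best (r : α → α → Prop) (ν : α → ℕ) (I : Finset ℕ) (c : α → ℕ) {D : Finset α}
    (h : ∃ l, IsPk r l D) (hne : D.Nonempty) : ∃ S, Best r ν I c D S := by
  classical
  obtain ⟨l, hl⟩ := h
  have hF : ∃ S, Feas r D S := by
    cases l with
    | nil => rw [IsPk] at hl; subst hl; simp at hne
    | cons S l => exact ⟨S, l, hl⟩
  obtain ⟨S0, hS0⟩ := hF
  let U : Finset (Finset α) := D.powerset.filter fun S => Feas r D S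
  have hU : ∀ S, S ∈ U ↔ Feas r D S := by
    intro S
    simp only [U, Finset.mem_filter, Finset.mem_powerset]
    exact ⟨fun h => h.2, fun h => ⟨h.choose_spec.1, h⟩⟩
  obtain ⟨S, hS, hmax⟩ := Finset.exists_max_image U
    (fun S => (toLex (hit I c S, ∑ x ∈ S, ν x) : ℕ ×ₗ ℕ)) ⟨S0, (hU S0).2 hS0⟩
  refine ⟨S, (hU S).1 hS, fun S' hS' => ?_⟩
  have := hmax S' ((hU S').2 hS')
  rw [Prod.Lex.toLex_le_toLex] at this
  simpa using this

theorem image_insert_erase_self {c : α → ℕ} {S : Finset α} {g : α} (hg : g ∈ S) :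
    S.image c = insert (c g) ((S.erase g).image c) := by
  rw [← Finset.image_insert, Finset.insert_erase hg]

theorem alphaBeta {r : α → α → Prop} (htr : ∀ a b c, r a b → r b c → r a c)
    (hirr : ∀ a, ¬ r a a) {ν : α → ℕ} (hinj : Function.Injective ν)
    (hmono : ∀ a b, r a b → ν a < ν b) {I : Finset ℕ} {c : α → ℕ} {D S : Finset α}
    (hcell : ∀ z ∈ D, ∀ z' ∈ D, c z ∈ I → r z z' → c z' = c z)
    (hne : ∀ i ∈ I, ∃ z ∈ D, c z = i) (hS : Best r ν I c D S) {g : α} (hg : g ∈ S)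
    (hfr : Fr r D S g) :
    (c g ∈ I ∧ (∀ p ∈ S, p ≠ g → c p ≠ c g) ∧ ∀ z ∈ D, c z = c g → ν z ≤ ν g) ∨
    ((∀ i ∈ I, ∃ p ∈ S, p ≠ g ∧ c p = i) ∧
      ∀ y ∈ D, y ∉ S → (∀ x ∈ D, ¬ r y x) → ν y < ν g) := by
  obtain ⟨hF, hB⟩ := hS
  have hSD : S ⊆ D := hF.choose_spec.1
  have hmaxcell : ∀ i ∈ I, ∃ y ∈ D, c y = i ∧ (∀ z ∈ D, c z = i → ν z ≤ ν y) ∧
      ∀ x ∈ D, ¬ r y x := by
    intro i hi
    obtain ⟨z0, hz0, hcz0⟩ := hne i hi
    obtain ⟨y, hy, hymax⟩ := Finset.exists_max_image (D.filter fun z => c z = i) ν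
      ⟨z0, Finset.mem_filter.2 ⟨hz0, hcz0⟩⟩
    rw [Finset.mem_filter] at hy
    have h2 : ∀ z ∈ D, c z = i → ν z ≤ ν y := fun z hz hcz =>
      hymax z (Finset.mem_filter.2 ⟨hz, hcz⟩)
    refine ⟨y, hy.1, hy.2, h2, fun x hx hyx => ?_⟩
    have h3 := hcell y hy.1 x hx (by rw [hy.2]; exact hi) hyx
    have h4 := h2 x hx (h3.trans hy.2)
    have h5 := hmono y x hyx
    omega
  have hsumS : ∑ x ∈ S, ν x = ν g + ∑ x ∈ S.erase g, ν x := by
    rw [Finset.add_sum_erase _ _ hg]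
  have hsum : ∀ y, y ∉ S → ∑ x ∈ insert y (S.erase g), ν x = ν y + ∑ x ∈ S.erase g, ν x := by
    intro y hy
    rw [Finset.sum_insert]
    simp [hy]
  have hins : ∀ (a : ℕ) (T : Finset ℕ), a ∈ I → a ∉ T → (insert a T ∩ I).card = (T ∩ I).card + 1 := by
    intro a T ha haT
    rw [Finset.insert_inter_of_mem ha, Finset.card_insert_of_notMem (by simp [haT])]
  by_cases hmiss : ∃ i ∈ I, ∀ p ∈ S, p ≠ g → c p ≠ i
  · left
    obtain ⟨i, hi, hmiss⟩ := hmiss
    have hnim : i ∉ (S.erase g).image c := by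
      intro h
      obtain ⟨p, hp, hcp⟩ := Finset.mem_image.1 h
      rw [Finset.mem_erase] at hp
      exact hmiss p hp.2 hp.1 hcp
    have key : c g ∈ I ∧ ∀ p ∈ S, p ≠ g → c p ≠ c g := by
      obtain ⟨y, hyD, hcy, hymax, hyM⟩ := hmaxcell i hi
      by_cases hyg : y = g
      · subst hyg
        exact ⟨hcy ▸ hi, fun p hp hpy => by rw [hcy]; exact hmiss p hp hpy⟩
      · have hyS : y ∉ S := fun h => hmiss y h hyg hcy
        have h1 := hB _ (feas_exch htr hirr hg hfr hyD hyS hyM)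
        have h2 : hit I c (insert y (S.erase g)) = ((S.erase g).image c ∩ I).card + 1 := by
          rw [hit, Finset.image_insert, hins _ _ (by rw [hcy]; exact hi) (by rw [hcy]; exact hnim)]
        have h3 : hit I c S = (insert (c g) ((S.erase g).image c) ∩ I).card := by
          rw [hit, image_insert_erase_self hg]
        have h4 : ((S.erase g).image c ∩ I).card + 1 ≤
            (insert (c g) ((S.erase g).image c) ∩ I).card := by
          rw [← h2, ← h3]
          rcases h1 with h1 | h1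
          · exact h1.le
          · exact h1.1.le
        have h5 : c g ∈ I := by
          by_contra h
          rw [Finset.insert_inter_of_notMem h] at h4
          omega
        refine ⟨h5, fun p hp hpg hc => ?_⟩
        have h6 : c g ∈ (S.erase g).image c :=
          Finset.mem_image.2 ⟨p, Finset.mem_erase.2 ⟨hpg, hp⟩, hc⟩
        rw [Finset.insert_eq_of_mem h6] at h4
        omega
    refine ⟨key.1, key.2, ?_⟩
    obtain ⟨y, hyD, hcy, hymax, hyM⟩ := hmaxcell (c g) key.1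
    have hyg : ν y ≤ ν g := by
      by_contra hlt
      push Not at hlt
      have hne' : y ≠ g := fun h => by rw [h] at hlt; exact lt_irrefl _ hlt
      have hyS : y ∉ S := fun h => key.2 y h hne' hcy
      have h1 := hB _ (feas_exch htr hirr hg hfr hyD hyS hyM)
      have h2 : hit I c (insert y (S.erase g)) = hit I c S := by
        rw [hit, hit, Finset.image_insert, hcy, ← image_insert_erase_self hg]
      rw [hsum y hyS, hsumS, h2] at h1
      rcases h1 with h1 | h1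
      · exact lt_irrefl _ h1
      · omega
    exact fun z hz hcz => (hymax z hz hcz).trans hyg
  · right
    push Not at hmiss
    refine ⟨hmiss, fun y hyD hyS hyM => ?_⟩
    have h1 := hB _ (feas_exch htr hirr hg hfr hyD hyS hyM)
    have hsub : I ⊆ (S.erase g).image c := by
      intro i hi
      obtain ⟨p, hp, hpg, hcp⟩ := hmiss i hi
      exact Finset.mem_image.2 ⟨p, Finset.mem_erase.2 ⟨hpg, hp⟩, hcp⟩
    have h2 : hit I c (insert y (S.erase g)) = I.card := by
      rw [hit, Finset.image_insert, Finset.inter_eq_right.2]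
      exact hsub.trans (Finset.subset_insert _ _)
    have h3 : hit I c S = I.card := by
      rw [hit, image_insert_erase_self hg, Finset.inter_eq_right.2]
      exact hsub.trans (Finset.subset_insert _ _)
    rw [hsum y hyS, hsumS, h2, h3] at h1
    rcases h1 with h1 | h1
    · exact absurd h1 (lt_irrefl _)
    · have h4 : ν y ≤ ν g := by omega
      rcases Nat.lt_or_ge (ν y) (ν g) with h | h
      · exact h
      · exact absurd (hinj (le_antisymm h4 h)) (fun h => hyS (h ▸ hg))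

/-- every job of `D` is below or equal to a maximal job -/
theorem exists_max_above {r : α → α → Prop} (htr : ∀ a b c, r a b → r b c → r a c)
    {ν : α → ℕ} (hmono : ∀ a b, r a b → ν a < ν b) {D : Finset α} {z : α} (hz : z ∈ D) :
    ∃ y ∈ D, (y = z ∨ r z y) ∧ ∀ x ∈ D, ¬ r y x := by
  classical
  obtain ⟨y, hy, hymax⟩ := Finset.exists_max_image (D.filter fun y => y = z ∨ r z y) ν
    ⟨z, Finset.mem_filter.2 ⟨hz, Or.inl rfl⟩⟩
  rw [Finset.mem_filter] at hy
  refine ⟨y, hy.1, hy.2, fun x hx hyx => ?_⟩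
  have h1 : r z x := by
    rcases hy.2 with h | h
    · rw [← h]; exact hyx
    · exact htr _ _ _ h hyx
  have h2 := hymax x (Finset.mem_filter.2 ⟨hx, Or.inr h1⟩)
  have h3 := hmono y x hyx
  omega

/-- consequence of type beta -/
theorem beta_cover {r : α → α → Prop} (htr : ∀ a b c, r a b → r b c → r a c)
    {ν : α → ℕ} (hmono : ∀ a b, r a b → ν a < ν b) {D S : Finset α} {g p q : α}
    (hS : ∀ x, x ∈ S ↔ x = g ∨ x = p ∨ x = q)
    (hb : ∀ y ∈ D, y ∉ S → (∀ x ∈ D, ¬ r y x) → ν y < ν g) {z : α} (hz : z ∈ D) (hzS : z ∉ S) :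
    ν z < ν g ∨ r z p ∨ r z q := by
  obtain ⟨y, hyD, hzy, hyM⟩ := exists_max_above htr hmono hz
  have hle : ν z ≤ ν y := by
    rcases hzy with h | h
    · rw [h]
    · exact (hmono _ _ h).le
  by_cases hyS : y ∈ S
  · have hrzy : r z y := by
      rcases hzy with h | h
      · exact absurd (h ▸ hyS) hzS
      · exact h
    rcases (hS y).1 hyS with h | h | h
    · subst h; exact Or.inl (hmono _ _ hrzy)
    · subst h; exact Or.inr (Or.inl hrzy)
    · subst h; exact Or.inr (Or.inr hrzy)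
  · have := hb y hyD hyS hyM
    exact Or.inl (lt_of_le_of_lt hle this)

/-! ### states -/

/-- frames -/
def Frame (r : α → α → Prop) (F : Set α) : Prop :=
  F = Set.univ ∨ ∃ b c, F = {z | r z b ∨ r z c}

/-- three stairs -/
def St3 (ν : α → ℕ) (F0 F1 F2 : Set α) (a0 a1 a2 : ℕ) : Set α :=
  {z | (z ∈ F0 ∧ ν z < a0) ∨ (z ∈ F1 ∧ ν z < a1) ∨ (z ∈ F2 ∧ ν z < a2)}

/-- valid states -/
def Val (r : α → α → Prop) (ν : α → ℕ) (St : Set α) : Prop :=
  ∃ F0 F1 F2 a0 a1 a2, Frame r F0 ∧ Frame r F1 ∧ Frame r F2 ∧ F1 ⊆ F0 ∧ F2 ⊆ F1 ∧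
    a0 ≤ a1 ∧ a1 ≤ a2 ∧ St = St3 ν F0 F1 F2 a0 a1 a2

theorem Frame.down {r : α → α → Prop} (htr : ∀ a b c, r a b → r b c → r a c) {F : Set α}
    (h : Frame r F) {x y : α} (hy : y ∈ F) (hxy : r x y) : x ∈ F := by
  rcases h with rfl | ⟨b, c, rfl⟩
  · trivial
  · rcases hy with hy | hy
    · exact Or.inl (htr _ _ _ hxy hy)
    · exact Or.inr (htr _ _ _ hxy hy)

theorem Val.down {r : α → α → Prop} (htr : ∀ a b c, r a b → r b c → r a c) {ν : α → ℕ}
    (hmono : ∀ a b, r a b → ν a < ν b) {St : Set α} (h : Val r ν St) {x y : α} (hy : y ∈ St)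
    (hxy : r x y) : x ∈ St := by
  obtain ⟨F0, F1, F2, a0, a1, a2, h0, h1, h2, _, _, _, _, rfl⟩ := h
  have := hmono _ _ hxy
  rcases hy with ⟨hy, hl⟩ | ⟨hy, hl⟩ | ⟨hy, hl⟩
  · exact Or.inl ⟨h0.down htr hy hxy, by omega⟩
  · exact Or.inr (Or.inl ⟨h1.down htr hy hxy, by omega⟩)
  · exact Or.inr (Or.inr ⟨h2.down htr hy hxy, by omega⟩)

theorem Val.univ {r : α → α → Prop} {ν : α → ℕ} (a : ℕ) :
    Val r ν (St3 ν Set.univ Set.univ Set.univ a a a) :=
  ⟨_, _, _, a, a, a, Or.inl rfl, Or.inl rfl, Or.inl rfl, subset_rfl, subset_rfl, le_rfl, le_rfl,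
    rfl⟩

/-- the conclusion of the step -/
def StepC (r : α → α → Prop) (ν : α → ℕ) (D : Finset α) (St : Set α) : Prop :=
  ∃ S St', Feas r D S ∧ Val r ν St' ∧ (∀ z ∈ St', z ∈ St) ∧ (∀ z ∈ D, z ∉ S → z ∈ St') ∧
    ∀ g ∈ S, Fr r D S g → g ∉ St'

theorem StepC.mono {r : α → α → Prop} {ν : α → ℕ} {D : Finset α} {St St' : Set α}
    (h : StepC r ν D St) (hs : ∀ z ∈ St, z ∈ St') : StepC r ν D St' := by
  obtain ⟨S, T, h1, h2, h3, h4, h5⟩ := h
  exact ⟨S, T, h1, h2, fun z hz => hs z (h3 z hz), h4, h5⟩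

theorem feas_sub {r : α → α → Prop} {D S : Finset α} (h : Feas r D S) : S ⊆ D := h.choose_spec.1
theorem feas_card {r : α → α → Prop} {D S : Finset α} (h : Feas r D S) : S.card = 3 :=
  h.choose_spec.2.1
theorem feas_anti {r : α → α → Prop} {D S : Finset α} (h : Feas r D S) :
    ∀ x ∈ S, ∀ y ∈ D, ¬ r x y := h.choose_spec.2.2.1

/-- the other two jobs of the slot -/
theorem three {S : Finset α} (h : S.card = 3) {g : α} (hg : g ∈ S) :
    ∃ p q, p ≠ g ∧ q ≠ g ∧ p ≠ q ∧ ∀ x, x ∈ S ↔ x = g ∨ x = p ∨ x = q := by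
  have h2 : (S.erase g).card = 2 := by rw [Finset.card_erase_of_mem hg, h]
  obtain ⟨p, q, hpq, he⟩ := Finset.card_eq_two.1 h2
  have hp : p ∈ S.erase g := by rw [he]; simp
  have hq : q ∈ S.erase g := by rw [he]; simp
  rw [Finset.mem_erase] at hp hq
  refine ⟨p, q, hp.1, hq.1, hpq, fun x => ?_⟩
  constructor
  · intro hx
    by_cases hxg : x = g
    · exact Or.inl hxg
    · have : x ∈ S.erase g := Finset.mem_erase.2 ⟨hxg, hx⟩
      rw [he] at this
      simpa using Or.inr (by simpa using this)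
  · rintro (rfl | rfl | rfl)
    · exact hg
    · exact hp.2
    · exact hq.2

theorem step1 {r : α → α → Prop} (htr : ∀ a b c, r a b → r b c → r a c)
    (hirr : ∀ a, ¬ r a a) {ν : α → ℕ} (hinj : Function.Injective ν)
    (hmono : ∀ a b, r a b → ν a < ν b) {D : Finset α} (hD : ∃ l, IsPk r l D) (hne : D.Nonempty)
    {F0 : Set α} {a0 : ℕ} (h0 : Frame r F0) (hsub : ∀ z ∈ D, z ∈ F0 ∧ ν z < a0) :
    StepC r ν D {z | z ∈ F0 ∧ ν z < a0} := by
  classical
  obtain ⟨S, hS⟩ := exists_best r ν {0} (fun _ => 0) hD hne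
  have hF := hS.1
  have hab : ∀ g ∈ S, Fr r D S g → ∀ y ∈ D, y ∉ S → (∀ x ∈ D, ¬ r y x) → ν y < ν g := by
    intro g hg hfr
    rcases alphaBeta htr hirr hinj hmono (I := {0}) (c := fun _ => 0) (D := D) (S := S)
      (fun _ _ _ _ _ _ => rfl)
      (fun i hi => by
        obtain ⟨z, hz⟩ := hne
        exact ⟨z, hz, by simpa using (Finset.mem_singleton.1 hi).symm⟩) hS hg hfr with h | h
    · obtain ⟨p, q, hpg, _, _, hm⟩ := three (feas_card hF) hg
      exact absurd rfl (h.2.1 p ((hm p).2 (Or.inr (Or.inl rfl))) hpg)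
    · exact h.2
  by_cases hex : ∃ g ∈ S, Fr r D S g
  · obtain ⟨g, hg, hgmin⟩ := Finset.exists_min_image (S.filter fun g => Fr r D S g) ν (by
      obtain ⟨g, hg, hfr⟩ := hex
      exact ⟨g, Finset.mem_filter.2 ⟨hg, hfr⟩⟩)
    rw [Finset.mem_filter] at hg
    obtain ⟨hgS, hfr⟩ := hg
    obtain ⟨p, q, hpg, hqg, hpq, hm⟩ := three (feas_card hF) hgS
    have hpS : p ∈ S := (hm p).2 (Or.inr (Or.inl rfl))
    have hqS : q ∈ S := (hm q).2 (Or.inr (Or.inr rfl))
    have hpD := feas_sub hF hpS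
    have hqD := feas_sub hF hqS
    have hsub1 : ({z | r z p ∨ r z q} : Set α) ⊆ F0 := by
      rintro z (hz | hz)
      · exact h0.down htr (hsub p hpD).1 hz
      · exact h0.down htr (hsub q hqD).1 hz
    have hga : ν g < a0 := (hsub g (feas_sub hF hgS)).2
    refine ⟨S, St3 ν F0 {z | r z p ∨ r z q} {z | r z p ∨ r z q} (ν g) a0 a0, hF,
      ⟨_, _, _, _, _, _, h0, Or.inr ⟨p, q, rfl⟩, Or.inr ⟨p, q, rfl⟩, hsub1, subset_rfl, hga.le,
        le_rfl, rfl⟩, ?_, ?_, ?_⟩
    · rintro z (⟨h1, h2⟩ | ⟨h1, h2⟩ | ⟨h1, h2⟩)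
      · exact ⟨h1, h2.trans hga⟩
      · exact ⟨hsub1 h1, h2⟩
      · exact ⟨hsub1 h1, h2⟩
    · intro z hz hzS
      rcases beta_cover htr hmono hm (hab g hgS hfr) hz hzS with h | h | h
      · exact Or.inl ⟨(hsub z hz).1, h⟩
      · exact Or.inr (Or.inl ⟨Or.inl h, (hsub z hz).2⟩)
      · exact Or.inr (Or.inl ⟨Or.inr h, (hsub z hz).2⟩)
    · intro g' hg' hfr' hst
      have h1 := hgmin g' (Finset.mem_filter.2 ⟨hg', hfr'⟩)
      have hA := feas_anti hF g' hg'
      rcases hst with ⟨_, h2⟩ | ⟨h2, _⟩ | ⟨h2, _⟩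
      · omega
      · rcases h2 with h2 | h2
        · exact hA p hpD h2
        · exact hA q hqD h2
      · rcases h2 with h2 | h2
        · exact hA p hpD h2
        · exact hA q hqD h2
  · refine ⟨S, St3 ν F0 F0 F0 a0 a0 a0, hF,
      ⟨_, _, _, _, _, _, h0, h0, h0, subset_rfl, subset_rfl, le_rfl, le_rfl, rfl⟩, ?_, ?_, ?_⟩
    · rintro z (h | h | h) <;> exact h
    · intro z hz _
      exact Or.inl (hsub z hz)
    · intro g hg hfr
      exact absurd ⟨g, hg, hfr⟩ hex

/-- new threshold for a cell all of whose free jobs are of type alpha -/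
theorem thr {r : α → α → Prop} {ν : α → ℕ} (hinj : Function.Injective ν) {c : α → ℕ}
    {D S : Finset α} {i lo hi : ℕ} (hlohi : lo ≤ hi) (hSD : S ⊆ D)
    (hb : ∀ z ∈ D, c z = i → lo ≤ ν z ∧ ν z < hi)
    (ha : ∀ g ∈ S, Fr r D S g → c g = i →
      (∀ p ∈ S, p ≠ g → c p ≠ c g) ∧ ∀ z ∈ D, c z = c g → ν z ≤ ν g) :
    ∃ t, lo ≤ t ∧ t ≤ hi ∧ (∀ z ∈ D, z ∉ S → c z = i → ν z < t) ∧
      ∀ g ∈ S, Fr r D S g → c g = i → t ≤ ν g := by
  by_cases hex : ∃ g ∈ S, Fr r D S g ∧ c g = i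
  · obtain ⟨g, hg, hfr, hcg⟩ := hex
    obtain ⟨h1, h2⟩ := ha g hg hfr hcg
    have h3 := hb g (hSD hg) hcg
    refine ⟨ν g, h3.1, h3.2.le, fun z hz hzS hcz => ?_, fun g' hg' hfr' hcg' => ?_⟩
    · have h4 := h2 z hz (hcz.trans hcg.symm)
      rcases Nat.lt_or_ge (ν z) (ν g) with h | h
      · exact h
      · exact absurd (hinj (le_antisymm h4 h)) (fun h => hzS (h ▸ hg))
    · by_cases hgg : g' = g
      · rw [hgg]
      · exact absurd (hcg'.trans hcg.symm) (h1 g' hg' hgg)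
  · push Not at hex
    exact ⟨hi, hlohi, le_rfl, fun z hz _ hcz => (hb z hz hcz).2,
      fun g hg hfr hcg => absurd hcg (hex g hg hfr)⟩

open Classical in
/-- cells for two stairs -/
noncomputable def c2 (ν : α → ℕ) (F1 : Set α) (a0 : ℕ) (z : α) : ℕ :=
  if z ∈ F1 then (if a0 ≤ ν z then 1 else 2) else 0

theorem c2_zero {ν : α → ℕ} {F1 : Set α} {a0 : ℕ} {z : α} : c2 ν F1 a0 z = 0 ↔ z ∉ F1 := by
  unfold c2
  split_ifs <;> simp_all

theorem c2_one {ν : α → ℕ} {F1 : Set α} {a0 : ℕ} {z : α} :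
    c2 ν F1 a0 z = 1 ↔ z ∈ F1 ∧ a0 ≤ ν z := by
  unfold c2
  split_ifs <;> simp_all

/-- type beta -/
def Bt (r : α → α → Prop) (ν : α → ℕ) (I : Finset ℕ) (c : α → ℕ) (D S : Finset α) (g : α) : Prop :=
  (∀ i ∈ I, ∃ p ∈ S, p ≠ g ∧ c p = i) ∧ ∀ y ∈ D, y ∉ S → (∀ x ∈ D, ¬ r y x) → ν y < ν g

theorem step2 {r : α → α → Prop} (htr : ∀ a b c, r a b → r b c → r a c)
    (hirr : ∀ a, ¬ r a a) {ν : α → ℕ} (hinj : Function.Injective ν)
    (hmono : ∀ a b, r a b → ν a < ν b) {D : Finset α} (hD : ∃ l, IsPk r l D) (hne : D.Nonempty)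
    {F0 F1 : Set α} {a0 a1 : ℕ} (h0 : Frame r F0) (h1 : Frame r F1) (h10 : F1 ⊆ F0)
    (ha : a0 ≤ a1)
    (hsub : ∀ z ∈ D, (z ∈ F0 ∧ ν z < a0) ∨ (z ∈ F1 ∧ ν z < a1))
    (hX0 : ∃ z ∈ D, z ∉ F1) (hX1 : ∃ z ∈ D, z ∈ F1 ∧ a0 ≤ ν z) :
    StepC r ν D {z | (z ∈ F0 ∧ ν z < a0) ∨ (z ∈ F1 ∧ ν z < a1)} := by
  classical
  obtain ⟨S, hS⟩ := exists_best r ν {0, 1} (c2 ν F1 a0) hD hne
  have hF := hS.1
  have hSD := feas_sub hF
  have hDF0 : ∀ z ∈ D, z ∈ F0 := by
    intro z hz
    rcases hsub z hz with h | h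
    · exact h.1
    · exact h10 h.1
  have hD0 : ∀ z ∈ D, z ∉ F1 → ν z < a0 := by
    intro z hz hzF
    rcases hsub z hz with h | h
    · exact h.2
    · exact absurd h.1 hzF
  have hD1 : ∀ z ∈ D, z ∈ F1 → ν z < a1 := by
    intro z hz hzF
    rcases hsub z hz with h | h
    · exact lt_of_lt_of_le h.2 ha
    · exact h.2
  have hDb : ∀ z ∈ D, a0 ≤ ν z → z ∈ F1 := by
    intro z hz hzF
    by_contra h
    have := hD0 z hz h
    omega
  have hcell : ∀ z ∈ D, ∀ z' ∈ D, c2 ν F1 a0 z ∈ ({0, 1} : Finset ℕ) → r z z' →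
      c2 ν F1 a0 z' = c2 ν F1 a0 z := by
    intro z hz z' hz' hc hr
    have hlt := hmono _ _ hr
    rw [Finset.mem_insert, Finset.mem_singleton] at hc
    rcases hc with hc | hc
    · rw [hc]
      rw [c2_zero] at hc ⊢
      exact fun h => hc (h1.down htr h hr)
    · rw [hc]
      rw [c2_one] at hc ⊢
      have : a0 ≤ ν z' := by omega
      exact ⟨hDb z' hz' this, this⟩
  have hcne : ∀ i ∈ ({0, 1} : Finset ℕ), ∃ z ∈ D, c2 ν F1 a0 z = i := by
    intro i hi
    rw [Finset.mem_insert, Finset.mem_singleton] at hi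
    rcases hi with rfl | rfl
    · obtain ⟨z, hz, hzF⟩ := hX0
      exact ⟨z, hz, c2_zero.2 hzF⟩
    · obtain ⟨z, hz, hzF⟩ := hX1
      exact ⟨z, hz, c2_one.2 hzF⟩
  have AB := fun g (hg : g ∈ S) (hfr : Fr r D S g) =>
    alphaBeta htr hirr hinj hmono hcell hcne hS hg hfr
  have hanti := feas_anti hF
  have hbd0 : ∀ z ∈ D, c2 ν F1 a0 z = 0 → 0 ≤ ν z ∧ ν z < a0 := fun z hz hc =>
    ⟨Nat.zero_le _, hD0 z hz (c2_zero.1 hc)⟩
  have hbd1 : ∀ z ∈ D, c2 ν F1 a0 z = 1 → a0 ≤ ν z ∧ ν z < a1 := fun z hz hc =>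
    ⟨(c2_one.1 hc).2, hD1 z hz (c2_one.1 hc).1⟩
  by_cases hbeta : ∃ g ∈ S, Fr r D S g ∧ Bt r ν {0, 1} (c2 ν F1 a0) D S g
  · -- some free job of type beta
    obtain ⟨g, hg, hgmin⟩ := Finset.exists_min_image (S.filter fun g => Fr r D S g ∧
      Bt r ν {0, 1} (c2 ν F1 a0) D S g) ν (by
      obtain ⟨g, hg, hfr⟩ := hbeta
      exact ⟨g, Finset.mem_filter.2 ⟨hg, hfr⟩⟩)
    rw [Finset.mem_filter] at hg
    obtain ⟨hgS, hfr, hhit, hbt⟩ := hg
    obtain ⟨p0, hp0S, hp0g, hcp0⟩ := hhit 0 (by simp)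
    obtain ⟨p1, hp1S, hp1g, hcp1⟩ := hhit 1 (by simp)
    have hp01 : p0 ≠ p1 := by
      intro h
      rw [h, hcp1] at hcp0
      exact absurd hcp0 (by norm_num)
    have hm : ∀ x, x ∈ S ↔ x = g ∨ x = p0 ∨ x = p1 := by
      obtain ⟨p, q, hpg, hqg, hpq, hm⟩ := three (feas_card hF) hgS
      intro x
      rw [hm]
      have e0 := (hm p0).1 hp0S
      have e1 := (hm p1).1 hp1S
      rcases e0 with e0 | e0 | e0
      · exact absurd e0 hp0g
      · rcases e1 with e1 | e1 | e1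
        · exact absurd e1 hp1g
        · exact absurd (e0.trans e1.symm) hp01
        · rw [e0, e1]
      · rcases e1 with e1 | e1 | e1
        · exact absurd e1 hp1g
        · rw [e0, e1]; tauto
        · exact absurd (e0.trans e1.symm) hp01
    have hp0F : p0 ∉ F1 := c2_zero.1 hcp0
    have hp1F := (c2_one.1 hcp1).1
    have hp1a := (c2_one.1 hcp1).2
    have hp0D := hSD hp0S
    have hp1D := hSD hp1S
    have hgD := hSD hgS
    have hp0a : ν p0 < a0 := hD0 p0 hp0D hp0F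
    have cover : ∀ z ∈ D, z ∉ S → ν z < ν g ∨ r z p0 ∨ r z p1 := fun z hz hzS =>
      beta_cover htr hmono hm hbt hz hzS
    have hmin : ∀ g' ∈ S, Fr r D S g' →
        Bt r ν {0, 1} (c2 ν F1 a0) D S g' → ν g ≤ ν g' := fun g' h h' h'' =>
      hgmin g' (Finset.mem_filter.2 ⟨h, h', h''⟩)
    have hF2 : ({z | r z p1 ∨ r z p1} : Set α) ⊆ F1 := by
      rintro z (hz | hz) <;> exact h1.down htr hp1F hz
    by_cases hga : a0 ≤ ν g
    · have hgF : g ∈ F1 := hDb g hgD hga
      have hcg : c2 ν F1 a0 g = 1 := c2_one.2 ⟨hgF, hga⟩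
      obtain ⟨t, -, ht2, ht3, ht4⟩ := thr (r := r) (ν := ν) hinj (c := c2 ν F1 a0) (D := D) (S := S)
        (i := 0) (lo := 0) (hi := a0) (Nat.zero_le _) hSD hbd0 (by
          intro g' hg' hfr' hcg'
          rcases AB g' hg' hfr' with h | h
          · exact h.2
          · exfalso
            obtain ⟨p, hp, hpg', hcp⟩ := h.1 0 (by simp)
            have e1 : g' = p0 := by
              rcases (hm g').1 hg' with e | e | e
              · rw [e, hcg] at hcg'; exact absurd hcg' (by norm_num)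
              · exact e
              · rw [e, hcp1] at hcg'; exact absurd hcg' (by norm_num)
            rcases (hm p).1 hp with e | e | e
            · rw [e, hcg] at hcp; exact absurd hcp (by norm_num)
            · exact hpg' (e.trans e1.symm)
            · rw [e, hcp1] at hcp; exact absurd hcp (by norm_num))
      refine ⟨S, St3 ν F0 F1 {z | r z p1 ∨ r z p1} t (ν g) a1, hF,
        ⟨_, _, _, _, _, _, h0, h1, Or.inr ⟨p1, p1, rfl⟩, h10, hF2, ht2.trans hga,
          (hD1 g hgD hgF).le, rfl⟩, ?_, ?_, ?_⟩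
      · rintro z (⟨e1, e2⟩ | ⟨e1, e2⟩ | ⟨e1, e2⟩)
        · exact Or.inl ⟨e1, by omega⟩
        · exact Or.inr ⟨e1, e2.trans (hD1 g hgD hgF)⟩
        · exact Or.inr ⟨hF2 e1, e2⟩
      · intro z hz hzS
        by_cases hzF : z ∈ F1
        · rcases cover z hz hzS with h | h | h
          · exact Or.inr (Or.inl ⟨hzF, h⟩)
          · have := hmono _ _ h
            exact Or.inr (Or.inl ⟨hzF, by omega⟩)
          · exact Or.inr (Or.inr ⟨Or.inl h, hD1 z hz hzF⟩)
        · exact Or.inl ⟨hDF0 z hz, ht3 z hz hzS (c2_zero.2 hzF)⟩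
      · intro g' hg' hfr' hst
        have hA := hanti g' hg' p1 hp1D
        have hA' : g' ∉ ({z | r z p1 ∨ r z p1} : Set α) := by
          rintro (h | h) <;> exact hA h
        rcases (hm g').1 hg' with e | e | e
        · subst e
          rcases hst with ⟨_, e2⟩ | ⟨_, e2⟩ | ⟨e1, _⟩
          · omega
          · omega
          · exact hA' e1
        · subst e
          have := ht4 g' hg' hfr' hcp0
          rcases hst with ⟨_, e2⟩ | ⟨e1, e2⟩ | ⟨e1, _⟩
          · omega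
          · exact hp0F e1
          · exact hA' e1
        · subst e
          have hb' : ν g ≤ ν g' := by
            rcases AB g' hg' hfr' with h | h
            · exact absurd (hcg.trans hcp1.symm) (h.2.1 g hgS (fun h => hp1g h.symm))
            · exact hmin g' hg' hfr' h
          rcases hst with ⟨_, e2⟩ | ⟨e1, e2⟩ | ⟨e1, _⟩
          · omega
          · omega
          · exact hA' e1
    · push Not at hga
      by_cases hA : Fr r D S p0 ∧ ν p0 < ν g
      · obtain ⟨hp0fr, hp0lt⟩ := hA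
        have hal := AB p0 hp0S hp0fr
        have hal' : ∀ z ∈ D, c2 ν F1 a0 z = c2 ν F1 a0 p0 → ν z ≤ ν p0 := by
          rcases hal with h | h
          · exact h.2.2
          · have := hmin p0 hp0S hp0fr h
            omega
        refine ⟨S, St3 ν F0 F1 {z | r z p1 ∨ r z p1} (ν p0) (ν g) a1, hF,
          ⟨_, _, _, _, _, _, h0, h1, Or.inr ⟨p1, p1, rfl⟩, h10, hF2, hp0lt.le,
            (hga.trans_le ha).le, rfl⟩, ?_, ?_, ?_⟩
        · rintro z (⟨e1, e2⟩ | ⟨e1, e2⟩ | ⟨e1, e2⟩)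
          · exact Or.inl ⟨e1, by omega⟩
          · exact Or.inr ⟨e1, by omega⟩
          · exact Or.inr ⟨hF2 e1, e2⟩
        · intro z hz hzS
          by_cases hzF : z ∈ F1
          · rcases cover z hz hzS with h | h | h
            · exact Or.inr (Or.inl ⟨hzF, h⟩)
            · have := hmono _ _ h
              exact Or.inr (Or.inl ⟨hzF, by omega⟩)
            · exact Or.inr (Or.inr ⟨Or.inl h, hD1 z hz hzF⟩)
          · have h4 := hal' z hz (by rw [hcp0]; exact c2_zero.2 hzF)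
            refine Or.inl ⟨hDF0 z hz, ?_⟩
            rcases Nat.lt_or_ge (ν z) (ν p0) with h | h
            · exact h
            · exact absurd (hinj (le_antisymm h4 h)) (fun h => hzS (h ▸ hp0S))
        · intro g' hg' hfr' hst
          have hA := hanti g' hg' p1 hp1D
          have hA' : g' ∉ ({z | r z p1 ∨ r z p1} : Set α) := by
            rintro (h | h) <;> exact hA h
          rcases (hm g').1 hg' with e | e | e
          · subst e
            rcases hst with ⟨_, e2⟩ | ⟨_, e2⟩ | ⟨e1, _⟩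
            · omega
            · omega
            · exact hA' e1
          · subst e
            rcases hst with ⟨_, e2⟩ | ⟨e1, e2⟩ | ⟨e1, _⟩
            · omega
            · exact hp0F e1
            · exact hA' e1
          · subst e
            rcases hst with ⟨_, e2⟩ | ⟨e1, e2⟩ | ⟨e1, _⟩
            · omega
            · omega
            · exact hA' e1
      · have hsub1 : ({z | r z p0 ∨ r z p1} : Set α) ⊆ F0 := by
          rintro z (hz | hz)
          · exact h0.down htr (hDF0 p0 hp0D) hz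
          · exact h0.down htr (hDF0 p1 hp1D) hz
        refine ⟨S, St3 ν F0 {z | r z p0 ∨ r z p1} {z | r z p0 ∨ r z p1} (ν g) a1 a1, hF,
          ⟨_, _, _, _, _, _, h0, Or.inr ⟨p0, p1, rfl⟩, Or.inr ⟨p0, p1, rfl⟩, hsub1, subset_rfl,
            (hga.trans_le ha).le, le_rfl, rfl⟩, ?_, ?_, ?_⟩
        · have key : ∀ z, (r z p0 ∨ r z p1) → ν z < a1 →
              (z ∈ F0 ∧ ν z < a0) ∨ (z ∈ F1 ∧ ν z < a1) := by
            rintro z (hz | hz) hl
            · have := hmono _ _ hz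
              exact Or.inl ⟨hsub1 (Or.inl hz), by omega⟩
            · exact Or.inr ⟨h1.down htr hp1F hz, hl⟩
          rintro z (⟨e1, e2⟩ | ⟨e1, e2⟩ | ⟨e1, e2⟩)
          · exact Or.inl ⟨e1, by omega⟩
          · exact key z e1 e2
          · exact key z e1 e2
        · intro z hz hzS
          have hza1 : ν z < a1 := by
            rcases hsub z hz with h | h
            · exact lt_of_lt_of_le h.2 ha
            · exact h.2
          rcases cover z hz hzS with h | h | h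
          · exact Or.inl ⟨hDF0 z hz, h⟩
          · exact Or.inr (Or.inl ⟨Or.inl h, hza1⟩)
          · exact Or.inr (Or.inl ⟨Or.inr h, hza1⟩)
        · intro g' hg' hfr' hst
          have hA0 := hanti g' hg' p0 hp0D
          have hA1 := hanti g' hg' p1 hp1D
          have hA' : ¬ (r g' p0 ∨ r g' p1) := by
            rintro (h | h)
            · exact hA0 h
            · exact hA1 h
          rcases hst with ⟨_, e2⟩ | ⟨e1, _⟩ | ⟨e1, _⟩
          · rcases (hm g').1 hg' with e | e | e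
            · subst e; omega
            · subst e
              exact hA ⟨hfr', e2⟩
            · subst e; omega
          · exact hA' e1
          · exact hA' e1
  · -- all free jobs of type alpha
    have hal : ∀ g ∈ S, Fr r D S g → c2 ν F1 a0 g ∈ ({0, 1} : Finset ℕ) ∧
        (∀ p ∈ S, p ≠ g → c2 ν F1 a0 p ≠ c2 ν F1 a0 g) ∧
        ∀ z ∈ D, c2 ν F1 a0 z = c2 ν F1 a0 g → ν z ≤ ν g := by
      intro g hg hfr
      rcases AB g hg hfr with h | h
      · exact h
      · exact absurd ⟨g, hg, hfr, h⟩ hbeta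
    obtain ⟨t0, -, t02, t03, t04⟩ := thr (r := r) (ν := ν) hinj (c := c2 ν F1 a0) (D := D) (S := S)
      (i := 0) (lo := 0) (hi := a0) (Nat.zero_le _) hSD hbd0 (fun g hg hfr _ => (hal g hg hfr).2)
    obtain ⟨t1, t11, t12, t13, t14⟩ := thr (r := r) (ν := ν) hinj (c := c2 ν F1 a0) (D := D) (S := S)
      (i := 1) (lo := a0) (hi := a1) ha hSD hbd1 (fun g hg hfr _ => (hal g hg hfr).2)
    refine ⟨S, St3 ν F0 F1 F1 t0 t1 t1, hF, ⟨_, _, _, _, _, _, h0, h1, h1, h10, subset_rfl,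
      t02.trans t11, le_rfl, rfl⟩, ?_, ?_, ?_⟩
    · rintro z (⟨e1, e2⟩ | ⟨e1, e2⟩ | ⟨e1, e2⟩)
      · exact Or.inl ⟨e1, by omega⟩
      · exact Or.inr ⟨e1, by omega⟩
      · exact Or.inr ⟨e1, by omega⟩
    · intro z hz hzS
      by_cases hzF : z ∈ F1
      · by_cases hza : a0 ≤ ν z
        · exact Or.inr (Or.inl ⟨hzF, t13 z hz hzS (c2_one.2 ⟨hzF, hza⟩)⟩)
        · exact Or.inr (Or.inl ⟨hzF, by omega⟩)
      · exact Or.inl ⟨hDF0 z hz, t03 z hz hzS (c2_zero.2 hzF)⟩
    · intro g hg hfr hst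
      have hI := (hal g hg hfr).1
      rw [Finset.mem_insert, Finset.mem_singleton] at hI
      rcases hI with hI | hI
      · have e0 := c2_zero.1 hI
        have := t04 g hg hfr hI
        rcases hst with ⟨_, e2⟩ | ⟨e1, e2⟩ | ⟨e1, _⟩
        · omega
        · exact e0 e1
        · exact e0 e1
      · have e0 := c2_one.1 hI
        have := t14 g hg hfr hI
        rcases hst with ⟨_, e2⟩ | ⟨e1, e2⟩ | ⟨e1, _⟩ <;> omega

open Classical in
/-- cells for three stairs -/
noncomputable def c3 (ν : α → ℕ) (F1 F2 : Set α) (a0 a1 : ℕ) (z : α) : ℕ :=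
  if z ∈ F1 then
    (if z ∈ F2 then (if a1 ≤ ν z then 2 else 3) else (if a0 ≤ ν z then 1 else 3)) else 0

theorem c3_zero {ν : α → ℕ} {F1 F2 : Set α} {a0 a1 : ℕ} {z : α} :
    c3 ν F1 F2 a0 a1 z = 0 ↔ z ∉ F1 := by
  unfold c3
  split_ifs <;> simp_all

theorem c3_one {ν : α → ℕ} {F1 F2 : Set α} {a0 a1 : ℕ} {z : α} :
    c3 ν F1 F2 a0 a1 z = 1 ↔ z ∈ F1 ∧ z ∉ F2 ∧ a0 ≤ ν z := by
  unfold c3
  split_ifs <;> simp_all

theorem c3_two {ν : α → ℕ} {F1 F2 : Set α} {a0 a1 : ℕ} {z : α} :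
    c3 ν F1 F2 a0 a1 z = 2 ↔ z ∈ F1 ∧ z ∈ F2 ∧ a1 ≤ ν z := by
  unfold c3
  split_ifs <;> simp_all

theorem step3 {r : α → α → Prop} (htr : ∀ a b c, r a b → r b c → r a c)
    (hirr : ∀ a, ¬ r a a) {ν : α → ℕ} (hinj : Function.Injective ν)
    (hmono : ∀ a b, r a b → ν a < ν b) {D : Finset α} (hD : ∃ l, IsPk r l D) (hne : D.Nonempty)
    {F0 F1 F2 : Set α} {a0 a1 a2 : ℕ} (h0 : Frame r F0) (h1 : Frame r F1) (h2 : Frame r F2)
    (h10 : F1 ⊆ F0) (h21 : F2 ⊆ F1) (ha : a0 ≤ a1) (ha' : a1 ≤ a2)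
    (hsub : ∀ z ∈ D, z ∈ St3 ν F0 F1 F2 a0 a1 a2)
    (hX0 : ∃ z ∈ D, z ∉ F1) (hX1 : ∃ z ∈ D, z ∈ F1 ∧ z ∉ F2 ∧ a0 ≤ ν z)
    (hX2 : ∃ z ∈ D, z ∈ F2 ∧ a1 ≤ ν z) :
    StepC r ν D (St3 ν F0 F1 F2 a0 a1 a2) := by
  classical
  obtain ⟨S, hS⟩ := exists_best r ν {0, 1, 2} (c3 ν F1 F2 a0 a1) hD hne
  have hF := hS.1
  have hSD := feas_sub hF
  have hDF0 : ∀ z ∈ D, z ∈ F0 := by
    intro z hz
    rcases hsub z hz with h | h | h
    · exact h.1
    · exact h10 h.1
    · exact h10 (h21 h.1)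
  have hD0 : ∀ z ∈ D, z ∉ F1 → ν z < a0 := by
    intro z hz hzF
    rcases hsub z hz with h | h | h
    · exact h.2
    · exact absurd h.1 hzF
    · exact absurd (h21 h.1) hzF
  have hD1 : ∀ z ∈ D, z ∉ F2 → ν z < a1 := by
    intro z hz hzF
    rcases hsub z hz with h | h | h
    · exact lt_of_lt_of_le h.2 ha
    · exact h.2
    · exact absurd h.1 hzF
  have hD2 : ∀ z ∈ D, ν z < a2 := by
    intro z hz
    rcases hsub z hz with h | h | h
    · exact lt_of_lt_of_le h.2 (ha.trans ha')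
    · exact lt_of_lt_of_le h.2 ha'
    · exact h.2
  have hcell : ∀ z ∈ D, ∀ z' ∈ D, c3 ν F1 F2 a0 a1 z ∈ ({0, 1, 2} : Finset ℕ) → r z z' →
      c3 ν F1 F2 a0 a1 z' = c3 ν F1 F2 a0 a1 z := by
    intro z hz z' hz' hc hr
    have hlt := hmono _ _ hr
    rw [Finset.mem_insert, Finset.mem_insert, Finset.mem_singleton] at hc
    rcases hc with hc | hc | hc
    · rw [hc]
      rw [c3_zero] at hc ⊢
      exact fun h => hc (h1.down htr h hr)
    · rw [hc]
      rw [c3_one] at hc ⊢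
      refine ⟨?_, fun h => hc.2.1 (h2.down htr h hr), by omega⟩
      by_contra h
      have := hD0 z' hz' h
      omega
    · rw [hc]
      rw [c3_two] at hc ⊢
      have h3 : z' ∈ F2 := by
        by_contra h
        have := hD1 z' hz' h
        omega
      exact ⟨h21 h3, h3, by omega⟩
  have hcne : ∀ i ∈ ({0, 1, 2} : Finset ℕ), ∃ z ∈ D, c3 ν F1 F2 a0 a1 z = i := by
    intro i hi
    rw [Finset.mem_insert, Finset.mem_insert, Finset.mem_singleton] at hi
    rcases hi with rfl | rfl | rfl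
    · obtain ⟨z, hz, hzF⟩ := hX0
      exact ⟨z, hz, c3_zero.2 hzF⟩
    · obtain ⟨z, hz, hzF⟩ := hX1
      exact ⟨z, hz, c3_one.2 hzF⟩
    · obtain ⟨z, hz, hzF, hza⟩ := hX2
      exact ⟨z, hz, c3_two.2 ⟨h21 hzF, hzF, hza⟩⟩
  have hbd0 : ∀ z ∈ D, c3 ν F1 F2 a0 a1 z = 0 → 0 ≤ ν z ∧ ν z < a0 := fun z hz hc =>
    ⟨Nat.zero_le _, hD0 z hz (c3_zero.1 hc)⟩
  have hbd1 : ∀ z ∈ D, c3 ν F1 F2 a0 a1 z = 1 → a0 ≤ ν z ∧ ν z < a1 := fun z hz hc =>
    ⟨(c3_one.1 hc).2.2, hD1 z hz (c3_one.1 hc).2.1⟩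
  have hbd2 : ∀ z ∈ D, c3 ν F1 F2 a0 a1 z = 2 → a1 ≤ ν z ∧ ν z < a2 := fun z hz hc =>
    ⟨(c3_two.1 hc).2.2, hD2 z hz⟩
  have hal : ∀ g ∈ S, Fr r D S g → c3 ν F1 F2 a0 a1 g ∈ ({0, 1, 2} : Finset ℕ) ∧
      (∀ p ∈ S, p ≠ g → c3 ν F1 F2 a0 a1 p ≠ c3 ν F1 F2 a0 a1 g) ∧
      ∀ z ∈ D, c3 ν F1 F2 a0 a1 z = c3 ν F1 F2 a0 a1 g → ν z ≤ ν g := by
    intro g hg hfr
    rcases alphaBeta htr hirr hinj hmono hcell hcne hS hg hfr with h | h
    · exact h
    · exfalso
      obtain ⟨p, q, hpg, hqg, hpq, hm⟩ := three (feas_card hF) hg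
      obtain ⟨x0, hx0, hx0g, hc0⟩ := h.1 0 (by simp)
      obtain ⟨x1, hx1, hx1g, hc1⟩ := h.1 1 (by simp)
      obtain ⟨x2, hx2, hx2g, hc2⟩ := h.1 2 (by simp)
      have e0 : x0 = p ∨ x0 = q := ((hm x0).1 hx0).resolve_left hx0g
      have e1 : x1 = p ∨ x1 = q := ((hm x1).1 hx1).resolve_left hx1g
      have e2 : x2 = p ∨ x2 = q := ((hm x2).1 hx2).resolve_left hx2g
      rcases e0 with rfl | rfl <;> rcases e1 with rfl | rfl <;> rcases e2 with rfl | rfl <;> omega
  obtain ⟨t0, -, t02, t03, t04⟩ := thr (r := r) (ν := ν) hinj (c := c3 ν F1 F2 a0 a1) (D := D)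
    (S := S) (i := 0) (lo := 0) (hi := a0) (Nat.zero_le _) hSD hbd0
    (fun g hg hfr _ => (hal g hg hfr).2)
  obtain ⟨t1, t11, t12, t13, t14⟩ := thr (r := r) (ν := ν) hinj (c := c3 ν F1 F2 a0 a1) (D := D)
    (S := S) (i := 1) (lo := a0) (hi := a1) ha hSD hbd1 (fun g hg hfr _ => (hal g hg hfr).2)
  obtain ⟨t2, t21, t22, t23, t24⟩ := thr (r := r) (ν := ν) hinj (c := c3 ν F1 F2 a0 a1) (D := D)
    (S := S) (i := 2) (lo := a1) (hi := a2) ha' hSD hbd2 (fun g hg hfr _ => (hal g hg hfr).2)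
  refine ⟨S, St3 ν F0 F1 F2 t0 t1 t2, hF, ⟨_, _, _, _, _, _, h0, h1, h2, h10, h21,
    t02.trans t11, t12.trans t21, rfl⟩, ?_, ?_, ?_⟩
  · rintro z (⟨e1, e2⟩ | ⟨e1, e2⟩ | ⟨e1, e2⟩)
    · exact Or.inl ⟨e1, by omega⟩
    · exact Or.inr (Or.inl ⟨e1, by omega⟩)
    · exact Or.inr (Or.inr ⟨e1, by omega⟩)
  · intro z hz hzS
    by_cases hzF : z ∈ F1
    · by_cases hzF2 : z ∈ F2
      · by_cases hza : a1 ≤ ν z
        · exact Or.inr (Or.inr ⟨hzF2, t23 z hz hzS (c3_two.2 ⟨hzF, hzF2, hza⟩)⟩)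
        · exact Or.inr (Or.inr ⟨hzF2, by omega⟩)
      · by_cases hza : a0 ≤ ν z
        · exact Or.inr (Or.inl ⟨hzF, t13 z hz hzS (c3_one.2 ⟨hzF, hzF2, hza⟩)⟩)
        · exact Or.inr (Or.inl ⟨hzF, by omega⟩)
    · exact Or.inl ⟨hDF0 z hz, t03 z hz hzS (c3_zero.2 hzF)⟩
  · intro g hg hfr hst
    have hI := (hal g hg hfr).1
    rw [Finset.mem_insert, Finset.mem_insert, Finset.mem_singleton] at hI
    rcases hI with hI | hI | hI
    · have e0 := c3_zero.1 hI
      have := t04 g hg hfr hI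
      rcases hst with ⟨_, e2⟩ | ⟨e1, e2⟩ | ⟨e1, _⟩
      · omega
      · exact e0 e1
      · exact e0 (h21 e1)
    · have e0 := c3_one.1 hI
      have := t14 g hg hfr hI
      rcases hst with ⟨_, e2⟩ | ⟨e1, e2⟩ | ⟨e1, _⟩
      · omega
      · omega
      · exact e0.2.1 e1
    · have e0 := c3_two.1 hI
      have := t24 g hg hfr hI
      rcases hst with ⟨_, e2⟩ | ⟨e1, e2⟩ | ⟨e1, _⟩ <;> omega

theorem norm2 {r : α → α → Prop} (htr : ∀ a b c, r a b → r b c → r a c)
    (hirr : ∀ a, ¬ r a a) {ν : α → ℕ} (hinj : Function.Injective ν)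
    (hmono : ∀ a b, r a b → ν a < ν b) {D : Finset α} (hD : ∃ l, IsPk r l D) (hne : D.Nonempty)
    {F0 F1 : Set α} {a0 a1 : ℕ} (h0 : Frame r F0) (h1 : Frame r F1) (h10 : F1 ⊆ F0)
    (ha : a0 ≤ a1)
    (hsub : ∀ z ∈ D, (z ∈ F0 ∧ ν z < a0) ∨ (z ∈ F1 ∧ ν z < a1)) :
    StepC r ν D {z | (z ∈ F0 ∧ ν z < a0) ∨ (z ∈ F1 ∧ ν z < a1)} := by
  by_cases hX0 : ∃ z ∈ D, z ∉ F1
  · by_cases hX1 : ∃ z ∈ D, z ∈ F1 ∧ a0 ≤ ν z
    · exact step2 htr hirr hinj hmono hD hne h0 h1 h10 ha hsub hX0 hX1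
    · push Not at hX1
      refine (step1 htr hirr hinj hmono hD hne h0 (a0 := a0) ?_).mono (fun z hz => Or.inl hz)
      intro z hz
      rcases hsub z hz with h | h
      · exact h
      · exact ⟨h10 h.1, hX1 z hz h.1⟩
  · push Not at hX0
    refine (step1 htr hirr hinj hmono hD hne h1 (a0 := a1) ?_).mono (fun z hz => Or.inr hz)
    intro z hz
    rcases hsub z hz with h | h
    · exact ⟨hX0 z hz, lt_of_lt_of_le h.2 ha⟩
    · exact h

theorem step {r : α → α → Prop} (htr : ∀ a b c, r a b → r b c → r a c)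
    (hirr : ∀ a, ¬ r a a) {ν : α → ℕ} (hinj : Function.Injective ν)
    (hmono : ∀ a b, r a b → ν a < ν b) {D : Finset α} (hD : ∃ l, IsPk r l D) (hne : D.Nonempty)
    {St : Set α} (hV : Val r ν St) (hsub : ∀ z ∈ D, z ∈ St) : StepC r ν D St := by
  obtain ⟨F0, F1, F2, a0, a1, a2, h0, h1, h2, h10, h21, ha, ha', rfl⟩ := hV
  by_cases hX0 : ∃ z ∈ D, z ∉ F1
  · by_cases hX1 : ∃ z ∈ D, z ∈ F1 ∧ z ∉ F2 ∧ a0 ≤ ν z
    · by_cases hX2 : ∃ z ∈ D, z ∈ F2 ∧ a1 ≤ ν z
      · exact step3 htr hirr hinj hmono hD hne h0 h1 h2 h10 h21 ha ha' hsub hX0 hX1 hX2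
      · push Not at hX2
        refine (norm2 htr hirr hinj hmono hD hne h0 h1 h10 ha ?_).mono ?_
        · intro z hz
          rcases hsub z hz with h | h | h
          · exact Or.inl h
          · exact Or.inr h
          · exact Or.inr ⟨h21 h.1, hX2 z hz h.1⟩
        · rintro z (h | h)
          · exact Or.inl h
          · exact Or.inr (Or.inl h)
    · push Not at hX1
      refine (norm2 htr hirr hinj hmono hD hne h0 h2 (h21.trans h10) (ha.trans ha') ?_).mono ?_
      · intro z hz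
        rcases hsub z hz with h | h | h
        · exact Or.inl h
        · by_cases hz2 : z ∈ F2
          · exact Or.inr ⟨hz2, lt_of_lt_of_le h.2 ha'⟩
          · exact Or.inl ⟨h10 h.1, hX1 z hz h.1 hz2⟩
        · exact Or.inr h
      · rintro z (h | h)
        · exact Or.inl h
        · exact Or.inr (Or.inr h)
  · push Not at hX0
    refine (norm2 htr hirr hinj hmono hD hne h1 h2 h21 ha' ?_).mono ?_
    · intro z hz
      rcases hsub z hz with h | h | h
      · exact Or.inl ⟨hX0 z hz, lt_of_lt_of_le h.2 ha⟩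
      · exact Or.inl h
      · exact Or.inr h
    · rintro z (h | h)
      · exact Or.inr (Or.inl h)
      · exact Or.inr (Or.inr h)

/-! ### the final theorem -/

/-- all left-free cuts of the packing are described inside `X` -/
def Good (r : α → α → Prop) (ν : α → ℕ) (X : Finset α) : List (Finset α) → Finset α → Prop
  | [], _ => True
  | S :: l, D => ((¬ ∀ s ∈ S, s ∈ AL r l) →
      ∃ St, Val r ν St ∧ ∀ z ∈ X, (z ∈ D ↔ z ∈ St ∧ ∀ s ∈ S, ¬ r s z)) ∧ Good r ν X l (D \ S)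

theorem good_aux {r : α → α → Prop} (htr : ∀ a b c, r a b → r b c → r a c)
    (hirr : ∀ a, ¬ r a a) {ν : α → ℕ} (hinj : Function.Injective ν)
    (hmono : ∀ a b, r a b → ν a < ν b) (X : Finset α) :
    ∀ (n : ℕ) (D : Finset α), D.card = n → (∃ l, IsPk r l D) → D ⊆ X → ∀ St : Set α, Val r ν St →
      (∀ z ∈ D, z ∈ St) → (∀ l, IsPk r l D → ∀ z ∈ X, z ∉ D → z ∈ St → z ∈ AL r l) →
      ∃ l, IsPk r l D ∧ Good r ν X l D := by
  intro n
  induction n using Nat.strong_induction_on with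
  | _ n ih =>
    intro D hn hD hDX St hV hsub hinv
    by_cases hne : D.Nonempty
    · obtain ⟨S, St', hF, hV', hss, hincl, hexcl⟩ := step htr hirr hinj hmono hD hne hV hsub
      have hSD := feas_sub hF
      have hS3 := feas_card hF
      have hSm := feas_anti hF
      obtain ⟨l0, hl0⟩ := hF
      have hcard : (D \ S).card < n := by
        have h1 := Finset.card_sdiff_add_card_eq_card hSD
        omega
      obtain ⟨l, hl, hg⟩ := ih _ hcard (D \ S) rfl ⟨l0, hl0.2.2.2⟩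
        (Finset.sdiff_subset.trans hDX) St' hV'
        (fun z hz => hincl z (Finset.mem_sdiff.1 hz).1 (Finset.mem_sdiff.1 hz).2) (by
          intro l' hl' z hzX hzD hzSt'
          have hpk : IsPk r (S :: l') D := ⟨hSD, hS3, hSm, hl'⟩
          have hS' : ∀ s ∈ S, s ∈ St' → s ∈ AL r l' := by
            intro s hs hsSt
            by_contra hno
            exact hexcl s hs ⟨l', hpk, hno⟩ hsSt
          by_cases hzS : z ∈ S
          · exact hS' z hzS hzSt'
          · have hzD' : z ∉ D := fun h => hzD (Finset.mem_sdiff.2 ⟨h, hzS⟩)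
            have h1 := hinv _ hpk z hzX hzD' (hss z hzSt')
            by_cases hc : ∀ s ∈ S, s ∈ AL r l'
            · rwa [AL_cons_pos hc] at h1
            · rw [AL_cons_neg hc] at h1
              obtain ⟨s, hs, hsz⟩ := h1
              exact AL_up htr l' s z (hS' s hs (hV'.down htr hmono hzSt' hsz)) hsz)
      refine ⟨S :: l, ⟨hSD, hS3, hSm, hl⟩, ?_, hg⟩
      intro hfree
      refine ⟨St, hV, fun z hzX => ⟨fun hz => ⟨hsub z hz, fun s hs => hSm s hs z hz⟩, ?_⟩⟩
      rintro ⟨hzSt, hzS⟩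
      by_contra hzD
      have h1 := hinv (S :: l) ⟨hSD, hS3, hSm, hl⟩ z hzX hzD hzSt
      rw [AL_cons_neg hfree] at h1
      obtain ⟨s, hs, hsz⟩ := h1
      exact hzS s hs hsz
    · rw [Finset.not_nonempty_iff_eq_empty] at hne
      subst hne
      exact ⟨[], rfl, trivial⟩

/-- NODE T -/
theorem nodeT {r : α → α → Prop} (htr : ∀ a b c, r a b → r b c → r a c)
    (hirr : ∀ a, ¬ r a a) {ν : α → ℕ} (hinj : Function.Injective ν)
    (hmono : ∀ a b, r a b → ν a < ν b) (X : Finset α) (hX : ∃ l, IsPk r l X) :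
    ∃ l, IsPk r l X ∧ Good r ν X l X := by
  refine good_aux htr hirr hinj hmono X _ X rfl hX subset_rfl
    (St3 ν Set.univ Set.univ Set.univ (X.sup ν + 1) (X.sup ν + 1) (X.sup ν + 1)) (Val.univ _)
    (fun z hz => Or.inl ⟨trivial, Nat.lt_succ_of_le (Finset.le_sup hz)⟩)
    (fun l _ z hz hz' => absurd hz hz')

end Crest.Agent.R286.CapT
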