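import Mathlib

/-!
Row 286: packings as lists of 3-sets (HEAD = LAST SLOT), left separators, the exchange lemma (E) of note 13021.
-/

set_option autoImplicit false

namespace Crest.Agent.R286.T3

variable {α : Type*} [DecidableEq α]

/-- packing as a list of slots, head = last slot -/
def IsPk (r : α → α → Prop) : List (Finset α) → Finset α → Prop
  | [], D => D = ∅
  | S :: l, D => S ⊆ D ∧ S.card = 3 ∧ (∀ x ∈ S, ∀ y ∈ D, ¬ r x y) ∧ IsPk r l (D \ S)

/-- `s` is a left separator of the last cut of `l` -/
def Sp (r : α → α → Prop) : List (Finset α) → Finset α → Prop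
  | [], _ => False
  | S :: l, s => s = S ∨ (Sp r l s ∧ ∀ u ∈ S, ∃ w ∈ s, r w u)

/-- `g` (to be executed after `l`) is not free -/
def Blk (r : α → α → Prop) (l : List (Finset α)) (g : α) : Prop :=
  ∃ s, Sp r l s ∧ ∃ w ∈ s, r w g

variable {r : α → α → Prop}

theorem Sp.subset {l : List (Finset α)} : ∀ {D s : Finset α}, IsPk r l D → Sp r l s → s ⊆ D := by
  induction l with
  | nil => intro D s _ h; exact h.elim
  | cons S l ih =>
    intro D s h hs
    rcases hs with rfl | ⟨hs, _⟩
    · exact h.1
    · exact (ih h.2.2.2 hs).trans Finset.sdiff_subset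

theorem Sp.mem {l : List (Finset α)} {s : Finset α} (hs : Sp r l s) : s ∈ l := by
  induction l with
  | nil => exact hs.elim
  | cons S l ih =>
    rcases hs with rfl | ⟨hs, _⟩
    · simp
    · exact List.mem_cons_of_mem _ (ih hs)

/-- the strict up-sets of separators form a chain -/
theorem Sp.chain (htr : ∀ ⦃x y z : α⦄, r x y → r y z → r x z) {l : List (Finset α)} :
    ∀ {s s' : Finset α}, Sp r l s → Sp r l s' →
      (∀ x, (∃ w ∈ s, r w x) → ∃ w ∈ s', r w x) ∨ (∀ x, (∃ w ∈ s', r w x) → ∃ w ∈ s, r w x) := by
  induction l with
  | nil => intro s s' h; exact h.elim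
  | cons S l ih =>
    intro s s' hs hs'
    rcases hs with rfl | ⟨hs, h1⟩
    · rcases hs' with rfl | ⟨_, h2⟩
      · exact Or.inl fun x hx => hx
      · refine Or.inl fun x hx => ?_
        obtain ⟨w, hw, hwx⟩ := hx
        obtain ⟨w', hw', h⟩ := h2 w hw
        exact ⟨w', hw', htr h hwx⟩
    · rcases hs' with rfl | ⟨hs', _⟩
      · refine Or.inr fun x hx => ?_
        obtain ⟨w, hw, hwx⟩ := hx
        obtain ⟨w', hw', h⟩ := h1 w hw
        exact ⟨w', hw', htr h hwx⟩
      · exact ih hs hs'

/-- finitely many blocked elements are blocked by one separator -/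
theorem Blk.common (htr : ∀ ⦃x y z : α⦄, r x y → r y z → r x z) {l : List (Finset α)}
    (T : Finset α) (hne : T.Nonempty) (h : ∀ u ∈ T, Blk r l u) :
    ∃ s, Sp r l s ∧ ∀ u ∈ T, ∃ w ∈ s, r w u := by
  induction hne using Finset.Nonempty.cons_induction with
  | singleton a =>
    obtain ⟨s, hs, h1⟩ := h a (by simp)
    exact ⟨s, hs, fun u hu => by rw [Finset.mem_singleton] at hu; subst hu; exact h1⟩
  | cons a T ha _ ih =>
    obtain ⟨s, hs, h1⟩ := ih fun u hu => h u (Finset.mem_cons_of_mem hu)
    obtain ⟨s', hs', h2⟩ := h a (Finset.mem_cons_self a T)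
    rcases Sp.chain htr hs hs' with hc | hc
    · refine ⟨s', hs', fun u hu => ?_⟩
      rcases Finset.mem_cons.1 hu with rfl | hu
      · exact h2
      · exact hc u (h1 u hu)
    · refine ⟨s, hs, fun u hu => ?_⟩
      rcases Finset.mem_cons.1 hu with rfl | hu
      · exact hc _ h2
      · exact h1 u hu

/-- (E) the exchange lemma -/
theorem exch (hirr : ∀ x : α, ¬ r x x) (htr : ∀ ⦃x y z : α⦄, r x y → r y z → r x z)
    {l : List (Finset α)} : ∀ {D : Finset α}, IsPk r l D → ∀ {g : α}, g ∉ D → (∀ x ∈ D, ¬ r g x) →
      ¬ Blk r l g → ∀ {y : α}, y ∈ D → (∀ x ∈ D, ¬ r y x) → ¬ r y g →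
      ∃ l' : List (Finset α), IsPk r l' (insert g (D.erase y)) ∧ l'.length = l.length := by
  induction l with
  | nil =>
    intro D h g _ _ _ y hy
    simp only [IsPk] at h
    subst h; simp at hy
  | cons S l ih =>
    intro D h g hgD hgx hg y hy hyx hyg
    obtain ⟨hSD, hS3, hSm, hl⟩ := h
    -- no predecessor of `g` in `S`
    have hgS : ∀ x ∈ S, ¬ r x g := fun x hx hr => hg ⟨S, Or.inl rfl, x, hx, hr⟩
    have hgS' : g ∉ S := fun h => hgD (hSD h)
    by_cases hyS : y ∈ S
    · refine ⟨insert g (S.erase y) :: l, ⟨?_, ?_, ?_, ?_⟩, by simp⟩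
      · intro x hx
        simp only [Finset.mem_insert, Finset.mem_erase] at hx ⊢
        rcases hx with rfl | ⟨h1, h2⟩
        · exact Or.inl rfl
        · exact Or.inr ⟨h1, hSD h2⟩
      · rw [Finset.card_insert_of_notMem (by simp [hgS']), Finset.card_erase_of_mem hyS]; omega
      · intro x hx z hz
        simp only [Finset.mem_insert, Finset.mem_erase] at hx hz
        rcases hx with rfl | ⟨h1, h2⟩
        · rcases hz with rfl | ⟨_, h4⟩
          · exact hirr _
          · exact hgx z h4
        · rcases hz with rfl | ⟨_, h4⟩
          · exact hgS x h2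
          · exact hSm x h2 z h4
      · have : insert g (D.erase y) \ insert g (S.erase y) = D \ S := by
          ext x
          simp only [Finset.mem_sdiff, Finset.mem_insert, Finset.mem_erase]
          constructor
          · rintro ⟨h1, h2⟩
            push Not at h2
            rcases h1 with h1 | h1
            · exact absurd h1 h2.1
            · exact ⟨h1.2, h2.2 h1.1⟩
          · rintro ⟨h1, h2⟩
            have hxy : x ≠ y := fun h => h2 (h ▸ hyS)
            have hxg : x ≠ g := fun h => hgD (h ▸ h1)
            exact ⟨Or.inr ⟨hxy, h1⟩, fun h => h.elim hxg fun h => h2 h.2⟩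
        rw [this]; exact hl
    · have hyDS : y ∈ D \ S := Finset.mem_sdiff.2 ⟨hy, hyS⟩
      by_cases hu : ∃ u ∈ S, ¬ Blk r l u
      · obtain ⟨u, huS, hub⟩ := hu
        have huy : u ≠ y := fun h => hyS (h ▸ huS)
        obtain ⟨l', hl', hlen⟩ := ih hl (g := u) (by simp [huS])
          (fun x hx => hSm u huS x (Finset.sdiff_subset hx)) hub hyDS
          (fun x hx => hyx x (Finset.sdiff_subset hx)) (hyx u (hSD huS))
        refine ⟨insert g (S.erase u) :: l', ⟨?_, ?_, ?_, ?_⟩, by simp [hlen]⟩
        · intro x hx
          simp only [Finset.mem_insert, Finset.mem_erase] at hx ⊢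
          rcases hx with rfl | ⟨h1, h2⟩
          · exact Or.inl rfl
          · exact Or.inr ⟨fun h => hyS (h ▸ h2), hSD h2⟩
        · rw [Finset.card_insert_of_notMem (by simp [hgS']), Finset.card_erase_of_mem huS]; omega
        · intro x hx z hz
          simp only [Finset.mem_insert, Finset.mem_erase] at hx hz
          rcases hx with rfl | ⟨h1, h2⟩
          · rcases hz with rfl | ⟨_, h4⟩
            · exact hirr _
            · exact hgx z h4
          · rcases hz with rfl | ⟨_, h4⟩
            · exact hgS x h2
            · exact hSm x h2 z h4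
        · have : insert g (D.erase y) \ insert g (S.erase u) = insert u ((D \ S).erase y) := by
            ext x
            simp only [Finset.mem_sdiff, Finset.mem_insert, Finset.mem_erase]
            constructor
            · rintro ⟨h1, h2⟩
              push Not at h2
              rcases h1 with h1 | h1
              · exact absurd h1 h2.1
              · by_cases hxu : x = u
                · exact Or.inl hxu
                · exact Or.inr ⟨h1.1, h1.2, h2.2 hxu⟩
            · rintro (rfl | ⟨h1, h2, h3⟩)
              · refine ⟨Or.inr ⟨huy, hSD huS⟩, ?_⟩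
                rintro (h | h)
                · exact hgS' (h ▸ huS)
                · exact h.1 rfl
              · refine ⟨Or.inr ⟨h1, h2⟩, ?_⟩
                rintro (h | h)
                · exact hgD (h ▸ h2)
                · exact h3 h.2
          rw [this]; exact hl'
      · push Not at hu
        by_cases hgb : Blk r l g
        · exfalso
          have hne : (insert g S).Nonempty := ⟨g, by simp⟩
          obtain ⟨s, hs, hall⟩ := Blk.common htr (l := l) (insert g S) hne (by
            intro u hu'
            rcases Finset.mem_insert.1 hu' with rfl | h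
            · exact hgb
            · exact hu u h)
          exact hg ⟨s, Or.inr ⟨hs, fun u hu' => hall u (Finset.mem_insert_of_mem hu')⟩,
            hall g (Finset.mem_insert_self _ _)⟩
        · obtain ⟨l', hl', hlen⟩ := ih hl (g := g) (fun h => hgD (Finset.sdiff_subset h))
            (fun x hx => hgx x (Finset.sdiff_subset hx)) hgb hyDS
            (fun x hx => hyx x (Finset.sdiff_subset hx)) hyg
          refine ⟨S :: l', ⟨?_, hS3, ?_, ?_⟩, by simp [hlen]⟩
          · intro x hx
            simp only [Finset.mem_insert, Finset.mem_erase]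
            exact Or.inr ⟨fun h => hyS (h ▸ hx), hSD hx⟩
          · intro x hx z hz
            simp only [Finset.mem_insert, Finset.mem_erase] at hz
            rcases hz with rfl | ⟨_, h4⟩
            · exact hgS x hx
            · exact hSm x hx z h4
          · have : insert g (D.erase y) \ S = insert g ((D \ S).erase y) := by
              ext x
              simp only [Finset.mem_sdiff, Finset.mem_insert, Finset.mem_erase]
              constructor
              · rintro ⟨h1 | h1, h2⟩
                · exact Or.inl h1
                · exact Or.inr ⟨h1.1, h1.2, h2⟩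
              · rintro (rfl | ⟨h1, h2, h3⟩)
                · exact ⟨Or.inl rfl, hgS'⟩
                · exact ⟨Or.inr ⟨h1, h2⟩, h3⟩
            rw [this]; exact hl'

end Crest.Agent.R286.T3
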