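import Mathlib

/-!
# Row 286: the exchange property (E) in relation form
-/

set_option autoImplicit false
set_option linter.unusedVariables false

namespace Crest.Agent.R286.ExRel

open Classical

variable {α : Type*}

/-- packing of `X` into slots `1..N` with exactly three jobs each -/
def Pack (R : α → α → Prop) (X : Finset α) (N : ℕ) (s : α → ℕ) : Prop :=
  (∀ x ∈ X, 1 ≤ s x ∧ s x ≤ N) ∧
  (∀ i, 1 ≤ i → i ≤ N → (X.filter (fun x => s x = i)).card = 3) ∧
  (∀ x ∈ X, ∀ y ∈ X, R x y → s x < s y)

/-- add a last slot -/
theorem Pack.snoc {R : α → α → Prop} {D S : Finset α} {n : ℕ} {s : α → ℕ}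
    (h : Pack R D n s) (hS : S.card = 3) (hd : Disjoint D S)
    (hm : ∀ x ∈ S, ∀ z ∈ D ∪ S, ¬ R x z) :
    Pack R (D ∪ S) (n + 1) (fun x => if x ∈ S then n + 1 else s x) := by
  have hDS : ∀ x ∈ D, x ∉ S := fun x hx hxS => Finset.disjoint_left.mp hd hx hxS
  refine ⟨?_, ?_, ?_⟩
  · intro x hx
    by_cases hxS : x ∈ S
    · simp [hxS]
    · have hxD : x ∈ D := by
        rcases Finset.mem_union.mp hx with h' | h'
        · exact h'
        · exact absurd h' hxS
      have := h.1 x hxD
      simp only [hxS, if_false]
      omega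
  · intro i hi hi'
    rcases Nat.lt_or_ge n i with hlt | hge
    · have hin : i = n + 1 := by omega
      subst hin
      have : (D ∪ S).filter (fun x => (if x ∈ S then n + 1 else s x) = n + 1) = S := by
        ext x
        simp only [Finset.mem_filter, Finset.mem_union]
        constructor
        · rintro ⟨hx, hx'⟩
          by_contra hxS
          have hxD : x ∈ D := by tauto
          simp only [hxS, if_false] at hx'
          have := h.1 x hxD
          omega
        · intro hx
          simp [hx]
      rw [this, hS]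
    · have : (D ∪ S).filter (fun x => (if x ∈ S then n + 1 else s x) = i) =
          D.filter (fun x => s x = i) := by
        ext x
        simp only [Finset.mem_filter, Finset.mem_union]
        constructor
        · rintro ⟨hx, hx'⟩
          by_cases hxS : x ∈ S
          · simp only [hxS, if_true] at hx'
            omega
          · simp only [hxS, if_false] at hx'
            exact ⟨by tauto, hx'⟩
        · rintro ⟨hx, hx'⟩
          simp [hx, hDS x hx, hx']
      rw [this]
      exact h.2.1 i hi hge
  · intro x hx y hy hxy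
    have hxS : x ∉ S := fun hxS => hm x hxS y hy hxy
    have hxD : x ∈ D := by
      rcases Finset.mem_union.mp hx with h' | h'
      · exact h'
      · exact absurd h' hxS
    simp only [hxS, if_false]
    by_cases hyS : y ∈ S
    · simp only [hyS, if_true]
      have := h.1 x hxD
      omega
    · simp only [hyS, if_false]
      have hyD : y ∈ D := by
        rcases Finset.mem_union.mp hy with h' | h'
        · exact h'
        · exact absurd h' hyS
      exact h.2.2 x hxD y hyD hxy

/-- remove the last slot -/
theorem Pack.restrict {R : α → α → Prop} {D : Finset α} {n : ℕ} {s : α → ℕ}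
    (h : Pack R D (n + 1) s) : Pack R (D.filter fun x => s x ≤ n) n s := by
  refine ⟨?_, ?_, ?_⟩
  · intro x hx
    simp only [Finset.mem_filter] at hx
    exact ⟨(h.1 x hx.1).1, hx.2⟩
  · intro i hi hi'
    rw [← h.2.1 i hi (by omega)]
    congr 1
    ext x
    simp only [Finset.mem_filter]
    constructor
    · rintro ⟨⟨a, b⟩, c⟩
      exact ⟨a, c⟩
    · rintro ⟨a, c⟩
      exact ⟨⟨a, by omega⟩, c⟩
  · intro x hx y hy
    simp only [Finset.mem_filter] at hx hy
    exact h.2.2 x hx.1 y hy.1

/-- `q` is a (weak) left separator of the cut `n` -/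
def Sep (R : α → α → Prop) (D : Finset α) (s : α → ℕ) (n q : ℕ) : Prop :=
  1 ≤ q ∧ q ≤ n ∧ ∀ x ∈ D, q < s x → s x ≤ n → ∃ w ∈ D, s w = q ∧ R w x

/-- `g` (outside `D`) is free after the cut `n` -/
def Free (R : α → α → Prop) (D : Finset α) (s : α → ℕ) (n : ℕ) (g : α) : Prop :=
  ∀ q, Sep R D s n q → ∀ w ∈ D, s w = q → ¬ R w g

/-- The exchange, set form. -/
theorem exch0 {R : α → α → Prop} (htr : ∀ a b c, R a b → R b c → R a c) (hir : ∀ a, ¬ R a a) :
    ∀ (n : ℕ) (D : Finset α) (s : α → ℕ) (g y : α), Pack R D n s → g ∉ D →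
      (∀ z ∈ D, ¬ R g z) → y ∈ D → (∀ z ∈ D, ¬ R y z) → ¬ R y g → Free R D s n g →
      ∃ s', Pack R (insert g (D.erase y)) n s' := by
  intro n
  induction n with
  | zero =>
    intro D s g y hP _ _ hy
    have := hP.1 y hy
    omega
  | succ n ih =>
    intro D s g y hP hg hgm hy hym hyg hfr
    set D0 := D.filter (fun x => s x ≤ n) with hD0
    set S := D.filter (fun x => s x = n + 1) with hS
    have hP0 : Pack R D0 n s := hP.restrict
    have hScard : S.card = 3 := hP.2.1 (n + 1) (by omega) le_rfl
    have hmem : ∀ x, x ∈ D ↔ x ∈ D0 ∨ x ∈ S := by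
      intro x
      simp only [hD0, hS, Finset.mem_filter]
      constructor
      · intro hx
        have := hP.1 x hx
        rcases Nat.lt_or_ge n (s x) with h | h
        · exact Or.inr ⟨hx, by omega⟩
        · exact Or.inl ⟨hx, h⟩
      · tauto
    have hD0D : ∀ x ∈ D0, x ∈ D := fun x hx => (hmem x).mpr (Or.inl hx)
    have hSD : ∀ x ∈ S, x ∈ D := fun x hx => (hmem x).mpr (Or.inr hx)
    have hs0 : ∀ x ∈ D0, s x ≤ n := fun x hx => (Finset.mem_filter.mp hx).2
    have hsS : ∀ x ∈ S, s x = n + 1 := fun x hx => (Finset.mem_filter.mp hx).2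
    have hdis : ∀ x ∈ D0, x ∉ S := by
      intro x hx hx'
      have := hs0 x hx
      have := hsS x hx'
      omega
    have hSmax : ∀ x ∈ S, ∀ z ∈ D, ¬ R x z := by
      intro x hx z hz hxz
      have h1 := hP.2.2 x (hSD x hx) z hz hxz
      have h2 := hsS x hx
      have h3 := hP.1 z hz
      omega
    -- no predecessor of g in the last slot
    have hgS : ∀ w ∈ S, ¬ R w g := by
      intro w hw
      refine hfr (n + 1) ⟨by omega, le_rfl, ?_⟩ w (hSD w hw) (hsS w hw)
      intro x _ h1 h2
      omega
    by_cases hyS : y ∈ S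
    · -- replace y by g in the last slot
      have hset : insert g (D.erase y) = D0 ∪ insert g (S.erase y) := by
        ext x
        simp only [Finset.mem_insert, Finset.mem_erase, Finset.mem_union]
        rw [hmem x]
        constructor
        · rintro (h | ⟨h1, h2 | h2⟩)
          · exact Or.inr (Or.inl h)
          · exact Or.inl h2
          · exact Or.inr (Or.inr ⟨h1, h2⟩)
        · rintro (h | h | ⟨h1, h2⟩)
          · exact Or.inr ⟨fun h' => hdis x h (h' ▸ hyS), Or.inl h⟩
          · exact Or.inl h
          · exact Or.inr ⟨h1, Or.inr h2⟩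
      rw [hset]
      refine ⟨_, hP0.snoc ?_ ?_ ?_⟩
      · rw [Finset.card_insert_of_notMem (fun h => hg (hSD g (Finset.mem_of_mem_erase h))),
          Finset.card_erase_of_mem hyS, hScard]
      · rw [Finset.disjoint_left]
        intro x hx hx'
        rcases Finset.mem_insert.mp hx' with h | h
        · exact hg (h ▸ hD0D x hx)
        · exact hdis x hx (Finset.mem_of_mem_erase h)
      · intro x hx z hz hxz
        simp only [Finset.mem_union, Finset.mem_insert, Finset.mem_erase] at hx hz
        rcases hx with rfl | ⟨_, hx⟩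
        · rcases hz with h | rfl | ⟨_, h⟩
          · exact hgm z (hD0D z h) hxz
          · exact hir _ hxz
          · exact hgm z (hSD z h) hxz
        · rcases hz with h | rfl | ⟨_, h⟩
          · exact hSmax x hx z (hD0D z h) hxz
          · exact hgS x hx hxz
          · exact hSmax x hx z (hSD z h) hxz
    · have hy0 : y ∈ D0 := ((hmem y).mp hy).resolve_right hyS
      by_cases hf0 : Free R D0 s n g
      · -- g goes deeper
        obtain ⟨s0, hs0P⟩ := ih D0 s g y hP0 (fun h => hg (hD0D g h))
          (fun z hz => hgm z (hD0D z hz)) hy0 (fun z hz => hym z (hD0D z hz)) hyg hf0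
        have hset : insert g (D.erase y) = insert g (D0.erase y) ∪ S := by
          ext x
          simp only [Finset.mem_insert, Finset.mem_erase, Finset.mem_union]
          rw [hmem x]
          constructor
          · rintro (h | ⟨h1, h2 | h2⟩)
            · exact Or.inl (Or.inl h)
            · exact Or.inl (Or.inr ⟨h1, h2⟩)
            · exact Or.inr h2
          · rintro ((h | ⟨h1, h2⟩) | h)
            · exact Or.inl h
            · exact Or.inr ⟨h1, Or.inl h2⟩
            · exact Or.inr ⟨fun h' => hyS (h' ▸ h), Or.inr h⟩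
        rw [hset]
        refine ⟨_, hs0P.snoc hScard ?_ ?_⟩
        · rw [Finset.disjoint_left]
          intro x hx hx'
          rcases Finset.mem_insert.mp hx with h | h
          · exact hg (h ▸ hSD x hx')
          · exact hdis x (Finset.mem_of_mem_erase h) hx'
        · intro x hx z hz hxz
          simp only [Finset.mem_union, Finset.mem_insert, Finset.mem_erase] at hz
          rcases hz with (rfl | ⟨_, h⟩) | h
          · exact hgS x hx hxz
          · exact hSmax x hx z (hD0D z h) hxz
          · exact hSmax x hx z (hSD z h) hxz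
      · -- take the smallest blocking separator
        have hex : ∃ q, Sep R D0 s n q ∧ ∃ w ∈ D0, s w = q ∧ R w g := by
          unfold Free at hf0
          push Not at hf0
          obtain ⟨q, hq, w, hw, hwq, hwg⟩ := hf0
          exact ⟨q, hq, w, hw, hwq, hwg⟩
        set q := Nat.find hex with hq
        obtain ⟨hsep, w, hw, hwq, hwg⟩ := Nat.find_spec hex
        rw [← hq] at hsep hwq
        -- some u in S has no predecessor in slot q
        have hu : ∃ u ∈ S, ∀ v ∈ D0, s v = q → ¬ R v u := by
          by_contra hcon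
          push Not at hcon
          refine hfr q ⟨hsep.1, by have := hsep.2.1; omega, ?_⟩ w (hD0D w hw) hwq hwg
          intro x hx h1 h2
          rcases (hmem x).mp hx with h | h
          · obtain ⟨v, hv, hvq, hvx⟩ := hsep.2.2 x h h1 (hs0 x h)
            exact ⟨v, hD0D v hv, hvq, hvx⟩
          · obtain ⟨v, hv, hvq, hvx⟩ := hcon x h
            exact ⟨v, hD0D v hv, hvq, hvx⟩
        obtain ⟨u, huS, hu⟩ := hu
        have huD0 : u ∉ D0 := fun h => hdis u h huS
        have hfu : Free R D0 s n u := by
          intro q' hsep' v hv hvq' hvu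
          rcases lt_trichotomy q' q with hlt | heq | hgt
          · -- q' is a smaller separator which blocks g
            obtain ⟨v3, hv3, hv3q, hv3w⟩ := hsep'.2.2 w hw (by omega) (hs0 w hw)
            exact Nat.find_min hex (by rw [← hq]; exact hlt)
              ⟨hsep', v3, hv3, hv3q, htr _ _ _ hv3w hwg⟩
          · exact hu v hv (by omega) hvu
          · obtain ⟨v2, hv2, hv2q, hv2v⟩ := hsep.2.2 v hv (by omega) (hs0 v hv)
            exact hu v2 hv2 hv2q (htr _ _ _ hv2v hvu)
        obtain ⟨s0, hs0P⟩ := ih D0 s u y hP0 huD0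
          (fun z hz => hSmax u huS z (hD0D z hz)) hy0 (fun z hz => hym z (hD0D z hz))
          (hym u (hSD u huS)) hfu
        have hset : insert g (D.erase y) = insert u (D0.erase y) ∪ insert g (S.erase u) := by
          ext x
          simp only [Finset.mem_insert, Finset.mem_erase, Finset.mem_union]
          rw [hmem x]
          constructor
          · rintro (h | ⟨h1, h2 | h2⟩)
            · exact Or.inr (Or.inl h)
            · exact Or.inl (Or.inr ⟨h1, h2⟩)
            · by_cases hxu : x = u
              · exact Or.inl (Or.inl hxu)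
              · exact Or.inr (Or.inr ⟨hxu, h2⟩)
          · rintro ((rfl | ⟨h1, h2⟩) | h | ⟨h1, h2⟩)
            · exact Or.inr ⟨fun h' => hyS (h' ▸ huS), Or.inr huS⟩
            · exact Or.inr ⟨h1, Or.inl h2⟩
            · exact Or.inl h
            · exact Or.inr ⟨fun h' => hyS (h' ▸ h2), Or.inr h2⟩
        rw [hset]
        refine ⟨_, hs0P.snoc ?_ ?_ ?_⟩
        · rw [Finset.card_insert_of_notMem (fun h => hg (hSD g (Finset.mem_of_mem_erase h))),
            Finset.card_erase_of_mem huS, hScard]
        · rw [Finset.disjoint_left]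
          intro x hx hx'
          simp only [Finset.mem_insert, Finset.mem_erase] at hx hx'
          rcases hx with rfl | ⟨_, hx⟩
          · rcases hx' with rfl | ⟨h, _⟩
            · exact hg (hSD _ huS)
            · exact h rfl
          · rcases hx' with rfl | ⟨_, h⟩
            · exact hg (hD0D _ hx)
            · exact hdis x hx h
        · intro x hx z hz hxz
          simp only [Finset.mem_union, Finset.mem_insert, Finset.mem_erase] at hx hz
          have hzz : z = g ∨ z ∈ D := by
            rcases hz with (rfl | ⟨_, h⟩) | rfl | ⟨_, h⟩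
            · exact Or.inr (hSD _ huS)
            · exact Or.inr (hD0D z h)
            · exact Or.inl rfl
            · exact Or.inr (hSD z h)
          rcases hx with rfl | ⟨_, hx⟩
          · rcases hzz with rfl | h
            · exact hir _ hxz
            · exact hgm z h hxz
          · rcases hzz with rfl | h
            · exact hgS x hx hxz
            · exact hSmax x hx z h hxz

/-- (E), packing form. -/
theorem exch {R : α → α → Prop} (htr : ∀ a b c, R a b → R b c → R a c) (hir : ∀ a, ¬ R a a)
    {D : Finset α} {j : ℕ} {s : α → ℕ} {g y : α} (hP : Pack R D j s) (hg : g ∈ D)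
    (hgj : s g = j) (hy : y ∈ D) (hyj : s y < j) (hym : ∀ z ∈ D, ¬ R y z)
    (hfr : ∀ q, 1 ≤ q → q < j → (∀ x ∈ D, q < s x → s x < j → ∃ w ∈ D, s w = q ∧ R w x) →
      ∀ w ∈ D, s w = q → ¬ R w g) :
    ∃ s', Pack R D j s' ∧
      D.filter (fun x => s' x = j) = insert y ((D.filter (fun x => s x = j)).erase g) := by
  obtain ⟨n, rfl⟩ : ∃ n, j = n + 1 := ⟨j - 1, by omega⟩
  set D0 := D.filter (fun x => s x ≤ n) with hD0
  set S := D.filter (fun x => s x = n + 1) with hS
  have hP0 : Pack R D0 n s := hP.restrict
  have hScard : S.card = 3 := hP.2.1 (n + 1) (by omega) le_rfl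
  have hmem : ∀ x, x ∈ D ↔ x ∈ D0 ∨ x ∈ S := by
    intro x
    simp only [hD0, hS, Finset.mem_filter]
    constructor
    · intro hx
      have := hP.1 x hx
      rcases Nat.lt_or_ge n (s x) with h | h
      · exact Or.inr ⟨hx, by omega⟩
      · exact Or.inl ⟨hx, h⟩
    · tauto
  have hD0D : ∀ x ∈ D0, x ∈ D := fun x hx => (hmem x).mpr (Or.inl hx)
  have hSD : ∀ x ∈ S, x ∈ D := fun x hx => (hmem x).mpr (Or.inr hx)
  have hs0 : ∀ x ∈ D0, s x ≤ n := fun x hx => (Finset.mem_filter.mp hx).2
  have hsS : ∀ x ∈ S, s x = n + 1 := fun x hx => (Finset.mem_filter.mp hx).2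
  have hdis : ∀ x ∈ D0, x ∉ S := by
    intro x hx hx'
    have := hs0 x hx
    have := hsS x hx'
    omega
  have hSmax : ∀ x ∈ S, ∀ z ∈ D, ¬ R x z := by
    intro x hx z hz hxz
    have h1 := hP.2.2 x (hSD x hx) z hz hxz
    have h2 := hsS x hx
    have h3 := hP.1 z hz
    omega
  have hgS : g ∈ S := Finset.mem_filter.mpr ⟨hg, hgj⟩
  have hyD0 : y ∈ D0 := Finset.mem_filter.mpr ⟨hy, by omega⟩
  have hyS : y ∉ S := hdis y hyD0
  have hfr0 : Free R D0 s n g := by
    intro q hq w hw hwq
    refine hfr q hq.1 (by have := hq.2.1; omega) ?_ w (hD0D w hw) hwq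
    intro x hx h1 h2
    obtain ⟨v, hv, hvq, hvx⟩ := hq.2.2 x (Finset.mem_filter.mpr ⟨hx, by omega⟩) h1 (by omega)
    exact ⟨v, hD0D v hv, hvq, hvx⟩
  obtain ⟨s0, hs0P⟩ := exch0 htr hir n D0 s g y hP0 (fun h => hdis g h hgS)
    (fun z hz => hSmax g hgS z (hD0D z hz)) hyD0 (fun z hz => hym z (hD0D z hz))
    (hym g hg) hfr0
  have hset : D = insert g (D0.erase y) ∪ insert y (S.erase g) := by
    ext x
    simp only [Finset.mem_insert, Finset.mem_erase, Finset.mem_union]
    rw [hmem x]
    constructor
    · rintro (h | h)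
      · by_cases hxy : x = y
        · exact Or.inr (Or.inl hxy)
        · exact Or.inl (Or.inr ⟨hxy, h⟩)
      · by_cases hxg : x = g
        · exact Or.inl (Or.inl hxg)
        · exact Or.inr (Or.inr ⟨hxg, h⟩)
    · rintro ((rfl | ⟨h1, h2⟩) | rfl | ⟨h1, h2⟩)
      · exact Or.inr hgS
      · exact Or.inl h2
      · exact Or.inl hyD0
      · exact Or.inr h2
  have hc : (insert y (S.erase g)).card = 3 := by
    rw [Finset.card_insert_of_notMem (fun h => hyS (Finset.mem_of_mem_erase h)),
      Finset.card_erase_of_mem hgS, hScard]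
  have hdj : Disjoint (insert g (D0.erase y)) (insert y (S.erase g)) := by
    rw [Finset.disjoint_left]
    intro x hx hx'
    simp only [Finset.mem_insert, Finset.mem_erase] at hx hx'
    rcases hx with rfl | ⟨h1, h2⟩
    · rcases hx' with rfl | ⟨h, _⟩
      · exact hyS hgS
      · exact h rfl
    · rcases hx' with rfl | ⟨_, h⟩
      · exact h1 rfl
      · exact hdis x h2 h
  have hP' := hs0P.snoc hc hdj (by
    rw [← hset]
    intro x hx z hz
    simp only [Finset.mem_insert, Finset.mem_erase] at hx
    rcases hx with rfl | ⟨_, hx⟩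
    · exact hym z hz
    · exact hSmax x hx z hz)
  rw [← hset] at hP'
  refine ⟨_, hP', ?_⟩
  ext x
  simp only [Finset.mem_filter]
  constructor
  · rintro ⟨hx, hx'⟩
    by_contra hcon
    simp only [hcon, if_false] at hx'
    have hx2 : x ∈ insert g (D0.erase y) := by
      rw [hset] at hx
      exact (Finset.mem_union.mp hx).resolve_right hcon
    have := hs0P.1 x hx2
    omega
  · intro hx
    refine ⟨?_, by simp [hx]⟩
    rw [hset]
    exact Finset.mem_union_right _ hx

end Crest.Agent.R286.ExRel
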