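import Crest.Agent.R286.PackChain

/-!
Row 286, (E) of 13021 in the exact form of note 13110 (slots `1..N`, explicit relation).
-/

set_option autoImplicit false
set_option linter.unusedSectionVars false

namespace Crest.Agent.R286.ExchE

open Crest.Agent.R286.Pack

/-- (E): `g` in the last slot is free, `y` maximal and not in the last slot: then
`S_N - g + y` is a feasible last slot. -/
theorem exchE {α : Type*} [DecidableEq α] {R : α → α → Prop}
    (htr : ∀ a b c, R a b → R b c → R a c) (hir : ∀ a, ¬ R a a)
    {X : Finset α} {N : ℕ} {s : α → ℕ}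
    (h : (∀ x ∈ X, 1 ≤ s x ∧ s x ≤ N) ∧
      (∀ i, 1 ≤ i → i ≤ N → (X.filter (fun x => s x = i)).card = 3) ∧
      (∀ x ∈ X, ∀ y ∈ X, R x y → s x < s y))
    {g y : α} (hg : g ∈ X) (hgN : s g = N) (hy : y ∈ X) (hyN : s y < N)
    (hymax : ∀ z ∈ X, ¬ R y z)
    (hfree : ∀ q, 1 ≤ q → q < N →
      (∀ x ∈ X, q < s x → s x < N → ∃ w ∈ X, s w = q ∧ R w x) →
      ∀ w ∈ X, s w = q → ¬ R w g) :
    ∃ s' : α → ℕ, ((∀ x ∈ X, 1 ≤ s' x ∧ s' x ≤ N) ∧
      (∀ i, 1 ≤ i → i ≤ N → (X.filter (fun x => s' x = i)).card = 3) ∧
      (∀ x ∈ X, ∀ y ∈ X, R x y → s' x < s' y)) ∧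
      X.filter (fun x => s' x = N) = insert y ((X.filter (fun x => s x = N)).erase g) := by
  obtain ⟨h1, h2, h3⟩ := h
  set D : Finset α := X.filter (fun x => s x < N) with hD
  have hDm : ∀ z, z ∈ D ↔ z ∈ X ∧ s z < N := fun z => by rw [hD, Finset.mem_filter]
  have hN : 1 ≤ N := by have := h1 g hg; omega
  have hp : IsPack 3 R D (N - 1) (fun z => s z - 1) := by
    refine ⟨?_, ?_, ?_⟩
    · intro z hz
      have h4 := (hDm z).1 hz
      have := h1 z h4.1
      show s z - 1 < N - 1
      omega
    · intro t ht
      rw [← h2 (t + 1) (by omega) (by omega)]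
      congr 1
      ext z
      simp only [Finset.mem_filter, hDm]
      constructor
      · rintro ⟨⟨h4, h5⟩, h6⟩
        have := h1 z h4
        exact ⟨h4, by omega⟩
      · rintro ⟨h4, h6⟩
        exact ⟨⟨h4, by omega⟩, by omega⟩
    · intro a ha b hb hab
      have h4 := (hDm a).1 ha
      have h5 := (hDm b).1 hb
      have h6 := h3 a h4.1 b h5.1 hab
      have h7 := h1 a h4.1
      show s a - 1 < s b - 1
      omega
  have hgD : g ∉ D := by intro h4; have := ((hDm g).1 h4).2; omega
  have hyD : y ∈ D := (hDm y).2 ⟨hy, hyN⟩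
  have hs1y := h1 y hy
  rcases leftChain (m := 3) hir (fun _ => True) (N - 1) D _ hp g hgD
    (by intro z hz hgz
        have h4 := (hDm z).1 hz
        have := h3 g hg z h4.1 hgz; omega)
    y hyD (fun z hz => hymax z ((hDm z).1 hz).1) (hymax g hg) with ⟨σ', hL⟩ | ⟨s0, hs1, hs2, hs3⟩
  · -- the exchange
    obtain ⟨X1, hX1⟩ : ∃ X1, X1 = insert g (D.erase y) := ⟨_, rfl⟩
    have hL : IsPack 3 R X1 (N - 1) σ' := by rw [hX1]; exact hL.pack
    have hX1m : ∀ z, z ∈ X1 ↔ z = g ∨ (z ≠ y ∧ z ∈ X ∧ s z < N) := by
      intro z; rw [hX1, Finset.mem_insert, Finset.mem_erase, hDm]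
    have hlt : ∀ z ∈ X1, σ' z < N - 1 := fun z hz => hL.lt z hz
    have hX1X : ∀ z ∈ X1, z ∈ X := by
      intro z hz
      rcases (hX1m z).1 hz with rfl | h4
      · exact hg
      · exact h4.2.1
    have hyX1 : y ∉ X1 := by
      intro h4
      rcases (hX1m y).1 h4 with h5 | h5
      · rw [h5] at hyN; omega
      · exact h5.1 rfl
    have hnot : ∀ z ∈ X, z ∉ X1 → z = y ∨ (z ≠ g ∧ s z = N) := by
      intro z hz hn
      by_cases hzy : z = y
      · exact Or.inl hzy
      · right
        rw [hX1m] at hn
        push Not at hn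
        have h4 := hn.2 hzy hz
        have := h1 z hz
        exact ⟨hn.1, by omega⟩
    refine ⟨fun z => if z ∈ X1 then σ' z + 1 else N, ⟨?_, ?_, ?_⟩, ?_⟩
    · intro z hz
      by_cases h4 : z ∈ X1
      · simp only [h4, if_true]; have := hlt z h4; omega
      · simp only [h4, if_false]; omega
    · intro i hi1 hi2
      by_cases hiN : i = N
      · subst hiN
        rw [← h2 i hi1 hi2]
        have e1 : X.filter (fun x => (if x ∈ X1 then σ' x + 1 else i) = i)
            = insert y ((X.filter (fun x => s x = i)).erase g) := by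
          ext z
          simp only [Finset.mem_filter, Finset.mem_insert, Finset.mem_erase]
          constructor
          · rintro ⟨h4, h5⟩
            by_cases h6 : z ∈ X1
            · rw [if_pos h6] at h5; have := hlt z h6; omega
            · rcases hnot z h4 h6 with h7 | h7
              · exact Or.inl h7
              · exact Or.inr ⟨h7.1, h4, h7.2⟩
          · rintro (h4 | ⟨h4, h5, h6⟩)
            · subst h4; exact ⟨hy, by rw [if_neg hyX1]⟩
            · refine ⟨h5, ?_⟩
              have h7 : z ∉ X1 := by
                intro h8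
                rcases (hX1m z).1 h8 with h9 | h9
                · exact h4 h9
                · omega
              rw [if_neg h7]
        rw [e1, Finset.card_insert_of_notMem, Finset.card_erase_of_mem]
        · have : 0 < (X.filter (fun z => s z = i)).card :=
            Finset.card_pos.2 ⟨g, Finset.mem_filter.2 ⟨hg, hgN⟩⟩
          omega
        · exact Finset.mem_filter.2 ⟨hg, hgN⟩
        · intro h4
          have := (Finset.mem_filter.1 (Finset.mem_of_mem_erase h4)).2
          omega
      · have h4 := hL.card (i - 1) (by omega)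
        rw [← h4]
        congr 1
        ext z
        simp only [Finset.mem_filter]
        constructor
        · rintro ⟨h5, h6⟩
          by_cases h7 : z ∈ X1
          · simp only [h7, if_true] at h6; exact ⟨h7, by omega⟩
          · simp only [h7, if_false] at h6; exact absurd h6.symm hiN
        · rintro ⟨h5, h6⟩
          refine ⟨hX1X z h5, ?_⟩
          simp only [h5, if_true]; omega
    · intro a ha b hb hab
      by_cases h4 : a ∈ X1 <;> by_cases h5 : b ∈ X1
      · simp only [h4, h5, if_true]
        have := hL.mono a h4 b h5 hab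
        omega
      · simp only [h4, h5, if_true, if_false]
        have := hlt a h4
        omega
      · exfalso
        rcases hnot a ha h4 with h6 | h6
        · rw [h6] at hab; exact hymax b hb hab
        · have h7 := h3 a ha b hb hab
          have := h1 b hb
          omega
      · exfalso
        rcases hnot a ha h4 with h6 | h6
        · rw [h6] at hab; exact hymax b hb hab
        · have h7 := h3 a ha b hb hab
          have := h1 b hb
          omega
    · ext z
      simp only [Finset.mem_filter, Finset.mem_insert, Finset.mem_erase]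
      constructor
      · rintro ⟨h4, h5⟩
        by_cases h6 : z ∈ X1
        · rw [if_pos h6] at h5; have := hlt z h6; omega
        · rcases hnot z h4 h6 with h7 | h7
          · exact Or.inl h7
          · exact Or.inr ⟨h7.1, h4, h7.2⟩
      · rintro (h4 | ⟨h4, h5, h6⟩)
        · subst h4; exact ⟨hy, by rw [if_neg hyX1]⟩
        · refine ⟨h5, ?_⟩
          have h7 : z ∉ X1 := by
            intro h8
            rcases (hX1m z).1 h8 with h9 | h9
            · exact h4 h9
            · omega
          rw [if_neg h7]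
  · exfalso
    have hs1' : s y - 1 < s0 := hs1
    have hwin : ∀ n, ∀ x ∈ X, s x = n → s0 < s x → s x < N → ∃ w ∈ X, s w = s0 ∧ R w x := by
      intro n
      induction n using Nat.strong_induction_on with
      | _ n ih =>
        intro x hx hxn hx1 hx2
        obtain ⟨z, hz, hzx, hsz⟩ := hs3 x (Or.inr ⟨(hDm x).2 ⟨hx, hx2⟩, trivial, by
          show s0 ≤ s x - 1
          omega⟩)
        have h4 := (hDm z).1 hz
        have h5 := h1 z h4.1
        have hsz' : s0 ≤ s z - 1 + 1 := hsz
        have h6 := h3 z h4.1 x hx hzx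
        by_cases h7 : s z = s0
        · exact ⟨z, h4.1, h7, hzx⟩
        · obtain ⟨w, hw, hw1, hw2⟩ := ih (s z) (by omega) z h4.1 rfl (by omega) h4.2
          exact ⟨w, hw, hw1, htr w z x hw2 hzx⟩
    obtain ⟨z, hz, hzg, hsz⟩ := hs3 g (Or.inl rfl)
    have h4 := (hDm z).1 hz
    have h5 := h1 z h4.1
    have hsz' : s0 ≤ s z - 1 + 1 := hsz
    have hf := hfree s0 (by omega) (by omega) (fun x hx h6 h7 => hwin (s x) x hx rfl h6 h7)
    by_cases h7 : s z = s0
    · exact hf z h4.1 h7 hzg
    · obtain ⟨w, hw, hw1, hw2⟩ := hwin (s z) z h4.1 rfl (by omega) h4.2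
      exact hf w hw hw1 (htr w z g hw2 hzg)

end Crest.Agent.R286.ExchE
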