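import Crest.Agent.R286.RDefs

/-!
Row 286, node R2 (helper327): levels of the described sets.
-/

set_option autoImplicit false

namespace Crest.Agent.R286.RD

open Crest.Agent.R286

variable {α : Type}

/-- closure rules of a graded family -/
structure Graded (K : ℕ → Set α → Prop) : Prop where
  mono : ∀ i A, K i A → K (i + 1) A
  nand : ∀ i A B, K i A → K i B → K (i + 1) (A ∩ B)ᶜ
  univ : K 0 Set.univ

theorem Graded.le {K : ℕ → Set α → Prop} (h : Graded K) {i j : ℕ} (hij : i ≤ j) {A : Set α}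
    (hA : K i A) : K j A := by
  induction hij with
  | refl => exact hA
  | step _ ih => exact h.mono _ _ ih

theorem Graded.compl {K : ℕ → Set α → Prop} (h : Graded K) {i : ℕ} {A : Set α}
    (hA : K i A) : K (i + 1) Aᶜ := by
  have := h.nand i A A hA hA
  rwa [Set.inter_self] at this

theorem Graded.inter {K : ℕ → Set α → Prop} (h : Graded K) {i : ℕ} {A B : Set α}
    (hA : K i A) (hB : K i B) : K (i + 2) (A ∩ B) := by
  have := h.compl (h.nand i A B hA hB)
  rwa [compl_compl] at this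

theorem Graded.union {K : ℕ → Set α → Prop} (h : Graded K) {i : ℕ} {A B : Set α}
    (hA : K i A) (hB : K i B) : K (i + 2) (A ∪ B) := by
  have := h.nand (i + 1) Aᶜ Bᶜ (h.compl hA) (h.compl hB)
  rwa [Set.compl_inter, compl_compl, compl_compl] at this

theorem Graded.diff {K : ℕ → Set α → Prop} (h : Graded K) {i : ℕ} {A B : Set α}
    (hA : K (i + 1) A) (hB : K i B) : K (i + 3) (A \ B) := by
  rw [Set.sdiff_eq]
  exact h.inter hA (h.compl hB)

/-- the described sets of `lt`, `nu` and of the dual order with `nu'` -/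
structure Atm (K : ℕ → Set α → Prop) (lt : α → α → Prop) (nu nu' : α → ℕ) : Prop where
  up : ∀ C : Finset α, C.card ≤ 3 → K 4 (up lt C)
  dn : ∀ C : Finset α, C.card ≤ 3 → K 4 (dn lt C)
  tri : ∀ C : Finset α, C.card ≤ 3 → K 4 C
  st : ∀ S, Desc lt nu S → K 6 S
  st' : ∀ S, Desc (fun a b => lt b a) nu' S → K 6 S

theorem Atm.flip {K : ℕ → Set α → Prop} {lt : α → α → Prop} {nu nu' : α → ℕ}
    (h : Atm K lt nu nu') : Atm K (fun a b => lt b a) nu' nu :=
  ⟨h.dn, h.up, h.tri, h.st', h.st⟩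

/-! ### the family `Fam` -/

theorem graded_fam (lt : α → α → Prop) (nu : α → ℕ) : Graded (Fam lt nu) :=
  ⟨fun _ _ h => .mono h, fun _ _ _ h1 h2 => .nand h1 h2, .univ⟩

theorem triple_cases [DecidableEq α] (C : Finset α) (hC : C.card ≤ 3) :
    C = ∅ ∨ ∃ a b c : α, C = {a, b, c} := by
  have h4 : C.card = 0 ∨ C.card = 1 ∨ C.card = 2 ∨ C.card = 3 := by omega
  rcases h4 with h | h | h | h
  · exact Or.inl (Finset.card_eq_zero.1 h)
  · obtain ⟨a, rfl⟩ := Finset.card_eq_one.1 h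
    exact Or.inr ⟨a, a, a, by simp⟩
  · obtain ⟨a, b, _, rfl⟩ := Finset.card_eq_two.1 h
    exact Or.inr ⟨a, b, b, by simp⟩
  · obtain ⟨a, b, c, _, _, _, rfl⟩ := Finset.card_eq_three.1 h
    exact Or.inr ⟨a, b, c, rfl⟩

theorem three_union {K : ℕ → Set α → Prop} (hG : Graded K) {A B C : Set α}
    (hA : K 0 A) (hB : K 0 B) (hC : K 0 C) : K 4 (A ∪ B ∪ C) :=
  hG.union (hG.union hA hB) (hG.le (by omega) hC)

theorem fam_up (lt : α → α → Prop) (nu : α → ℕ) (C : Finset α) (hC : C.card ≤ 3) :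
    Fam lt nu 4 (up lt C) := by
  classical
  have hG := graded_fam lt nu
  rcases triple_cases C hC with rfl | ⟨a, b, c, rfl⟩
  · have : up lt ((∅ : Finset α) : Set α) = ∅ := by ext z; simp [up]
    rw [this]
    exact hG.le (by omega) Fam.empty
  · have : up lt (({a, b, c} : Finset α) : Set α) =
        {z | lt a z} ∪ {z | lt b z} ∪ {z | lt c z} := by
      ext z; simp [up, or_assoc]
    rw [this]
    exact three_union hG (.up a) (.up b) (.up c)

theorem fam_dn (lt : α → α → Prop) (nu : α → ℕ) (C : Finset α) (hC : C.card ≤ 3) :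
    Fam lt nu 4 (dn lt C) := by
  classical
  have hG := graded_fam lt nu
  rcases triple_cases C hC with rfl | ⟨a, b, c, rfl⟩
  · have : dn lt ((∅ : Finset α) : Set α) = ∅ := by ext z; simp [dn]
    rw [this]
    exact hG.le (by omega) Fam.empty
  · have : dn lt (({a, b, c} : Finset α) : Set α) =
        {z | lt z a} ∪ {z | lt z b} ∪ {z | lt z c} := by
      ext z; simp [dn, or_assoc]
    rw [this]
    exact three_union hG (.down a) (.down b) (.down c)

theorem fam_tri (lt : α → α → Prop) (nu : α → ℕ) (C : Finset α) (hC : C.card ≤ 3) :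
    Fam lt nu 4 (C : Set α) := by
  classical
  have hG := graded_fam lt nu
  rcases triple_cases C hC with rfl | ⟨a, b, c, rfl⟩
  · simpa using hG.le (show 0 ≤ 4 by omega) Fam.empty
  · have : (({a, b, c} : Finset α) : Set α) = {a} ∪ {b} ∪ {c} := by
      ext z
      simp only [Finset.coe_insert, Finset.coe_singleton, Set.mem_insert_iff,
        Set.mem_singleton_iff, Set.mem_union, or_assoc]
    rw [this]
    exact three_union hG (.single a) (.single b) (.single c)

/-- staircases have level 6 when frames and prefixes have level 2 -/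
theorem stair_level {K : ℕ → Set α → Prop} (hG : Graded K) {R : α → α → Prop} {mu : α → ℕ}
    (hF : ∀ F, Frame R F → K 2 F) (hE : ∀ a : ℕ, K 2 {z | mu z < a}) (S : Set α)
    (hS : Desc R mu S) : K 6 S := by
  obtain ⟨F0, F1, F2, h0, h1, h2, a0, a1, a2, rfl⟩ := hS
  have n0 := hG.nand 2 _ _ (hF _ h0) (hE a0)
  have n1 := hG.nand 2 _ _ (hF _ h1) (hE a1)
  have n2 := hG.nand 2 _ _ (hF _ h2) (hE a2)
  have u := hG.compl (hG.nand 3 _ _ n0 n1)
  have := hG.nand 5 _ _ u (hG.le (show 3 ≤ 5 by omega) n2)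
  convert this using 1
  ext z
  simp only [Set.mem_ofPred_eq, Set.mem_compl_iff, Set.mem_inter_iff, not_and]
  tauto

theorem fam_frame (lt : α → α → Prop) (nu : α → ℕ) (F : Set α) (hF : Frame lt F) :
    Fam lt nu 2 F := by
  have hG := graded_fam lt nu
  rcases hF with rfl | ⟨b, c, rfl⟩
  · exact hG.le (by omega) Fam.univ
  · have := hG.union (Fam.down (lt := lt) (nu := nu) b) (.down c)
    exact this

theorem fam_frame' (lt : α → α → Prop) (nu : α → ℕ) (F : Set α)
    (hF : Frame (fun a b => lt b a) F) : Fam lt nu 2 F := by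
  have hG := graded_fam lt nu
  rcases hF with rfl | ⟨b, c, rfl⟩
  · exact hG.le (by omega) Fam.univ
  · have := hG.union (Fam.up (lt := lt) (nu := nu) b) (.up c)
    exact this

theorem atm_fam (lt : α → α → Prop) (nu : α → ℕ) (M : ℕ) (hM : ∀ z, nu z ≤ M) :
    Atm (Fam lt nu) lt nu (fun z => M - nu z) where
  up := fam_up lt nu
  dn := fam_dn lt nu
  tri := fam_tri lt nu
  st := stair_level (graded_fam lt nu) (fam_frame lt nu)
    (fun a => (graded_fam lt nu).le (by omega) (Fam.pre a))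
  st' := stair_level (graded_fam lt nu) (fam_frame' lt nu) (fun a => by
    have h1 := (graded_fam lt nu).compl (Fam.pre (lt := lt) (nu := nu) (M + 1 - a))
    have h2 : ({z | nu z < M + 1 - a} : Set α)ᶜ = {z | M - nu z < a} := by
      ext z
      have := hM z
      simp only [Set.mem_compl_iff, Set.mem_ofPred_eq]
      omega
    rw [h2] at h1
    exact (graded_fam lt nu).le (by omega) h1)

/-! ### contexts -/

/-- V-contexts -/
def VC (lt : α → α → Prop) (nu' : α → ℕ) (X : Set α) : Prop :=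
  ∃ Q Q' G : Set α, X = Q ∩ (Q' ∩ G) ∧
    (Q = Set.univ ∨ ∃ C : Finset α, C.card = 3 ∧ Q = dn lt C) ∧
    (Q' = Set.univ ∨ ∃ C : Finset α, C.card = 3 ∧ Q' = up lt C) ∧
    (G = Set.univ ∨ ∃ S, Desc (fun a b => lt b a) nu' S ∧ ∃ T : Finset α, T.card = 3 ∧
      G = S \ (dn lt T ∪ T))

section
variable {lt : α → α → Prop} {nu nu' : α → ℕ} {K : ℕ → Set α → Prop}

theorem lev_Q (hG : Graded K) (hA : Atm K lt nu nu') {Q : Set α}
    (h : Q = Set.univ ∨ ∃ C : Finset α, C.card = 3 ∧ Q = dn lt C) : K 4 Q := by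
  rcases h with rfl | ⟨C, hC, rfl⟩
  · exact hG.le (by omega) hG.univ
  · exact hA.dn C hC.le

theorem lev_Q' (hG : Graded K) (hA : Atm K lt nu nu') {Q : Set α}
    (h : Q = Set.univ ∨ ∃ C : Finset α, C.card = 3 ∧ Q = up lt C) : K 4 Q := by
  rcases h with rfl | ⟨C, hC, rfl⟩
  · exact hG.le (by omega) hG.univ
  · exact hA.up C hC.le

theorem lev_diff (hG : Graded K) (hA : Atm K lt nu nu') {S : Set α} (hS : K 6 S) {C : Finset α}
    (hC : C.card = 3) : K 9 (S \ (up lt C ∪ C)) := by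
  have h1 : K 6 (up lt C ∪ C) := hG.union (hA.up C hC.le) (hA.tri C hC.le)
  exact hG.diff (hG.mono _ _ hS) h1

theorem lev_diff' (hG : Graded K) (hA : Atm K lt nu nu') {S : Set α} (hS : K 6 S) {C : Finset α}
    (hC : C.card = 3) : K 8 (S \ up lt C) := by
  exact hG.diff (i := 5) hS (hG.mono _ _ (hA.up C hC.le))

theorem lev_VC (hG : Graded K) (hA : Atm K lt nu nu') {X : Set α} (hX : VC lt nu' X) : K 11 X := by
  obtain ⟨Q, Q', G, rfl, hQ, hQ', hG'⟩ := hX
  have h1 : K 6 (Q ∩ Q') := hG.inter (lev_Q hG hA hQ) (lev_Q' hG hA hQ')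
  have h2 : K 9 G := by
    rcases hG' with rfl | ⟨S, hS, T, hT, rfl⟩
    · exact hG.le (by omega) hG.univ
    · exact lev_diff hG hA.flip (hA.st' S hS) hT
  rw [← Set.inter_assoc]
  exact hG.inter (hG.le (by omega) h1) h2

theorem lev_cut (hG : Graded K) (hA : Atm K lt nu nu') {X : Set α} (hX : VC lt nu' X)
    {S : Set α} (hS : Desc lt nu S) {C : Finset α} (hC : C.card = 3) :
    K 13 (X ∩ (S \ up lt C)) :=
  hG.inter (lev_VC hG hA hX) (hG.le (by omega) (lev_diff' hG hA (hA.st S hS) hC))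

theorem lev_cut' (hG : Graded K) (hA : Atm K lt nu nu') {X : Set α} (hX : VC lt nu' X)
    {S : Set α} (hS : Desc lt nu S) {C : Finset α} (hC : C.card = 3) :
    K 13 (X ∩ (S \ (up lt C ∪ C))) :=
  hG.inter (lev_VC hG hA hX) (hG.le (by omega) (lev_diff hG hA (hA.st S hS) hC))

theorem lev_win (hG : Graded K) (hA : Atm K lt nu nu') {Q : Set α}
    (hQ : Q = Set.univ ∨ ∃ C : Finset α, C.card = 3 ∧ Q = dn lt C)
    {S : Set α} (hS : Desc lt nu S) {C D : Finset α} (hC : C.card = 3) (hD : D.card = 3) :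
    K 13 (Win lt Q S C D) := by
  have h1 : K 6 (up lt C ∩ Q) := hG.inter (hA.up C hC.le) (lev_Q hG hA hQ)
  have h2 := lev_diff hG hA (hA.st S hS) hD
  unfold Win
  rw [← Set.inter_assoc]
  exact hG.le (show 11 ≤ 13 by omega) (hG.inter (hG.le (by omega) h1) h2)

theorem lev_last (hG : Graded K) (hA : Atm K lt nu nu') {Q : Set α}
    (hQ : Q = Set.univ ∨ ∃ C : Finset α, C.card = 3 ∧ Q = dn lt C)
    {C : Finset α} (hC : C.card = 3) : K 13 (up lt C ∩ Q) :=
  hG.le (show 6 ≤ 13 by omega) (hG.inter (hA.up C hC.le) (lev_Q hG hA hQ))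

/-! ### closure under the order -/

theorem up_closed (htr : ∀ a b c, lt a b → lt b c → lt a c) (C : Set α) {a b : α} (h : lt a b)
    (ha : a ∈ up lt C) : b ∈ up lt C := by
  obtain ⟨c, hc, hca⟩ := ha
  exact ⟨c, hc, htr _ _ _ hca h⟩

theorem frame_down (htr : ∀ a b c, lt a b → lt b c → lt a c) {F : Set α} (hF : Frame lt F)
    {a b : α} (h : lt a b) (hb : b ∈ F) : a ∈ F := by
  rcases hF with rfl | ⟨p, q, rfl⟩
  · trivial
  · rcases hb with hb | hb
    · exact Or.inl (htr _ _ _ h hb)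
    · exact Or.inr (htr _ _ _ h hb)

theorem desc_down (htr : ∀ a b c, lt a b → lt b c → lt a c) (hnu : ∀ a b, lt a b → nu a < nu b)
    {S : Set α} (hS : Desc lt nu S) {a b : α} (h : lt a b) (hb : b ∈ S) : a ∈ S := by
  obtain ⟨F0, F1, F2, h0, h1, h2, a0, a1, a2, rfl⟩ := hS
  have := hnu a b h
  rcases hb with ⟨hb, hb'⟩ | ⟨hb, hb'⟩ | ⟨hb, hb'⟩
  · exact Or.inl ⟨frame_down htr h0 h hb, by omega⟩
  · exact Or.inr (Or.inl ⟨frame_down htr h1 h hb, by omega⟩)
  · exact Or.inr (Or.inr ⟨frame_down htr h2 h hb, by omega⟩)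

theorem VC_L_up (htr : ∀ a b c, lt a b → lt b c → lt a c) (hnu' : ∀ a b, lt a b → nu' b < nu' a)
    {Q' G : Set α} (hQ' : Q' = Set.univ ∨ ∃ C : Finset α, C.card = 3 ∧ Q' = up lt C)
    (hG : G = Set.univ ∨ ∃ S, Desc (fun a b => lt b a) nu' S ∧ ∃ T : Finset α, T.card = 3 ∧
      G = S \ (dn lt T ∪ T)) {a b : α} (h : lt a b) (ha : a ∈ Q' ∩ G) : b ∈ Q' ∩ G := by
  refine ⟨?_, ?_⟩
  · rcases hQ' with rfl | ⟨C, _, rfl⟩
    · trivial
    · exact up_closed htr _ h ha.1
  · rcases hG with rfl | ⟨S, hS, T, _, rfl⟩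
    · trivial
    · refine ⟨desc_down (lt := fun a b => lt b a) (fun a b c h1 h2 => htr _ _ _ h2 h1)
        (fun a b h => hnu' _ _ h) hS h ha.2.1, fun hb => ha.2.2 ?_⟩
      rcases hb with ⟨c, hc, hbc⟩ | hb
      · exact Or.inl ⟨c, hc, htr _ _ _ h hbc⟩
      · exact Or.inl ⟨b, hb, h⟩

end

end Crest.Agent.R286.RD
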