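import Crest.Agent.R286.TFIter
import Crest.Agent.R286.Algo

/-!
# Row 286: sizes of the family of described sets
-/

set_option autoImplicit false
set_option linter.dupNamespace false

namespace Crest.Agent.R286.FamSize

open Crest.Agent.R286 Crest.Agent.Lib.PT

section gen

variable {α : Type} [PTCode α]

theorem sz_nil : sz ([] : List α) = 0 := rfl

theorem sz_cons (a : α) (l : List α) : sz (a :: l) = 2 * sz a + 1 + sz l := by
  simp [sz]

theorem sz_append (l l' : List α) : sz (l ++ l') = sz l + sz l' := by
  induction l with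
  | nil => simp [sz_nil]
  | cons a l ih => rw [List.cons_append, sz_cons, sz_cons, ih]; omega

theorem length_le_sz (l : List α) : l.length ≤ sz l := by
  induction l with
  | nil => simp
  | cons a l ih => rw [List.length_cons, sz_cons]; omega

theorem sz_mem_le {l : List α} {a : α} (h : a ∈ l) : 2 * sz a + 1 ≤ sz l := by
  induction l with
  | nil => simp at h
  | cons b l ih =>
    rw [sz_cons]
    rcases List.mem_cons.1 h with rfl | h
    · omega
    · have := ih h; omega

theorem sz_sublist {l l' : List α} (h : l.Sublist l') : sz l ≤ sz l' := by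
  induction h with
  | slnil => exact le_rfl
  | cons a _ ih => rw [sz_cons]; omega
  | cons_cons a _ ih => rw [sz_cons, sz_cons]; omega

theorem sz_le_of_mem {l : List α} {m : ℕ} (h : ∀ a ∈ l, sz a ≤ m) :
    sz l ≤ l.length * (2 * m + 1) := by
  induction l with
  | nil => simp [sz_nil]
  | cons a l ih =>
    rw [sz_cons, List.length_cons, Nat.add_mul, Nat.one_mul]
    have h1 := h a List.mem_cons_self
    have h2 := ih (fun b hb => h b (List.mem_cons_of_mem _ hb))
    omega

theorem sz_filter_le (p : α → Bool) (l : List α) : sz (l.filter p) ≤ sz l :=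
  sz_sublist List.filter_sublist

end gen

/-! ### members of the family are sublists of `J` -/

theorem mem_fam0_sublist {J : List ℕ} {R : Rel} {A : List ℕ} (h : A ∈ fam0 J R) :
    A.Sublist J := by
  simp only [fam0, List.mem_cons, List.mem_append, List.mem_map] at h
  rcases h with rfl | rfl | ⟨a, ha, rfl⟩ | ⟨a, ha, rfl⟩ | ⟨a, ha, rfl⟩ | ⟨a, ha, rfl⟩
  · exact List.nil_sublist _
  · exact List.Sublist.refl _
  · exact List.singleton_sublist.2 ha
  · exact List.filter_sublist
  · exact List.filter_sublist
  · exact List.takeWhile_sublist _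

theorem mem_famStep_sublist {J : List ℕ} {R : Rel} {F : List (List ℕ)}
    (hF : ∀ A ∈ F, A.Sublist J) {A : List ℕ} (h : A ∈ famStep J R F) : A.Sublist J := by
  simp only [famStep, List.mem_append, List.mem_flatMap, List.mem_map] at h
  rcases h with h | ⟨B, _, C, _, rfl⟩ | ⟨B, _, rfl⟩ | ⟨B, _, rfl⟩
  · exact hF A h
  · exact List.filter_sublist
  · exact List.filter_sublist
  · exact List.filter_sublist

theorem mem_fam_sublist (J : List ℕ) (R : Rel) : ∀ (d : ℕ) {A : List ℕ}, A ∈ fam d J R →
    A.Sublist J := by
  intro d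
  induction d with
  | zero => intro A h; exact mem_fam0_sublist h
  | succ d ih => intro A h; exact mem_famStep_sublist (fun A hA => ih hA) h

/-! ### lengths -/

theorem length_fam0 (J : List ℕ) (R : Rel) : (fam0 J R).length = 4 * J.length + 2 := by
  simp only [fam0, List.length_cons, List.length_append, List.length_map]
  omega

theorem length_famStep (J : List ℕ) (R : Rel) (F : List (List ℕ)) :
    (famStep J R F).length = F.length * F.length + 3 * F.length := by
  simp only [famStep, List.length_append, List.length_map, List.length_flatMap, List.map_const',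
    List.sum_replicate, smul_eq_mul]
  omega

theorem length_fam (J : List ℕ) (R : Rel) (d : ℕ) :
    (fam d J R).length + 3 ≤ (5 * (J.length + 1)) ^ (2 ^ d) := by
  induction d with
  | zero => simp only [fam, length_fam0, pow_zero, pow_one]; omega
  | succ d ih =>
    simp only [fam, length_famStep]
    rw [pow_succ 2 d, pow_mul]
    have h1 := Nat.pow_le_pow_left ih 2
    refine le_trans ?_ h1
    nlinarith [Nat.zero_le (fam d J R).length]

theorem length_fam_le (J : List ℕ) (R : Rel) (d : ℕ) :
    (fam d J R).length ≤ 5 ^ (2 ^ d) * (J.length + 1) ^ (2 ^ d) := by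
  have := length_fam J R d
  rw [mul_pow] at this
  omega

theorem sz_fam (J : List ℕ) (R : Rel) (d : ℕ) :
    sz (fam d J R) ≤ 2 * 5 ^ (2 ^ d) * ((J.length + 1) ^ (2 ^ d) * (sz J + 1)) := by
  have h1 : sz (fam d J R) ≤ (fam d J R).length * (2 * sz J + 1) :=
    sz_le_of_mem (fun A hA => sz_sublist (mem_fam_sublist J R d hA))
  refine h1.trans ?_
  calc (fam d J R).length * (2 * sz J + 1)
      ≤ (5 ^ (2 ^ d) * (J.length + 1) ^ (2 ^ d)) * (2 * (sz J + 1)) :=
        Nat.mul_le_mul (length_fam_le J R d) (by omega)
    _ = _ := by ring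

theorem sz_fam' (J : List ℕ) (R : Rel) (d : ℕ) :
    sz (fam d J R) ≤ 2 * 5 ^ (2 ^ d) * (sz J + 1) ^ (2 ^ d + 1) := by
  refine (sz_fam J R d).trans (Nat.mul_le_mul_left _ ?_)
  rw [pow_succ (sz J + 1)]
  exact Nat.mul_le_mul_right _ (Nat.pow_le_pow_left (by have := length_le_sz J; omega) _)

theorem GF_fam (d : ℕ) : GF (2 ^ d + 1) (fun p : List ℕ × Rel => fam d p.1 p.2) := by
  refine ⟨2 * 5 ^ (2 ^ d), fun p => (sz_fam' p.1 p.2 d).trans (Nat.mul_le_mul_left _ ?_)⟩
  refine Nat.pow_le_pow_left ?_ _
  rw [sz_prod]
  omega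

end Crest.Agent.R286.FamSize
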