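import Crest.Agent.R286.FillDefs

/-!
# Row 286, P3: fillers, least number of slots, optimality
-/

set_option autoImplicit false
set_option linter.dupNamespace false

namespace Crest.Agent.R286.Fill

open Crest.Agent.R286

/-! ### the fold over the fillers -/

theorem foldl_fill_some (d : ℕ) (R : Rel) {l : List ℕ} :
    ∀ (s : List ℕ × ℕ × Option (List ℕ)), s.2.2.isSome = true →
      l.foldl (fun s _ => fillStep d R s) s = s := by
  induction l with
  | nil => intro s _; rfl
  | cons a l ih =>
    intro s hs
    have h : fillStep d R s = s := by simp [fillStep, hs]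
    simp only [List.foldl_cons, h]
    exact ih s hs

theorem fill_spec (d : ℕ) (R : Rel) (l : List ℕ) :
    ∀ (J : List ℕ) (m : ℕ),
      (∀ w, (l.foldl (fun s _ => fillStep d R s) (J, m, none)).2.2 = some w →
        ∃ k, k < l.length ∧ solve d (J ++ List.range' m k) R = some w ∧
          ∀ i, i < k → solve d (J ++ List.range' m i) R = none) ∧
      ((l.foldl (fun s _ => fillStep d R s) (J, m, none)).2.2 = none →
        ∀ k, k < l.length → solve d (J ++ List.range' m k) R = none) := by
  induction l with
  | nil =>
    intro J m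
    refine ⟨fun w hw => by simp at hw, fun _ k hk => by simp at hk⟩
  | cons a l ih =>
    intro J m
    have hstep : fillStep d R (J, m, none) = (J ++ [m], m + 1, solve d J R) := by
      simp [fillStep]
    simp only [List.foldl_cons, hstep]
    cases hs : solve d J R with
    | some w0 =>
      have hfix := foldl_fill_some d R (l := l) (J ++ [m], m + 1, some w0) rfl
      rw [hfix]
      refine ⟨fun w hw => ⟨0, by simp, ?_, fun i hi => absurd hi (Nat.not_lt_zero i)⟩,
        fun h => by simp at h⟩
      simp only [Option.some.injEq] at hw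
      simp [hs, hw]
    | none =>
      obtain ⟨h1, h2⟩ := ih (J ++ [m]) (m + 1)
      have happ : ∀ k, J ++ [m] ++ List.range' (m + 1) k = J ++ List.range' m (k + 1) := by
        intro k
        rw [List.append_assoc]
        congr 1
      refine ⟨fun w hw => ?_, fun hn k hk => ?_⟩
      · obtain ⟨k, hk, hk1, hk2⟩ := h1 w hw
        refine ⟨k + 1, by simpa using hk, by rw [← happ]; exact hk1, fun i hi => ?_⟩
        rcases i with _ | i
        · simpa using hs
        · rw [← happ]
          exact hk2 i (by omega)
      · rcases k with _ | k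
        · simpa using hs
        · rw [← happ]
          exact h2 hn k (by simpa using hk)

/-! ### counting -/

theorem filter_length_toFinset {J : List ℕ} (hJ : J.Nodup) (p : ℕ → Prop) [DecidablePred p] :
    (J.filter (fun a => p a)).length = (J.toFinset.filter p).card := by
  rw [← List.toFinset_card_of_nodup (hJ.filter _)]
  congr 1
  ext a
  simp

/-- fillers can be distributed with prescribed fibre sizes -/
theorem exists_fibres (T k : ℕ) (f : ℕ → ℕ) (h : ∑ t ∈ Finset.range T, f t = k) :
    ∃ g : ℕ → ℕ, (∀ j, j < k → g j < T) ∧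
      ∀ t, t < T → ((Finset.range k).filter (fun j => g j = t)).card = f t := by
  classical
  induction T generalizing k with
  | zero =>
    simp only [Finset.range_zero, Finset.sum_empty] at h
    subst h
    exact ⟨fun _ => 0, fun j hj => absurd hj (Nat.not_lt_zero j), fun t ht => absurd ht (Nat.not_lt_zero t)⟩
  | succ T ih =>
    rw [Finset.sum_range_succ] at h
    obtain ⟨g, hg1, hg2⟩ := ih (∑ t ∈ Finset.range T, f t) rfl
    set k' := ∑ t ∈ Finset.range T, f t with hk'
    refine ⟨fun j => if j < k' then g j else T, fun j hj => ?_, fun t ht => ?_⟩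
    · by_cases h1 : j < k'
      · simp only [h1, if_true]
        exact (hg1 j h1).trans (Nat.lt_succ_self T)
      · simp [h1]
    · rcases Nat.lt_succ_iff_lt_or_eq.mp ht with ht | rfl
      · rw [← hg2 t ht]
        congr 1
        ext j
        simp only [Finset.mem_filter, Finset.mem_range]
        constructor
        · rintro ⟨hj, hj2⟩
          by_cases h1 : j < k'
          · simp only [h1, if_true] at hj2
            exact ⟨h1, hj2⟩
          · simp only [h1, if_false] at hj2
            omega
        · rintro ⟨h1, hj2⟩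
          refine ⟨by omega, by simp [h1, hj2]⟩
      · have : ((Finset.range k).filter (fun j => (if j < k' then g j else t) = t)) =
            (Finset.range k) \ (Finset.range k') := by
          ext j
          simp only [Finset.mem_filter, Finset.mem_range, Finset.mem_sdiff]
          constructor
          · rintro ⟨hj, hj2⟩
            refine ⟨hj, fun h1 => ?_⟩
            simp only [h1, if_true] at hj2
            have := hg1 j h1
            omega
          · rintro ⟨hj, hj2⟩
            exact ⟨hj, by simp [hj2]⟩
        rw [this, Finset.card_sdiff_of_subset (by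
          intro x hx
          rw [Finset.mem_range] at hx ⊢
          omega)]
        simp only [Finset.card_range]
        omega

/-- jobs of a schedule, shifted slots -/
theorem exists_packing_of_schedule {n : ℕ} {E : Fin n → Fin n → Bool} {τ : Fin n → ℕ}
    (hτ : Crest.Sched3.IsSchedule E τ) {T k : ℕ} (hT : ∀ v, τ v ≤ T) (hk : n + k = 3 * T)
    {J : List ℕ} (hJ : J.Perm (List.range n)) {R : Rel}
    (hR : ∀ u v, (u, v) ∈ R ↔ ∃ (hu : u < n) (hv : v < n),
      Relation.TransGen (fun a b => E a b = true) ⟨u, hu⟩ ⟨v, hv⟩) :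
    HasPk (J ++ List.range' n k) R := by
  classical
  obtain ⟨h1, h2, h3⟩ := hτ
  set c : ℕ → ℕ := fun t => (Finset.univ.filter fun v : Fin n => τ v = t + 1).card with hc
  have hc3 : ∀ t, c t ≤ 3 := fun t => h2 (t + 1)
  have hsumc : ∑ t ∈ Finset.range T, c t = n := by
    have := Finset.card_eq_sum_card_fiberwise (s := (Finset.univ : Finset (Fin n)))
      (t := Finset.range T) (f := fun v => τ v - 1) (by
        intro v _
        have := h1 v
        have := hT v
        simp only [Finset.coe_range, Set.mem_Iio]
        omega)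
    rw [Finset.card_univ, Fintype.card_fin] at this
    rw [this]
    refine Finset.sum_congr rfl fun t ht => ?_
    simp only [hc]
    congr 1
    ext v
    have := h1 v
    simp only [Finset.mem_filter, Finset.mem_univ, true_and]
    omega
  have hsumf : ∑ t ∈ Finset.range T, (3 - c t) = k := by
    have h4 : ∑ t ∈ Finset.range T, (3 - c t) + ∑ t ∈ Finset.range T, c t = 3 * T := by
      rw [← Finset.sum_add_distrib]
      rw [Finset.sum_congr rfl (fun t _ => Nat.sub_add_cancel (hc3 t))]
      simp [mul_comm]
    omega
  obtain ⟨g, hg1, hg2⟩ := exists_fibres T k (fun t => 3 - c t) hsumf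
  set s : ℕ → ℕ := fun a => if h : a < n then τ ⟨a, h⟩ - 1 else g (a - n) with hs
  have hJn : J.Nodup := hJ.nodup_iff.mpr List.nodup_range
  have hJm : ∀ a, a ∈ J ↔ a < n := fun a => by rw [hJ.mem_iff, List.mem_range]
  have hnd : (J ++ List.range' n k).Nodup := by
    rw [List.nodup_append]
    refine ⟨hJn, List.nodup_range', fun a ha b hb hab => ?_⟩
    rw [hJm] at ha
    rw [List.mem_range'_1] at hb
    omega
  refine ⟨T, s, fun a ha => ?_, fun t ht => ?_, fun a ha b hb hab => ?_⟩
  · rw [List.mem_append, hJm, List.mem_range'_1] at ha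
    by_cases h : a < n
    · have := h1 ⟨a, h⟩
      have := hT ⟨a, h⟩
      simp only [hs, h, dif_pos]
      omega
    · simp only [hs, h, dif_neg, not_false_eq_true]
      exact hg1 _ (by omega)
  · rw [List.filter_append, List.length_append, filter_length_toFinset hJn (fun a => s a = t),
      filter_length_toFinset List.nodup_range' (fun a => s a = t)]
    have e1 : (J.toFinset.filter fun a => s a = t).card = c t := by
      simp only [hc]
      symm
      refine Finset.card_bij (fun (v : Fin n) _ => (v : ℕ)) ?_ ?_ ?_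
      · intro v hv
        simp only [Finset.mem_filter, Finset.mem_univ, true_and] at hv
        simp only [Finset.mem_filter, List.mem_toFinset, hJm, v.isLt, true_and, hs, dif_pos,
          Fin.eta, hv]
        omega
      · intro v _ w _ h
        exact Fin.ext h
      · intro a ha
        simp only [Finset.mem_filter, List.mem_toFinset, hJm] at ha
        obtain ⟨ha1, ha2⟩ := ha
        simp only [hs, ha1, dif_pos] at ha2
        refine ⟨⟨a, ha1⟩, ?_, rfl⟩
        have := h1 ⟨a, ha1⟩
        simp only [Finset.mem_filter, Finset.mem_univ, true_and]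
        omega
    have e2 : ((List.range' n k).toFinset.filter fun a => s a = t).card = 3 - c t := by
      rw [← hg2 t ht]
      symm
      refine Finset.card_bij (fun j _ => n + j) ?_ ?_ ?_
      · intro j hj
        simp only [Finset.mem_filter, Finset.mem_range] at hj
        simp only [Finset.mem_filter, List.mem_toFinset, List.mem_range'_1, hs]
        refine ⟨⟨by omega, by omega⟩, ?_⟩
        rw [dif_neg (by omega), Nat.add_sub_cancel_left]
        exact hj.2
      · intro i _ j _ h
        exact Nat.add_left_cancel h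
      · intro a ha
        simp only [Finset.mem_filter, List.mem_toFinset, List.mem_range'_1] at ha
        obtain ⟨⟨ha1, ha2⟩, ha3⟩ := ha
        refine ⟨a - n, ?_, by omega⟩
        simp only [hs] at ha3
        rw [dif_neg (by omega)] at ha3
        simp only [Finset.mem_filter, Finset.mem_range]
        exact ⟨by omega, ha3⟩
    rw [e1, e2]
    have := hc3 t
    omega
  · obtain ⟨hu, hv, huv⟩ := (hR a b).mp hab
    have key : ∀ x y : Fin n, Relation.TransGen (fun a b => E a b = true) x y → τ x < τ y := by
      intro x y h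
      induction h with
      | single h => exact h3 _ _ h
      | tail _ h ih => exact ih.trans (h3 _ _ h)
    have := key _ _ huv
    have := h1 ⟨a, hu⟩
    simp only [hs, hu, hv, dif_pos]
    omega

/-! ### order -/

theorem ord_append {n : ℕ} {E : Fin n → Fin n → Bool} (hE : Crest.Sched3.Acyclic E)
    {J : List ℕ} (hJ : J.Perm (List.range n)) {R : Rel}
    (hR : ∀ u v, (u, v) ∈ R ↔ ∃ (hu : u < n) (hv : v < n),
      Relation.TransGen (fun a b => E a b = true) ⟨u, hu⟩ ⟨v, hv⟩)
    (hp : J.Pairwise (fun a b => (b, a) ∉ R)) (k : ℕ) : Ord (J ++ List.range' n k) R := by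
  have hJn : J.Nodup := hJ.nodup_iff.mpr List.nodup_range
  have hJm : ∀ a, a ∈ J ↔ a < n := fun a => by rw [hJ.mem_iff, List.mem_range]
  refine ⟨?_, fun a b c hab hbc => ?_, fun a ha => ?_, ?_⟩
  · rw [List.nodup_append]
    refine ⟨hJn, List.nodup_range', fun a ha b hb hab => ?_⟩
    rw [hJm] at ha
    rw [List.mem_range'_1] at hb
    omega
  · rw [hR] at hab hbc ⊢
    obtain ⟨ha, hb, h1⟩ := hab
    obtain ⟨_, hc, h2⟩ := hbc
    exact ⟨ha, hc, h1.trans h2⟩
  · rw [hR] at ha
    obtain ⟨h1, _, h2⟩ := ha
    exact hE _ h2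
  · rw [List.pairwise_append]
    refine ⟨hp, ?_, fun a ha b hb hab => ?_⟩
    · refine List.Pairwise.imp_of_mem (R := fun _ _ => True) ?_ (List.pairwise_of_forall fun _ _ => trivial)
      intro a b ha hb _ hab
      rw [List.mem_range'_1] at hb
      obtain ⟨h1, _, _⟩ := (hR b a).mp hab
      omega
    · rw [List.mem_range'_1] at hb
      obtain ⟨h1, _, _⟩ := (hR b a).mp hab
      omega

/-- the trivial schedule in topological order -/
theorem exists_trivial_schedule {n : ℕ} {E : Fin n → Fin n → Bool}
    {J : List ℕ} (hJ : J.Perm (List.range n)) {R : Rel}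
    (hR : ∀ u v, (u, v) ∈ R ↔ ∃ (hu : u < n) (hv : v < n),
      Relation.TransGen (fun a b => E a b = true) ⟨u, hu⟩ ⟨v, hv⟩)
    (hE : Crest.Sched3.Acyclic E)
    (hp : J.Pairwise (fun a b => (b, a) ∉ R)) :
    ∃ τ : Fin n → ℕ, Crest.Sched3.IsSchedule E τ ∧ ∀ v, τ v ≤ n := by
  classical
  have hJn : J.Nodup := hJ.nodup_iff.mpr List.nodup_range
  have hJm : ∀ a, a ∈ J ↔ a < n := fun a => by rw [hJ.mem_iff, List.mem_range]
  have hlen : J.length = n := by rw [hJ.length_eq, List.length_range]
  refine ⟨fun v => J.idxOf (v : ℕ) + 1, ⟨fun v => Nat.le_add_left 1 _, fun t => ?_,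
    fun u v huv => ?_⟩, fun v => ?_⟩
  · refine le_trans (Finset.card_le_one.mpr ?_) (by norm_num)
    intro a ha b hb
    simp only [Finset.mem_filter, Finset.mem_univ, true_and] at ha hb
    have hab : J.idxOf (a : ℕ) = J.idxOf (b : ℕ) := by omega
    exact Fin.ext ((List.idxOf_inj ((hJm _).mpr a.isLt)).mp hab)
  · have hu : (u : ℕ) ∈ J := (hJm _).mpr u.isLt
    have hv : (v : ℕ) ∈ J := (hJm _).mpr v.isLt
    have huR : ((u : ℕ), (v : ℕ)) ∈ R :=
      (hR _ _).mpr ⟨u.isLt, v.isLt, Relation.TransGen.single huv⟩
    show J.idxOf (u : ℕ) + 1 < J.idxOf (v : ℕ) + 1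
    by_contra hcon
    have hle : J.idxOf (v : ℕ) ≤ J.idxOf (u : ℕ) := by omega
    rcases Nat.lt_or_eq_of_le hle with hlt | heq
    · have h1 := List.idxOf_lt_length_iff.mpr hu
      have h2 := List.idxOf_lt_length_iff.mpr hv
      have := List.pairwise_iff_getElem.mp hp _ _ h2 h1 hlt
      rw [List.getElem_idxOf, List.getElem_idxOf] at this
      exact this huR
    · have : (v : ℕ) = (u : ℕ) := (List.idxOf_inj hv).mp heq
      have h' : v = u := Fin.ext this
      subst h'
      exact hE _ (Relation.TransGen.single huv)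
  · have := List.idxOf_lt_length_iff.mpr ((hJm _).mpr v.isLt)
    have h2 := hlen
    show J.idxOf (v : ℕ) + 1 ≤ n
    omega

/-! ### slots of a packing list -/

theorem slot_isSchedule {n k : ℕ} {E : Fin n → Fin n → Bool}
    {J : List ℕ} (hJ : J.Perm (List.range n)) {R : Rel}
    (hR : ∀ u v, (u, v) ∈ R ↔ ∃ (hu : u < n) (hv : v < n),
      Relation.TransGen (fun a b => E a b = true) ⟨u, hu⟩ ⟨v, hv⟩)
    {w : List ℕ} (hw : IsPk (J ++ List.range' n k) R w) :
    Crest.Sched3.IsSchedule E (fun v : Fin n => slotOf w v) ∧
      3 ∣ n + k ∧ ∀ v : Fin n, 3 * slotOf w v ≤ n + k := by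
  classical
  obtain ⟨h1, h2, h3, h4⟩ := hw
  have hJn : J.Nodup := hJ.nodup_iff.mpr List.nodup_range
  have hJm : ∀ a, a ∈ J ↔ a < n := fun a => by rw [hJ.mem_iff, List.mem_range]
  have hnd : (J ++ List.range' n k).Nodup := by
    rw [List.nodup_append]
    refine ⟨hJn, List.nodup_range', fun a ha b hb hab => ?_⟩
    rw [hJm] at ha
    rw [List.mem_range'_1] at hb
    omega
  have hperm : w.Perm (J ++ List.range' n k) := (List.perm_ext_iff_of_nodup h1 hnd).mpr h2
  have hlen : w.length = n + k := by
    rw [hperm.length_eq, List.length_append, hJ.length_eq, List.length_range, List.length_range']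
  have hmem : ∀ v : Fin n, (v : ℕ) ∈ w := fun v => by
    rw [h2, List.mem_append, hJm]
    exact Or.inl v.isLt
  have hlt : ∀ v : Fin n, w.idxOf (v : ℕ) < n + k := fun v => by
    rw [← hlen]
    exact List.idxOf_lt_length_iff.mpr (hmem v)
  rw [hlen] at h3
  refine ⟨⟨fun v => Nat.le_add_left 1 _, fun t => ?_, fun u v huv => ?_⟩, h3, fun v => ?_⟩
  · have hsub : (Finset.univ.filter fun v : Fin n => slotOf w (v : ℕ) = t).card ≤
        (({3 * (t - 1), 3 * (t - 1) + 1, 3 * (t - 1) + 2} : Finset ℕ)).card := by
      refine Finset.card_le_card_of_injOn (fun v : Fin n => w.idxOf (v : ℕ)) ?_ ?_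
      · intro v hv
        simp only [Finset.coe_filter, Finset.mem_univ, true_and, Set.mem_setOf_eq, slotOf] at hv
        simp only [Finset.coe_insert, Finset.coe_singleton, Set.mem_insert_iff,
          Set.mem_singleton_iff]
        omega
      · intro a _ b _ hab
        exact Fin.ext ((List.idxOf_inj (hmem a)).mp hab)
    exact hsub.trans Finset.card_le_three
  · have := h4 _ (hmem u) _ (hmem v) ((hR _ _).mpr ⟨u.isLt, v.isLt, Relation.TransGen.single huv⟩)
    simp only [slotOf]
    omega
  · have := hlt v
    simp only [slotOf]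
    omega

/-- P3: correctness of the algorithm from its parts -/
theorem algoCorrect_of (d : ℕ) (hs : SolveSound d) (hc : SolveComplete d) (hp : ParseSpec)
    (ht : TCSpec) (hto : TopoSpec) : AlgoCorrect d := by
  intro n E hn hE
  obtain ⟨p1, p2, p3⟩ := hp n E hn
  set R0 := (parseIn (Crest.Sched3.precCode n E)).2.2 with hR0
  have hR0m : ∀ p ∈ R0, p.1 ∈ List.range n ∧ p.2 ∈ List.range n := by
    rintro ⟨u, v⟩ hpR
    obtain ⟨hu, hv, _⟩ := (p3 u v).mp hpR
    exact ⟨List.mem_range.mpr hu, List.mem_range.mpr hv⟩
  set R := tc (List.range n) R0 with hRdef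
  have hR : ∀ u v, (u, v) ∈ R ↔ ∃ (hu : u < n) (hv : v < n),
      Relation.TransGen (fun a b => E a b = true) ⟨u, hu⟩ ⟨v, hv⟩ := by
    intro u v
    rw [hRdef, ht (List.range n) R0 List.nodup_range hR0m]
    constructor
    · intro h
      induction h with
      | single h =>
        obtain ⟨hu, hv, h'⟩ := (p3 _ _).mp h
        exact ⟨hu, hv, Relation.TransGen.single h'⟩
      | tail _ h ih =>
        obtain ⟨hb, hc', h'⟩ := (p3 _ _).mp h
        obtain ⟨hu, hv, h2⟩ := ih
        exact ⟨hu, hc', h2.tail h'⟩
    · rintro ⟨hu, hv, h⟩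
      have key : ∀ x y : Fin n, Relation.TransGen (fun a b => E a b = true) x y →
          Relation.TransGen (fun a b => (a, b) ∈ R0) (x : ℕ) (y : ℕ) := by
        intro x y h
        induction h with
        | single h => exact Relation.TransGen.single ((p3 _ _).mpr ⟨_, _, h⟩)
        | tail _ h ih => exact ih.tail ((p3 _ _).mpr ⟨_, _, h⟩)
      exact key _ _ h
  have hRtr : ∀ a b c, (a, b) ∈ R → (b, c) ∈ R → (a, c) ∈ R := by
    intro a b c hab hbc
    rw [hR] at hab hbc ⊢
    obtain ⟨ha, hb, h1⟩ := hab
    obtain ⟨_, hc', h2⟩ := hbc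
    exact ⟨ha, hc', h1.trans h2⟩
  have hRir : ∀ a, (a, a) ∉ R := by
    intro a ha
    rw [hR] at ha
    obtain ⟨h1, _, h2⟩ := ha
    exact hE _ h2
  obtain ⟨hJ, hpw⟩ := hto (List.range n) R List.nodup_range hRtr hRir
  set J := topo R (List.range n) with hJdef
  set l := List.range n ++ (List.range n ++ List.range n) with hl
  have hll : l.length = 3 * n := by
    simp only [hl, List.length_append, List.length_range]; omega
  obtain ⟨f1, f2⟩ := fill_spec d R l J n
  have hmain : mainAlg d (List.range n) n R0 =
      (l.foldl (fun s _ => fillStep d R s) (J, n, none)).2.2 := rfl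
  have halgo : algo d (Crest.Sched3.precCode n E) = match mainAlg d (List.range n) n R0 with
      | none => []
      | some w => Crest.Enc.listCode ((List.range n).map (slotOf w)) := by
    unfold algo
    rw [p1, p2]
    rfl
  -- a packing exists for the trivial schedule
  obtain ⟨τ0, hτ0, hτ0n⟩ := exists_trivial_schedule (E := E) hJ hR hE hpw
  have hfound : mainAlg d (List.range n) n R0 ≠ none := by
    intro hnone
    rw [hmain] at hnone
    have h1 := f2 hnone (2 * n) (by omega)
    exact hc _ _ (ord_append hE hJ hR hpw _)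
      (exists_packing_of_schedule hτ0 hτ0n (by omega) hJ hR) h1
  obtain ⟨w, hw⟩ := Option.ne_none_iff_exists'.mp hfound
  obtain ⟨k, hk, hk1, hk2⟩ := f1 w (by rw [← hmain]; exact hw)
  have hpk := hs _ _ _ (ord_append hE hJ hR hpw k) hk1
  obtain ⟨g1, g2, g3⟩ := slot_isSchedule (E := E) hJ hR hpk
  refine ⟨fun v => slotOf w v, ?_, g1, fun τ' hτ' => ?_⟩
  · rw [halgo, hw]
    show Crest.Enc.listCode ((List.range n).map (slotOf w)) =
      Crest.Enc.listCode (List.ofFn fun v : Fin n => slotOf w v)
    congr 1
    refine List.ext_getElem (by simp) fun i h1 h2 => ?_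
    simp
  · set T' := Finset.univ.sup τ' with hT'
    have hle : ∀ v, τ' v ≤ T' := fun v => Finset.le_sup (Finset.mem_univ v)
    have hcard : n ≤ 3 * T' := by
      have := Finset.card_le_mul_card_image_of_maps_to (s := (Finset.univ : Finset (Fin n)))
        (t := Finset.Icc 1 T') (f := τ') (fun v _ => Finset.mem_Icc.mpr ⟨hτ'.1 v, hle v⟩) 3
        (fun t _ => by simpa using hτ'.2.1 t)
      simpa using this
    refine Finset.sup_le fun v _ => ?_
    have hv := g3 v
    by_cases hbig : 3 * T' < n + k
    · exfalso
      have h5 := hk2 (3 * T' - n) (by omega)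
      exact hc _ _ (ord_append hE hJ hR hpw _)
        (exists_packing_of_schedule hτ' hle (by omega) hJ hR) h5
    · have hn3 : n + k ≤ 3 * T' := by omega
      have : 3 * slotOf w v ≤ 3 * T' := hv.trans hn3
      omega

end Crest.Agent.R286.Fill
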