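import Crest.Agent.R286.Algo

/-!
# Row 286, interface of the pure shell (P3)

Exact statements of the facts about `solve`, `parseIn`, `tc`, `topo` which `Fill.lean` uses to
prove `AlgoCorrect d`.
-/

set_option autoImplicit false
set_option linter.dupNamespace false

namespace Crest.Agent.R286.Fill

open Crest.Agent.R286

/-- `R` is a strict order and `J` is a duplicate free list sorted by a linear extension. -/
def Ord (J : List ℕ) (R : Rel) : Prop :=
  J.Nodup ∧ (∀ a b c, (a, b) ∈ R → (b, c) ∈ R → (a, c) ∈ R) ∧ (∀ a, (a, a) ∉ R) ∧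
    J.Pairwise (fun a b => (b, a) ∉ R)

/-- `w` lists the elements of `J` as a perfect packing: consecutive blocks of three. -/
def IsPk (J : List ℕ) (R : Rel) (w : List ℕ) : Prop :=
  w.Nodup ∧ (∀ a, a ∈ w ↔ a ∈ J) ∧ 3 ∣ w.length ∧
    ∀ a ∈ w, ∀ b ∈ w, (a, b) ∈ R → w.idxOf a / 3 < w.idxOf b / 3

/-- there is a perfect packing of `J` -/
def HasPk (J : List ℕ) (R : Rel) : Prop :=
  ∃ (T : ℕ) (s : ℕ → ℕ), (∀ a ∈ J, s a < T) ∧
    (∀ t, t < T → (J.filter (fun a => s a = t)).length = 3) ∧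
    ∀ a ∈ J, ∀ b ∈ J, (a, b) ∈ R → s a < s b

/-- (P2) soundness of `solve` (helper333) -/
def SolveSound (d : ℕ) : Prop :=
  ∀ (J : List ℕ) (R : Rel) (w : List ℕ), Ord J R → solve d J R = some w → IsPk J R w

/-- (P2) completeness of `solve` (helper333) -/
def SolveComplete (d : ℕ) : Prop :=
  ∀ (J : List ℕ) (R : Rel), Ord J R → HasPk J R → solve d J R ≠ none

/-- (P3a) the parser (helper89) -/
def ParseSpec : Prop :=
  ∀ (n : ℕ) (E : Fin n → Fin n → Bool), 1 ≤ n →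
    (parseIn (Crest.Sched3.precCode n E)).1 = List.range n ∧
    (parseIn (Crest.Sched3.precCode n E)).2.1 = n ∧
    ∀ u v : ℕ, (u, v) ∈ (parseIn (Crest.Sched3.precCode n E)).2.2 ↔
      ∃ (hu : u < n) (hv : v < n), E ⟨u, hu⟩ ⟨v, hv⟩ = true

/-- (P3b) transitive closure (helper603) -/
def TCSpec : Prop :=
  ∀ (J : List ℕ) (R0 : Rel), J.Nodup → (∀ p ∈ R0, p.1 ∈ J ∧ p.2 ∈ J) →
    ∀ u v, (u, v) ∈ tc J R0 ↔ Relation.TransGen (fun a b => (a, b) ∈ R0) u v

/-- (P3b) topological order (helper603) -/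
def TopoSpec : Prop :=
  ∀ (J : List ℕ) (R : Rel), J.Nodup → (∀ a b c, (a, b) ∈ R → (b, c) ∈ R → (a, c) ∈ R) →
    (∀ a, (a, a) ∉ R) →
    (topo R J).Perm J ∧ (topo R J).Pairwise (fun a b => (b, a) ∉ R)

end Crest.Agent.R286.Fill
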