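import Crest.Agent.R286.PureDefs

/-!
# Row 286, P3a: correctness of the parser
-/

set_option autoImplicit false
set_option linter.dupNamespace false

namespace Crest.Agent.R286.Pure

open Crest.Agent.R286

theorem parse_bits_inj {a b : ℕ} (h : a.bits = b.bits) : a = b := by
  have h1 := Nat.digits_two_eq_bits a
  have h2 := Nat.digits_two_eq_bits b
  rw [h] at h1
  exact Nat.digits_inj_iff.mp (h1.trans h2.symm)

/-- relation after `k` columns of row `u` -/
def rowRel (e : ℕ → Bool) (u : ℕ) (R : Rel) : ℕ → Rel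
  | 0 => R
  | k + 1 => if e k then (u, k) :: rowRel e u R k else rowRel e u R k

theorem mem_rowRel (e : ℕ → Bool) (u : ℕ) (R : Rel) (k : ℕ) (p : ℕ × ℕ) :
    p ∈ rowRel e u R k ↔ p ∈ R ∨ (p.1 = u ∧ p.2 < k ∧ e p.2 = true) := by
  induction k with
  | zero => simp [rowRel]
  | succ k ih =>
    obtain ⟨a, b⟩ := p
    by_cases hk : e k = true
    · simp only [rowRel, hk, if_true, List.mem_cons, ih, Prod.mk.injEq]
      constructor
      · rintro (⟨rfl, rfl⟩ | h | ⟨h1, h2, h3⟩)
        · exact Or.inr ⟨rfl, Nat.lt_succ_self _, hk⟩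
        · exact Or.inl h
        · exact Or.inr ⟨h1, Nat.lt_succ_of_lt h2, h3⟩
      · rintro (h | ⟨h1, h2, h3⟩)
        · exact Or.inr (Or.inl h)
        · rcases Nat.lt_succ_iff_lt_or_eq.mp h2 with h | h
          · exact Or.inr (Or.inr ⟨h1, h, h3⟩)
          · exact Or.inl ⟨h1, h⟩
    · simp only [rowRel, hk, if_false, ih, Bool.false_eq_true]
      constructor
      · rintro (h | ⟨h1, h2, h3⟩)
        · exact Or.inl h
        · exact Or.inr ⟨h1, Nat.lt_succ_of_lt h2, h3⟩
      · rintro (h | ⟨h1, h2, h3⟩)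
        · exact Or.inl h
        · rcases Nat.lt_succ_iff_lt_or_eq.mp h2 with h | h
          · exact Or.inr ⟨h1, h, h3⟩
          · rw [h] at h3
            exact absurd h3 hk

theorem parse_row_aux {n : ℕ} (e : ℕ → Bool) (J : List ℕ) (u : ℕ) (R : Rel) (k : ℕ)
    (h0 : 0 < k) (hk : k < n) :
    ((List.range k).map e).foldl (pstep n.bits) (J, u, 0, R) =
      (J ++ [u], u, k, rowRel e u R k) := by
  induction k with
  | zero => omega
  | succ k ih =>
    rw [List.range_succ, List.map_append, List.foldl_append]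
    have hne : ¬ (k + 1).bits = n.bits := fun h => by
      have := parse_bits_inj h
      omega
    rcases Nat.eq_zero_or_pos k with rfl | hpos
    · simp only [List.range_zero, List.map_nil, List.foldl_nil, List.map_cons, List.foldl_cons]
      simp only [pstep, rowRel]
      rw [if_neg hne]
      simp
    · rw [ih hpos (by omega)]
      simp only [List.map_cons, List.map_nil, List.foldl_cons, List.foldl_nil]
      simp only [pstep, rowRel]
      rw [if_neg hne]
      have : ¬ k = 0 := by omega
      simp [this]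

theorem parse_row {n : ℕ} (hn : 1 ≤ n) (e : ℕ → Bool) (J : List ℕ) (u : ℕ) (R : Rel) :
    ((List.range n).map e).foldl (pstep n.bits) (J, u, 0, R) =
      (J ++ [u], u + 1, 0, rowRel e u R n) := by
  obtain ⟨k, rfl⟩ : ∃ k, n = k + 1 := ⟨n - 1, by omega⟩
  rw [List.range_succ, List.map_append, List.foldl_append]
  rcases Nat.eq_zero_or_pos k with rfl | hpos
  · simp only [List.range_zero, List.map_nil, List.foldl_nil, List.map_cons, List.foldl_cons]
    simp only [pstep, rowRel]
    simp
  · rw [parse_row_aux e J u R k hpos (by omega)]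
    simp only [List.map_cons, List.map_nil, List.foldl_cons, List.foldl_nil]
    simp only [pstep, rowRel]
    have : ¬ k = 0 := by omega
    simp [this]

/-- relation after `u` rows -/
def tabRel (E : ℕ → ℕ → Bool) (n : ℕ) : ℕ → Rel
  | 0 => []
  | u + 1 => rowRel (E u) u (tabRel E n u) n

theorem mem_tabRel (E : ℕ → ℕ → Bool) (n u : ℕ) (p : ℕ × ℕ) :
    p ∈ tabRel E n u ↔ p.1 < u ∧ p.2 < n ∧ E p.1 p.2 = true := by
  induction u with
  | zero => simp [tabRel]
  | succ u ih =>
    simp only [tabRel, mem_rowRel, ih]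
    constructor
    · rintro (⟨h1, h2, h3⟩ | ⟨h1, h2, h3⟩)
      · exact ⟨Nat.lt_succ_of_lt h1, h2, h3⟩
      · subst h1
        exact ⟨Nat.lt_succ_self _, h2, h3⟩
    · rintro ⟨h1, h2, h3⟩
      rcases Nat.lt_succ_iff_lt_or_eq.mp h1 with h | h
      · exact Or.inl ⟨h, h2, h3⟩
      · subst h
        exact Or.inr ⟨rfl, h2, h3⟩

theorem parse_table {n : ℕ} (hn : 1 ≤ n) (E : ℕ → ℕ → Bool) (u : ℕ) :
    (((List.range u).map fun a => (List.range n).map (E a)).flatten).foldl (pstep n.bits)
      ([], 0, 0, []) = (List.range u, u, 0, tabRel E n u) := by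
  induction u with
  | zero => simp [tabRel]
  | succ u ih =>
    rw [List.range_succ, List.map_append, List.flatten_append, List.foldl_append, ih]
    simp only [List.map_cons, List.map_nil, List.flatten_cons, List.flatten_nil, List.append_nil]
    rw [parse_row hn, tabRel]

theorem natCode_eq_pair (n : ℕ) (t : List Bool) :
    Crest.Enc.natCode n ++ t = Lib.PT.pair n.bits (false :: t) := by
  simp [Crest.Enc.natCode, Lib.PT.pair, List.flatMap]

theorem finRange_map_eq {β : Type} (n : ℕ) (f : Fin n → β) (g : ℕ → β)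
    (h : ∀ i : Fin n, f i = g i) : (List.finRange n).map f = (List.range n).map g := by
  rw [← List.map_coe_finRange_eq_range, List.map_map]
  exact List.map_congr_left fun i _ => h i

theorem parseSpec : ParseSpec := by
  intro n E hn
  let E' : ℕ → ℕ → Bool := fun a b => if h : a < n ∧ b < n then E ⟨a, h.1⟩ ⟨b, h.2⟩ else false
  refine ⟨tabRel E' n n, ?_, ?_⟩
  · have hcode : Crest.Sched3.precCode n E = Lib.PT.pair n.bits
        (false :: ((List.range n).map fun a => (List.range n).map (E' a)).flatten) := by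
      rw [Crest.Sched3.precCode, natCode_eq_pair]
      congr 3
      refine finRange_map_eq n _ _ fun u => ?_
      refine finRange_map_eq n _ _ fun v => ?_
      simp [E']
    rw [parseIn, hcode, Lib.PT.fst_pair, Lib.PT.snd_pair, List.tail_cons, parse_table hn]
  · intro a b
    rw [mem_tabRel]
    simp only [E']
    constructor
    · rintro ⟨h1, h2, h3⟩
      rw [dif_pos ⟨h1, h2⟩] at h3
      exact ⟨h1, h2, h3⟩
    · rintro ⟨h1, h2, h3⟩
      refine ⟨h1, h2, ?_⟩
      rw [dif_pos ⟨h1, h2⟩]
      exact h3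

end Crest.Agent.R286.Pure
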