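import Crest.Agent.R286.FillDefs
import Crest.Agent.R286.PureParse

/-!
# Row 286, P3a in the form used by `Fill.lean`
-/

set_option autoImplicit false
set_option linter.dupNamespace false

namespace Crest.Agent.R286.Fill

open Crest.Agent.R286

theorem parseSpec : ParseSpec := by
  intro n E hn
  obtain ⟨R, h, hm⟩ := Crest.Agent.R286.Pure.parseSpec n E hn
  rw [h]
  exact ⟨rfl, rfl, hm⟩

end Crest.Agent.R286.Fill
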