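import Crest.Agent.R286.FillDefs

/-!
# Row 286, node P3b in the form of `FillDefs`: `tcSpec : TCSpec`, `topoSpec : TopoSpec`
-/

set_option autoImplicit false
set_option linter.dupNamespace false

namespace Crest.Agent.R286.FillTc

open Crest.Agent.R286

/-! ### transitive closure -/

theorem mem_pairsL {J : List ℕ} {p : ℕ × ℕ} : p ∈ pairsL J ↔ p.1 ∈ J ∧ p.2 ∈ J := by
  obtain ⟨a, b⟩ := p
  simp only [pairsL, List.mem_flatMap, List.mem_map, Prod.mk.injEq]
  constructor
  · rintro ⟨x, hx, y, hy, rfl, rfl⟩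
    exact ⟨hx, hy⟩
  · rintro ⟨ha, hb⟩
    exact ⟨a, ha, b, hb, rfl, rfl⟩

theorem mem_tcStep {J : List ℕ} {P R : Rel} {a b : ℕ} :
    (a, b) ∈ tcStep J P R ↔ (a, b) ∈ P ∧ ((a, b) ∈ R ∨ ∃ z ∈ J, (a, z) ∈ R ∧ (z, b) ∈ R) := by
  simp only [tcStep, List.mem_filter, Bool.or_eq_true, List.contains_iff_mem, List.any_eq_true,
    Bool.and_eq_true]

theorem tc_eq_iterate (J : List ℕ) (R : Rel) :
    tc J R = (tcStep J (pairsL J))^[J.length] R := by
  unfold tc
  rw [List.foldl_const]

theorem iter_sound {J : List ℕ} {R : Rel} (k : ℕ) :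
    ∀ a b, (a, b) ∈ (tcStep J (pairsL J))^[k] R →
      Relation.TransGen (fun x y => (x, y) ∈ R) a b := by
  induction k with
  | zero => intro a b h; exact Relation.TransGen.single h
  | succ k ih =>
    intro a b h
    rw [Function.iterate_succ_apply', mem_tcStep] at h
    rcases h.2 with h | ⟨z, -, h1, h2⟩
    · exact ih a b h
    · exact (ih a z h1).trans (ih z b h2)

theorem iter_mono {J : List ℕ} {R : Rel} (hR : ∀ p ∈ R, p.1 ∈ J ∧ p.2 ∈ J) (k : ℕ) :
    ∀ p, p ∈ R → p ∈ (tcStep J (pairsL J))^[k] R := by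
  induction k with
  | zero => intro p h; exact h
  | succ k ih =>
    intro p h
    rw [Function.iterate_succ_apply']
    obtain ⟨a, b⟩ := p
    rw [mem_tcStep]
    exact ⟨mem_pairsL.2 (hR _ h), Or.inl (ih _ h)⟩

theorem iter_sub {J : List ℕ} {R : Rel} (hR : ∀ p ∈ R, p.1 ∈ J ∧ p.2 ∈ J) (k : ℕ) :
    ∀ p, p ∈ (tcStep J (pairsL J))^[k] R → p.1 ∈ J ∧ p.2 ∈ J := by
  cases k with
  | zero => intro p h; exact hR p h
  | succ k =>
    intro p h
    rw [Function.iterate_succ_apply'] at h
    obtain ⟨a, b⟩ := p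
    rw [mem_tcStep] at h
    exact mem_pairsL.1 h.1

theorem iter_succ_mono {J : List ℕ} {R : Rel} (hR : ∀ p ∈ R, p.1 ∈ J ∧ p.2 ∈ J) (k : ℕ) :
    ∀ p, p ∈ (tcStep J (pairsL J))^[k] R → p ∈ (tcStep J (pairsL J))^[k + 1] R := by
  intro p h
  rw [Function.iterate_succ_apply']
  obtain ⟨a, b⟩ := p
  rw [mem_tcStep]
  exact ⟨mem_pairsL.2 (iter_sub hR k _ h), Or.inl h⟩

open Classical in
theorem iter_complete {J : List ℕ} {R : Rel} (hR : ∀ p ∈ R, p.1 ∈ J ∧ p.2 ∈ J) (u : ℕ) (k : ℕ) :
    (∀ v, Relation.TransGen (fun x y => (x, y) ∈ R) u v →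
      (u, v) ∈ (tcStep J (pairsL J))^[k] R) ∨
    k ≤ (J.toFinset.filter fun v => (u, v) ∈ (tcStep J (pairsL J))^[k] R).card := by
  induction k with
  | zero => exact Or.inr (Nat.zero_le _)
  | succ k ih =>
    rcases ih with ih | ih
    · exact Or.inl fun v hv => iter_succ_mono hR k _ (ih v hv)
    · by_cases he : (J.toFinset.filter fun v => (u, v) ∈ (tcStep J (pairsL J))^[k] R) =
        (J.toFinset.filter fun v => (u, v) ∈ (tcStep J (pairsL J))^[k + 1] R)
      · refine Or.inl fun v hv => iter_succ_mono hR k _ ?_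
        induction hv with
        | single h => exact iter_mono hR k _ h
        | @tail c v _ h2 ih2 =>
          have h3 : (u, v) ∈ (tcStep J (pairsL J))^[k + 1] R := by
            rw [Function.iterate_succ_apply', mem_tcStep]
            exact ⟨mem_pairsL.2 ⟨(iter_sub hR k _ ih2).1, (hR _ h2).2⟩,
              Or.inr ⟨c, (hR _ h2).1, ih2, iter_mono hR k _ h2⟩⟩
          have h4 : v ∈ (J.toFinset.filter fun v => (u, v) ∈ (tcStep J (pairsL J))^[k + 1] R) :=
            Finset.mem_filter.2 ⟨List.mem_toFinset.2 (hR _ h2).2, h3⟩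
          rw [← he] at h4
          exact (Finset.mem_filter.1 h4).2
      · refine Or.inr ?_
        have hss : (J.toFinset.filter fun v => (u, v) ∈ (tcStep J (pairsL J))^[k] R) ⊂
            (J.toFinset.filter fun v => (u, v) ∈ (tcStep J (pairsL J))^[k + 1] R) := by
          refine Finset.ssubset_iff_subset_ne.2 ⟨?_, he⟩
          intro v hv
          rw [Finset.mem_filter] at hv ⊢
          exact ⟨hv.1, iter_succ_mono hR k _ hv.2⟩
        have := Finset.card_lt_card hss
        omega

theorem mem_tc {J : List ℕ} {R : Rel} (hJ : J.Nodup) (hR : ∀ p ∈ R, p.1 ∈ J ∧ p.2 ∈ J)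
    (u v : ℕ) : (u, v) ∈ tc J R ↔ Relation.TransGen (fun a b => (a, b) ∈ R) u v := by
  classical
  rw [tc_eq_iterate]
  refine ⟨iter_sound _ u v, fun h => ?_⟩
  rcases iter_complete hR u J.length with h1 | h1
  · exact h1 v h
  · have hv : v ∈ J := by
      cases h with
      | single h => exact (hR _ h).2
      | tail _ h => exact (hR _ h).2
    have h2 : J.toFinset.card = J.length := List.toFinset_card_of_nodup hJ
    have h3 : (J.toFinset.filter fun v => (u, v) ∈ (tcStep J (pairsL J))^[J.length] R) =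
        J.toFinset := Finset.eq_of_subset_of_card_le (Finset.filter_subset _ _) (by omega)
    have h4 : v ∈ J.toFinset := List.mem_toFinset.2 hv
    rw [← h3] at h4
    exact (Finset.mem_filter.1 h4).2

/-! ### topological order -/

theorem exists_min {R : Rel} {l : List ℕ} (hl : l ≠ [])
    (hir : ∀ a, (a, a) ∉ R) (htr : ∀ a b c, (a, b) ∈ R → (b, c) ∈ R → (a, c) ∈ R) :
    ∃ x ∈ l, ∀ y ∈ l, (y, x) ∉ R := by
  classical
  have hne : l.toFinset.Nonempty := by
    rw [List.toFinset_nonempty_iff]; exact hl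
  obtain ⟨x, hx, hmin⟩ := Finset.exists_min_image l.toFinset
    (fun x => (l.toFinset.filter fun y => (y, x) ∈ R).card) hne
  rw [List.mem_toFinset] at hx
  refine ⟨x, hx, fun y hy hyx => ?_⟩
  have h1 := hmin y (List.mem_toFinset.2 hy)
  have hss : (l.toFinset.filter fun z => (z, y) ∈ R) ⊂ (l.toFinset.filter fun z => (z, x) ∈ R) := by
    refine Finset.ssubset_iff_subset_ne.2 ⟨?_, ?_⟩
    · intro z hz
      rw [Finset.mem_filter] at hz ⊢
      exact ⟨hz.1, htr z y x hz.2 hyx⟩
    · intro he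
      have hm : y ∈ l.toFinset.filter fun z => (z, x) ∈ R :=
        Finset.mem_filter.2 ⟨List.mem_toFinset.2 hy, hyx⟩
      rw [← he, Finset.mem_filter] at hm
      exact hir y hm.2
  have := Finset.card_lt_card hss
  omega

/-- invariant of the topological sort -/
structure TInv (R : Rel) (J : List ℕ) (s : List ℕ × List ℕ) : Prop where
  perm : (s.2 ++ s.1).Perm J
  down : ∀ a ∈ J, ∀ b ∈ s.2, (a, b) ∈ R → a ∈ s.2
  ord : s.2.Pairwise (fun a b => (b, a) ∉ R)

theorem TInv.step {R : Rel} {J : List ℕ} {s : List ℕ × List ℕ} (hJ : J.Nodup)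
    (hir : ∀ a, (a, a) ∉ R)
    (h : TInv R J s) : TInv R J (topoStep R s) := by
  obtain ⟨rem, dn⟩ := s
  obtain ⟨hp, hd, ho⟩ := h
  simp only at hp hd ho
  have hnd : (dn ++ rem).Nodup := hp.nodup_iff.2 hJ
  have hdis : ∀ x ∈ rem, x ∉ dn := by
    intro x hx hx'
    exact (List.nodup_append.1 hnd).2.2 x hx' x hx rfl
  have hmin : ∀ b ∈ rem.filter (fun x => !(rem.any fun y => R.contains (y, x))),
      b ∈ rem ∧ ∀ y ∈ rem, (y, b) ∉ R := by
    intro b hb
    rw [List.mem_filter, Bool.not_eq_true', List.any_eq_false] at hb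
    exact ⟨hb.1, fun y hy h => hb.2 y hy (List.contains_iff_mem.2 h)⟩
  refine ⟨?_, ?_, ?_⟩
  · simp only [topoStep]
    refine List.Perm.trans ?_ hp
    rw [List.append_assoc]
    refine List.Perm.append_left dn ?_
    refine (List.perm_append_comm).trans ?_
    exact List.filter_append_perm _ _
  · intro a ha b hb hab
    simp only [topoStep] at hb ⊢
    rw [List.mem_append] at hb
    rcases hb with hb | hb
    · exact List.mem_append.2 (Or.inl (hd a ha b hb hab))
    · obtain ⟨-, hb2⟩ := hmin b hb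
      have : a ∈ dn ++ rem := hp.mem_iff.2 ha
      rcases List.mem_append.1 this with h | h
      · exact List.mem_append.2 (Or.inl h)
      · exact absurd hab (hb2 a h)
  · simp only [topoStep]
    rw [List.pairwise_append]
    refine ⟨ho, ?_, ?_⟩
    · refine List.Pairwise.imp_of_mem (R := fun _ _ => True) ?_ (by
        exact List.pairwise_of_forall (fun _ _ => trivial))
      intro a b ha hb _
      exact (hmin a ha).2 b (hmin b hb).1
    · intro a ha b hb hba
      have hbJ : b ∈ J := hp.mem_iff.1 (List.mem_append.2 (Or.inr (hmin b hb).1))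
      exact hdis b (hmin b hb).1 (hd b hbJ a ha hba)

theorem topo_len {R : Rel} {s : List ℕ × List ℕ}
    (hir : ∀ a, (a, a) ∉ R)
    (htr : ∀ a b c, (a, b) ∈ R → (b, c) ∈ R → (a, c) ∈ R) :
    (topoStep R s).1.length ≤ s.1.length - 1 := by
  obtain ⟨rem, dn⟩ := s
  by_cases hr : rem = []
  · subst hr; simp [topoStep]
  · obtain ⟨x, hx, hmin⟩ := exists_min hr hir htr
    have : (rem.filter fun x => rem.any fun y => R.contains (y, x)).length < rem.length := by
      rw [List.length_filter_lt_length_iff_exists]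
      refine ⟨x, hx, ?_⟩
      rw [Bool.not_eq_true, List.any_eq_false]
      intro y hy hc
      exact hmin y hy (List.contains_iff_mem.1 hc)
    simp only [topoStep]
    omega

theorem topo_ok {J : List ℕ} {R : Rel} (hJ : J.Nodup)
    (htr : ∀ a b c, (a, b) ∈ R → (b, c) ∈ R → (a, c) ∈ R) (hir : ∀ a, (a, a) ∉ R) :
    (topo R J).Perm J ∧ (topo R J).Pairwise (fun a b => (b, a) ∉ R) := by
  have key : ∀ k, TInv R J ((topoStep R)^[k] (J, [])) ∧
      ((topoStep R)^[k] (J, [])).1.length ≤ J.length - k := by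
    intro k
    induction k with
    | zero => exact ⟨⟨by simp, by simp, by simp⟩, by simp⟩
    | succ k ih =>
      rw [Function.iterate_succ_apply']
      refine ⟨ih.1.step hJ hir, ?_⟩
      have := topo_len (s := (topoStep R)^[k] (J, [])) hir htr
      omega
  have htopo : topo R J = ((topoStep R)^[J.length] (J, [])).2 := by
    unfold topo
    rw [List.foldl_const]
  obtain ⟨⟨hp, -, ho⟩, hlen⟩ := key J.length
  rw [← htopo] at hp ho
  have hnil : ((topoStep R)^[J.length] (J, [])).1 = [] := by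
    rw [← List.length_eq_zero_iff]
    omega
  rw [hnil, List.append_nil] at hp
  exact ⟨hp, ho⟩

end Crest.Agent.R286.FillTc

namespace Crest.Agent.R286.Fill

/-- P3b, transitive closure -/
theorem tcSpec : TCSpec := fun _ _ hJ hR u v => FillTc.mem_tc hJ hR u v

/-- P3b, topological order -/
theorem topoSpec : TopoSpec := fun _ _ hJ htr hir => FillTc.topo_ok hJ htr hir

end Crest.Agent.R286.Fill
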