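import Crest.Agent.R286.Ex

/-!
Row 286: staircases, the greedy step (S)+(G) of note 13021.
-/

set_option autoImplicit false

namespace Crest.Agent.R286.T3

variable {α : Type*} [DecidableEq α]

/-- stair `i` covers `z` -/
def Cov (ν : α → ℕ) (F : ℕ → Set α) (a : ℕ → ℕ) (i : ℕ) (z : α) : Prop := z ∈ F i ∧ ν z < a i

/-- a frame -/
def Frame (r : α → α → Prop) (X : Set α) : Prop := X = Set.univ ∨ ∃ p q, X = {z | r z p ∨ r z q}

/-- the union of the stairs -/
def Stc (ν : α → ℕ) (F : ℕ → Set α) (a : ℕ → ℕ) (I : Finset ℕ) : Set α :=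
  {z | ∃ i ∈ I, Cov ν F a i z}

/-- valid staircase -/
structure OK (r : α → α → Prop) (F : ℕ → Set α) (a : ℕ → ℕ) (I : Finset ℕ) : Prop where
  card : I.card ≤ 3
  frame : ∀ i ∈ I, Frame r (F i)
  mono : ∀ i ∈ I, ∀ j ∈ I, i ≤ j → F j ⊆ F i ∧ a i ≤ a j

/-- sets described by a staircase -/
def IsSt (r : α → α → Prop) (ν : α → ℕ) (X : Set α) : Prop :=
  ∃ (F : ℕ → Set α) (a : ℕ → ℕ) (I : Finset ℕ), OK r F a I ∧ X = Stc ν F a I

/-- private part of stair `i` -/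
def Cell (ν : α → ℕ) (F : ℕ → Set α) (a : ℕ → ℕ) (I : Finset ℕ) (i : ℕ) (z : α) : Prop :=
  Cov ν F a i z ∧ ∀ j ∈ I, j ≠ i → ¬ Cov ν F a j z

variable {r : α → α → Prop} {ν : α → ℕ}

theorem Frame.down (htr : ∀ ⦃x y z : α⦄, r x y → r y z → r x z) {X : Set α} (h : Frame r X)
    {x y : α} (hxy : r x y) (hy : y ∈ X) : x ∈ X := by
  rcases h with rfl | ⟨p, q, rfl⟩
  · trivial
  · rcases hy with hy | hy
    · exact Or.inl (htr hxy hy)
    · exact Or.inr (htr hxy hy)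

theorem OK.down (htr : ∀ ⦃x y z : α⦄, r x y → r y z → r x z) (hν : ∀ ⦃x y⦄, r x y → ν x < ν y)
    {F : ℕ → Set α} {a : ℕ → ℕ} {I : Finset ℕ} (h : OK r F a I) {i : ℕ} (hi : i ∈ I)
    {x y : α} (hxy : r x y) (hy : Cov ν F a i y) : Cov ν F a i x :=
  ⟨(h.frame i hi).down htr hxy hy.1, (hν hxy).trans hy.2⟩

theorem IsSt.down (htr : ∀ ⦃x y z : α⦄, r x y → r y z → r x z) (hν : ∀ ⦃x y⦄, r x y → ν x < ν y)
    {X : Set α} (h : IsSt r ν X) {x y : α} (hxy : r x y) (hy : y ∈ X) : x ∈ X := by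
  obtain ⟨F, a, I, hok, rfl⟩ := h
  obtain ⟨i, hi, hc⟩ := hy
  exact ⟨i, hi, hok.down htr hν hi hxy hc⟩

/-- maximal elements above -/
theorem exists_max_above (htr : ∀ ⦃x y z : α⦄, r x y → r y z → r x z)
    (hν : ∀ ⦃x y⦄, r x y → ν x < ν y) (D : Finset α) {z : α} (hz : z ∈ D) :
    ∃ m ∈ D, (m = z ∨ r z m) ∧ ∀ y ∈ D, ¬ r m y := by
  classical
  have hne : (D.filter fun m => m = z ∨ r z m).Nonempty := ⟨z, by simp [hz]⟩
  obtain ⟨m, hm, hmax⟩ := Finset.exists_max_image _ ν hne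
  rw [Finset.mem_filter] at hm
  refine ⟨m, hm.1, hm.2, fun y hy hmy => ?_⟩
  have : y ∈ D.filter fun m => m = z ∨ r z m := by
    rw [Finset.mem_filter]
    refine ⟨hy, Or.inr ?_⟩
    rcases hm.2 with h | h
    · rw [← h]; exact hmy
    · exact htr h hmy
  have h1 := hmax y this
  have h2 := hν hmy
  omega

/-- number of cells hit -/
noncomputable def hits (ν : α → ℕ) (F : ℕ → Set α) (a : ℕ → ℕ) (I : Finset ℕ) (T : Finset α) : ℕ := by
  classical
  exact (I.filter fun i => ∃ s ∈ T, Cell ν F a I i s).card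

section
variable {F : ℕ → Set α} {a : ℕ → ℕ} {I : Finset ℕ}

theorem Cell.unique {i j : ℕ} {z : α} (hi : i ∈ I) (h1 : Cell ν F a I i z) (h2 : Cell ν F a I j z) :
    i = j := by
  by_contra h
  exact h2.2 i hi h h1.1

theorem hits_insert_of_miss {P : Finset α} {y : α} {i : ℕ} (hi : i ∈ I)
    (hy : Cell ν F a I i y) (hP : ∀ p ∈ P, ¬ Cell ν F a I i p) :
    hits ν F a I (insert y P) = hits ν F a I P + 1 := by
  classical
  unfold hits
  have : (I.filter fun j => ∃ s ∈ insert y P, Cell ν F a I j s)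
      = insert i (I.filter fun j => ∃ s ∈ P, Cell ν F a I j s) := by
    ext j
    simp only [Finset.mem_filter, Finset.mem_insert]
    constructor
    · rintro ⟨hj, s, hs, hc⟩
      rcases hs with rfl | hs
      · exact Or.inl (Cell.unique hj hc hy)
      · exact Or.inr ⟨hj, s, hs, hc⟩
    · rintro (rfl | ⟨hj, s, hs, hc⟩)
      · exact ⟨hi, y, Or.inl rfl, hy⟩
      · exact ⟨hj, s, Or.inr hs, hc⟩
  rw [this, Finset.card_insert_of_notMem]
  simp only [Finset.mem_filter, not_and, not_exists]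
  exact fun _ p hp => hP p hp

theorem hits_insert_le {P : Finset α} {y : α} (h : ∀ i ∈ I, Cell ν F a I i y → ∃ p ∈ P, Cell ν F a I i p) :
    hits ν F a I (insert y P) = hits ν F a I P := by
  classical
  unfold hits
  congr 1
  ext j
  simp only [Finset.mem_filter, Finset.mem_insert]
  constructor
  · rintro ⟨hj, s, hs, hc⟩
    rcases hs with rfl | hs
    · exact ⟨hj, h j hj hc⟩
    · exact ⟨hj, s, hs, hc⟩
  · rintro ⟨hj, s, hs, hc⟩
    exact ⟨hj, s, Or.inr hs, hc⟩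

end

end Crest.Agent.R286.T3
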