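import Crest.Agent.R286.Prim

/-! # The calculus `LF k`: time exponent `k + 1` and linear growth; folds -/

set_option autoImplicit false
set_option linter.dupNamespace false
set_option linter.unusedVariables false

namespace Crest.Agent.R286

open Function Crest.Agent.Lib.PT

variable {α β γ δ σ κ : Type} [PTCode α] [PTCode β] [PTCode γ] [PTCode δ] [PTCode σ] [PTCode κ]

theorem TF.toGF {d : ℕ} {f : α → β} (hf : TF d f) (h : 1 ≤ d) : GF d f := by
  obtain ⟨c, C, hc⟩ := hf
  refine ⟨C + 1, fun a => ?_⟩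
  obtain ⟨t, ht, h'⟩ := hc a
  have := h'.length_le 0
  simp only [init_zero] at this
  have e1 : sz a ≤ (sz a + 1) ^ d := by
    calc sz a ≤ (sz a + 1) ^ 1 := by rw [pow_one]; exact Nat.le_succ _
      _ ≤ _ := pow_mono' h
  calc sz (f a) ≤ sz a + t := this
    _ ≤ (sz a + 1) ^ d + C * (sz a + 1) ^ d := Nat.add_le_add e1 ht
    _ = _ := by ring

/-! ### general folds -/

/-- one step of a fold -/
def stepF (f : α → σ → β → σ) (s : (α × σ) × List β) : (α × σ) × List β :=
  match uncons s.2 with
  | none => (s.1, [])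
  | some q => ((s.1.1, f s.1.1 s.1.2 q.1), q.2)

theorem TF.stepF {df : ℕ} {f : α → σ → β → σ}
    (hf : TF df (fun p : (α × σ) × β => f p.1.1 p.1.2 p.2)) (h2 : 1 ≤ df) :
    TF df (R286.stepF f) := by
  -- analysis on `(s.1, uncons s.2)`
  have g1 : TF 1 (fun s : (α × σ) × List β => (s.1, R286.uncons s.2)) :=
    TF.prodMk TF.fst (TF.comp (a := 1) (e := 1) (b := 0) TF.uncons TF.snd GF.snd le_rfl (by omega))
      GF.fst (GF.comp GF.uncons GF.snd le_rfl) le_rfl le_rfl
  have gg1 : GF 1 (fun s : (α × σ) × List β => (s.1, R286.uncons s.2)) :=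
    GF.prodMk GF.fst (GF.comp GF.uncons GF.snd le_rfl)
  have e1 : TF 1 (fun c : α × σ => (c, ([] : List β))) :=
    TF.prodMk (TF.mono TF.id (Nat.zero_le _)) (TF.const _) (GF.ofEnc fun _ => rfl)
      (GF.mono (GF.const _) (Nat.zero_le _)) le_rfl le_rfl
  -- the function on the nonempty case
  have e2 : TF 1 (fun q : (α × σ) × (β × List β) => (q.1, q.2.1)) :=
    TF.prodMk TF.fst (TF.comp TF.fst TF.snd GF.snd le_rfl le_rfl) GF.fst
      (GF.comp GF.fst GF.snd le_rfl) le_rfl le_rfl
  have ge2 : GF 1 (fun q : (α × σ) × (β × List β) => (q.1, q.2.1)) :=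
    GF.prodMk GF.fst (GF.comp GF.fst GF.snd le_rfl)
  have e3 : TF df (fun q : (α × σ) × (β × List β) => f q.1.1 q.1.2 q.2.1) :=
    TF.comp (f := fun q : (α × σ) × (β × List β) => (q.1, q.2.1)) hf e2 ge2 h2 (by omega)
  have e4 : TF df (fun q : (α × σ) × (β × List β) => (q.1.1, f q.1.1 q.1.2 q.2.1)) :=
    TF.prodMk (TF.mono (TF.comp TF.fst TF.fst GF.fst le_rfl le_rfl) h2) e3
      (GF.mono (GF.comp GF.fst GF.fst le_rfl) h2) (e3.toGF h2) h2 le_rfl
  have e5 : TF df (fun q : (α × σ) × (β × List β) => ((q.1.1, f q.1.1 q.1.2 q.2.1), q.2.2)) :=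
    TF.prodMk e4 (TF.mono (TF.comp TF.snd TF.snd GF.snd le_rfl le_rfl) h2)
      (e4.toGF h2) (GF.mono (GF.comp GF.snd GF.snd le_rfl) h2) h2 le_rfl
  have e6 := TF.optCase0 (TF.mono e1 h2) e5 h2
  exact (TF.comp e6 g1 gg1 h2 (by omega)).congr fun s => by
    rcases s with ⟨c, l⟩
    cases l <;> rfl

omit [PTCode α] [PTCode β] [PTCode σ] in
theorem iter_stepF (f : α → σ → β → σ) (a : α) (i : σ) (l : List β) (n : ℕ) :
    ∃ l1 l2, l = l1 ++ l2 ∧ (R286.stepF f)^[n] ((a, i), l) = ((a, l1.foldl (f a) i), l2) ∧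
      (l.length ≤ n → l2 = []) := by
  induction n generalizing i l with
  | zero => exact ⟨[], l, rfl, rfl, fun h => List.length_eq_zero_iff.1 (by omega)⟩
  | succ n ih =>
    rw [iterate_succ_apply]
    cases l with
    | nil =>
      obtain ⟨l1, l2, h1, h2, h3⟩ := ih i []
      have h1' := h1.symm
      rw [List.append_eq_nil_iff] at h1'
      obtain ⟨rfl, rfl⟩ := h1'
      refine ⟨[], [], rfl, ?_, fun _ => rfl⟩
      exact h2
    | cons b l =>
      obtain ⟨l1, l2, h1, h2, h3⟩ := ih (f a i b) l
      refine ⟨b :: l1, l2, by rw [h1]; rfl, ?_, fun h => h3 (by simpa using h)⟩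
      exact h2

theorem length_le_sz (l : List β) : l.length ≤ sz l := by
  induction l with
  | nil => exact Nat.zero_le _
  | cons b l ih =>
    have : sz (b :: l) = 2 * sz b + 1 + sz l := by simp [sz]
    rw [this, List.length_cons]; omega

theorem sz_nil : sz ([] : List β) = 0 := rfl

theorem sz_cons (b : β) (l : List β) : sz (b :: l) = 2 * sz b + 1 + sz l := by simp [sz]

theorem sz_append (l1 l2 : List β) : sz (l1 ++ l2) = sz l1 + sz l2 := by
  induction l1 with
  | nil => simp [sz_nil]
  | cons b l ih => rw [List.cons_append, sz_cons, sz_cons, ih]; ring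

theorem TF.foldl {D df eN b : ℕ} {l : α → List β} {i : α → σ} {f : α → σ → β → σ}
    (hl : TF D l) (gl : GF eN l) (hi : TF D i)
    (hf : TF df (fun p : (α × σ) × β => f p.1.1 p.1.2 p.2))
    (hb : ∃ B, ∀ a l1 l2, l a = l1 ++ l2 → sz (l1.foldl (f a) (i a)) ≤ B * (sz a + 1) ^ b)
    (h0 : eN ≤ b) (h1 : 1 ≤ b) (h2 : 1 ≤ df) (h3 : eN + b * df ≤ D) :
    TF D (fun a => (l a).foldl (f a) (i a)) := by
  obtain ⟨B, hB⟩ := hb
  have gl' := gl
  obtain ⟨A, hA⟩ := gl'
  have hbD : b ≤ D := by
    have : b * 1 ≤ b * df := Nat.mul_le_mul_left _ h2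
    omega
  have hD : 1 ≤ D := h1.trans hbD
  have gi : GF b i := ⟨B, fun a => by simpa using hB a [] (l a) rfl⟩
  have s1 : TF D (fun a => (a, i a)) :=
    TF.prodMk (TF.mono TF.id (Nat.zero_le _)) hi (GF.mono (GF.ofEnc fun _ => rfl) h1) gi hD hbD
  have gs1 : GF b (fun a => (a, i a)) := GF.prodMk (GF.mono (GF.ofEnc fun _ => rfl) h1) gi
  have s2 : TF D (fun a => ((a, i a), l a)) :=
    TF.prodMk s1 hl gs1 (gl.mono h0) hD hbD
  have s3 := TF.stepF hf h2
  have key : TF D (fun a => (R286.stepF f)^[sz (l a)] ((a, i a), l a)) := by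
    refine TF.iterate (b := b) (df := df) (eN := eN) hl s2 s3 gl ⟨4 + 2 * B + A + 3, fun a n _ => ?_⟩
      h3 hbD hD
    obtain ⟨l1, l2, k1, k2, -⟩ := iter_stepF f a (i a) (l a) n
    rw [k2, sz_prod, sz_prod]
    simp only
    have m1 := hB a l1 l2 k1
    have m2 : sz l2 ≤ A * (sz a + 1) ^ b := by
      have : sz l2 ≤ sz (l a) := by rw [k1, sz_append]; omega
      exact this.trans ((hA a).trans (Nat.mul_le_mul_left _ (pow_mono' h0)))
    have m3 : sz a ≤ (sz a + 1) ^ b := by
      calc sz a ≤ (sz a + 1) ^ 1 := by rw [pow_one]; exact Nat.le_succ _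
        _ ≤ _ := pow_mono' h1
    have m4 : 1 ≤ (sz a + 1) ^ b := Nat.one_le_pow _ _ (Nat.succ_pos _)
    generalize (sz a + 1) ^ b = X at *
    calc 2 * (2 * sz a + 1 + sz (l1.foldl (f a) (i a))) + 1 + sz l2
        ≤ 2 * (2 * X + X + B * X) + X + A * X := by omega
      _ ≤ (4 + 2 * B + A + 3) * X := by
        have : 2 * (2 * X + X + B * X) + X + A * X = (2 * B + A + 7) * X := by ring
        rw [this]
        exact Nat.mul_le_mul_right _ (by omega)
  have gkey : GF b (fun a => (R286.stepF f)^[sz (l a)] ((a, i a), l a)) := by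
    refine ⟨4 + 2 * B + A + 3, fun a => ?_⟩
    obtain ⟨l1, l2, k1, k2, -⟩ := iter_stepF f a (i a) (l a) (sz (l a))
    show sz ((R286.stepF f)^[sz (l a)] ((a, i a), l a)) ≤ _
    rw [k2, sz_prod, sz_prod]
    simp only
    have m1 := hB a l1 l2 k1
    have m2 : sz l2 ≤ A * (sz a + 1) ^ b := by
      have : sz l2 ≤ sz (l a) := by rw [k1, sz_append]; omega
      exact this.trans ((hA a).trans (Nat.mul_le_mul_left _ (pow_mono' h0)))
    have m3 : sz a ≤ (sz a + 1) ^ b := by
      calc sz a ≤ (sz a + 1) ^ 1 := by rw [pow_one]; exact Nat.le_succ _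
        _ ≤ _ := pow_mono' h1
    have m4 : 1 ≤ (sz a + 1) ^ b := Nat.one_le_pow _ _ (Nat.succ_pos _)
    generalize (sz a + 1) ^ b = X at *
    calc 2 * (2 * sz a + 1 + sz (l1.foldl (f a) (i a))) + 1 + sz l2
        ≤ 2 * (2 * X + X + B * X) + X + A * X := by omega
      _ ≤ (4 + 2 * B + A + 3) * X := by
        have : 2 * (2 * X + X + B * X) + X + A * X = (2 * B + A + 7) * X := by ring
        rw [this]
        exact Nat.mul_le_mul_right _ (by omega)
  have out : TF 1 (fun s : (α × σ) × List β => s.1.2) := TF.comp TF.snd TF.fst GF.fst le_rfl le_rfl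
  refine (TF.comp out key gkey le_rfl (by omega)).congr fun a => ?_
  obtain ⟨l1, l2, k1, k2, k3⟩ := iter_stepF f a (i a) (l a) (sz (l a))
  rw [k2]
  have := k3 (length_le_sz _)
  subst this
  rw [List.append_nil] at k1
  rw [k1]

/-! ### the linear-growth calculus -/

/-- time exponent `k + 1`, linear growth -/
@[fun_prop]
def LF (k : ℕ) (f : α → β) : Prop := TF (k + 1) f ∧ GF 1 f

theorem LF.mono {k k' : ℕ} {f : α → β} (hf : LF k f) (h : k ≤ k') : LF k' f :=
  ⟨hf.1.mono (by omega), hf.2⟩

theorem LF.congr {k : ℕ} {f g : α → β} (hf : LF k f) (h : ∀ a, f a = g a) : LF k g := by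
  have : f = g := funext h
  rwa [← this]

variable {k : ℕ}

@[fun_prop]
theorem LF.id : LF k (fun a : α => a) := ⟨TF.mono TF.id (by omega), GF.ofEnc fun _ => rfl⟩

@[fun_prop]
theorem LF.const (b : β) : LF k (fun _ : α => b) :=
  ⟨(TF.const b).mono (by omega), (GF.const b).mono (by omega)⟩

@[fun_prop]
theorem LF.comp {g : β → γ} {f : α → β} (hg : LF k g) (hf : LF k f) : LF k (fun a => g (f a)) :=
  ⟨TF.comp hg.1 hf.1 hf.2 le_rfl (by omega), GF.comp hg.2 hf.2 le_rfl⟩

@[fun_prop]
theorem LF.fst : LF k (fun p : α × β => p.1) := ⟨TF.fst.mono (by omega), GF.fst⟩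

@[fun_prop]
theorem LF.snd : LF k (fun p : α × β => p.2) := ⟨TF.snd.mono (by omega), GF.snd⟩

@[fun_prop]
theorem LF.prodMk {f : α → β} {g : α → γ} (hf : LF k f) (hg : LF k g) :
    LF k (fun a => (f a, g a)) :=
  ⟨TF.prodMk hf.1 hg.1 hf.2 hg.2 (by omega) (by omega), GF.prodMk hf.2 hg.2⟩

@[fun_prop]
theorem LF.cond {c : α → Bool} {f g : α → β} (hc : LF k c) (hf : LF k f) (hg : LF k g) :
    LF k (fun a => bif c a then f a else g a) :=
  LF.congr (f := fun a => if c a then f a else g a)
    ⟨TF.ite hc.1 hf.1 hg.1 (by omega), GF.ite hf.2 hg.2⟩ fun a => by cases c a <;> rfl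

@[fun_prop]
theorem LF.iteB {c : α → Bool} {f g : α → β} (hc : LF k c) (hf : LF k f) (hg : LF k g) :
    LF k (fun a => if c a = true then f a else g a) :=
  ⟨TF.ite hc.1 hf.1 hg.1 (by omega), GF.ite hf.2 hg.2⟩

@[fun_prop]
theorem LF.not {f : α → Bool} (hf : LF k f) : LF k (fun a => !f a) :=
  (LF.cond hf (LF.const false) (LF.const true)).congr (fun a => by cases f a <;> rfl)

@[fun_prop]
theorem LF.and {f g : α → Bool} (hf : LF k f) (hg : LF k g) : LF k (fun a => f a && g a) :=
  (LF.cond hf hg (LF.const false)).congr (fun a => by cases f a <;> rfl)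

@[fun_prop]
theorem LF.or {f g : α → Bool} (hf : LF k f) (hg : LF k g) : LF k (fun a => f a || g a) :=
  (LF.cond hf (LF.const true) hg).congr (fun a => by cases f a <;> rfl)

theorem LF.eqEnc {f : α → β} {g : α → γ} (hf : LF k f) (hg : LF k g) :
    LF k (fun a => decide (enc (f a) = enc (g a))) :=
  LF.comp (g := fun p : β × γ => R286.eqEnc p) (f := fun a => (f a, g a))
    ⟨TF.eqEnc.mono (by omega), (GF.bool _).mono (by omega)⟩ (LF.prodMk hf hg)

@[fun_prop]
theorem LF.eqDec [DecidableEq β] {f g : α → β} (hf : LF k f) (hg : LF k g) :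
    LF k (fun a => decide (f a = g a)) :=
  (LF.eqEnc hf hg).congr fun a => by simp

@[fun_prop]
theorem LF.beq [DecidableEq β] {f g : α → β} (hf : LF k f) (hg : LF k g) :
    LF k (fun a => f a == g a) :=
  (LF.eqDec hf hg).congr fun a => by
    by_cases h : f a = g a <;> simp [h]

@[fun_prop]
theorem LF.bne [DecidableEq β] {f g : α → β} (hf : LF k f) (hg : LF k g) :
    LF k (fun a => f a != g a) :=
  (LF.not (LF.beq hf hg)).congr fun a => rfl

@[fun_prop]
theorem LF.iteEq [DecidableEq γ] {u v : α → γ} {f g : α → β} (hu : LF k u) (hv : LF k v)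
    (hf : LF k f) (hg : LF k g) : LF k (fun a => if u a = v a then f a else g a) :=
  (LF.cond (LF.eqDec hu hv) hf hg).congr fun a => by
    by_cases h : u a = v a <;> simp [h]

@[fun_prop]
theorem LF.succ {f : α → ℕ} (hf : LF k f) : LF k (fun a => f a + 1) :=
  LF.comp (g := fun n : ℕ => n + 1) ⟨TF.succ.mono (by omega), GF.succ⟩ hf

@[fun_prop]
theorem LF.optSome {f : α → β} (hf : LF k f) : LF k (fun a => some (f a)) :=
  LF.comp (g := fun b : β => some b) ⟨TF.some.mono (by omega), GF.some⟩ hf

@[fun_prop]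
theorem LF.listCons {f : α → β} {g : α → List β} (hf : LF k f) (hg : LF k g) :
    LF k (fun a => f a :: g a) :=
  LF.comp (g := fun p : β × List β => p.1 :: p.2)
    ⟨(TF.ofEnc fun p => by simp).mono (by omega), GF.ofEnc fun p => by simp⟩ (LF.prodMk hf hg)

@[fun_prop]
theorem LF.uncons {f : α → List β} (hf : LF k f) : LF k (fun a => uncons (f a)) :=
  LF.comp (g := fun l : List β => R286.uncons l) ⟨TF.uncons.mono (by omega), GF.uncons⟩ hf

theorem LF.optCase {s : α → Option β} {f : α → δ} {g : α → β → δ} (hs : LF k s) (hf : LF k f)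
    (hg : LF k (fun p : α × β => g p.1 p.2)) :
    LF k (fun a => match s a with | none => f a | some b => g a b) := by
  have h0 : LF k (fun p : α × Option β =>
      match p.2 with | none => f p.1 | some b => g p.1 b) := by
    refine ⟨TF.optCase0 hf.1 hg.1 (by omega), ?_⟩
    obtain ⟨F, hF⟩ := hf.2
    obtain ⟨G, hG⟩ := hg.2
    refine ⟨F + G, fun p => ?_⟩
    obtain ⟨a, o⟩ := p
    cases o with
    | none =>
      refine (hF a).trans ?_
      simp only [pow_one]
      refine Nat.mul_le_mul (by omega) ?_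
      rw [sz_prod]; simp only; omega
    | some b =>
      refine (hG (a, b)).trans ?_
      simp only [pow_one]
      refine Nat.mul_le_mul (by omega) ?_
      rw [sz_prod, sz_prod]; simp only [sz_some]; omega
  exact LF.comp (f := fun a => (a, s a)) h0 (LF.prodMk LF.id hs)

theorem LF.listCase {s : α → List β} {f : α → δ} {g : α → β → List β → δ} (hs : LF k s)
    (hf : LF k f) (hg : LF k (fun p : α × β × List β => g p.1 p.2.1 p.2.2)) :
    LF k (fun a => match s a with | [] => f a | b :: l => g a b l) :=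
  (LF.optCase (LF.uncons hs) hf (g := fun a q => g a q.1 q.2) hg).congr fun a => by
    cases s a <;> rfl

@[fun_prop]
theorem LF.tail {s : α → List β} (hs : LF k s) : LF k (fun a => (s a).tail) :=
  (LF.listCase hs (f := fun _ => []) (LF.const []) (g := fun _ _ l => l)
    (by fun_prop)).congr (fun a => by cases s a <;> rfl)

@[fun_prop]
theorem LF.isEmpty {s : α → List β} (hs : LF k s) : LF k (fun a => (s a).isEmpty) :=
  (LF.listCase hs (f := fun _ => true) (LF.const true) (g := fun _ _ _ => false)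
    (by fun_prop)).congr (fun a => by cases s a <;> rfl)

@[fun_prop]
theorem LF.isSome {s : α → Option β} (hs : LF k s) : LF k (fun a => (s a).isSome) :=
  (LF.optCase hs (f := fun _ => false) (LF.const false) (g := fun _ _ => true)
    (by fun_prop)).congr (fun a => by cases s a <;> rfl)

/-! ### folds with linear growth -/

theorem LF.foldl {l : α → List β} {i : α → σ} {f : α → σ → β → σ}
    (hl : LF k l) (hi : LF k i) (hf : LF k (fun p : (α × σ) × β => f p.1.1 p.1.2 p.2))
    (hb : ∃ B, ∀ a l1 l2, l a = l1 ++ l2 → sz (l1.foldl (f a) (i a)) ≤ B * (sz a + 1)) :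
    LF (k + 1) (fun a => (l a).foldl (f a) (i a)) := by
  obtain ⟨B, hB⟩ := hb
  refine ⟨TF.foldl (eN := 1) (b := 1) (df := k + 1) (hl.1.mono (by omega)) hl.2
    (hi.1.mono (by omega)) hf.1 ⟨B, fun a l1 l2 h => by simpa using hB a l1 l2 h⟩ le_rfl le_rfl
    (by omega) (by omega), ⟨B, fun a => by simpa using hB a (l a) [] (by simp)⟩⟩

theorem LF.any {l : α → List β} {p : α → β → Bool} (hl : LF k l)
    (hp : LF k (fun q : α × β => p q.1 q.2)) : LF (k + 1) (fun a => (l a).any (p a)) := by
  have hp' : LF k (fun q : (α × Bool) × β => p q.1.1 q.2) :=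
    LF.comp (g := fun q : α × β => p q.1 q.2) (f := fun q : (α × Bool) × β => (q.1.1, q.2)) hp
      (by fun_prop)
  have h := LF.foldl (l := l) (i := fun _ => false) (f := fun a acc x => acc || p a x) hl
    (LF.const false) (by fun_prop) ⟨1, fun a l1 l2 _ => by rw [sz_bool]; omega⟩
  refine h.congr fun a => ?_
  have : ∀ (m : List β) (b : Bool), m.foldl (fun acc x => acc || p a x) b = (b || m.any (p a)) := by
    intro m
    induction m with
    | nil => intro b; simp
    | cons x m ih => intro b; rw [List.foldl_cons, ih, List.any_cons, Bool.or_assoc]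
  rw [this]; rfl

theorem LF.all {l : α → List β} {p : α → β → Bool} (hl : LF k l)
    (hp : LF k (fun q : α × β => p q.1 q.2)) : LF (k + 1) (fun a => (l a).all (p a)) :=
  (LF.not (LF.any (p := fun a x => !p a x) hl (LF.not hp))).congr fun a => by
    rw [List.all_eq_not_any_not]

theorem LF.contains [DecidableEq β] {l : α → List β} {x : α → β} (hl : LF k l) (hx : LF k x) :
    LF (k + 1) (fun a => (l a).contains (x a)) := by
  have hx' : LF k (fun q : α × β => x q.1) := LF.comp hx LF.fst
  refine (LF.any (p := fun a y => x a == y) hl (by fun_prop)).congr fun a => ?_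
  rw [List.contains_eq_any_beq]

theorem sz_reverse (l : List β) : sz l.reverse = sz l := by
  induction l with
  | nil => rfl
  | cons b l ih => rw [List.reverse_cons, sz_append, sz_cons, sz_cons, sz_nil, ih]; ring

theorem LF.reverse {l : α → List β} (hl : LF k l) : LF (k + 1) (fun a => (l a).reverse) := by
  obtain ⟨A, hA⟩ := hl.2
  have e : ∀ (m acc : List β), m.foldl (fun acc x => x :: acc) acc = m.reverse ++ acc := by
    intro m
    induction m with
    | nil => intro acc; rfl
    | cons x m ih => intro acc; rw [List.foldl_cons, ih]; simp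
  refine (LF.foldl (l := l) (i := fun _ => ([] : List β)) (f := fun _ acc x => x :: acc) hl
    (LF.const []) (by fun_prop) ⟨A, fun a l1 l2 h => ?_⟩).congr fun a => ?_
  · have h1 := hA a
    rw [pow_one] at h1
    rw [e, List.append_nil, sz_reverse]
    rw [h, sz_append] at h1
    omega
  · rw [e, List.append_nil]

theorem LF.append {l m : α → List β} (hl : LF k l) (hm : LF k m) :
    LF (k + 1) (fun a => l a ++ m a) := by
  obtain ⟨A, hA⟩ := hl.2
  obtain ⟨B, hB⟩ := hm.2
  have e : ∀ (m acc : List β), m.foldl (fun acc x => x :: acc) acc = m.reverse ++ acc := by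
    intro m
    induction m with
    | nil => intro acc; rfl
    | cons x m ih => intro acc; rw [List.foldl_cons, ih]; simp
  -- environment `(reverse of l, m)`
  have h0 : LF 0 (fun p : List β × List β => p.1) := LF.fst
  have h1 : LF 1 (fun p : List β × List β => p.1.foldl (fun acc x => x :: acc) p.2) :=
    LF.foldl (k := 0) (l := fun p : List β × List β => p.1)
      (i := fun p : List β × List β => p.2)
      (f := fun _ acc x => x :: acc) LF.fst LF.snd (by fun_prop)
      ⟨1, fun a l1 l2 h => by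
        rw [e, sz_append, sz_reverse, sz_prod]
        have : sz a.1 = sz l1 + sz l2 := by rw [h, sz_append]
        omega⟩
  have h2 : LF (k + 1) (fun a => ((l a).reverse, m a)) :=
    LF.prodMk (LF.reverse hl) (hm.mono (by omega))
  refine (LF.comp (h1.mono (by omega)) h2).congr fun a => ?_
  rw [e, List.reverse_reverse]

theorem sz_filter_le (p : β → Bool) (l : List β) : sz (l.filter p) ≤ sz l := by
  induction l with
  | nil => exact le_rfl
  | cons b l ih =>
    rw [List.filter_cons]
    split
    · rw [sz_cons, sz_cons]; omega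
    · rw [sz_cons]; omega

theorem LF.filter {l : α → List β} {p : α → β → Bool} (hl : LF k l)
    (hp : LF k (fun q : α × β => p q.1 q.2)) : LF (k + 1) (fun a => (l a).filter (p a)) := by
  obtain ⟨A, hA⟩ := hl.2
  have hp' : LF k (fun q : (α × List β) × β => p q.1.1 q.2) :=
    LF.comp (g := fun q : α × β => p q.1 q.2) (f := fun q : (α × List β) × β => (q.1.1, q.2)) hp
      (by fun_prop)
  have e : ∀ (a : α) (m acc : List β), m.foldl (fun acc x => if p a x = true then x :: acc else acc) acc
      = (m.filter (p a)).reverse ++ acc := by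
    intro a m
    induction m with
    | nil => intro acc; rfl
    | cons x m ih =>
      intro acc; rw [List.foldl_cons, ih, List.filter_cons]
      split <;> simp
  have h1 : LF (k + 1) (fun a => (l a).foldl (fun acc x => if p a x = true then x :: acc else acc)
      []) :=
    LF.foldl (l := l) (i := fun _ => []) (f := fun a acc x => if p a x = true then x :: acc else acc)
      hl (LF.const []) (by fun_prop)
      ⟨A, fun a l1 l2 h => by
        rw [e, List.append_nil, sz_reverse]
        have h1 := hA a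
        rw [pow_one, h, sz_append] at h1
        have := sz_filter_le (p a) l1
        omega⟩
  have h2 : LF (k + 1) (fun m : List β => m.reverse) := (LF.reverse (k := 0) LF.id).mono (by omega)
  exact (LF.comp h2 h1).congr fun a => by rw [e]; simp

theorem LF.map {l : α → List β} {f : α → β → γ} (hl : LF k l)
    (hf : LF k (fun q : α × β => f q.1 q.2))
    (hb : ∃ B, ∀ a, sz ((l a).map (f a)) ≤ B * (sz a + 1)) :
    LF (k + 1) (fun a => (l a).map (f a)) := by
  obtain ⟨B, hB⟩ := hb
  have hf' : LF k (fun q : (α × List γ) × β => f q.1.1 q.2) :=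
    LF.comp (g := fun q : α × β => f q.1 q.2) (f := fun q : (α × List γ) × β => (q.1.1, q.2)) hf
      (by fun_prop)
  have e : ∀ (a : α) (m : List β) (acc : List γ), m.foldl (fun acc x => f a x :: acc) acc
      = (m.map (f a)).reverse ++ acc := by
    intro a m
    induction m with
    | nil => intro acc; rfl
    | cons x m ih => intro acc; rw [List.foldl_cons, ih]; simp
  have h1 : LF (k + 1) (fun a => (l a).foldl (fun acc x => f a x :: acc) []) :=
    LF.foldl (l := l) (i := fun _ => []) (f := fun a acc x => f a x :: acc)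
      hl (LF.const []) (by fun_prop)
      ⟨B, fun a l1 l2 h => by
        rw [e, List.append_nil, sz_reverse]
        have h1 := hB a
        rw [h, List.map_append, sz_append] at h1
        omega⟩
  have h2 : LF (k + 1) (fun m : List γ => m.reverse) := (LF.reverse (k := 0) LF.id).mono (by omega)
  exact (LF.comp h2 h1).congr fun a => by rw [e]; simp

end Crest.Agent.R286
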