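import Crest.Agent.R286.TimeDefs

/-! # More combinators for `LF k`: firstSome, Nodup, flatMap/map with growth, takeWhile -/

set_option autoImplicit false
set_option linter.dupNamespace false
set_option linter.unusedVariables false
set_option linter.unusedSectionVars false

namespace Crest.Agent.R286

open Function Crest.Agent.Lib.PT

variable {α β γ δ σ κ : Type} [PTCode α] [PTCode β] [PTCode γ] [PTCode δ] [PTCode σ] [PTCode κ]

variable {k : ℕ}

theorem sz_mem_le {l : List β} {x : β} (h : x ∈ l) : sz x ≤ sz l := by
  induction l with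
  | nil => simp at h
  | cons b l ih =>
    rw [sz_cons]
    rcases List.mem_cons.1 h with rfl | h
    · omega
    · have := ih h; omega

theorem firstSome_some {α β : Type} {f : α → Option β} {l : List α} {r : β}
    (h : firstSome f l = some r) : ∃ x ∈ l, f x = some r := by
  have key : ∀ (l : List α) (acc : Option β),
      l.foldl (fun acc x => match acc with | some r => some r | none => f x) acc = some r →
        acc = some r ∨ ∃ x ∈ l, f x = some r := by
    intro l
    induction l with
    | nil => intro acc h; exact Or.inl h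
    | cons x l ih =>
      intro acc h
      rw [List.foldl_cons] at h
      rcases ih _ h with h | ⟨y, hy, h⟩
      · cases acc with
        | none => exact Or.inr ⟨x, by simp, h⟩
        | some r' => exact Or.inl h
      · exact Or.inr ⟨y, by simp [hy], h⟩
  rcases key l none h with h | h
  · exact absurd h (by simp)
  · exact h

theorem LF.firstSome {l : α → List β} {f : α → β → Option γ} (hl : LF k l)
    (hf : LF k (fun q : α × β => f q.1 q.2)) : LF (k + 1) (fun a => firstSome (f a) (l a)) := by
  obtain ⟨A, hA⟩ := hl.2
  obtain ⟨F, hF⟩ := hf.2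
  have hf' : LF k (fun q : (α × Option γ) × β => f q.1.1 q.2) :=
    LF.comp (g := fun q : α × β => f q.1 q.2) (f := fun q : (α × Option γ) × β => (q.1.1, q.2)) hf
      (by fun_prop)
  have hbody : LF k (fun q : (α × Option γ) × β =>
      match q.1.2 with | some r => some r | none => f q.1.1 q.2) :=
    (LF.optCase (s := fun q : (α × Option γ) × β => q.1.2) (f := fun q => f q.1.1 q.2)
      (g := fun _ r => some r) (by fun_prop) hf' (by fun_prop)).congr fun q => by
        cases q.1.2 <;> rfl
  refine LF.foldl (l := l) (i := fun _ => (none : Option γ))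
    (f := fun a acc x => match acc with | some r => some r | none => f a x) hl (LF.const none)
    hbody ⟨F * (A + 4), fun a l1 l2 h => ?_⟩
  show sz (R286.firstSome (f a) l1) ≤ _
  rcases h1 : R286.firstSome (f a) l1 with _ | r
  · exact Nat.zero_le _
  · obtain ⟨x, hx, h2⟩ := firstSome_some h1
    rw [← h2]
    have h3 := hF (a, x)
    simp only [pow_one] at h3
    refine h3.trans ?_
    rw [mul_assoc]
    refine Nat.mul_le_mul_left _ ?_
    have h4 : sz x ≤ sz (l a) := sz_mem_le (by rw [h]; simp [hx])
    have h5 := hA a
    rw [pow_one] at h5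
    rw [sz_prod]
    simp only
    calc 2 * sz a + 1 + sz x + 1 ≤ 2 * sz a + 2 + A * (sz a + 1) := by omega
      _ ≤ (A + 4) * (sz a + 1) := by
        have : (A + 4) * (sz a + 1) = A * (sz a + 1) + 4 * sz a + 4 := by ring
        omega

theorem LF.beqB [BEq β] [LawfulBEq β] {f g : α → β} (hf : LF k f) (hg : LF k g) :
    LF k (fun a => f a == g a) :=
  (LF.eqEnc hf hg).congr fun a => by
    by_cases h : f a = g a
    · simp [h]
    · simp [h]

theorem LF.containsB [BEq β] [LawfulBEq β] {l : α → List β} {x : α → β} (hl : LF k l)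
    (hx : LF k x) : LF (k + 1) (fun a => (l a).contains (x a)) := by
  have hx' : LF k (fun q : α × β => x q.1) := LF.comp hx LF.fst
  refine (LF.any (p := fun a y => x a == y) hl (LF.beqB hx' LF.snd)).congr fun a => ?_
  rw [List.contains_eq_any_beq]

/-! ### Nodup -/

/-- fold deciding `Nodup` -/
def nodupB (l : List ℕ) : Bool :=
  (l.foldl (fun (s : List ℕ × Bool) x => (x :: s.1, s.2 && !s.1.contains x)) ([], true)).2

theorem nodupB_eq (l : List ℕ) : nodupB l = decide l.Nodup := by
  have key : ∀ (l : List ℕ) (s : List ℕ) (b : Bool),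
      l.foldl (fun (s : List ℕ × Bool) x => (x :: s.1, s.2 && !s.1.contains x)) (s, b) =
        (l.reverse ++ s, b && decide (l.Nodup ∧ ∀ x ∈ l, x ∉ s)) := by
    intro l
    induction l with
    | nil => intro s b; simp
    | cons x l ih =>
      intro s b
      rw [List.foldl_cons, ih]
      refine Prod.ext (by simp) ?_
      simp only
      rw [Bool.and_assoc]
      congr 1
      rw [Bool.eq_iff_iff]
      simp only [Bool.and_eq_true, Bool.not_eq_true', decide_eq_true_eq, List.nodup_cons,
        List.mem_cons, List.contains_eq_mem, decide_eq_false_iff_not, forall_eq_or_imp, not_or]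
      constructor
      · rintro ⟨h1, h2, h3⟩
        exact ⟨⟨fun h => (h3 x h).1 rfl, h2⟩, h1, fun y hy => (h3 y hy).2⟩
      · rintro ⟨⟨h1, h2⟩, h3, h4⟩
        exact ⟨h3, h2, fun y hy => ⟨fun h => h1 (h ▸ hy), h4 y hy⟩⟩
  rw [nodupB, key]
  simp

theorem LF.nodup {l : α → List ℕ} (hl : LF k l) (hk : 2 ≤ k) :
    LF k (fun a => decide (l a).Nodup) := by
  have h1 : LF 1 (fun p : (List ℕ × (List ℕ × Bool)) × ℕ => p.1.2.1.contains p.2) :=
    LF.contains (k := 0) (by fun_prop) (by fun_prop)
  have h2 : LF 2 (fun m : List ℕ => m.foldl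
      (fun (s : List ℕ × Bool) x => (x :: s.1, s.2 && !s.1.contains x)) ([], true)) := by
    refine LF.foldl (k := 1) (l := fun m : List ℕ => m) (i := fun _ => ([], true))
      (f := fun _ (s : List ℕ × Bool) x => (x :: s.1, s.2 && !s.1.contains x)) LF.id
      (LF.const _) (by fun_prop) ⟨2, fun m l1 l2 h => ?_⟩
    have key : ∀ (l : List ℕ) (s : List ℕ) (b : Bool),
        (l.foldl (fun (s : List ℕ × Bool) x => (x :: s.1, s.2 && !s.1.contains x)) (s, b)).1 =
          l.reverse ++ s := by
      intro l
      induction l with
      | nil => intro s b; simp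
      | cons x l ih => intro s b; rw [List.foldl_cons, ih]; simp
    rw [sz_prod, key, List.append_nil, sz_reverse, sz_bool]
    have : sz m = sz l1 + sz l2 := by rw [h, sz_append]
    omega
  have h3 : LF k (fun m : List ℕ => nodupB m) :=
    (LF.comp (g := fun p : List ℕ × Bool => p.2) LF.snd h2).mono hk
  exact (LF.comp h3 hl).congr fun a => nodupB_eq _

end Crest.Agent.R286
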