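import Crest.Agent.R286.Tmain

/-!
Row 286, node T: conversion between lists of slots and slot functions; the theorem T in the
relation form (frozen interface).
-/

set_option autoImplicit false

namespace Crest.Agent.R286.T3

variable {α : Type*} [DecidableEq α] {r : α → α → Prop} {ν : α → ℕ}

/-- slot of `x` -/
def slot : List (Finset α) → α → ℕ
  | [], _ => 0
  | S :: l, x => if x ∈ S then l.length + 1 else slot l x

theorem slot_pos {l : List (Finset α)} : ∀ {D : Finset α}, IsPk r l D → ∀ x ∈ D,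
    1 ≤ slot l x ∧ slot l x ≤ l.length := by
  induction l with
  | nil => intro D h x hx; simp only [IsPk] at h; subst h; simp at hx
  | cons S l ih =>
    intro D h x hx
    by_cases hxS : x ∈ S
    · simp only [slot, hxS, if_true, List.length_cons]
      omega
    · have := ih h.2.2.2 x (Finset.mem_sdiff.2 ⟨hx, hxS⟩)
      simp only [slot, hxS, if_false, List.length_cons]
      omega

theorem slot_mono {l : List (Finset α)} : ∀ {D : Finset α}, IsPk r l D → ∀ x ∈ D, ∀ y ∈ D,
    r x y → slot l x < slot l y := by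
  induction l with
  | nil => intro D h x hx; simp only [IsPk] at h; subst h; simp at hx
  | cons S l ih =>
    intro D h x hx y hy hxy
    by_cases hxS : x ∈ S
    · exact absurd hxy (h.2.2.1 x hxS y hy)
    · have hxD := Finset.mem_sdiff.2 ⟨hx, hxS⟩
      by_cases hyS : y ∈ S
      · have := slot_pos h.2.2.2 x hxD
        simp only [slot, hxS, hyS, if_true, if_false]
        omega
      · simp only [slot, hxS, hyS, if_false]
        exact ih h.2.2.2 x hxD y (Finset.mem_sdiff.2 ⟨hy, hyS⟩) hxy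

theorem slot_card {l : List (Finset α)} : ∀ {D : Finset α}, IsPk r l D → ∀ i, 1 ≤ i →
    i ≤ l.length → (D.filter (slot l · = i)).card = 3 := by
  induction l with
  | nil => intro D h i h1 h2; simp at h2; omega
  | cons S l ih =>
    intro D h i h1 h2
    simp only [List.length_cons] at h2
    rcases Nat.lt_or_ge l.length i with hi | hi
    · have hi' : i = l.length + 1 := by omega
      have : D.filter (slot (S :: l) · = i) = S := by
        ext x
        simp only [Finset.mem_filter, slot]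
        constructor
        · rintro ⟨hx, hs⟩
          by_contra hxS
          rw [if_neg hxS] at hs
          have := slot_pos h.2.2.2 x (Finset.mem_sdiff.2 ⟨hx, hxS⟩)
          omega
        · intro hx
          exact ⟨h.1 hx, by rw [if_pos hx]; exact hi'.symm⟩
      rw [this]; exact h.2.1
    · rw [← ih h.2.2.2 i h1 hi]
      congr 1
      ext x
      simp only [Finset.mem_filter, slot, Finset.mem_sdiff]
      constructor
      · rintro ⟨hx, hs⟩
        by_cases hxS : x ∈ S
        · rw [if_pos hxS] at hs; omega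
        · rw [if_neg hxS] at hs; exact ⟨⟨hx, hxS⟩, hs⟩
      · rintro ⟨⟨hx, hxS⟩, hs⟩
        exact ⟨hx, by rw [if_neg hxS]; exact hs⟩

/-- separators are slots -/
theorem Sp.idx {l : List (Finset α)} : ∀ {D s : Finset α}, IsPk r l D → Sp r l s →
    ∃ q, 1 ≤ q ∧ q ≤ l.length ∧ (∀ w ∈ s, slot l w = q) ∧
      ∀ x ∈ D, q < slot l x → ∃ w ∈ s, r w x := by
  induction l with
  | nil => intro D s _ h; exact h.elim
  | cons S l ih =>
    intro D s h hs
    rcases hs with rfl | ⟨hs, h1⟩
    · refine ⟨l.length + 1, by omega, by simp, fun w hw => by simp [slot, hw], fun x hx hlt => ?_⟩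
      have := slot_pos (r := r) (l := s :: l) h x hx
      simp only [List.length_cons] at this
      omega
    · obtain ⟨q, hq1, hq2, hq3, hq4⟩ := ih h.2.2.2 hs
      have hsub := Sp.subset h.2.2.2 hs
      refine ⟨q, hq1, by simp only [List.length_cons]; omega, fun w hw => ?_, fun x hx hlt => ?_⟩
      · have := (Finset.mem_sdiff.1 (hsub hw)).2
        simp only [slot, this, if_false]
        exact hq3 w hw
      · by_cases hxS : x ∈ S
        · exact h1 x hxS
        · simp only [slot, hxS, if_false] at hlt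
          exact hq4 x (Finset.mem_sdiff.2 ⟨hx, hxS⟩) hlt

/-- conversely every packing in the relation form is a list -/
theorem exists_list {N : ℕ} : ∀ {X : Finset α} {s : α → ℕ}, (∀ x ∈ X, 1 ≤ s x ∧ s x ≤ N) →
    (∀ i, 1 ≤ i → i ≤ N → (X.filter (s · = i)).card = 3) →
    (∀ x ∈ X, ∀ y ∈ X, r x y → s x < s y) → ∃ l, IsPk r l X ∧ l.length = N := by
  induction N with
  | zero =>
    intro X s h1 _ _
    refine ⟨[], ?_, rfl⟩
    simp only [IsPk]
    refine Finset.eq_empty_of_forall_notMem fun x hx => ?_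
    have := h1 x hx
    omega
  | succ N ih =>
    intro X s h1 h2 h3
    have hsd : ∀ x, x ∈ X \ X.filter (s · = N + 1) ↔ x ∈ X ∧ s x ≠ N + 1 := by
      intro x
      simp only [Finset.mem_sdiff, Finset.mem_filter]
      tauto
    obtain ⟨l, hl, hN⟩ := ih (X := X \ X.filter (s · = N + 1)) (s := s)
      (fun x hx => by
        have h := (hsd x).1 hx
        have := h1 x h.1
        have := h.2
        omega)
      (fun i hi1 hi2 => by
        rw [← h2 i hi1 (by omega)]
        congr 1
        ext x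
        rw [Finset.mem_filter, Finset.mem_filter, hsd]
        constructor
        · rintro ⟨⟨h, _⟩, h'⟩; exact ⟨h, h'⟩
        · rintro ⟨h, h'⟩; exact ⟨⟨h, by omega⟩, h'⟩)
      (fun x hx y hy hxy => h3 x ((hsd x).1 hx).1 y ((hsd y).1 hy).1 hxy)
    refine ⟨X.filter (s · = N + 1) :: l, ⟨Finset.filter_subset _ _, h2 _ (by omega) le_rfl, ?_, hl⟩,
      by simp [hN]⟩
    intro x hx y hy hxy
    rw [Finset.mem_filter] at hx
    have := h3 x hx.1 y hy hxy
    have := h1 y hy
    omega

/-- (F): L-free cuts are described by the staircase -/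
theorem conv {X : Finset α} {l : List (Finset α)} : ∀ {D : Finset α}, D ⊆ X → IsPk r l D →
    Good r ν X l D → ∀ s : α → ℕ, (∀ x ∈ D, s x = slot l x) → (∀ x ∈ X, x ∉ D → l.length < s x) →
    ∀ t, 1 ≤ t → t ≤ l.length →
      (∀ q, 1 ≤ q → q < t → ∃ x ∈ X, q < s x ∧ s x ≤ t ∧ ∀ w ∈ X, s w = q → ¬ r w x) →
      ∃ St, IsSt r ν St ∧ ∀ z ∈ X, (s z ≤ t ↔ z ∈ St ∧ ∀ w ∈ X, s w = t → ¬ r w z) := by
  induction l with
  | nil => intro D _ _ _ s _ _ t h1 h2; simp at h2; omega
  | cons S l ih =>
    intro D hDX hpk hgood s hsD hsX t ht1 ht2 hfree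
    simp only [List.length_cons] at ht2 hsX
    rcases Nat.lt_or_ge l.length t with ht | ht
    · have ht' : t = l.length + 1 := by omega
      obtain ⟨⟨St, hSt, hDSt, hB⟩, _⟩ := hgood
      have hD : ∀ x ∈ X, (s x ≤ t ↔ x ∈ D) := by
        intro x hx
        constructor
        · intro h
          by_contra hxD
          have := hsX x hx hxD
          omega
        · intro h
          rw [hsD x h]
          have := slot_pos hpk x h
          simp only [List.length_cons] at this
          omega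
      refine ⟨St, hSt, fun z hz => ⟨fun hzt => ?_, fun ⟨hzSt, hzw⟩ => ?_⟩⟩
      · have hzD := (hD z hz).1 hzt
        refine ⟨hDSt z hzD, fun w hw hwt hwz => ?_⟩
        have hwD := (hD w hw).1 hwt.le
        have := slot_mono hpk w hwD z hzD hwz
        rw [← hsD w hwD, ← hsD z hzD] at this
        omega
      · by_contra hzt
        have hzD : z ∉ D := fun h => hzt ((hD z hz).2 h)
        obtain ⟨s', hs', w, hw, hwz⟩ := hB z hz hzD hzSt
        obtain ⟨q, hq1, hq2, hq3, hq4⟩ := Sp.idx hpk hs'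
        have hsub := Sp.subset hpk hs'
        simp only [List.length_cons] at hq2
        rcases Nat.lt_or_ge q t with hqt | hqt
        · obtain ⟨x, hx, hqx, hxt, hxw⟩ := hfree q hq1 hqt
          have hxD := (hD x hx).1 hxt
          rw [hsD x hxD] at hqx
          obtain ⟨w', hw', hw'x⟩ := hq4 x hxD hqx
          refine hxw w' (hDX (hsub hw')) ?_ hw'x
          rw [hsD w' (hsub hw')]; exact hq3 w' hw'
        · refine hzw w (hDX (hsub hw)) ?_ hwz
          rw [hsD w (hsub hw), hq3 w hw]; omega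
    · refine ih (D := D \ S) (Finset.sdiff_subset.trans hDX) hpk.2.2.2 hgood.2 s ?_ ?_ t ht1 ht hfree
      · intro x hx
        rw [Finset.mem_sdiff] at hx
        rw [hsD x hx.1]
        simp only [slot, hx.2, if_false]
      · intro x hx hxD
        by_cases hxS : x ∈ S
        · rw [hsD x (hpk.1 hxS)]
          simp only [slot, hxS, if_true]
          omega
        · have := hsX x hx (fun h => hxD (Finset.mem_sdiff.2 ⟨h, hxS⟩))
          omega

/-- staircases in the frozen form -/
theorem IsSt.desc {St : Set α} (h : IsSt r ν St) :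
    ∃ F0 F1 F2 : Set α, (F0 = Set.univ ∨ ∃ b c, F0 = {z | r z b ∨ r z c}) ∧
      (F1 = Set.univ ∨ ∃ b c, F1 = {z | r z b ∨ r z c}) ∧
      (F2 = Set.univ ∨ ∃ b c, F2 = {z | r z b ∨ r z c}) ∧ ∃ a0 a1 a2 : ℕ,
      St = {z | (z ∈ F0 ∧ ν z < a0) ∨ (z ∈ F1 ∧ ν z < a1) ∨ (z ∈ F2 ∧ ν z < a2)} := by
  classical
  obtain ⟨F, a, I, hok, rfl⟩ := h
  -- cover by three indices
  obtain ⟨i, j, k, hi, hj, hk, hall⟩ : ∃ i j k : Option ℕ, (∀ n, i = some n → n ∈ I) ∧
      (∀ n, j = some n → n ∈ I) ∧ (∀ n, k = some n → n ∈ I) ∧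
      ∀ n ∈ I, i = some n ∨ j = some n ∨ k = some n := by
    have hc := hok.card
    rcases Nat.lt_or_ge I.card 1 with h0 | h0
    · have : I = ∅ := Finset.card_eq_zero.1 (by omega)
      subst this
      exact ⟨none, none, none, by simp, by simp, by simp, by simp⟩
    · rcases Nat.lt_or_ge I.card 2 with h1 | h1
      · obtain ⟨x, hx⟩ := Finset.card_eq_one.1 (show I.card = 1 by omega)
        subst hx
        exact ⟨some x, none, none, by simp, by simp, by simp, by simp⟩
      · rcases Nat.lt_or_ge I.card 3 with h2 | h2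
        · obtain ⟨x, y, _, hx⟩ := Finset.card_eq_two.1 (show I.card = 2 by omega)
          subst hx
          exact ⟨some x, some y, none, by simp, by simp, by simp, by simp⟩
        · obtain ⟨x, y, z, _, _, _, hx⟩ := Finset.card_eq_three.1 (show I.card = 3 by omega)
          subst hx
          exact ⟨some x, some y, some z, by simp, by simp, by simp, by simp⟩
  have hfr : ∀ o : Option ℕ, (∀ n, o = some n → n ∈ I) →
      (o.elim Set.univ F = Set.univ ∨ ∃ b c, o.elim Set.univ F = {z | r z b ∨ r z c}) := by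
    intro o ho
    cases o with
    | none => exact Or.inl rfl
    | some n => exact hok.frame n (ho n rfl)
  refine ⟨i.elim Set.univ F, j.elim Set.univ F, k.elim Set.univ F, hfr i hi, hfr j hj, hfr k hk,
    i.elim 0 a, j.elim 0 a, k.elim 0 a, ?_⟩
  have key : ∀ o : Option ℕ, (∀ n, o = some n → n ∈ I) → ∀ z,
      z ∈ o.elim Set.univ F ∧ ν z < o.elim 0 a → ∃ n ∈ I, Cov ν F a n z := by
    intro o ho z hz
    cases o with
    | none => exact absurd hz.2 (by simp)
    | some n => exact ⟨n, ho n rfl, hz⟩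
  ext z
  constructor
  · rintro ⟨n, hn, hz⟩
    rcases hall n hn with h | h | h
    · left; subst h; exact hz
    · right; left; subst h; exact hz
    · right; right; subst h; exact hz
  · rintro (h | h | h)
    · exact key i hi z h
    · exact key j hj z h
    · exact key k hk z h

/-- THEOREM T -/
theorem theoremT (hirr : ∀ x : α, ¬ r x x) (htr : ∀ ⦃x y z : α⦄, r x y → r y z → r x z)
    (hmon : ∀ ⦃x y⦄, r x y → ν x < ν y) (hinj : Function.Injective ν) (X : Finset α) (N : ℕ)
    (h : ∃ s : α → ℕ, (∀ x ∈ X, 1 ≤ s x ∧ s x ≤ N) ∧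
      (∀ i, 1 ≤ i → i ≤ N → (X.filter (s · = i)).card = 3) ∧
      (∀ x ∈ X, ∀ y ∈ X, r x y → s x < s y)) :
    ∃ s : α → ℕ, ((∀ x ∈ X, 1 ≤ s x ∧ s x ≤ N) ∧
      (∀ i, 1 ≤ i → i ≤ N → (X.filter (s · = i)).card = 3) ∧
      (∀ x ∈ X, ∀ y ∈ X, r x y → s x < s y)) ∧ ∀ t, 1 ≤ t → t ≤ N →
      (∀ q, 1 ≤ q → q < t → ∃ x ∈ X, q < s x ∧ s x ≤ t ∧ ∀ w ∈ X, s w = q → ¬ r w x) →
      ∃ St, (∃ F0 F1 F2 : Set α, (F0 = Set.univ ∨ ∃ b c, F0 = {z | r z b ∨ r z c}) ∧
        (F1 = Set.univ ∨ ∃ b c, F1 = {z | r z b ∨ r z c}) ∧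
        (F2 = Set.univ ∨ ∃ b c, F2 = {z | r z b ∨ r z c}) ∧ ∃ a0 a1 a2 : ℕ,
        St = {z | (z ∈ F0 ∧ ν z < a0) ∨ (z ∈ F1 ∧ ν z < a1) ∨ (z ∈ F2 ∧ ν z < a2)}) ∧
        ∀ z ∈ X, (s z ≤ t ↔ z ∈ St ∧ ∀ w ∈ X, s w = t → ¬ r w z) := by
  obtain ⟨s0, h1, h2, h3⟩ := h
  obtain ⟨l0, hl0, hN⟩ := exists_list h1 h2 h3
  obtain ⟨l, hl, hlen, hg⟩ := exists_good_top hirr htr hmon hinj X hl0
  rw [hN] at hlen
  subst hlen
  refine ⟨slot l, ⟨slot_pos hl, slot_card hl, slot_mono hl⟩, fun t ht1 ht2 hfree => ?_⟩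
  obtain ⟨St, hSt, hall⟩ := conv subset_rfl hl hg (slot l) (fun _ _ => rfl)
    (fun x hx hx' => absurd hx hx') t ht1 ht2 hfree
  exact ⟨St, hSt.desc, hall⟩

end Crest.Agent.R286.T3
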