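import Crest.Agent.R286.NodeR
import Crest.Agent.R286.Texp

/-!
Row 286: node T (theorem `T3.theoremT`) plus node R (`NodeR.mathClaim`): `MathClaim 13`.
-/

set_option autoImplicit false

namespace Crest.Agent.R286

theorem T3.tall : NodeR.TAll := by
  intro α _ _ R nu hirr htr hinj hmono X N h
  exact T3.theoremT hirr (fun x y z => htr x y z) (fun x y => hmono x y) hinj X N h

/-- the mathematical claim, complete -/
theorem mathClaim13 : MathClaim 13 := NodeR.mathClaim T3.tall

end Crest.Agent.R286
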