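import Crest.Agent.R286.Algo

/-!
# Row 286, node R: windows between consecutive L-free cuts, contexts, duality, splitting trees

From the structure theorem for perfect packings (`TProp`: some packing of `X` in which every
`L`-free cut is described by a staircase) for `R` and its dual: every perfectly packable order has
a splitting tree over `Fam 13`.
-/

set_option autoImplicit false
set_option linter.dupNamespace false

namespace Crest.Agent.R286.NodeR

variable {α : Type}

/-- perfect packing of `X` into slots `1, …, N` of three jobs -/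
def Pack (R : α → α → Prop) (X : Finset α) (N : ℕ) (s : α → ℕ) : Prop :=
  (∀ x ∈ X, 1 ≤ s x ∧ s x ≤ N) ∧
    (∀ i, 1 ≤ i → i ≤ N → (X.filter (s · = i)).card = 3) ∧
      (∀ x ∈ X, ∀ y ∈ X, R x y → s x < s y)

/-- frames -/
def Frame (R : α → α → Prop) (F : Set α) : Prop :=
  F = Set.univ ∨ ∃ b c, F = {z | R z b ∨ R z c}

/-- staircases -/
def Desc (R : α → α → Prop) (nu : α → ℕ) (S : Set α) : Prop :=
  ∃ F0 F1 F2 : Set α, Frame R F0 ∧ Frame R F1 ∧ Frame R F2 ∧ ∃ a0 a1 a2 : ℕ,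
    S = {z | (z ∈ F0 ∧ nu z < a0) ∨ (z ∈ F1 ∧ nu z < a1) ∨ (z ∈ F2 ∧ nu z < a2)}

/-- the cut `t` has no left separator -/
def LFree (R : α → α → Prop) (X : Finset α) (s : α → ℕ) (t : ℕ) : Prop :=
  ∀ q, 1 ≤ q → q < t → ∃ x ∈ X, q < s x ∧ s x ≤ t ∧ ∀ w ∈ X, s w = q → ¬ R w x

/-- the structure theorem for one order and one linear extension -/
def TProp (R : α → α → Prop) (nu : α → ℕ) : Prop :=
  ∀ (X : Finset α) (N : ℕ), (∃ s, Pack R X N s) →
    ∃ s, Pack R X N s ∧ ∀ t, 1 ≤ t → t ≤ N → LFree R X s t →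
      ∃ S, Desc R nu S ∧ ∀ z ∈ X, (s z ≤ t ↔ z ∈ S ∧ ∀ w ∈ X, s w = t → ¬ R w z)

/-! ### abstract levels -/

/-- a hierarchy of described sets, symmetric under reversing the order -/
structure Lv (L : ℕ → Set α → Prop) (R : α → α → Prop) (nu nu' : α → ℕ) : Prop where
  mono1 : ∀ {i : ℕ} {A : Set α}, L i A → L (i + 1) A
  nand : ∀ {i : ℕ} {A B : Set α}, L i A → L i B → L (i + 1) (A ∩ B)ᶜ
  univ : L 0 Set.univ
  empty : L 0 ∅
  single : ∀ a, L 0 {a}
  up : ∀ a, L 0 {z | R a z}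
  down : ∀ a, L 0 {z | R z a}
  pre : ∀ k : ℕ, L 1 {z | nu z < k}
  pre' : ∀ k : ℕ, L 1 {z | nu' z < k}

namespace Lv

variable {L : ℕ → Set α → Prop} {R : α → α → Prop} {nu nu' : α → ℕ}

lemma symm (h : Lv L R nu nu') : Lv L (fun a b => R b a) nu' nu where
  mono1 := h.mono1
  nand := h.nand
  univ := h.univ
  empty := h.empty
  single := h.single
  up := h.down
  down := h.up
  pre := h.pre'
  pre' := h.pre

lemma mono (h : Lv L R nu nu') {i j : ℕ} (hij : i ≤ j) {A : Set α} (hA : L i A) : L j A := by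
  induction hij with
  | refl => exact hA
  | step _ ih => exact h.mono1 ih

lemma compl (h : Lv L R nu nu') {i : ℕ} {A : Set α} (hA : L i A) : L (i + 1) Aᶜ := by
  have := h.nand hA hA
  rwa [Set.inter_self] at this

lemma inter (h : Lv L R nu nu') {i : ℕ} {A B : Set α} (hA : L i A) (hB : L i B) :
    L (i + 2) (A ∩ B) := by
  have := h.compl (h.nand hA hB)
  rwa [compl_compl] at this

lemma union (h : Lv L R nu nu') {i : ℕ} {A B : Set α} (hA : L i A) (hB : L i B) :
    L (i + 2) (A ∪ B) := by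
  have := h.nand (h.compl hA) (h.compl hB)
  rwa [Set.compl_inter, compl_compl, compl_compl] at this

/-- 3-sets -/
lemma triple (h : Lv L R nu nu') {S : Set α} (hS : S.ncard = 3) : L 4 S := by
  obtain ⟨x, y, z, -, -, -, rfl⟩ := Set.ncard_eq_three.1 hS
  have h1 : L 2 ({y} ∪ {z} : Set α) := h.union (h.single y) (h.single z)
  have h2 : L 4 ({x} ∪ ({y} ∪ {z}) : Set α) :=
    h.union (h.mono (by norm_num) (h.single x)) h1
  have : ({x, y, z} : Set α) = {x} ∪ ({y} ∪ {z}) := by
    ext w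
    simp only [Set.mem_insert_iff, Set.mem_singleton_iff, Set.mem_union]
  rw [this]
  exact h2

/-- strict down-sets of 3-sets -/
lemma down3 (h : Lv L R nu nu') {S : Set α} (hS : S.ncard = 3) :
    L 4 {z | ∃ b ∈ S, R z b} := by
  obtain ⟨x, y, z, -, -, -, rfl⟩ := Set.ncard_eq_three.1 hS
  have h1 : L 2 ({w | R w y} ∪ {w | R w z} : Set α) := h.union (h.down y) (h.down z)
  have h2 : L 4 ({w | R w x} ∪ ({w | R w y} ∪ {w | R w z}) : Set α) :=
    h.union (h.mono (by norm_num) (h.down x)) h1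
  have : {w | ∃ b ∈ ({x, y, z} : Set α), R w b} = {w | R w x} ∪ ({w | R w y} ∪ {w | R w z}) := by
    ext w; simp
  rw [this]
  exact h2

/-- strict up-sets of 3-sets -/
lemma up3 (h : Lv L R nu nu') {S : Set α} (hS : S.ncard = 3) :
    L 4 {z | ∃ b ∈ S, R b z} := h.symm.down3 hS

/-- complements of closed down-sets of 3-sets -/
lemma ndown3 (h : Lv L R nu nu') {S : Set α} (hS : S.ncard = 3) :
    L 7 {z | ∀ b ∈ S, z ≠ b ∧ ¬ R z b} := by
  have h1 := h.compl (h.union (h.triple hS) (h.down3 hS))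
  have : {z | ∀ b ∈ S, z ≠ b ∧ ¬ R z b} = (S ∪ {z | ∃ b ∈ S, R z b})ᶜ := by
    ext w
    simp only [Set.mem_ofPred_eq, Set.mem_compl_iff, Set.mem_union, not_or, not_exists, not_and]
    constructor
    · intro hw
      exact ⟨fun hwS => (hw w hwS).1 rfl, fun b hb => (hw b hb).2⟩
    · rintro ⟨h1, h2⟩ b hb
      exact ⟨fun e => h1 (e ▸ hb), h2 b hb⟩
  rw [this]
  exact h1

lemma nup3 (h : Lv L R nu nu') {S : Set α} (hS : S.ncard = 3) :
    L 7 {z | ∀ b ∈ S, z ≠ b ∧ ¬ R b z} := h.symm.ndown3 hS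

lemma frame (h : Lv L R nu nu') {F : Set α} (hF : Frame R F) : L 2 F := by
  rcases hF with rfl | ⟨b, c, rfl⟩
  · exact h.mono (by norm_num) h.univ
  · exact h.union (h.down b) (h.down c)

lemma desc (h : Lv L R nu nu') {S : Set α} (hS : Desc R nu S) : L 7 S := by
  obtain ⟨F0, F1, F2, h0, h1, h2, a0, a1, a2, rfl⟩ := hS
  have k0 : L 3 (F0 ∩ {z | nu z < a0})ᶜ := h.nand (h.frame h0) (h.mono (by norm_num) (h.pre a0))
  have k1 : L 3 (F1 ∩ {z | nu z < a1})ᶜ := h.nand (h.frame h1) (h.mono (by norm_num) (h.pre a1))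
  have k2 : L 3 (F2 ∩ {z | nu z < a2})ᶜ := h.nand (h.frame h2) (h.mono (by norm_num) (h.pre a2))
  have k3 : L 5 ((F0 ∩ {z | nu z < a0})ᶜ ∩ (F1 ∩ {z | nu z < a1})ᶜ) := h.inter k0 k1
  have k4 : L 6 (((F0 ∩ {z | nu z < a0})ᶜ ∩ (F1 ∩ {z | nu z < a1})ᶜ) ∩
      (F2 ∩ {z | nu z < a2})ᶜ)ᶜ := h.nand k3 (h.mono (by norm_num) k2)
  have : {z | (z ∈ F0 ∧ nu z < a0) ∨ (z ∈ F1 ∧ nu z < a1) ∨ (z ∈ F2 ∧ nu z < a2)} =
      (((F0 ∩ {z | nu z < a0})ᶜ ∩ (F1 ∩ {z | nu z < a1})ᶜ) ∩ (F2 ∩ {z | nu z < a2})ᶜ)ᶜ := by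
    ext w
    simp only [Set.mem_compl_iff, Set.mem_inter_iff, Set.mem_ofPred_eq]
    tauto
  rw [this]
  exact h.mono (by norm_num) k4

end Lv

/-! ### contexts -/

/-- pure frames -/
def Pure (R : α → α → Prop) (Q : Set α) : Prop :=
  Q = Set.univ ∨ ∃ S : Set α, S.ncard = 3 ∧ Q = {z | ∃ b ∈ S, R z b}

/-- `V`-contexts: a pure down-frame intersected with a described up-set -/
def Ctx (R : α → α → Prop) (nu' : α → ℕ) (X : Set α) : Prop :=
  ∃ Q U St C : Set α, Pure R Q ∧ Pure (fun a b => R b a) U ∧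
    (St = Set.univ ∨ Desc (fun a b => R b a) nu' St) ∧
    (C = Set.univ ∨ ∃ S : Set α, S.ncard = 3 ∧ C = {z | ∀ b ∈ S, z ≠ b ∧ ¬ R z b}) ∧
    X = (Q ∩ U) ∩ (St ∩ C)

variable {L : ℕ → Set α → Prop} {R : α → α → Prop} {nu nu' : α → ℕ}

lemma Lv.pure (h : Lv L R nu nu') {Q : Set α} (hQ : Pure R Q) : L 4 Q := by
  rcases hQ with rfl | ⟨S, hS, rfl⟩
  · exact h.mono (by norm_num) h.univ
  · exact h.down3 hS

lemma Lv.ctx (h : Lv L R nu nu') {X : Set α} (hX : Ctx R nu' X) : L 11 X := by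
  obtain ⟨Q, U, St, C, hQ, hU, hSt, hC, rfl⟩ := hX
  have h1 : L 6 (Q ∩ U) := h.inter (h.pure hQ) (h.symm.pure hU)
  have h2 : L 7 St := by
    rcases hSt with rfl | hSt
    · exact h.mono (by norm_num) h.univ
    · exact h.symm.desc hSt
  have h3 : L 7 C := by
    rcases hC with rfl | ⟨S, hS, rfl⟩
    · exact h.mono (by norm_num) h.univ
    · exact h.ndown3 hS
  exact h.inter (h.mono (by norm_num) h1) (h.inter h2 h3)

/-! ### windows -/

section Windows

/-- cut 1 is `L`-free -/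
lemma lfree_one (X : Finset α) (s : α → ℕ) : LFree R X s 1 := fun q h1 h2 => by omega

/-- all jobs between an `L`-free cut `c` and the next `L`-free cut are above the slot `c` -/
lemma window {X : Finset α} {s : α → ℕ} (htr : ∀ a b c, R a b → R b c → R a c)
    {c t : ℕ} (hc : LFree R X s c)
    (hmax : ∀ e, c < e → e < t → ¬ LFree R X s e) :
    ∀ x ∈ X, c < s x → s x < t → ∃ b ∈ X, s b = c ∧ R b x := by
  classical
  intro x hx hcx hxt
  -- the minimal left separator of the cut `s x`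
  have hnot := hmax (s x) hcx hxt
  have hex : ∃ q, 1 ≤ q ∧ q < s x ∧ ∀ y ∈ X, q < s y → s y ≤ s x → ∃ w ∈ X, s w = q ∧ R w y := by
    by_contra hcon
    apply hnot
    intro q h1 h2
    by_contra hq
    apply hcon
    refine ⟨q, h1, h2, fun y hy h3 h4 => ?_⟩
    by_contra hy'
    apply hq
    refine ⟨y, hy, h3, h4, fun w hw hwq hR => hy' ⟨w, hw, hwq, hR⟩⟩
  obtain ⟨hq1, hq2, hq3⟩ := Nat.find_spec hex
  have hmin := fun m hm => Nat.find_min hex (m := m) hm
  set q := Nat.find hex with hqdef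
  -- `q` is `L`-free
  have hqfree : LFree R X s q := by
    intro r hr1 hr2
    by_contra hcon
    apply hmin r hr2
    refine ⟨hr1, hr2.trans hq2, fun y hy h3 h4 => ?_⟩
    have hsep : ∀ y ∈ X, r < s y → s y ≤ q → ∃ w ∈ X, s w = r ∧ R w y := by
      intro y hy h3 h4
      by_contra hy'
      exact hcon ⟨y, hy, h3, h4, fun w hw hwq hR => hy' ⟨w, hw, hwq, hR⟩⟩
    by_cases hyq : s y ≤ q
    · exact hsep y hy h3 hyq
    · obtain ⟨w, hw, hwq, hwy⟩ := hq3 y hy (by omega) h4
      obtain ⟨v, hv, hvr, hvw⟩ := hsep w hw (by omega) (by omega)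
      exact ⟨v, hv, hvr, htr _ _ _ hvw hwy⟩
  -- `q = c`
  have hqc : q = c := by
    rcases lt_trichotomy q c with h | h | h
    · exfalso
      obtain ⟨y, hy, h3, h4, h5⟩ := hc q hq1 h
      obtain ⟨w, hw, hwq, hwy⟩ := hq3 y hy h3 (by omega)
      exact h5 w hw hwq hwy
    · exact h
    · exact absurd hqfree (hmax q h (by omega))
  obtain ⟨w, hw, hwq, hwx⟩ := hq3 x hx hq2 le_rfl
  exact ⟨w, hw, hwq.trans hqc, hwx⟩

end Windows

/-! ### the step -/

section Step

variable [DecidableEq α]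

lemma pack_window {X : Finset α} {N : ℕ} {s : α → ℕ} (hp : Pack R X N s) {c t : ℕ}
    (ht : t ≤ N + 1) (hct : c < t) :
    Pack R (X.filter fun x => c < s x ∧ s x < t) (t - 1 - c) (fun x => s x - c) := by
  obtain ⟨h1, h2, h3⟩ := hp
  refine ⟨?_, ?_, ?_⟩
  · intro x hx
    simp only [Finset.mem_filter] at hx
    show 1 ≤ s x - c ∧ s x - c ≤ t - 1 - c
    omega
  · intro i hi1 hi2
    rw [← h2 (i + c) (by omega) (by omega)]
    congr 1
    ext x
    simp only [Finset.mem_filter]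
    constructor
    · rintro ⟨⟨hx, hx1, hx2⟩, hx3⟩
      exact ⟨hx, by omega⟩
    · rintro ⟨hx, hx1⟩
      exact ⟨⟨hx, by omega, by omega⟩, by omega⟩
  · intro x hx y hy hxy
    simp only [Finset.mem_filter] at hx hy
    have := h3 x hx.1 y hy.1 hxy
    show s x - c < s y - c
    omega

/-- the step for `V`-contexts -/
theorem step (hL : Lv L R nu nu') (hirr : ∀ a, ¬ R a a) (htr : ∀ a b c, R a b → R b c → R a c)
    (hnu' : ∀ a b, R a b → nu' b < nu' a)
    (hT : TProp R nu) (G : Set α → Prop) (hG0 : G ∅)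
    (hleaf : ∀ X : Set α, X.ncard = 3 → (∀ a ∈ X, ∀ b ∈ X, ¬ R a b) → G X)
    (hnode : ∀ Y Z : Set α, L 13 Y → L 13 Z → Disjoint Y Z → (∀ y ∈ Y, ∀ z ∈ Z, ¬ R z y) →
      G Y → G Z → G (Y ∪ Z))
    (X : Finset α) (hX : Ctx R nu' (X : Set α)) (hp : ∃ N s, Pack R X N s)
    (IH : ∀ Y : Finset α, Y.card < X.card → Ctx (fun a b => R b a) nu (Y : Set α) →
      (∃ N s, Pack R Y N s) → G (Y : Set α)) : G (X : Set α) := by
  classical
  have hX11 := hL.ctx hX
  obtain ⟨N, s0, hs0⟩ := hp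
  obtain ⟨s, hs, hF⟩ := hT X N ⟨s0, hs0⟩
  obtain ⟨h1, h2, h3⟩ := id hs
  obtain ⟨Q, U, St, C, hQ, hU, hSt, hC, hXeq⟩ := hX
  -- the upper part is an up-set
  have hupper : ∀ a b, a ∈ U ∩ (St ∩ C) → R a b → b ∈ U ∩ (St ∩ C) := by
    rintro a b ⟨haU, haS, haC⟩ hab
    refine ⟨?_, ?_, ?_⟩
    · rcases hU with rfl | ⟨S, -, rfl⟩
      · trivial
      · obtain ⟨d, hd, hda⟩ := haU
        exact ⟨d, hd, htr _ _ _ hda hab⟩
    · rcases hSt with rfl | ⟨F0, F1, F2, hF0, hF1, hF2, a0, a1, a2, rfl⟩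
      · trivial
      · have hfr : ∀ F : Set α, Frame (fun a b => R b a) F → a ∈ F → b ∈ F := by
          rintro F (rfl | ⟨p, q, rfl⟩) haF
          · trivial
          · rcases haF with h | h
            · exact Or.inl (htr _ _ _ h hab)
            · exact Or.inr (htr _ _ _ h hab)
        have hn := hnu' a b hab
        rcases haS with ⟨h, h'⟩ | ⟨h, h'⟩ | ⟨h, h'⟩
        · exact Or.inl ⟨hfr _ hF0 h, by omega⟩
        · exact Or.inr (Or.inl ⟨hfr _ hF1 h, by omega⟩)
        · exact Or.inr (Or.inr ⟨hfr _ hF2 h, by omega⟩)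
    · rcases hC with rfl | ⟨S, -, rfl⟩
      · trivial
      · intro d hd
        refine ⟨?_, fun h => (haC d hd).2 (htr _ _ _ hab h)⟩
        rintro rfl
        exact (haC b hd).2 hab
  have hmemX : ∀ x, x ∈ X ↔ x ∈ Q ∧ x ∈ U ∩ (St ∩ C) := by
    intro x
    have : x ∈ X ↔ x ∈ (X : Set α) := Iff.rfl
    rw [this, hXeq]
    simp only [Set.mem_inter_iff]
    tauto
  -- slots
  have hslot : ∀ t, 1 ≤ t → t ≤ N → {x | x ∈ X ∧ s x = t}.ncard = 3 := by
    intro t ht1 ht2
    rw [← h2 t ht1 ht2, ← Set.ncard_coe_finset]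
    congr 1
    ext x
    simp
  have hslotG : ∀ t, 1 ≤ t → t ≤ N → G {x | x ∈ X ∧ s x = t} := by
    intro t ht1 ht2
    refine hleaf _ (hslot t ht1 ht2) ?_
    rintro a ⟨ha, hat⟩ b ⟨hb, hbt⟩ hab
    have := h3 a ha b hb hab
    omega
  have hslotne : ∀ t, 1 ≤ t → t ≤ N → ∃ x ∈ X, s x = t := by
    intro t ht1 ht2
    have := h2 t ht1 ht2
    have hne : (X.filter (s · = t)).Nonempty := by
      rw [← Finset.card_pos]; omega
    obtain ⟨x, hx⟩ := hne
    simp only [Finset.mem_filter] at hx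
    exact ⟨x, hx.1, hx.2⟩
  -- levels of cuts
  have hD13 : ∀ t, 1 ≤ t → t ≤ N → LFree R X s t → L 13 {x | x ∈ X ∧ s x ≤ t} := by
    intro t ht1 ht2 hfree
    obtain ⟨S, hS, hSeq⟩ := hF t ht1 ht2 hfree
    have k1 : L 7 S := hL.desc hS
    have k2 : L 5 ({z | ∃ b ∈ {x | x ∈ X ∧ s x = t}, R b z})ᶜ :=
      hL.compl (hL.up3 (hslot t ht1 ht2))
    have k3 := hL.inter hX11 (hL.mono (by norm_num : 9 ≤ 11)
      (hL.inter k1 (hL.mono (by norm_num : 5 ≤ 7) k2)))
    convert k3 using 1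
    ext x
    simp only [Set.mem_ofPred_eq, Set.mem_inter_iff, Set.mem_compl_iff, Finset.mem_coe,
      not_exists, not_and]
    constructor
    · rintro ⟨hx, hxt⟩
      obtain ⟨h4, h5⟩ := (hSeq x hx).1 hxt
      exact ⟨hx, h4, fun w hw => h5 w hw.1 hw.2⟩
    · rintro ⟨hx, h4, h5⟩
      exact ⟨hx, (hSeq x hx).2 ⟨h4, fun w hw hwt => h5 w ⟨hw, hwt⟩⟩⟩
  have hE13 : ∀ t, 1 ≤ t → t ≤ N → LFree R X s t → L 13 {x | x ∈ X ∧ s x < t} := by
    intro t ht1 ht2 hfree
    obtain ⟨S, hS, hSeq⟩ := hF t ht1 ht2 hfree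
    have k1 : L 7 S := hL.desc hS
    have k2 : L 7 {z | ∀ b ∈ {x | x ∈ X ∧ s x = t}, z ≠ b ∧ ¬ R b z} :=
      hL.nup3 (hslot t ht1 ht2)
    have k3 := hL.inter hX11 (hL.mono (by norm_num : 9 ≤ 11) (hL.inter k1 k2))
    convert k3 using 1
    ext x
    simp only [Set.mem_ofPred_eq, Set.mem_inter_iff, Finset.mem_coe]
    constructor
    · rintro ⟨hx, hxt⟩
      obtain ⟨h4, h5⟩ := (hSeq x hx).1 hxt.le
      refine ⟨hx, h4, fun w hw => ⟨?_, h5 w hw.1 hw.2⟩⟩
      rintro rfl
      omega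
    · rintro ⟨hx, h4, h5⟩
      have h6 := (hSeq x hx).2 ⟨h4, fun w hw hwt => (h5 w ⟨hw, hwt⟩).2⟩
      have h7 : s x ≠ t := fun e => (h5 x ⟨hx, e⟩).1 rfl
      exact ⟨hx, lt_of_le_of_ne h6 h7⟩
  -- greatest L-free cut before `t`
  have hprev : ∀ t, 2 ≤ t → ∃ c, 1 ≤ c ∧ c < t ∧ LFree R X s c ∧
      ∀ e, c < e → e < t → ¬ LFree R X s e := by
    intro t ht
    have hP : ∃ c, 1 ≤ c ∧ c ≤ t - 1 ∧ LFree R X s c := ⟨1, le_rfl, by omega, lfree_one X s⟩
    obtain ⟨c0, hc0⟩ := hP
    have hg := Nat.findGreatest_spec (P := fun c => 1 ≤ c ∧ LFree R X s c) (n := t - 1)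
      hc0.2.1 ⟨hc0.1, hc0.2.2⟩
    have hg2 := Nat.findGreatest_le (P := fun c => 1 ≤ c ∧ LFree R X s c) (t - 1)
    refine ⟨Nat.findGreatest (fun c => 1 ≤ c ∧ LFree R X s c) (t - 1), hg.1, by omega, hg.2, ?_⟩
    intro e he1 he2 he3
    have := Nat.le_findGreatest (P := fun c => 1 ≤ c ∧ LFree R X s c) (n := t - 1) (m := e)
      (by omega) ⟨by omega, he3⟩
    omega
  -- claim A
  have hA : ∀ t, 1 ≤ t → t ≤ N → LFree R X s t → G {x | x ∈ X ∧ s x ≤ t} := by
    intro t
    induction t using Nat.strong_induction_on with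
    | _ t ih =>
    intro ht1 ht2 hfree
    rcases Nat.lt_or_ge t 2 with ht | ht
    · have ht' : t = 1 := by omega
      have : {x | x ∈ X ∧ s x ≤ t} = {x | x ∈ X ∧ s x = t} := by
        ext x
        simp only [Set.mem_ofPred_eq]
        constructor
        · rintro ⟨hx, h⟩
          exact ⟨hx, by have := h1 x hx; omega⟩
        · rintro ⟨hx, h⟩
          exact ⟨hx, h.le⟩
      rw [this]
      exact hslotG t ht1 ht2
    · obtain ⟨c, hc1, hct, hcfree, hcmax⟩ := hprev t ht
      have hwin := window htr hcfree hcmax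
      obtain ⟨S, hS, hSeq⟩ := hF t ht1 ht2 hfree
      -- the window
      set W : Finset α := X.filter fun x => c < s x ∧ s x < t with hWdef
      have hWctx : Ctx (fun a b => R b a) nu (W : Set α) := by
        refine ⟨{z | ∃ b ∈ {x | x ∈ X ∧ s x = c}, R b z}, Q, S,
          {z | ∀ b ∈ {x | x ∈ X ∧ s x = t}, z ≠ b ∧ ¬ R b z},
          Or.inr ⟨_, hslot c hc1 (by omega), rfl⟩, hQ, Or.inr hS,
          Or.inr ⟨_, hslot t ht1 ht2, rfl⟩, ?_⟩
        ext x
        simp only [hWdef, Finset.coe_filter, Set.mem_ofPred_eq, Set.mem_inter_iff]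
        constructor
        · rintro ⟨hx, hcx, hxt⟩
          obtain ⟨b, hb, hbc, hbx⟩ := hwin x hx hcx hxt
          obtain ⟨h4, h5⟩ := (hSeq x hx).1 hxt.le
          refine ⟨⟨⟨b, ⟨hb, hbc⟩, hbx⟩, ((hmemX x).1 hx).1⟩, h4, fun w hw => ⟨?_, h5 w hw.1 hw.2⟩⟩
          rintro rfl
          omega
        · rintro ⟨⟨⟨b, ⟨hb, hbc⟩, hbx⟩, hxQ⟩, h4, h5⟩
          have hx : x ∈ X := (hmemX x).2 ⟨hxQ, hupper b x ((hmemX b).1 hb).2 hbx⟩
          have h6 := (hSeq x hx).2 ⟨h4, fun w hw hwt => (h5 w ⟨hw, hwt⟩).2⟩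
          have h7 : s x ≠ t := fun e => (h5 x ⟨hx, e⟩).1 rfl
          have h8 := h3 b hb x hx hbx
          exact ⟨hx, by omega, lt_of_le_of_ne h6 h7⟩
      have hWcard : W.card < X.card := by
        apply Finset.card_lt_card
        rw [Finset.ssubset_iff_of_subset (Finset.filter_subset _ _)]
        obtain ⟨x, hx, hxt⟩ := hslotne t ht1 ht2
        exact ⟨x, hx, fun hxW => by
          have := (Finset.mem_filter.1 hxW).2
          omega⟩
      have hGW : G (W : Set α) := IH W hWcard hWctx ⟨_, _, pack_window hs (by omega) hct⟩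
      have hGc := ih c hct hc1 (by omega) hcfree
      have hW11 : L 11 (W : Set α) := hL.symm.ctx hWctx
      have hGE : G {x | x ∈ X ∧ s x < t} := by
        have key := hnode {x | x ∈ X ∧ s x ≤ c} (W : Set α) (hD13 c hc1 (by omega) hcfree)
          (hL.mono (by norm_num) hW11) ?_ ?_ hGc hGW
        · convert key using 1
          ext x
          simp only [hWdef, Finset.coe_filter, Set.mem_union, Set.mem_ofPred_eq]
          constructor
          · rintro ⟨hx, hxt⟩
            by_cases hxc : s x ≤ c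
            · exact Or.inl ⟨hx, hxc⟩
            · exact Or.inr ⟨hx, by omega, hxt⟩
          · rintro (⟨hx, h⟩ | ⟨hx, h, h'⟩)
            · exact ⟨hx, by omega⟩
            · exact ⟨hx, h'⟩
        · rw [Set.disjoint_left]
          rintro x ⟨hx, hxc⟩ hxW
          simp only [hWdef, Finset.coe_filter, Set.mem_ofPred_eq] at hxW
          omega
        · rintro y ⟨hy, hyc⟩ z hz hzy
          simp only [hWdef, Finset.coe_filter, Set.mem_ofPred_eq] at hz
          have := h3 z hz.1 y hy hzy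
          omega
      have key := hnode {x | x ∈ X ∧ s x < t} {x | x ∈ X ∧ s x = t} (hE13 t ht1 ht2 hfree)
        (hL.mono (by norm_num) (hL.triple (hslot t ht1 ht2))) ?_ ?_ hGE (hslotG t ht1 ht2)
      · convert key using 1
        ext x
        simp only [Set.mem_union, Set.mem_ofPred_eq]
        constructor
        · rintro ⟨hx, hxt⟩
          rcases lt_or_eq_of_le hxt with h | h
          · exact Or.inl ⟨hx, h⟩
          · exact Or.inr ⟨hx, h⟩
        · rintro (⟨hx, h⟩ | ⟨hx, h⟩)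
          · exact ⟨hx, h.le⟩
          · exact ⟨hx, h.le⟩
      · rw [Set.disjoint_left]
        rintro x ⟨hx, hxc⟩ ⟨-, hx2⟩
        omega
      · rintro y ⟨hy, hyc⟩ z ⟨hz, hz2⟩ hzy
        have := h3 z hz y hy hzy
        omega
  -- conclusion
  rcases Nat.eq_zero_or_pos N with hN | hN
  · have : (X : Set α) = ∅ := by
      ext x
      simp only [Finset.mem_coe, Set.mem_empty_iff_false, iff_false]
      intro hx
      have := h1 x hx
      omega
    rw [this]
    exact hG0
  · by_cases hNfree : LFree R X s N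
    · have := hA N hN le_rfl hNfree
      convert this using 1
      ext x
      simp only [Finset.mem_coe, Set.mem_ofPred_eq]
      exact ⟨fun hx => ⟨hx, (h1 x hx).2⟩, fun h => h.1⟩
    · obtain ⟨c, hc1, hct, hcfree, hcmax⟩ := hprev (N + 1) (by omega)
      have hcN : c < N := by
        rcases Nat.lt_or_ge c N with h | h
        · exact h
        · exfalso
          have : c = N := by omega
          exact hNfree (this ▸ hcfree)
      have hwin := window htr hcfree hcmax
      set W : Finset α := X.filter fun x => c < s x ∧ s x < N + 1 with hWdef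
      have hWctx : Ctx (fun a b => R b a) nu (W : Set α) := by
        refine ⟨{z | ∃ b ∈ {x | x ∈ X ∧ s x = c}, R b z}, Q, Set.univ, Set.univ,
          Or.inr ⟨_, hslot c hc1 (by omega), rfl⟩, hQ, Or.inl rfl, Or.inl rfl, ?_⟩
        ext x
        simp only [hWdef, Finset.coe_filter, Set.mem_ofPred_eq, Set.mem_inter_iff, Set.mem_univ,
          and_true]
        constructor
        · rintro ⟨hx, hcx, hxt⟩
          obtain ⟨b, hb, hbc, hbx⟩ := hwin x hx hcx hxt
          exact ⟨⟨b, ⟨hb, hbc⟩, hbx⟩, ((hmemX x).1 hx).1⟩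
        · rintro ⟨⟨b, ⟨hb, hbc⟩, hbx⟩, hxQ⟩
          have hx : x ∈ X := (hmemX x).2 ⟨hxQ, hupper b x ((hmemX b).1 hb).2 hbx⟩
          have h8 := h3 b hb x hx hbx
          have h9 := h1 x hx
          exact ⟨hx, by omega, by omega⟩
      have hWcard : W.card < X.card := by
        apply Finset.card_lt_card
        rw [Finset.ssubset_iff_of_subset (Finset.filter_subset _ _)]
        obtain ⟨x, hx, hxt⟩ := hslotne c hc1 (by omega)
        exact ⟨x, hx, fun hxW => by
          have := (Finset.mem_filter.1 hxW).2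
          omega⟩
      have hGW : G (W : Set α) := IH W hWcard hWctx ⟨_, _, pack_window hs (by omega) hct⟩
      have hGc := hA c hc1 (by omega) hcfree
      have hW11 : L 11 (W : Set α) := hL.symm.ctx hWctx
      have key := hnode {x | x ∈ X ∧ s x ≤ c} (W : Set α) (hD13 c hc1 (by omega) hcfree)
        (hL.mono (by norm_num) hW11) ?_ ?_ hGc hGW
      · convert key using 1
        ext x
        simp only [hWdef, Finset.coe_filter, Set.mem_union, Set.mem_ofPred_eq, Finset.mem_coe]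
        constructor
        · intro hx
          have h9 := h1 x hx
          by_cases hxc : s x ≤ c
          · exact Or.inl ⟨hx, hxc⟩
          · exact Or.inr ⟨hx, by omega, by omega⟩
        · rintro (⟨hx, h⟩ | ⟨hx, h, h'⟩)
          · exact hx
          · exact hx
      · rw [Set.disjoint_left]
        rintro x ⟨hx, hxc⟩ hxW
        simp only [hWdef, Finset.coe_filter, Set.mem_ofPred_eq] at hxW
        omega
      · rintro y ⟨hy, hyc⟩ z hz hzy
        simp only [hWdef, Finset.coe_filter, Set.mem_ofPred_eq] at hz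
        have := h3 z hz.1 y hy hzy
        omega

end Step

/-! ### duality and the main induction -/

lemma pack_flip {X : Finset α} {N : ℕ} {s : α → ℕ} (hp : Pack R X N s) :
    Pack (fun a b => R b a) X N (fun x => N + 1 - s x) := by
  obtain ⟨h1, h2, h3⟩ := hp
  refine ⟨?_, ?_, ?_⟩
  · intro x hx
    have := h1 x hx
    show 1 ≤ N + 1 - s x ∧ N + 1 - s x ≤ N
    omega
  · intro i hi1 hi2
    rw [← h2 (N + 1 - i) (by omega) (by omega)]
    congr 1
    ext x
    simp only [Finset.mem_filter]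
    constructor
    · rintro ⟨hx, hx1⟩
      have := h1 x hx
      exact ⟨hx, by omega⟩
    · rintro ⟨hx, hx1⟩
      have := h1 x hx
      exact ⟨hx, by omega⟩
  · intro x hx y hy hxy
    have := h3 y hy x hx hxy
    have := h1 x hx
    have := h1 y hy
    show N + 1 - s x < N + 1 - s y
    omega

theorem main [DecidableEq α] (hL : Lv L R nu nu') (hirr : ∀ a, ¬ R a a)
    (htr : ∀ a b c, R a b → R b c → R a c)
    (hnu : ∀ a b, R a b → nu a < nu b)
    (hnu' : ∀ a b, R a b → nu' b < nu' a)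
    (hT : TProp R nu) (hT' : TProp (fun a b => R b a) nu')
    (G : Set α → Prop) (hG0 : G ∅)
    (hleaf : ∀ X : Set α, X.ncard = 3 → (∀ a ∈ X, ∀ b ∈ X, ¬ R a b) → G X)
    (hnode : ∀ Y Z : Set α, L 13 Y → L 13 Z → Disjoint Y Z → (∀ y ∈ Y, ∀ z ∈ Z, ¬ R z y) →
      G Y → G Z → G (Y ∪ Z)) :
    ∀ n : ℕ, ∀ X : Finset α, X.card = n → (∃ N s, Pack R X N s) →
      (Ctx R nu' (X : Set α) ∨ Ctx (fun a b => R b a) nu (X : Set α)) → G (X : Set α) := by
  intro n
  induction n using Nat.strong_induction_on with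
  | _ n ih =>
  intro X hXn hp hX
  rcases hX with hX | hX
  · refine step hL hirr htr hnu' hT G hG0 hleaf hnode X hX hp ?_
    intro Y hY hYctx hYp
    exact ih Y.card (by omega) Y rfl hYp (Or.inr hYctx)
  · obtain ⟨N, s, hs⟩ := hp
    refine step (R := fun a b => R b a) (nu := nu') (nu' := nu) hL.symm hirr
      (fun a b c hab hbc => htr c b a hbc hab)
      (fun a b hab => hnu b a hab) hT' G hG0 ?_ ?_ X hX ⟨N, _, pack_flip hs⟩ ?_
    · intro Z hZ hZa
      exact hleaf Z hZ (fun a ha b hb => hZa b hb a ha)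
    · intro Y Z hY hZ hd hno hGY hGZ
      rw [Set.union_comm]
      exact hnode Z Y hZ hY hd.symm (fun y hy z hz => hno z hz y hy) hGZ hGY
    · rintro Y hY hYctx ⟨M, u, hu⟩
      exact ih Y.card (by omega) Y rfl ⟨M, _, pack_flip hu⟩ (Or.inl hYctx)

/-! ### final form -/

/-- the structure theorem for all finite orders -/
def TAll : Prop :=
  ∀ (α : Type) [Fintype α] [DecidableEq α] (R : α → α → Prop) (nu : α → ℕ),
    (∀ a, ¬ R a a) → (∀ a b c, R a b → R b c → R a c) →
    Function.Injective nu → (∀ a b, R a b → nu a < nu b) → TProp R nu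

lemma fam_lv [Fintype α] (R : α → α → Prop) (nu : α → ℕ) (M : ℕ) (hM : ∀ a, nu a ≤ M) :
    Lv (Fam R nu) R nu (fun a => M - nu a) where
  mono1 := Fam.mono
  nand := Fam.nand
  univ := Fam.univ
  empty := Fam.empty
  single := Fam.single
  up := Fam.up
  down := Fam.down
  pre := fun k => Fam.mono (Fam.pre k)
  pre' := by
    intro k
    rcases Nat.eq_zero_or_pos k with hk | hk
    · have : {z : α | M - nu z < k} = ∅ := by
        ext z
        simp [hk]
      rw [this]
      exact Fam.mono Fam.empty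
    · rcases Nat.lt_or_ge M k with hMk | hMk
      · have : {z : α | M - nu z < k} = Set.univ := by
          ext z
          simp only [Set.mem_ofPred_eq, Set.mem_univ, iff_true]
          omega
        rw [this]
        exact Fam.mono Fam.univ
      · have h : {z : α | M - nu z < k} = ({z | nu z < M - k + 1} ∩ {z | nu z < M - k + 1})ᶜ := by
          ext z
          have := hM z
          simp only [Set.inter_self, Set.mem_ofPred_eq, Set.mem_compl_iff, not_lt]
          omega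
        rw [h]
        exact Fam.nand (Fam.pre _) (Fam.pre _)

theorem mathClaim (hT : TAll) : MathClaim 13 := by
  intro α _ _ R nu hirr htr hinj hmono T s hs hsm
  classical
  obtain ⟨M, hM⟩ : ∃ M, ∀ a, nu a ≤ M :=
    ⟨Finset.univ.sup nu, fun a => Finset.le_sup (f := nu) (Finset.mem_univ a)⟩
  have hLv := fam_lv R nu M hM
  have hnu' : ∀ a b, R a b → M - nu b < M - nu a := by
    intro a b hab
    have := hmono a b hab
    have := hM b
    omega
  have hT1 := hT α R nu hirr htr hinj hmono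
  have hT2 := hT α (fun a b => R b a) (fun a => M - nu a) hirr
    (fun a b c hab hbc => htr c b a hbc hab)
    (fun a b hab => hinj (by
      have := hM a
      have := hM b
      simp only at hab
      omega)) (fun a b hab => hnu' b a hab)
  have hpack : Pack R Finset.univ T (fun a => (s a : ℕ) + 1) := by
    refine ⟨?_, ?_, ?_⟩
    · intro x _
      have := (s x).isLt
      show 1 ≤ (s x : ℕ) + 1 ∧ (s x : ℕ) + 1 ≤ T
      omega
    · intro i hi1 hi2
      rw [← hs ⟨i - 1, by omega⟩]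
      congr 1
      ext x
      simp only [Finset.mem_filter, Finset.mem_univ, true_and, Fin.ext_iff]
      omega
    · intro x _ y _ hxy
      have := hsm x y hxy
      simp only [Fin.lt_def] at this
      show (s x : ℕ) + 1 < (s y : ℕ) + 1
      omega
  have := main hLv hirr htr hmono hnu' hT1 hT2 (Tree R nu 13) Tree.empty
    (fun X h1 h2 => Tree.leaf X h1 h2)
    (fun Y Z h1 h2 h3 h4 h5 h6 => Tree.node Y Z h1 h2 h3 h4 h5 h6) _ Finset.univ rfl
    ⟨T, _, hpack⟩ (Or.inl ⟨Set.univ, Set.univ, Set.univ, Set.univ, Or.inl rfl, Or.inl rfl,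
      Or.inl rfl, Or.inl rfl, by simp⟩)
  rwa [Finset.coe_univ] at this

end Crest.Agent.R286.NodeR
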