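import Crest.Agent.R286.PackTM
import Crest.Agent.R286.Algo

/-! # Assembly of the time side and the pure side of row 286 -/

set_option autoImplicit false
set_option linter.dupNamespace false

namespace Crest.Agent.R286

open Crest.Agent.Lib.PT

/-- `S0431` from the time bound and the correctness of the algorithm. -/
theorem s0431_of {d D : ℕ} (hD : D ≤ 150020)
    (hT : TF D (fun x : Bits => (⟨algo d x.val⟩ : Bits))) (hC : AlgoCorrect d) :
    ∃ f : List Bool → List Bool,
      (∃ C : ℕ, Crest.DTime.TimeBound f (fun L => C * (L + 2) ^ 150020 + C)) ∧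
      ∀ (n : ℕ) (E : Fin n → Fin n → Bool), 1 ≤ n → Crest.Sched3.Acyclic E →
        ∃ τ : Fin n → ℕ, f (Crest.Sched3.precCode n E) = Crest.Enc.listCode (List.ofFn τ) ∧
          Crest.Sched3.IsSchedule E τ ∧
          ∀ τ' : Fin n → ℕ, Crest.Sched3.IsSchedule E τ' →
            Finset.univ.sup τ ≤ Finset.univ.sup τ' :=
  ⟨algo d, timeBound_of_TF hD hT, fun n E hn hE => hC n E hn hE⟩

end Crest.Agent.R286
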