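import Crest.Agent.R286.Algo

/-!
# Row 286: the parser reads back the precedence table
-/

set_option autoImplicit false
set_option linter.dupNamespace false

namespace Crest.Agent.R286.ParseOK

open Crest.Agent.R286

theorem bits_inj {a b : ℕ} : a.bits = b.bits ↔ a = b := by
  constructor
  · intro h
    have h1 : ∀ i, a.testBit i = b.testBit i := by
      intro i
      have ha := Nat.testBit_eq_inth a i
      have hb := Nat.testBit_eq_inth b i
      rw [ha, hb, h]
    exact Nat.eq_of_testBit_eq h1
  · rintro rfl; rfl

theorem pair_eq (n : ℕ) (w : List Bool) :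
    Crest.Enc.natCode n ++ w = Lib.PT.pair n.bits (false :: w) := by
  unfold Crest.Enc.natCode Lib.PT.pair
  rw [List.flatMap_def, List.append_assoc]
  rfl

theorem fst_pair (x y : List Bool) : Lib.PT.fst (Lib.PT.pair x y) = x := by
  induction x with
  | nil => simp [Lib.PT.pair, Lib.PT.fst]
  | cons b x ih =>
    have : Lib.PT.pair (b :: x) y = true :: b :: Lib.PT.pair x y := by
      simp [Lib.PT.pair]
    rw [this, Lib.PT.fst, ih]

theorem snd_pair (x y : List Bool) : Lib.PT.snd (Lib.PT.pair x y) = y := by
  induction x with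
  | nil => simp [Lib.PT.pair, Lib.PT.snd]
  | cons b x ih =>
    have : Lib.PT.pair (b :: x) y = true :: b :: Lib.PT.pair x y := by
      simp [Lib.PT.pair]
    rw [this, Lib.PT.snd, ih]

theorem foldl_row (n u : ℕ) (f : ℕ → Bool) : ∀ (k c : ℕ) (J : List ℕ) (R : Rel), 0 < k →
    c + k = n → ∃ R' : Rel, ((List.range' c k).map f).foldl (pstep n.bits) (J, u, c, R) =
      ((if c = 0 then J ++ [u] else J), u + 1, 0, R') ∧
      ∀ p, p ∈ R' ↔ p ∈ R ∨ ∃ v, c ≤ v ∧ v < n ∧ f v = true ∧ p = (u, v) := by
  intro k
  induction k with
  | zero => intro c J R h; omega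
  | succ k ih =>
    intro c J R _ hck
    rw [List.range'_succ, List.map_cons, List.foldl_cons]
    by_cases hk : k = 0
    · subst hk
      have hc : c + 1 = n := by omega
      refine ⟨if f c then (u, c) :: R else R, ?_, ?_⟩
      · simp [pstep, hc]
      · intro p
        constructor
        · intro hp
          by_cases hf : f c = true
          · rw [if_pos hf] at hp
            rcases List.mem_cons.1 hp with rfl | hp
            · exact Or.inr ⟨c, le_refl _, by omega, hf, rfl⟩
            · exact Or.inl hp
          · rw [if_neg hf] at hp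
            exact Or.inl hp
        · rintro (hp | ⟨v, h1, h2, h3, rfl⟩)
          · split_ifs
            · exact List.mem_cons_of_mem _ hp
            · exact hp
          · have : v = c := by omega
            subst this
            rw [if_pos h3]
            exact List.mem_cons_self
    · have hne : ¬ (c + 1 = n) := by omega
      have hstep : pstep n.bits (J, u, c, R) (f c) =
          ((if c = 0 then J ++ [u] else J), u, c + 1, if f c then (u, c) :: R else R) := by
        simp only [pstep]
        rw [if_neg (by rw [bits_inj]; exact hne)]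
      rw [hstep]
      obtain ⟨R', h1, h2⟩ := ih (c + 1) (if c = 0 then J ++ [u] else J)
        (if f c then (u, c) :: R else R) (Nat.pos_of_ne_zero hk) (by omega)
      refine ⟨R', ?_, ?_⟩
      · rw [h1, if_neg (Nat.succ_ne_zero c)]
      · intro p
        rw [h2]
        constructor
        · rintro (hp | ⟨v, h1, h2, h3, rfl⟩)
          · by_cases hf : f c = true
            · rw [if_pos hf] at hp
              rcases List.mem_cons.1 hp with rfl | hp
              · exact Or.inr ⟨c, le_refl _, by omega, hf, rfl⟩
              · exact Or.inl hp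
            · rw [if_neg hf] at hp
              exact Or.inl hp
          · exact Or.inr ⟨v, by omega, h2, h3, rfl⟩
        · rintro (hp | ⟨v, h1, h2, h3, rfl⟩)
          · left
            split_ifs
            · exact List.mem_cons_of_mem _ hp
            · exact hp
          · rcases Nat.eq_or_lt_of_le h1 with rfl | h1
            · left
              rw [if_pos h3]
              exact List.mem_cons_self
            · exact Or.inr ⟨v, h1, h2, h3, rfl⟩

theorem foldl_rows (n : ℕ) (hn : 0 < n) (g : ℕ → ℕ → Bool) : ∀ (m a : ℕ) (J : List ℕ) (R : Rel),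
    ∃ R' : Rel, (((List.range' a m).map fun u => (List.range' 0 n).map (g u)).flatten).foldl
      (pstep n.bits) (J, a, 0, R) = (J ++ List.range' a m, a + m, 0, R') ∧
      ∀ p, p ∈ R' ↔ p ∈ R ∨ ∃ u v, a ≤ u ∧ u < a + m ∧ v < n ∧ g u v = true ∧ p = (u, v) := by
  intro m
  induction m with
  | zero =>
    intro a J R
    refine ⟨R, by simp, ?_⟩
    intro p
    constructor
    · exact Or.inl
    · rintro (h | ⟨u, v, h1, h2, _⟩)
      · exact h
      · omega
  | succ m ih =>
    intro a J R
    obtain ⟨R1, h1, h2⟩ := foldl_row n a (g a) n 0 J R hn (by omega)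
    obtain ⟨R2, h3, h4⟩ := ih (a + 1) (J ++ [a]) R1
    refine ⟨R2, ?_, ?_⟩
    · rw [List.range'_succ, List.map_cons, List.flatten_cons, List.foldl_append, h1, if_pos rfl, h3]
      simp [Nat.add_comm, Nat.add_left_comm]
    · intro p
      rw [h4, h2]
      constructor
      · rintro ((h | ⟨v, _, hv, hg, rfl⟩) | ⟨u, v, h1, h2, h3, h4, rfl⟩)
        · exact Or.inl h
        · exact Or.inr ⟨a, v, le_refl _, by omega, hv, hg, rfl⟩
        · exact Or.inr ⟨u, v, by omega, by omega, h3, h4, rfl⟩
      · rintro (h | ⟨u, v, h1, h2, h3, h4, rfl⟩)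
        · exact Or.inl (Or.inl h)
        · rcases Nat.eq_or_lt_of_le h1 with rfl | h1
          · exact Or.inl (Or.inr ⟨v, Nat.zero_le _, h3, h4, rfl⟩)
          · exact Or.inr ⟨u, v, h1, by omega, h3, h4, rfl⟩

theorem map_finRange {β : Type} (n : ℕ) (F : Fin n → β) (G : ℕ → β)
    (h : ∀ (i : ℕ) (hi : i < n), F ⟨i, hi⟩ = G i) :
    (List.finRange n).map F = (List.range' 0 n).map G := by
  apply List.ext_getElem
  · simp
  · intro i h1 h2
    simp only [List.length_map, List.length_finRange] at h1
    simp only [List.getElem_map, List.getElem_finRange, List.getElem_range', Nat.zero_add,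
      Nat.one_mul]
    exact h i h1

/-- the parser reads back the table -/
theorem parseIn_precCode (n : ℕ) (hn : 1 ≤ n) (E : Fin n → Fin n → Bool) :
    ∃ R : Rel, parseIn (Crest.Sched3.precCode n E) = (List.range n, n, R) ∧
      ∀ u v : ℕ, (u, v) ∈ R ↔ ∃ (hu : u < n) (hv : v < n), E ⟨u, hu⟩ ⟨v, hv⟩ = true := by
  classical
  let g : ℕ → ℕ → Bool := fun u v => if h : u < n ∧ v < n then E ⟨u, h.1⟩ ⟨v, h.2⟩ else false
  have hbits : ((List.finRange n).map fun u => (List.finRange n).map fun v => E u v).flatten =
      ((List.range' 0 n).map fun u => (List.range' 0 n).map (g u)).flatten := by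
    congr 1
    apply map_finRange
    intro i hi
    apply map_finRange
    intro j hj
    simp only [g]
    rw [dif_pos ⟨hi, hj⟩]
  obtain ⟨R, h1, h2⟩ := foldl_rows n hn g n 0 [] []
  refine ⟨R, ?_, ?_⟩
  · unfold parseIn Crest.Sched3.precCode
    rw [pair_eq, fst_pair, snd_pair, List.tail_cons, hbits, h1]
    simp [List.range_eq_range']
  · intro u v
    rw [h2]
    constructor
    · rintro (h | ⟨u', v', _, hu, hv, hg, heq⟩)
      · simp at h
      · obtain ⟨rfl, rfl⟩ := Prod.mk.inj heq
        have hu' : u < n := by omega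
        refine ⟨hu', hv, ?_⟩
        simp only [g] at hg
        rwa [dif_pos ⟨hu', hv⟩] at hg
    · rintro ⟨hu, hv, hE⟩
      refine Or.inr ⟨u, v, Nat.zero_le _, by omega, hv, ?_, rfl⟩
      simp only [g]
      rw [dif_pos ⟨hu, hv⟩]
      exact hE

end Crest.Agent.R286.ParseOK
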