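import Crest.Agent.R286.PureDefs
import Crest.Agent.R286.ParseOK

/-!
# Row 286: transitive closure and topological order on lists
-/

set_option autoImplicit false
set_option linter.dupNamespace false

namespace Crest.Agent.R286.TcTopo

open Crest.Agent.R286

/-- the relation on the members of `J` -/
def Rl (J : List ℕ) (R : Rel) (a b : ℕ) : Prop := a ∈ J ∧ b ∈ J ∧ (a, b) ∈ R

theorem mem_pairsL {J : List ℕ} {u v : ℕ} : (u, v) ∈ pairsL J ↔ u ∈ J ∧ v ∈ J := by
  simp only [pairsL, List.mem_flatMap, List.mem_map, Prod.mk.injEq]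
  constructor
  · rintro ⟨x, hx, y, hy, rfl, rfl⟩
    exact ⟨hx, hy⟩
  · rintro ⟨hu, hv⟩
    exact ⟨u, hu, v, hv, rfl, rfl⟩

theorem mem_tcStep {J : List ℕ} {R : Rel} {u v : ℕ} :
    (u, v) ∈ tcStep J (pairsL J) R ↔
      (u ∈ J ∧ v ∈ J) ∧ ((u, v) ∈ R ∨ ∃ z ∈ J, (u, z) ∈ R ∧ (z, v) ∈ R) := by
  simp only [tcStep, List.mem_filter, mem_pairsL, Bool.or_eq_true, List.contains_iff_mem,
    List.any_eq_true, Bool.and_eq_true]

/-- iterates of the closure step -/
def it (J : List ℕ) (R : Rel) : ℕ → Rel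
  | 0 => R
  | k + 1 => tcStep J (pairsL J) (it J R k)

theorem foldl_const {α β : Type} (f : β → β) : ∀ (l : List α) (b : β),
    l.foldl (fun s _ => f s) b = f^[l.length] b := by
  intro l
  induction l with
  | nil => intro b; rfl
  | cons a l ih => intro b; simp [ih]

theorem it_eq (J : List ℕ) (R : Rel) (k : ℕ) :
    (tcStep J (pairsL J))^[k] R = it J R k := by
  induction k with
  | zero => rfl
  | succ k ih => rw [Function.iterate_succ_apply', ih]; rfl

theorem tc_eq (J : List ℕ) (R : Rel) : tc J R = it J R J.length := by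
  unfold tc
  rw [foldl_const, it_eq]

theorem it_sound {J : List ℕ} {R : Rel} : ∀ (k : ℕ) {u v : ℕ}, u ∈ J → v ∈ J →
    (u, v) ∈ it J R k → Relation.TransGen (Rl J R) u v := by
  intro k
  induction k with
  | zero => intro u v hu hv h; exact Relation.TransGen.single ⟨hu, hv, h⟩
  | succ k ih =>
    intro u v hu hv h
    rw [it, mem_tcStep] at h
    rcases h.2 with h | ⟨z, hz, h1, h2⟩
    · exact ih hu hv h
    · exact (ih hu hz h1).trans (ih hz hv h2)

/-- walks of length `m` -/
def Wk (r : ℕ → ℕ → Prop) : ℕ → ℕ → ℕ → Prop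
  | 0, u, v => u = v
  | m + 1, u, v => ∃ w, r u w ∧ Wk r m w v

theorem Wk_add {r : ℕ → ℕ → Prop} : ∀ (a b : ℕ) {u v : ℕ}, Wk r (a + b) u v →
    ∃ w, Wk r a u w ∧ Wk r b w v := by
  intro a
  induction a with
  | zero => intro b u v h; rw [Nat.zero_add] at h; exact ⟨u, rfl, h⟩
  | succ a ih =>
    intro b u v h
    rw [show a + 1 + b = (a + b) + 1 by omega] at h
    obtain ⟨w, h1, h2⟩ := h
    obtain ⟨x, h3, h4⟩ := ih b h2
    exact ⟨x, ⟨w, h1, h3⟩, h4⟩

theorem Wk_memL {J : List ℕ} {R : Rel} {m u v : ℕ} (h : Wk (Rl J R) (m + 1) u v) : u ∈ J := by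
  obtain ⟨w, h1, _⟩ := h
  exact h1.1

theorem Wk_memR {J : List ℕ} {R : Rel} : ∀ (m : ℕ) {u v : ℕ}, Wk (Rl J R) (m + 1) u v → v ∈ J := by
  intro m
  induction m with
  | zero =>
    intro u v h
    obtain ⟨w, h1, h2⟩ := h
    have : w = v := h2
    rw [← this]
    exact h1.2.1
  | succ m ih =>
    intro u v h
    obtain ⟨w, _, h2⟩ := h
    exact ih h2

theorem it_complete {J : List ℕ} {R : Rel} : ∀ (k m : ℕ) {u v : ℕ}, 1 ≤ m → m ≤ 2 ^ k →
    Wk (Rl J R) m u v → (u, v) ∈ it J R k := by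
  intro k
  induction k with
  | zero =>
    intro m u v h1 h2 h
    have : m = 1 := by simpa using le_antisymm (by simpa using h2) h1
    subst this
    obtain ⟨w, h3, h4⟩ := h
    have : w = v := h4
    rw [← this]
    exact h3.2.2
  | succ k ih =>
    intro m u v h1 h2 h
    rw [it, mem_tcStep]
    obtain ⟨m', rfl⟩ : ∃ m', m = m' + 1 := ⟨m - 1, by omega⟩
    refine ⟨⟨Wk_memL h, Wk_memR m' h⟩, ?_⟩
    by_cases hm : m' + 1 ≤ 2 ^ k
    · exact Or.inl (ih _ h1 hm h)
    · right
      have hpos : 0 < 2 ^ k := pow_pos (by norm_num) k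
      have h2' : m' + 1 ≤ 2 * 2 ^ k := by rw [pow_succ] at h2; omega
      have hsplit : m' + 1 = 2 ^ k + (m' + 1 - 2 ^ k) := by omega
      rw [hsplit] at h
      obtain ⟨w, h3, h4⟩ := Wk_add _ _ h
      refine ⟨w, ?_, ih _ hpos le_rfl h3, ih _ (by omega) (by omega) h4⟩
      obtain ⟨q, hq⟩ : ∃ q, m' + 1 - 2 ^ k = q + 1 := ⟨m' - 2 ^ k, by omega⟩
      rw [hq] at h4
      exact Wk_memL h4

theorem exists_Wk {r : ℕ → ℕ → Prop} {u v : ℕ} (h : Relation.TransGen r u v) :
    ∃ m, Wk r (m + 1) u v := by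
  induction h using Relation.TransGen.head_induction_on with
  | single h => exact ⟨0, _, h, rfl⟩
  | head h1 _ ih =>
    obtain ⟨m, hm⟩ := ih
    exact ⟨m + 1, _, h1, hm⟩

theorem Wk_list {J : List ℕ} {R : Rel} : ∀ (m : ℕ) {u v : ℕ}, u ∈ J → Wk (Rl J R) m u v →
    ∃ l : List ℕ, l.length = m ∧ (∀ x ∈ l, x ∈ J) ∧
      (u :: l).Pairwise (Relation.TransGen (Rl J R)) := by
  intro m
  induction m with
  | zero => intro u v hu h; exact ⟨[], rfl, by simp, by simp⟩
  | succ m ih =>
    intro u v hu h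
    obtain ⟨w, h1, h2⟩ := h
    obtain ⟨l, hl, hJ, hp⟩ := ih h1.2.1 h2
    refine ⟨w :: l, by simp [hl], ?_, ?_⟩
    · intro x hx
      rcases List.mem_cons.1 hx with rfl | hx
      · exact h1.2.1
      · exact hJ x hx
    · rw [List.pairwise_cons]
      refine ⟨?_, hp⟩
      intro x hx
      rcases List.mem_cons.1 hx with rfl | hx
      · exact Relation.TransGen.single h1
      · exact (Relation.TransGen.single h1).trans ((List.pairwise_cons.1 hp).1 x hx)

theorem Wk_bound {J : List ℕ} {R : Rel} (hac : ∀ x, ¬ Relation.TransGen (Rl J R) x x)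
    {m u v : ℕ} (hu : u ∈ J) (h : Wk (Rl J R) m u v) : m + 1 ≤ J.length := by
  obtain ⟨l, hl, hJ, hp⟩ := Wk_list m hu h
  have hnd : (u :: l).Nodup := by
    refine hp.imp ?_
    rintro a b hab rfl
    exact hac _ hab
  have hsub : (u :: l) ⊆ J := by
    intro x hx
    rcases List.mem_cons.1 hx with rfl | hx
    · exact hu
    · exact hJ x hx
  have := (List.Nodup.subperm hnd hsub).length_le
  simpa [hl] using this

/-- membership in the transitive closure (acyclic case) -/
theorem mem_tc {J : List ℕ} {R : Rel} (hne : J ≠ [])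
    (hac : ∀ x, ¬ Relation.TransGen (Rl J R) x x) {u v : ℕ} :
    (u, v) ∈ tc J R ↔ Relation.TransGen (Rl J R) u v := by
  rw [tc_eq]
  constructor
  · intro h
    obtain ⟨q, hq⟩ : ∃ q, J.length = q + 1 :=
      ⟨J.length - 1, by have := List.length_pos_iff.2 hne; omega⟩
    have h' := h
    rw [hq, it, mem_tcStep] at h'
    exact it_sound J.length h'.1.1 h'.1.2 h
  · intro h
    obtain ⟨m, hm⟩ := exists_Wk h
    have hb := Wk_bound hac (Wk_memL hm) hm
    refine it_complete J.length (m + 1) (by omega) ?_ hm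
    have : J.length < 2 ^ J.length := Nat.lt_two_pow_self
    omega

theorem tc_subset {J : List ℕ} {R : Rel} (hne : J ≠ []) {u v : ℕ} (h : (u, v) ∈ tc J R) :
    u ∈ J ∧ v ∈ J := by
  rw [tc_eq] at h
  obtain ⟨q, hq⟩ : ∃ q, J.length = q + 1 :=
    ⟨J.length - 1, by have := List.length_pos_iff.2 hne; omega⟩
  rw [hq, it, mem_tcStep] at h
  exact h.1

/-! ### topological order -/

theorem exists_min {A : List ℕ} {R : Rel} (hne : A ≠ [])
    (hirr : ∀ x ∈ A, (x, x) ∉ R)
    (htr : ∀ x ∈ A, ∀ y ∈ A, ∀ z ∈ A, (x, y) ∈ R → (y, z) ∈ R → (x, z) ∈ R) :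
    ∃ x ∈ A, ∀ y ∈ A, (y, x) ∉ R := by
  classical
  let r : {x // x ∈ A} → {x // x ∈ A} → Prop := fun a b => (a.1, b.1) ∈ R
  have : IsTrans _ r := ⟨fun a b c h1 h2 => htr a.1 a.2 b.1 b.2 c.1 c.2 h1 h2⟩
  have : Std.Irrefl r := ⟨fun a h => hirr a.1 a.2 h⟩
  have : Finite {x // x ∈ A} := by
    have : Finite {x // x ∈ A.toFinset} := inferInstance
    exact Finite.of_equiv {x // x ∈ A.toFinset}
      (Equiv.subtypeEquivRight (fun x => by simp))
  have hwf : WellFounded r := Finite.wellFounded_of_trans_of_irrefl r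
  obtain ⟨a, ha⟩ := List.exists_mem_of_ne_nil A hne
  obtain ⟨m, _, hm⟩ := hwf.has_min (Set.univ : Set {x // x ∈ A}) ⟨⟨a, ha⟩, trivial⟩
  exact ⟨m.1, m.2, fun y hy h => hm ⟨y, hy⟩ trivial h⟩

/-- invariant of the topological sorting -/
structure Inv (R : Rel) (J : List ℕ) (s : List ℕ × List ℕ) : Prop where
  perm : (s.1 ++ s.2).Perm J
  pw : s.2.Pairwise (fun a b => (b, a) ∉ R)
  cross : ∀ a ∈ s.1, ∀ b ∈ s.2, (a, b) ∉ R

theorem mem_fst_step {R : Rel} {A : List ℕ} {x : ℕ} :
    x ∈ A.filter (fun x => A.any fun y => R.contains (y, x)) ↔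
      x ∈ A ∧ ∃ y ∈ A, (y, x) ∈ R := by
  simp only [List.mem_filter, List.any_eq_true, List.contains_iff_mem]

theorem mem_snd_step {R : Rel} {A : List ℕ} {x : ℕ} :
    x ∈ A.filter (fun x => !(A.any fun y => R.contains (y, x))) ↔
      x ∈ A ∧ ∀ y ∈ A, (y, x) ∉ R := by
  simp only [List.mem_filter, Bool.not_eq_true', List.any_eq_false, List.contains_iff_mem]

theorem Inv.step {R : Rel} {J : List ℕ} {s : List ℕ × List ℕ} (h : Inv R J s) :
    Inv R J (topoStep R s) := by
  obtain ⟨A, B⟩ := s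
  obtain ⟨hp, hw, hc⟩ := h
  simp only at hp hw hc
  unfold topoStep
  refine ⟨?_, ?_, ?_⟩
  · simp only
    have h1 : (A.filter (fun x => A.any fun y => R.contains (y, x)) ++
        A.filter (fun x => !(A.any fun y => R.contains (y, x)))).Perm A :=
      List.filter_append_perm _ _
    refine List.Perm.trans ?_ hp
    refine List.Perm.trans ?_ (h1.append_right B)
    rw [List.append_assoc]
    exact List.Perm.append_left _ List.perm_append_comm
  · simp only
    rw [List.pairwise_append]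
    refine ⟨hw, ?_, ?_⟩
    · have : ∀ a ∈ A.filter (fun x => !(A.any fun y => R.contains (y, x))),
          ∀ b ∈ A.filter (fun x => !(A.any fun y => R.contains (y, x))), (b, a) ∉ R := by
        intro a ha b hb
        rw [mem_snd_step] at ha hb
        exact ha.2 b hb.1
      rw [List.pairwise_iff_getElem]
      intro i j hi hj _
      exact this _ (List.getElem_mem hi) _ (List.getElem_mem hj)
    · intro b hb c hcc
      rw [mem_snd_step] at hcc
      exact hc c hcc.1 b hb
  · simp only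
    intro a ha b hb
    rw [mem_fst_step] at ha
    rcases List.mem_append.1 hb with hb | hb
    · exact hc a ha.1 b hb
    · rw [mem_snd_step] at hb
      exact hb.2 a ha.1

theorem step_length {R : Rel} {J : List ℕ} (hirr : ∀ x ∈ J, (x, x) ∉ R)
    (htr : ∀ x ∈ J, ∀ y ∈ J, ∀ z ∈ J, (x, y) ∈ R → (y, z) ∈ R → (x, z) ∈ R)
    {s : List ℕ × List ℕ} (h : Inv R J s) : (topoStep R s).1.length ≤ s.1.length - 1 := by
  obtain ⟨A, B⟩ := s
  have hsub : ∀ x ∈ A, x ∈ J := fun x hx => h.perm.subset (List.mem_append_left _ hx)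
  unfold topoStep
  simp only
  by_cases hA : A = []
  · simp [hA]
  · obtain ⟨x, hx, hmin⟩ := exists_min hA (fun x hx => hirr x (hsub x hx))
      (fun x hx y hy z hz => htr x (hsub x hx) y (hsub y hy) z (hsub z hz))
    have hx2 : x ∈ A.filter (fun x => !(A.any fun y => R.contains (y, x))) :=
      mem_snd_step.2 ⟨hx, hmin⟩
    have h1 : (A.filter (fun x => A.any fun y => R.contains (y, x)) ++
        A.filter (fun x => !(A.any fun y => R.contains (y, x)))).length = A.length :=
      (List.filter_append_perm _ _).length_eq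
    rw [List.length_append] at h1
    have h2 := List.length_pos_of_mem hx2
    omega

theorem iter_inv {R : Rel} {J : List ℕ} (hirr : ∀ x ∈ J, (x, x) ∉ R)
    (htr : ∀ x ∈ J, ∀ y ∈ J, ∀ z ∈ J, (x, y) ∈ R → (y, z) ∈ R → (x, z) ∈ R) (k : ℕ) :
    Inv R J ((topoStep R)^[k] (J, [])) ∧
      ((topoStep R)^[k] (J, [])).1.length ≤ J.length - k := by
  induction k with
  | zero => exact ⟨⟨by simp, by simp, by simp⟩, by simp⟩
  | succ k ih =>
    rw [Function.iterate_succ_apply']
    refine ⟨ih.1.step, ?_⟩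
    have := step_length hirr htr ih.1
    omega

/-- the topological order is a permutation and respects the relation -/
theorem topo_spec {R : Rel} {J : List ℕ} (hirr : ∀ x ∈ J, (x, x) ∉ R)
    (htr : ∀ x ∈ J, ∀ y ∈ J, ∀ z ∈ J, (x, y) ∈ R → (y, z) ∈ R → (x, z) ∈ R) :
    (topo R J).Perm J ∧ (topo R J).Pairwise (fun a b => (b, a) ∉ R) := by
  have h := iter_inv hirr htr J.length
  have heq : topo R J = ((topoStep R)^[J.length] (J, [])).2 := by
    unfold topo
    rw [foldl_const]
  rw [Nat.sub_self] at h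
  have hnil : ((topoStep R)^[J.length] (J, [])).1 = [] :=
    List.length_eq_zero_iff.1 (Nat.le_zero.1 h.2)
  have hp := h.1.perm
  rw [hnil, List.nil_append] at hp
  rw [heq]
  exact ⟨hp, h.1.pw⟩

/-- index form: if `(x, y) ∈ R` then `x` comes strictly before `y` -/
theorem topo_idx {R : Rel} {J : List ℕ} (hirr : ∀ x ∈ J, (x, x) ∉ R)
    (htr : ∀ x ∈ J, ∀ y ∈ J, ∀ z ∈ J, (x, y) ∈ R → (y, z) ∈ R → (x, z) ∈ R)
    {x y : ℕ} (hx : x ∈ J) (hy : y ∈ J) (hxy : (x, y) ∈ R) :
    (topo R J).idxOf x < (topo R J).idxOf y := by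
  obtain ⟨hp, hw⟩ := topo_spec hirr htr
  have hx' : x ∈ topo R J := hp.mem_iff.2 hx
  have hy' : y ∈ topo R J := hp.mem_iff.2 hy
  have hix := List.idxOf_lt_length_iff.2 hx'
  have hiy := List.idxOf_lt_length_iff.2 hy'
  by_contra hcon
  rcases Nat.lt_or_eq_of_le (not_lt.1 hcon) with hlt | heq
  · have := (List.pairwise_iff_getElem.1 hw) _ _ hiy hix hlt
    rw [List.getElem_idxOf, List.getElem_idxOf] at this
    exact this hxy
  · have hxy' : x = y := by
      have h1 := List.getElem_idxOf (xs := topo R J) (x := x) hix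
      have h2 := List.getElem_idxOf (xs := topo R J) (x := y) hiy
      rw [← h1, ← h2]
      congr 1
      exact heq.symm
    subst hxy'
    exact hirr x hx hxy

/-- for a Boolean table: the closure is the transitive closure of the table -/
theorem mem_tc_table {n : ℕ} (hn : 1 ≤ n) (E : Fin n → Fin n → Bool)
    (hE : Crest.Sched3.Acyclic E) {R : Rel}
    (hR : ∀ u v : ℕ, (u, v) ∈ R ↔ ∃ (hu : u < n) (hv : v < n), E ⟨u, hu⟩ ⟨v, hv⟩ = true)
    {u v : ℕ} : (u, v) ∈ tc (List.range n) R ↔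
      ∃ (hu : u < n) (hv : v < n),
        Relation.TransGen (fun a b => E a b = true) (⟨u, hu⟩ : Fin n) ⟨v, hv⟩ := by
  have key : ∀ {u v : ℕ}, Relation.TransGen (Rl (List.range n) R) u v ↔
      ∃ (hu : u < n) (hv : v < n),
        Relation.TransGen (fun a b => E a b = true) (⟨u, hu⟩ : Fin n) ⟨v, hv⟩ := by
    intro u v
    constructor
    · intro h
      induction h with
      | single h =>
        obtain ⟨_, _, h3⟩ := h
        obtain ⟨hu, hv, hh⟩ := (hR _ _).1 h3
        exact ⟨hu, hv, Relation.TransGen.single hh⟩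
      | tail _ h ih =>
        obtain ⟨hu, hb, hh⟩ := ih
        obtain ⟨_, _, h3⟩ := h
        obtain ⟨hb', hc, hh'⟩ := (hR _ _).1 h3
        exact ⟨hu, hc, hh.tail hh'⟩
    · rintro ⟨hu, hv, h⟩
      have : ∀ (a b : Fin n), Relation.TransGen (fun a b => E a b = true) a b →
          Relation.TransGen (Rl (List.range n) R) a.1 b.1 := by
        intro a b hab
        induction hab with
        | single h =>
          exact Relation.TransGen.single
            ⟨List.mem_range.2 a.2, List.mem_range.2 (Fin.is_lt _),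
              (hR _ _).2 ⟨a.2, Fin.is_lt _, h⟩⟩
        | tail _ h ih =>
          exact ih.tail ⟨List.mem_range.2 (Fin.is_lt _), List.mem_range.2 (Fin.is_lt _),
            (hR _ _).2 ⟨Fin.is_lt _, Fin.is_lt _, h⟩⟩
      exact this _ _ h
  have hne : List.range n ≠ [] := by
    intro h
    have := congrArg List.length h
    simp at this
    omega
  rw [mem_tc hne]
  · exact key
  · intro x hx
    obtain ⟨hu, _, h⟩ := key.1 hx
    exact hE _ h

/-! ### the frozen nodes -/

theorem tcSpec : Pure.TcSpec := by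
  intro n R hn hR hac a b
  have hRl : Rl (List.range n) R = fun x y => (x, y) ∈ R := by
    funext x y
    refine propext ⟨fun h => h.2.2, fun h => ?_⟩
    have := hR _ h
    exact ⟨List.mem_range.2 this.1, List.mem_range.2 this.2, h⟩
  have hne : List.range n ≠ [] := by
    intro h
    have := congrArg List.length h
    simp at this
    omega
  rw [mem_tc hne (by rw [hRl]; exact hac), hRl]

theorem topoSpec : Pure.TopoSpec := by
  intro J R _ hirr htr
  exact ⟨(topo_spec hirr htr).1, fun a ha b hb h => topo_idx hirr htr ha hb h⟩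

theorem parseSpec : Pure.ParseSpec := by
  intro n E hn
  exact ParseOK.parseIn_precCode n hn E

end Crest.Agent.R286.TcTopo
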