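import Crest.Agent.R286.PureComplete
import Crest.Agent.R286.Fill
import Crest.Agent.R286.FillParse
import Crest.Agent.R286.TcTopo

/-!
# Row 286, pure side: `AlgoCorrect d` from `MathClaim d`
-/

set_option autoImplicit false
set_option linter.dupNamespace false

namespace Crest.Agent.R286.PureTop

open Crest.Agent.R286 Crest.Agent.R286.Fill Crest.Sched3

theorem incr_of_pairwise {J : List ℕ} {R : Rel} (hirr : ∀ a, (a, a) ∉ R)
    (hpw : J.Pairwise (fun a b => (b, a) ∉ R)) {a b : ℕ} (ha : a ∈ J) (hb : b ∈ J)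
    (hab : (a, b) ∈ R) : J.idxOf a < J.idxOf b := by
  by_contra hcon
  rcases Nat.lt_or_ge (J.idxOf b) (J.idxOf a) with h | h
  · have := List.pairwise_iff_getElem.1 hpw (J.idxOf b) (J.idxOf a)
      (List.idxOf_lt_length_of_mem hb) (List.idxOf_lt_length_of_mem ha) h
    rw [List.getElem_idxOf, List.getElem_idxOf] at this
    exact this hab
  · have he : J.idxOf a = J.idxOf b := by omega
    have : a = b := (List.idxOf_inj ha).1 he
    subst this
    exact hirr a hab

theorem fillSound (d : ℕ) : Fill.SolveSound d := by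
  intro J R w hO h
  have hp := Pure.solveSound d J R w hO.1 h
  obtain ⟨T, hT⟩ := hp.len
  exact ⟨hp.nodup, hp.mem, ⟨T, hT⟩, hp.mono⟩

theorem fillComplete {d : ℕ} (hM : MathClaim d) : Fill.SolveComplete d := by
  rintro J R ⟨h1, h2, h3, h4⟩ ⟨T, s, g1, g2, g3⟩
  obtain ⟨w, hw⟩ := Pure.solveComplete hM J R T s
    ⟨h1, fun a _ b _ c _ => h2 a b c, fun a ha b hb hab => incr_of_pairwise h3 h4 ha hb hab⟩
    ⟨g1, g2, g3⟩
  rw [hw]
  simp

theorem fillTopo : Fill.TopoSpec := by
  intro J R hJ htr hirr
  obtain ⟨h1, h2⟩ := TcTopo.topoSpec J R hJ (fun a _ => hirr a)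
    (fun a _ b _ c _ => htr a b c)
  refine ⟨h1, ?_⟩
  have hn : (topo R J).Nodup := h1.nodup_iff.2 hJ
  rw [List.pairwise_iff_getElem]
  intro i j hi hj hij hR
  have hlt := h2 _ (h1.mem_iff.1 (List.getElem_mem hj)) _ (h1.mem_iff.1 (List.getElem_mem hi)) hR
  rw [List.Nodup.idxOf_getElem hn, List.Nodup.idxOf_getElem hn] at hlt
  omega

/-- correctness of the algorithm from the combinatorial theorem -/
theorem algoCorrect {d : ℕ} (hM : MathClaim d) : AlgoCorrect d := by
  have hs : SolveSound d := fillSound d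
  have hc : SolveComplete d := fillComplete hM
  have hp : ParseSpec := Fill.parseSpec
  have hto : TopoSpec := fillTopo
  intro n E hn hE
  obtain ⟨p1, p2, p3⟩ := hp n E hn
  set R0 := (parseIn (Crest.Sched3.precCode n E)).2.2 with hR0
  have hR0m : ∀ p ∈ R0, p.1 ∈ List.range n ∧ p.2 ∈ List.range n := by
    rintro ⟨u, v⟩ hpR
    obtain ⟨hu, hv, _⟩ := (p3 u v).mp hpR
    exact ⟨List.mem_range.mpr hu, List.mem_range.mpr hv⟩
  set R := tc (List.range n) R0 with hRdef
  have hR : ∀ u v, (u, v) ∈ R ↔ ∃ (hu : u < n) (hv : v < n),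
      Relation.TransGen (fun a b => E a b = true) ⟨u, hu⟩ ⟨v, hv⟩ := by
    intro u v
    exact TcTopo.mem_tc_table hn E hE p3
  have hRtr : ∀ a b c, (a, b) ∈ R → (b, c) ∈ R → (a, c) ∈ R := by
    intro a b c hab hbc
    rw [hR] at hab hbc ⊢
    obtain ⟨ha, hb, h1⟩ := hab
    obtain ⟨_, hc', h2⟩ := hbc
    exact ⟨ha, hc', h1.trans h2⟩
  have hRir : ∀ a, (a, a) ∉ R := by
    intro a ha
    rw [hR] at ha
    obtain ⟨h1, _, h2⟩ := ha
    exact hE _ h2
  obtain ⟨hJ, hpw⟩ := hto (List.range n) R List.nodup_range hRtr hRir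
  set J := topo R (List.range n) with hJdef
  set l := List.range n ++ (List.range n ++ List.range n) with hl
  have hll : l.length = 3 * n := by
    simp only [hl, List.length_append, List.length_range]; omega
  obtain ⟨f1, f2⟩ := fill_spec d R l J n
  have hmain : mainAlg d (List.range n) n R0 =
      (l.foldl (fun s _ => fillStep d R s) (J, n, none)).2.2 := rfl
  have halgo : algo d (Crest.Sched3.precCode n E) = match mainAlg d (List.range n) n R0 with
      | none => []
      | some w => Crest.Enc.listCode ((List.range n).map (slotOf w)) := by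
    unfold algo
    rw [p1, p2]
    rfl
  -- a packing exists for the trivial schedule
  obtain ⟨τ0, hτ0, hτ0n⟩ := exists_trivial_schedule (E := E) hJ hR hE hpw
  have hfound : mainAlg d (List.range n) n R0 ≠ none := by
    intro hnone
    rw [hmain] at hnone
    have h1 := f2 hnone (2 * n) (by omega)
    exact hc _ _ (ord_append hE hJ hR hpw _)
      (exists_packing_of_schedule hτ0 hτ0n (by omega) hJ hR) h1
  obtain ⟨w, hw⟩ := Option.ne_none_iff_exists'.mp hfound
  obtain ⟨k, hk, hk1, hk2⟩ := f1 w (by rw [← hmain]; exact hw)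
  have hpk := hs _ _ _ (ord_append hE hJ hR hpw k) hk1
  obtain ⟨g1, g2, g3⟩ := slot_isSchedule (E := E) hJ hR hpk
  refine ⟨fun v => slotOf w v, ?_, g1, fun τ' hτ' => ?_⟩
  · rw [halgo, hw]
    show Crest.Enc.listCode ((List.range n).map (slotOf w)) =
      Crest.Enc.listCode (List.ofFn fun v : Fin n => slotOf w v)
    congr 1
    refine List.ext_getElem (by simp) fun i h1 h2 => ?_
    simp
  · set T' := Finset.univ.sup τ' with hT'
    have hle : ∀ v, τ' v ≤ T' := fun v => Finset.le_sup (Finset.mem_univ v)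
    have hcard : n ≤ 3 * T' := by
      have := Finset.card_le_mul_card_image_of_maps_to (s := (Finset.univ : Finset (Fin n)))
        (t := Finset.Icc 1 T') (f := τ') (fun v _ => Finset.mem_Icc.mpr ⟨hτ'.1 v, hle v⟩) 3
        (fun t _ => by simpa using hτ'.2.1 t)
      simpa using this
    refine Finset.sup_le fun v _ => ?_
    have hv := g3 v
    by_cases hbig : 3 * T' < n + k
    · exfalso
      have h5 := hk2 (3 * T' - n) (by omega)
      exact hc _ _ (ord_append hE hJ hR hpw _)
        (exists_packing_of_schedule hτ' hle (by omega) hJ hR) h5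
    · have hn3 : n + k ≤ 3 * T' := by omega
      have : 3 * slotOf w v ≤ 3 * T' := hv.trans hn3
      omega


end Crest.Agent.R286.PureTop
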