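import Crest.Agent.R286.TimeDefs

/-! # Row 286, time side: composition of the modules -/

set_option autoImplicit false
set_option linter.dupNamespace false
set_option linter.unusedVariables false
set_option linter.unusedSectionVars false

namespace Crest.Agent.R286

open Function Crest.Agent.Lib.PT

/-- the inputs themselves -/
theorem inst_gr : GR Inst 3 (fun p : List ℕ × Rel => p) := by
  refine ⟨20, fun m p hp => ?_⟩
  have h1 := hp.1.sz_le
  have h2 := hp.2.sz_le
  have h3 : (m + 1) ^ 2 ≤ (m + 1) ^ 3 := pow_mono' (by omega)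
  have h4 : 1 ≤ (m + 1) ^ 3 := Nat.one_le_pow _ _ (Nat.succ_pos _)
  show sz p ≤ _
  rw [sz_prod]
  omega

/-- the solver from its parts -/
theorem solveTime_of (d : ℕ) (h1 : FamTime) (h2 : FamSize) (h3 : SearchTime) :
    SolveTime d (16 * 2 ^ d + 64) (2 ^ d + 2) := by
  have e1 : 1 ≤ 2 ^ d := Nat.one_le_two_pow
  have gi : GR Inst (2 ^ d + 2) (fun p : List ℕ × Rel => p) := inst_gr.mono (by omega)
  have t1 : TR Inst (16 * 2 ^ d + 64) (fun p : List ℕ × Rel => p) :=
    TR.mono ⟨.skip, 1, fun m a _ => by simpa using run_skip (init (enc a))⟩ (Nat.zero_le _)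
  have t2 : TR Inst (16 * 2 ^ d + 64) (fun p : List ℕ × Rel => (p, fam d p.1 p.2)) :=
    TR.prodMk t1 (h1 d) (gi.mono (by omega)) ((h2 d).mono (by omega)) (gi.mono (by omega))
  have g2 : GR Inst (2 ^ d + 2) (fun p : List ℕ × Rel => (p, fam d p.1 p.2)) :=
    GR.prodMk gi (h2 d)
  refine ⟨?_, ?_⟩
  · exact (TF.compR (D := 16 * 2 ^ d + 64) h3.1 t2 g2 le_rfl (by omega)).congr fun p => rfl
  · have := GF.compR (D := 2 ^ d + 2) h3.2 g2 (by omega)
    exact this

/-- composition of all modules -/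
theorem tf_algo (hp : ParseTime) (hps : ParseSize) (hf : FamTime) (hfs : FamSize)
    (hs : SearchTime) (hm : MainTime) (ho : OutTime) :
    TF 150020 (fun x : Bits => (⟨algo 13 x.val⟩ : Bits)) := by
  have hsolve := solveTime_of 13 hf hfs hs
  obtain ⟨hmT, hmG⟩ := hm 13 _ _ (by norm_num) (by norm_num) hsolve
  -- parse
  let P : ℕ → Bits → Prop := fun m x => sz x ≤ m
  have p1 : TR P 40 (fun x : Bits => parseIn x.val) := TF.toTR hp
  have pin : ∀ m (x : Bits), P m x → PIn (1 * m) (parseIn x.val) := by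
    intro m x hx
    have h := hps x.val
    have hx' : x.val.length ≤ 1 * m := by rw [one_mul]; exact hx
    exact ⟨h.1.mono hx', h.2.1.trans hx', h.2.2.mono hx'⟩
  have m1 : TR P 131146 (fun x : Bits =>
      mainAlg 13 (parseIn x.val).1 (parseIn x.val).2.1 (parseIn x.val).2.2) :=
    TR.comp (K := 1) hmT p1 pin (by norm_num) (by norm_num)
  have m2 : GR P 8194 (fun x : Bits =>
      mainAlg 13 (parseIn x.val).1 (parseIn x.val).2.1 (parseIn x.val).2.2) :=
    GR.comp (K := 1) hmG pin (by norm_num)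
  -- jobs
  have gp : GR P 3 (fun x : Bits => parseIn x.val) := by
    refine ⟨50, fun m x hx => ?_⟩
    have h := pin m x hx
    rw [one_mul] at h
    have h1 := h.1.sz_le
    have h2 := h.2.1
    have h3 := h.2.2.sz_le
    have h4 : (m + 1) ^ 2 ≤ (m + 1) ^ 3 := pow_mono' (by omega)
    have h5 : (m + 1) ^ 1 ≤ (m + 1) ^ 3 := pow_mono' (by omega)
    have h6 : 1 ≤ (m + 1) ^ 3 := Nat.one_le_pow _ _ (Nat.succ_pos _)
    rw [pow_one] at h5
    show sz (parseIn x.val) ≤ _
    rw [sz_prod, sz_prod]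
    omega
  have j1 : TR P 131146 (fun x : Bits => (parseIn x.val).1) :=
    TF.compR (g := fun p : List ℕ × ℕ × Rel => p.1) TF.fst p1 gp (by norm_num) (by norm_num)
  have j2 : GR P 8194 (fun x : Bits => (parseIn x.val).1) :=
    GF.compR (g := fun p : List ℕ × ℕ × Rel => p.1) GF.fst gp (by norm_num)
  have gi : GR P 1 (fun x : Bits => x) := ⟨1, fun m x hx => by
    have : sz x ≤ m := hx
    simp only [pow_one, one_mul]; omega⟩
  -- both
  have b1 : TR P 131146 (fun x : Bits => ((parseIn x.val).1,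
      mainAlg 13 (parseIn x.val).1 (parseIn x.val).2.1 (parseIn x.val).2.2)) :=
    TR.prodMk j1 m1 (j2.mono (by norm_num)) (m2.mono (by norm_num)) (gi.mono (by norm_num))
  have b2 : GR P 8194 (fun x : Bits => ((parseIn x.val).1,
      mainAlg 13 (parseIn x.val).1 (parseIn x.val).2.1 (parseIn x.val).2.2)) :=
    GR.prodMk j2 m2
  -- output
  have o1 : TF 16 (fun q : List ℕ × Option (List ℕ) => match q.2 with
      | none => (⟨[]⟩ : Bits)
      | some w => (⟨Crest.Enc.listCode (q.1.map (slotOf w))⟩ : Bits)) := by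
    refine (TF.optCase0 (γ := List ℕ) (α := List ℕ) (g := fun _ => (⟨[]⟩ : Bits))
      (f := fun p : List ℕ × List ℕ => (⟨Crest.Enc.listCode (p.1.map (slotOf p.2))⟩ : Bits))
      ((TF.const _).mono (by norm_num)) ho (by norm_num)).congr fun q => ?_
    rcases q with ⟨a, o⟩
    cases o <;> rfl
  have o2 := TF.compR (D := 150020) o1 b1 b2 (by norm_num) (by norm_num)
  refine TF.congr (TR.toTF o2) fun x => ?_
  simp only [algo]
  cases mainAlg 13 (parseIn x.val).1 (parseIn x.val).2.1 (parseIn x.val).2.2 <;> rfl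

end Crest.Agent.R286
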