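import Crest.Agent.R286.TimeDefs
import Crest.Agent.R286.FamSize

/-!
# Row 286: time and size of the family of described sets
-/

set_option autoImplicit false
set_option linter.dupNamespace false
set_option linter.unusedVariables false
set_option linter.unusedSectionVars false

namespace Crest.Agent.R286.TimeFam

open Function Crest.Agent.R286 Crest.Agent.Lib.PT

variable {α β γ δ σ κ : Type} [PTCode α] [PTCode β] [PTCode γ] [PTCode δ] [PTCode σ] [PTCode κ]

/-! ### combinators -/

/-- take while as a fold -/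
theorem LF_takeWhile {k : ℕ} {l : α → List β} {p : α → β → Bool} (hl : LF k l)
    (hp : LF k (fun q : α × β => p q.1 q.2)) :
    LF (k + 1) (fun a => (l a).takeWhile (p a)) := by
  obtain ⟨A, hA⟩ := hl.2
  have hp' : LF k (fun q : (α × (Bool × List β)) × β => p q.1.1 q.2) :=
    LF.comp (g := fun q : α × β => p q.1 q.2)
      (f := fun q : (α × (Bool × List β)) × β => (q.1.1, q.2)) hp (by fun_prop)
  let stp : α → Bool × List β → β → Bool × List β := fun a s x =>
    if (s.1 && p a x) = true then (true, x :: s.2) else (false, s.2)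
  have e1 : ∀ (a : α) (m : List β) (acc : List β),
      m.foldl (stp a) (false, acc) = (false, acc) := by
    intro a m
    induction m with
    | nil => intro acc; rfl
    | cons x m ih => intro acc; rw [List.foldl_cons]; simp only [stp] at *; simpa using ih acc
  have e2 : ∀ (a : α) (m : List β) (acc : List β),
      (m.foldl (stp a) (true, acc)).2 = (m.takeWhile (p a)).reverse ++ acc := by
    intro a m
    induction m with
    | nil => intro acc; rfl
    | cons x m ih =>
      intro acc
      rw [List.foldl_cons, List.takeWhile_cons]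
      by_cases h : p a x = true
      · have : stp a (true, acc) x = (true, x :: acc) := by simp [stp, h]
        rw [this, ih]
        simp [h]
      · have : stp a (true, acc) x = (false, acc) := by simp [stp, h]
        rw [this, e1]
        simp [h]
  have h0 : LF k (fun q : (α × (Bool × List β)) × β => stp q.1.1 q.1.2 q.2) := by
    simp only [stp]
    fun_prop
  have h1 : LF (k + 1) (fun a => (l a).foldl (stp a) (true, [])) :=
    LF.foldl (l := l) (i := fun _ => (true, ([] : List β))) (f := stp) hl (LF.const _) h0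
      ⟨A + 3, fun a l1 l2 h => by
        have h1 := hA a
        rw [pow_one, h, sz_append] at h1
        have h2 : sz (l1.foldl (stp a) (true, [])) = 3 + sz (l1.takeWhile (p a)) := by
          rw [sz_prod, e2, List.append_nil, sz_reverse, sz_bool]
        rw [h2]
        have h3 : sz (l1.takeWhile (p a)) ≤ sz l1 :=
          FamSize.sz_sublist (List.takeWhile_sublist _)
        nlinarith [Nat.zero_le (sz a)]⟩
  have h2 : LF (k + 1) (fun m : List β => m.reverse) :=
    (LF.reverse (k := 0) LF.id).mono (by omega)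
  have h3 : LF (k + 1) (fun a => ((l a).foldl (stp a) (true, [])).2) :=
    LF.comp (g := fun s : Bool × List β => s.2) LF.snd h1
  exact (LF.comp h2 h3).congr fun a => by rw [e2]; simp

/-- map with polynomial output size -/
theorem TF_map {k b : ℕ} {l : α → List β} {f : α → β → γ} (hl : LF k l)
    (hf : LF k (fun q : α × β => f q.1 q.2))
    (hb : ∃ B, ∀ a, sz ((l a).map (f a)) ≤ B * (sz a + 1) ^ b) (h1 : 1 ≤ b) :
    TF (1 + b * (k + 1) + b) (fun a => (l a).map (f a)) := by
  obtain ⟨B, hB⟩ := hb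
  have hf' : LF k (fun q : (α × List γ) × β => f q.1.1 q.2) :=
    LF.comp (g := fun q : α × β => f q.1 q.2) (f := fun q : (α × List γ) × β => (q.1.1, q.2)) hf
      (by fun_prop)
  have e : ∀ (a : α) (m : List β) (acc : List γ), m.foldl (fun acc x => f a x :: acc) acc
      = (m.map (f a)).reverse ++ acc := by
    intro a m
    induction m with
    | nil => intro acc; rfl
    | cons x m ih => intro acc; rw [List.foldl_cons, ih]; simp
  have hstep : LF k (fun p : (α × List γ) × β => (fun acc x => f p.1.1 x :: acc) p.1.2 p.2) := by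
    fun_prop
  have hbd : ∀ a l1 l2, l a = l1 ++ l2 →
      sz (l1.foldl (fun acc x => f a x :: acc) []) ≤ B * (sz a + 1) ^ b := by
    intro a l1 l2 h
    rw [e, List.append_nil, sz_reverse]
    have h1 := hB a
    rw [h, List.map_append, sz_append] at h1
    omega
  have hk : k + 1 ≤ 1 + b * (k + 1) := by nlinarith
  have s1 : TF (1 + b * (k + 1)) (fun a => (l a).foldl (fun acc x => f a x :: acc) []) :=
    TF.foldl (eN := 1) (b := b) (df := k + 1) (hl.1.mono hk) hl.2
      ((TF.const _).mono (by omega)) (f := fun a acc x => f a x :: acc) hstep.1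
      ⟨B, fun a l1 l2 h => hbd a l1 l2 h⟩ h1 h1 (by omega) le_rfl
  have g1 : GF b (fun a => (l a).foldl (fun acc x => f a x :: acc) []) :=
    ⟨B, fun a => hbd a (l a) [] (by simp)⟩
  have h2 : TF 2 (fun m : List γ => m.reverse) := (LF.reverse (k := 0) LF.id).1
  have hk2 : b * 2 ≤ 1 + b * (k + 1) + b := by nlinarith
  exact (TF.comp h2 s1 g1 (by omega) hk2).congr fun a => by rw [e]; simp

/-- append -/
theorem TF_append {D e : ℕ} {l m : α → List β} (hl : TF D l) (hm : TF D m) (gl : GF e l)
    (gm : GF e m) (h1 : 1 ≤ D) (h2 : e * 2 ≤ D) : TF D (fun a => l a ++ m a) := by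
  have h0 : LF 1 (fun p : List β × List β => p.1 ++ p.2) :=
    LF.append (k := 0) (l := fun p : List β × List β => p.1) (m := fun p : List β × List β => p.2)
      LF.fst LF.snd
  have hp : TF D (fun a => (l a, m a)) := TF.prodMk hl hm gl gm h1 (by omega)
  exact TF.comp h0.1 hp (GF.prodMk gl gm) le_rfl h2

theorem GF_append {e : ℕ} {l m : α → List β} (gl : GF e l) (gm : GF e m) :
    GF e (fun a => l a ++ m a) := by
  obtain ⟨A, hA⟩ := gl
  obtain ⟨B, hB⟩ := gm
  refine ⟨A + B, fun a => ?_⟩
  rw [sz_append, add_mul]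
  exact Nat.add_le_add (hA a) (hB a)

/-- membership in a relation list, for the product `BEq` instance -/
theorem LF_containsP {k : ℕ} {l : α → Rel} {x : α → ℕ × ℕ} (hl : LF k l) (hx : LF k x) :
    LF (k + 1) (fun a => (l a).contains (x a)) :=
  (LF.contains hl hx).congr fun a => by
    have h1 : ∀ (m : Rel) (y : ℕ × ℕ),
        @List.contains (ℕ × ℕ) instBEqOfDecidableEq m y = @List.contains (ℕ × ℕ) instBEqProd m y := by
      intro m y
      induction m with
      | nil => rfl
      | cons z m ih =>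
        have h2 : (@BEq.beq (ℕ × ℕ) instBEqOfDecidableEq y z) = (@BEq.beq (ℕ × ℕ) instBEqProd y z) := by
          by_cases h : y = z
          · subst h; simp
          · have e1 : (@BEq.beq (ℕ × ℕ) instBEqOfDecidableEq y z) = false := by
              simpa using h
            have e2 : (@BEq.beq (ℕ × ℕ) instBEqProd y z) = false := by
              rw [beq_eq_false_iff_ne]; exact h
            rw [e1, e2]
        simp only [List.contains_cons, ih, h2]
    exact h1 _ _

/-! ### the pieces of one level -/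

/-- environments of one level -/
abbrev Env : Type := (List ℕ × Rel) × List (List ℕ)

/-- complement of the intersection, inside `J` -/
def nandL (J A B : List ℕ) : List ℕ := J.filter fun z => !(A.contains z && B.contains z)
/-- strict up-set, inside `J` -/
def upL (J : List ℕ) (R : Rel) (A : List ℕ) : List ℕ :=
  J.filter fun z => A.any fun a => R.contains (a, z)
/-- strict down-set, inside `J` -/
def downL (J : List ℕ) (R : Rel) (A : List ℕ) : List ℕ :=
  J.filter fun z => A.any fun a => R.contains (z, a)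

theorem LF_nandL {k : ℕ} {J A B : α → List ℕ} (hJ : LF k J) (hA : LF k A) (hB : LF k B) :
    LF (k + 2) (fun a => nandL (J a) (A a) (B a)) := by
  have hA' : LF k (fun q : α × ℕ => A q.1) := LF.comp hA LF.fst
  have hB' : LF k (fun q : α × ℕ => B q.1) := LF.comp hB LF.fst
  have h1 : LF (k + 1) (fun q : α × ℕ => (A q.1).contains q.2) := LF.contains hA' LF.snd
  have h2 : LF (k + 1) (fun q : α × ℕ => (B q.1).contains q.2) := LF.contains hB' LF.snd
  exact LF.filter (p := fun a z => !((A a).contains z && (B a).contains z))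
    (hJ.mono (by omega)) (by fun_prop)

theorem LF_upL {k : ℕ} {J A : α → List ℕ} {R : α → Rel} (hJ : LF k J) (hR : LF k R)
    (hA : LF k A) : LF (k + 3) (fun a => upL (J a) (R a) (A a)) := by
  have hR' : LF k (fun q : (α × ℕ) × ℕ => R q.1.1) :=
    LF.comp hR (LF.comp (g := fun p : α × ℕ => p.1) LF.fst LF.fst)
  have hA' : LF k (fun q : α × ℕ => A q.1) := LF.comp hA LF.fst
  have h1 : LF (k + 1) (fun q : (α × ℕ) × ℕ => (R q.1.1).contains (q.2, q.1.2)) :=
    LF_containsP (x := fun q : (α × ℕ) × ℕ => (q.2, q.1.2)) hR' (by fun_prop)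
  have h2 : LF (k + 2) (fun q : α × ℕ => (A q.1).any fun a => (R q.1).contains (a, q.2)) :=
    LF.any (p := fun (q : α × ℕ) a => (R q.1).contains (a, q.2)) (hA'.mono (by omega)) h1
  exact LF.filter (p := fun a z => (A a).any fun x => (R a).contains (x, z))
    (hJ.mono (by omega)) h2

theorem LF_downL {k : ℕ} {J A : α → List ℕ} {R : α → Rel} (hJ : LF k J) (hR : LF k R)
    (hA : LF k A) : LF (k + 3) (fun a => downL (J a) (R a) (A a)) := by
  have hR' : LF k (fun q : (α × ℕ) × ℕ => R q.1.1) :=
    LF.comp hR (LF.comp (g := fun p : α × ℕ => p.1) LF.fst LF.fst)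
  have hA' : LF k (fun q : α × ℕ => A q.1) := LF.comp hA LF.fst
  have h1 : LF (k + 1) (fun q : (α × ℕ) × ℕ => (R q.1.1).contains (q.1.2, q.2)) :=
    LF_containsP (x := fun q : (α × ℕ) × ℕ => (q.1.2, q.2)) hR' (by fun_prop)
  have h2 : LF (k + 2) (fun q : α × ℕ => (A q.1).any fun a => (R q.1).contains (q.2, a)) :=
    LF.any (p := fun (q : α × ℕ) a => (R q.1).contains (q.2, a)) (hA'.mono (by omega)) h1
  exact LF.filter (p := fun a z => (A a).any fun x => (R a).contains (z, x))
    (hJ.mono (by omega)) h2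

/-- size of a map with outputs inside `J` -/
theorem sz_map_sub {l : List β} {J : List ℕ} {f : β → List ℕ} (hf : ∀ x ∈ l, (f x).Sublist J) :
    sz (l.map f) ≤ l.length * (2 * sz J + 1) := by
  have h := FamSize.sz_le_of_mem (l := l.map f) (m := sz J) (by
    intro a ha
    obtain ⟨x, hx, rfl⟩ := List.mem_map.1 ha
    exact FamSize.sz_sublist (hf x hx))
  rwa [List.length_map] at h

theorem sq_bound {a b s : ℕ} (ha : a ≤ s) (hb : b ≤ s) :
    a * (2 * b + 1) ≤ 2 * (s + 1) ^ 2 := by
  have h1 : a * (2 * b + 1) ≤ s * (2 * s + 1) := Nat.mul_le_mul ha (by omega)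
  nlinarith

/-- a map of level functions is `TF 9` / `TF 11`, with quadratic size -/
theorem TF_mapSub {k : ℕ} {l : α → List β} {J : α → List ℕ} {f : α → β → List ℕ} (hl : LF k l)
    (hf : LF k (fun q : α × β => f q.1 q.2)) (hJ : ∀ a, ∀ x ∈ l a, (f a x).Sublist (J a))
    (hsl : ∃ L, ∀ a, (l a).length ≤ L * (sz a + 1)) (hsJ : ∃ L, ∀ a, sz (J a) ≤ L * (sz a + 1)) :
    TF (1 + 2 * (k + 1) + 2) (fun a => (l a).map (f a)) ∧
      GF 2 (fun a => (l a).map (f a)) := by
  obtain ⟨L, hL⟩ := hsl
  obtain ⟨M, hM⟩ := hsJ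
  have hb : ∀ a, sz ((l a).map (f a)) ≤ (L * (2 * M + 1)) * (sz a + 1) ^ 2 := by
    intro a
    refine (sz_map_sub (hJ a)).trans ?_
    calc (l a).length * (2 * sz (J a) + 1)
        ≤ (L * (sz a + 1)) * (2 * (M * (sz a + 1)) + (sz a + 1)) :=
          Nat.mul_le_mul (hL a) (by have := hM a; omega)
      _ = _ := by ring
  exact ⟨TF_map hl hf ⟨_, hb⟩ (by norm_num), ⟨_, hb⟩⟩

/-! ### one level -/

/-- the products -/
def prodPart (q : Env) : List (List ℕ) :=
  q.2.flatMap fun A => q.2.map fun B => nandL q.1.1 A B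

theorem famStep_eq (J : List ℕ) (R : Rel) (F : List (List ℕ)) :
    famStep J R F = F ++ (prodPart ((J, R), F) ++
      (F.map (fun A => upL J R A) ++ F.map (fun A => downL J R A))) := rfl

/-- inner step of the products -/
def inner (q : Env) (A : List ℕ) : List (List ℕ) := q.2.map fun B => nandL q.1.1 A B

theorem sz_env1 (q : Env) : sz q.1.1 ≤ sz q := by
  have e1 := sz_prod q
  have e2 := sz_prod q.1
  omega

theorem sz_env2 (q : Env) : q.2.length ≤ sz q := by
  have e1 := sz_prod q
  have e2 := FamSize.length_le_sz q.2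
  omega

theorem TF_inner : TF 9 (fun p : (Env × List (List ℕ)) × List ℕ => inner p.1.1 p.2) ∧
    GF 2 (fun p : (Env × List (List ℕ)) × List ℕ => inner p.1.1 p.2) := by
  have hf : LF 2 (fun q : ((Env × List (List ℕ)) × List ℕ) × List ℕ =>
      nandL q.1.1.1.1.1 q.1.2 q.2) :=
    LF_nandL (k := 0) (by fun_prop) (by fun_prop) (by fun_prop)
  have h := TF_mapSub (k := 2)
    (l := fun p : (Env × List (List ℕ)) × List ℕ => p.1.1.2)
    (J := fun p : (Env × List (List ℕ)) × List ℕ => p.1.1.1.1)
    (f := fun (p : (Env × List (List ℕ)) × List ℕ) (B : List ℕ) => nandL p.1.1.1.1 p.2 B)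
    (by fun_prop) hf (fun a x _ => List.filter_sublist)
    ⟨1, fun a => by
      have e1 := sz_prod a
      have e2 := sz_prod a.1
      have e3 := sz_env2 a.1.1
      omega⟩
    ⟨1, fun a => by
      have e1 := sz_prod a
      have e2 := sz_prod a.1
      have e3 := sz_env1 a.1.1
      omega⟩
  exact h

theorem TF_prodPart : TF 28 prodPart ∧ GF 3 prodPart := by
  have e : ∀ (q : Env) (m : List (List ℕ)) (acc : List (List ℕ)),
      m.foldl (fun acc A => acc ++ inner q A) acc = acc ++ m.flatMap (inner q) := by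
    intro q m
    induction m with
    | nil => intro acc; simp
    | cons x m ih => intro acc; rw [List.foldl_cons, ih, List.flatMap_cons, List.append_assoc]
  have hsz : ∀ (q : Env) (m : List (List ℕ)), sz (m.flatMap (inner q)) ≤
      m.length * (2 * (sz q + 1) ^ 2) := by
    intro q m
    induction m with
    | nil => simp [FamSize.sz_nil]
    | cons x m ih =>
      rw [List.flatMap_cons, sz_append, List.length_cons, Nat.add_mul, Nat.one_mul, Nat.add_comm]
      refine Nat.add_le_add ih ?_
      refine (sz_map_sub (J := q.1.1) (fun x _ => List.filter_sublist)).trans ?_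
      exact sq_bound (sz_env2 q) (sz_env1 q)
  have hbd : ∀ (q : Env) (l1 l2 : List (List ℕ)), q.2 = l1 ++ l2 →
      sz (l1.foldl (fun acc A => acc ++ inner q A) []) ≤ 2 * (sz q + 1) ^ 3 := by
    intro q l1 l2 h
    rw [e, List.nil_append]
    refine (hsz q l1).trans ?_
    have h1 : l1.length ≤ sz q + 1 := by
      have := sz_env2 q
      rw [h, List.length_append] at this
      omega
    calc l1.length * (2 * (sz q + 1) ^ 2) ≤ (sz q + 1) * (2 * (sz q + 1) ^ 2) :=
          Nat.mul_le_mul_right _ h1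
      _ = _ := by ring
  have hstep : TF 9 (fun p : (Env × List (List ℕ)) × List ℕ => p.1.2 ++ inner p.1.1 p.2) :=
    TF_append (e := 2) ((LF.comp (k := 0) (g := fun p : Env × List (List ℕ) => p.2) LF.snd
        (f := fun p : (Env × List (List ℕ)) × List ℕ => p.1) LF.fst).1.mono (by norm_num))
      TF_inner.1 ((LF.comp (k := 0) (g := fun p : Env × List (List ℕ) => p.2) LF.snd
        (f := fun p : (Env × List (List ℕ)) × List ℕ => p.1) LF.fst).2.mono (by norm_num))
      TF_inner.2 (by norm_num) (by norm_num)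
  have s1 : TF 28 (fun q : Env => q.2.foldl (fun acc A => acc ++ inner q A) []) :=
    TF.foldl (eN := 1) (b := 3) (df := 9) (l := fun q : Env => q.2) (i := fun _ => [])
      (f := fun q acc A => acc ++ inner q A) (TF.snd.mono (by norm_num)) GF.snd
      ((TF.const _).mono (by norm_num)) hstep ⟨2, hbd⟩ (by norm_num) (by norm_num) (by norm_num)
      (by norm_num)
  have heq : ∀ q : Env, q.2.foldl (fun acc A => acc ++ inner q A) [] = prodPart q := by
    intro q
    rw [e, List.nil_append]
    rfl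
  refine ⟨s1.congr heq, 2, fun q => ?_⟩
  rw [← heq]
  exact hbd q q.2 [] (by simp)

theorem TF_upPart : TF 11 (fun q : Env => q.2.map fun A => upL q.1.1 q.1.2 A) ∧
    GF 2 (fun q : Env => q.2.map fun A => upL q.1.1 q.1.2 A) := by
  have hf : LF 3 (fun q : Env × List ℕ => upL q.1.1.1 q.1.1.2 q.2) :=
    LF_upL (k := 0) (by fun_prop) (by fun_prop) (by fun_prop)
  exact TF_mapSub (k := 3) (l := fun q : Env => q.2) (J := fun q : Env => q.1.1)
    (f := fun (q : Env) A => upL q.1.1 q.1.2 A) (by fun_prop) hf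
    (fun a x _ => List.filter_sublist)
    ⟨1, fun q => by have := sz_env2 q; omega⟩ ⟨1, fun q => by have := sz_env1 q; omega⟩

theorem TF_downPart : TF 11 (fun q : Env => q.2.map fun A => downL q.1.1 q.1.2 A) ∧
    GF 2 (fun q : Env => q.2.map fun A => downL q.1.1 q.1.2 A) := by
  have hf : LF 3 (fun q : Env × List ℕ => downL q.1.1.1 q.1.1.2 q.2) :=
    LF_downL (k := 0) (by fun_prop) (by fun_prop) (by fun_prop)
  exact TF_mapSub (k := 3) (l := fun q : Env => q.2) (J := fun q : Env => q.1.1)
    (f := fun (q : Env) A => downL q.1.1 q.1.2 A) (by fun_prop) hf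
    (fun a x _ => List.filter_sublist)
    ⟨1, fun q => by have := sz_env2 q; omega⟩ ⟨1, fun q => by have := sz_env1 q; omega⟩

theorem TF_famStep : TF 32 (fun q : Env => famStep q.1.1 q.1.2 q.2) := by
  have h1 : TF 32 (fun q : Env => q.2.map (fun A => upL q.1.1 q.1.2 A) ++
      q.2.map (fun A => downL q.1.1 q.1.2 A)) :=
    TF_append (e := 3) (TF_upPart.1.mono (by norm_num)) (TF_downPart.1.mono (by norm_num))
      (TF_upPart.2.mono (by norm_num)) (TF_downPart.2.mono (by norm_num)) (by norm_num)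
      (by norm_num)
  have g1 : GF 3 (fun q : Env => q.2.map (fun A => upL q.1.1 q.1.2 A) ++
      q.2.map (fun A => downL q.1.1 q.1.2 A)) :=
    GF_append (TF_upPart.2.mono (by norm_num)) (TF_downPart.2.mono (by norm_num))
  have h2 : TF 32 (fun q : Env => prodPart q ++ (q.2.map (fun A => upL q.1.1 q.1.2 A) ++
      q.2.map (fun A => downL q.1.1 q.1.2 A))) :=
    TF_append (e := 3) (TF_prodPart.1.mono (by norm_num)) h1 TF_prodPart.2 g1 (by norm_num)
      (by norm_num)
  have g2 : GF 3 (fun q : Env => prodPart q ++ (q.2.map (fun A => upL q.1.1 q.1.2 A) ++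
      q.2.map (fun A => downL q.1.1 q.1.2 A))) := GF_append TF_prodPart.2 g1
  exact TF_append (e := 3) (TF.snd.mono (by norm_num)) h2 (GF.snd.mono (by norm_num)) g2
    (by norm_num) (by norm_num)

/-! ### the atoms -/

theorem TF_fam0 : TF 13 (fun p : List ℕ × Rel => fam0 p.1 p.2) := by
  have hJl : ∃ L, ∀ p : List ℕ × Rel, p.1.length ≤ L * (sz p + 1) :=
    ⟨1, fun p => by
      have := sz_prod p
      have := FamSize.length_le_sz p.1
      omega⟩
  have hJs : ∃ L, ∀ p : List ℕ × Rel, sz p.1 ≤ L * (sz p + 1) :=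
    ⟨1, fun p => by have := sz_prod p; omega⟩
  have hlift : ∀ {n : ℕ} {f : List ℕ × Rel → List (List ℕ)}, n ≤ 13 → TF n f ∧ GF 2 f →
      TF 13 f ∧ GF 2 f := fun hn h => ⟨h.1.mono hn, h.2⟩
  have m1 : TF 13 (fun p : List ℕ × Rel => p.1.map (fun a => [a])) ∧
      GF 2 (fun p : List ℕ × Rel => p.1.map (fun a => [a])) :=
    hlift (n := 5) (by norm_num) (TF_mapSub (k := 0) (l := fun p : List ℕ × Rel => p.1)
      (J := fun p => p.1) (f := fun _ a => [a]) (by fun_prop) (by fun_prop)
      (fun p x hx => List.singleton_sublist.2 hx) hJl hJs)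
  have c1 : LF 1 (fun q : ((List ℕ × Rel) × ℕ) × ℕ => q.1.1.2.contains (q.1.2, q.2)) :=
    LF_containsP (k := 0) (l := fun q : ((List ℕ × Rel) × ℕ) × ℕ => q.1.1.2)
      (x := fun q : ((List ℕ × Rel) × ℕ) × ℕ => (q.1.2, q.2)) (by fun_prop) (by fun_prop)
  have c2 : LF 1 (fun q : ((List ℕ × Rel) × ℕ) × ℕ => q.1.1.2.contains (q.2, q.1.2)) :=
    LF_containsP (k := 0) (l := fun q : ((List ℕ × Rel) × ℕ) × ℕ => q.1.1.2)
      (x := fun q : ((List ℕ × Rel) × ℕ) × ℕ => (q.2, q.1.2)) (by fun_prop) (by fun_prop)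
  have f2 : LF 2 (fun q : (List ℕ × Rel) × ℕ => q.1.1.filter fun z => q.1.2.contains (q.2, z)) :=
    LF.filter (k := 1) (l := fun q : (List ℕ × Rel) × ℕ => q.1.1)
      (p := fun q z => q.1.2.contains (q.2, z)) (by fun_prop) c1
  have f3 : LF 2 (fun q : (List ℕ × Rel) × ℕ => q.1.1.filter fun z => q.1.2.contains (z, q.2)) :=
    LF.filter (k := 1) (l := fun q : (List ℕ × Rel) × ℕ => q.1.1)
      (p := fun q z => q.1.2.contains (z, q.2)) (by fun_prop) c2
  have f4 : LF 2 (fun q : (List ℕ × Rel) × ℕ => q.1.1.takeWhile fun z => z != q.2) :=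
    (LF_takeWhile (k := 0) (l := fun q : (List ℕ × Rel) × ℕ => q.1.1)
      (p := fun q z => z != q.2) (by fun_prop) (by fun_prop)).mono (by norm_num)
  have m2 : TF 13 (fun p : List ℕ × Rel => p.1.map (fun a => p.1.filter fun z =>
      p.2.contains (a, z))) ∧ GF 2 (fun p : List ℕ × Rel => p.1.map (fun a => p.1.filter fun z =>
      p.2.contains (a, z))) :=
    hlift (n := 9) (by norm_num) (TF_mapSub (k := 2) (l := fun p : List ℕ × Rel => p.1)
      (J := fun p => p.1) (f := fun p a => p.1.filter fun z => p.2.contains (a, z))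
      (by fun_prop) f2 (fun p x hx => List.filter_sublist) hJl hJs)
  have m3 : TF 13 (fun p : List ℕ × Rel => p.1.map (fun a => p.1.filter fun z =>
      p.2.contains (z, a))) ∧ GF 2 (fun p : List ℕ × Rel => p.1.map (fun a => p.1.filter fun z =>
      p.2.contains (z, a))) :=
    hlift (n := 9) (by norm_num) (TF_mapSub (k := 2) (l := fun p : List ℕ × Rel => p.1)
      (J := fun p => p.1) (f := fun p a => p.1.filter fun z => p.2.contains (z, a))
      (by fun_prop) f3 (fun p x hx => List.filter_sublist) hJl hJs)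
  have m4 : TF 13 (fun p : List ℕ × Rel => p.1.map (fun a => p.1.takeWhile fun z => z != a)) ∧
      GF 2 (fun p : List ℕ × Rel => p.1.map (fun a => p.1.takeWhile fun z => z != a)) :=
    hlift (n := 9) (by norm_num) (TF_mapSub (k := 2) (l := fun p : List ℕ × Rel => p.1)
      (J := fun p => p.1) (f := fun p a => p.1.takeWhile fun z => z != a)
      (by fun_prop) f4 (fun p x hx => List.takeWhile_sublist _) hJl hJs)
  have a1 := TF_append (e := 2) m3.1 m4.1 m3.2 m4.2 (by norm_num) (by norm_num)
  have b1 := GF_append m3.2 m4.2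
  have a2 := TF_append (e := 2) m2.1 a1 m2.2 b1 (by norm_num) (by norm_num)
  have b2 := GF_append m2.2 b1
  have a3 := TF_append (e := 2) m1.1 a2 m1.2 b2 (by norm_num) (by norm_num)
  have b3 := GF_append m1.2 b2
  have hc : LF 0 (fun q : (List ℕ × Rel) × List (List ℕ) => [] :: q.1.1 :: q.2) := by fun_prop
  have hp := TF.prodMk (TF.mono (TF.id (α := List ℕ × Rel)) (Nat.zero_le 13)) a3
    ((GF.ofEnc fun _ => rfl : GF 1 (fun p : List ℕ × Rel => p)).mono (by norm_num : 1 ≤ 2)) b3
    (by norm_num) (by norm_num)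
  have gp := GF.prodMk
    ((GF.ofEnc fun _ => rfl : GF 1 (fun p : List ℕ × Rel => p)).mono (by norm_num : 1 ≤ 2)) b3
  exact TF.comp (b := 1) (g := fun q : (List ℕ × Rel) × List (List ℕ) => [] :: q.1.1 :: q.2)
    hc.1 hp gp le_rfl (by norm_num)

/-! ### the induction -/

theorem GR_id : GR Inst 3 (fun p : List ℕ × Rel => p) := by
  refine ⟨11, fun m p hp => ?_⟩
  have h1 := hp.1.sz_le
  have h2 := hp.2.sz_le
  have h0 : sz p = 2 * sz p.1 + 1 + sz p.2 := sz_prod p
  show sz p ≤ _
  rw [h0]
  have h3 : (m + 1) ^ 2 ≤ (m + 1) ^ 3 := Nat.pow_le_pow_right (Nat.succ_pos _) (by norm_num)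
  have h4 : 1 ≤ (m + 1) ^ 3 := Nat.one_le_pow _ _ (Nat.succ_pos _)
  omega

theorem TR_id (D : ℕ) : TR Inst D (fun p : List ℕ × Rel => p) :=
  TR.mono (D := 0) ⟨.skip, 1, fun m a _ => by simpa using run_skip (init (enc a))⟩ (Nat.zero_le _)

theorem famSize : FamSize := by
  intro d
  refine ⟨6 * 5 ^ (2 ^ d), fun m p hp => ?_⟩
  refine (FamSize.sz_fam p.1 p.2 d).trans ?_
  have h1 : p.1.length + 1 ≤ m + 1 := Nat.succ_le_succ hp.1.1
  have h2 := hp.1.sz_le
  have h3 : sz p.1 + 1 ≤ 3 * (m + 1) ^ 2 := by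
    have : 1 ≤ (m + 1) ^ 2 := Nat.one_le_pow _ _ (Nat.succ_pos _)
    omega
  have h4 : (p.1.length + 1) ^ (2 ^ d) ≤ (m + 1) ^ (2 ^ d) := Nat.pow_le_pow_left h1 _
  calc 2 * 5 ^ (2 ^ d) * ((p.1.length + 1) ^ (2 ^ d) * (sz p.1 + 1))
      ≤ 2 * 5 ^ (2 ^ d) * ((m + 1) ^ (2 ^ d) * (3 * (m + 1) ^ 2)) :=
        Nat.mul_le_mul_left _ (Nat.mul_le_mul h4 h3)
    _ = 6 * 5 ^ (2 ^ d) * (m + 1) ^ (2 ^ d + 2) := by rw [pow_add]; ring

theorem famTime : FamTime := by
  intro d
  induction d with
  | zero =>
    exact TF.compR (b := 13) (e := 3) (D := 16 * 2 ^ 0 + 64)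
      (g := fun p : List ℕ × Rel => fam0 p.1 p.2) (f := fun p : List ℕ × Rel => p)
      TF_fam0 (TR_id 0) GR_id (by norm_num) (by norm_num)
  | succ d ih =>
    have hpos : 1 ≤ 2 ^ d := Nat.one_le_two_pow
    have hD : 3 ≤ 16 * 2 ^ d + 64 := by omega
    have hE : 2 ^ d + 2 ≤ 16 * 2 ^ d + 64 := by omega
    have g1 : GR Inst (2 ^ d + 2) (fun p : List ℕ × Rel => (p, fam d p.1 p.2)) :=
      GR.prodMk (GR_id.mono (by omega)) (famSize d)
    have t1 : TR Inst (16 * 2 ^ d + 64) (fun p : List ℕ × Rel => (p, fam d p.1 p.2)) :=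
      TR.prodMk (TR_id _) ih (GR_id.mono hD) ((famSize d).mono hE) (GR_id.mono hD)
    have := TF.compR (D := 16 * 2 ^ (d + 1) + 64) TF_famStep t1 g1
      (by rw [pow_succ]; omega) (by rw [pow_succ]; omega)
    exact this

end Crest.Agent.R286.TimeFam
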