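import Crest.Agent.R286.TimeDefs

/-! # Row 286, time side: output module `OutTime` -/

set_option autoImplicit false
set_option linter.dupNamespace false
set_option linter.unusedVariables false

namespace Crest.Agent.R286.TimeOut

open Function Crest.Agent.Lib.PT Crest.Agent.R286

/-! ### `slotOf` by a fold -/

/-- state: found, counter below 3, current slot -/
abbrev SS : Type := Bool × ℕ × ℕ

/-- one step -/
def sStep (v : ℕ) (s : SS) (x : ℕ) : SS :=
  if s.1 = true then s
  else if x = v then (true, s.2.1, s.2.2)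
  else if s.2.1 = 2 then (false, 0, s.2.2 + 1)
  else (false, s.2.1 + 1, s.2.2)

theorem sStep_done (v c q : ℕ) (l : List ℕ) :
    l.foldl (sStep v) (true, c, q) = (true, c, q) := by
  induction l with
  | nil => rfl
  | cons x l ih => rw [List.foldl_cons]; simpa [sStep] using ih

theorem sFold (v : ℕ) (l : List ℕ) : ∀ (c q : ℕ), c ≤ 2 →
    (l.foldl (sStep v) (false, c, q)).2.2 = (c + l.idxOf v) / 3 + q := by
  induction l with
  | nil => intro c q hc; simp; omega
  | cons x l ih =>
    intro c q hc
    rw [List.foldl_cons]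
    by_cases hx : x = v
    · subst hx
      simp only [sStep, Bool.false_eq_true, if_false, if_true]
      rw [sStep_done]
      simp
      omega
    · rw [List.idxOf_cons_ne _ hx]
      by_cases h2 : c = 2
      · subst h2
        simp only [sStep, Bool.false_eq_true, if_false, if_true, hx]
        rw [ih 0 (q + 1) (by omega)]
        omega
      · simp only [sStep, Bool.false_eq_true, if_false, hx, h2]
        rw [ih (c + 1) q (by omega)]
        congr 2
        omega

theorem sFold_bound (v : ℕ) (l : List ℕ) : ∀ s : SS, s.2.1 ≤ 2 →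
    (l.foldl (sStep v) s).2.1 ≤ 2 ∧ (l.foldl (sStep v) s).2.2 ≤ s.2.2 + l.length := by
  induction l with
  | nil => intro s hs; exact ⟨hs, le_rfl⟩
  | cons x l ih =>
    intro s hs
    rw [List.foldl_cons]
    have h1 : (sStep v s x).2.1 ≤ 2 ∧ (sStep v s x).2.2 ≤ s.2.2 + 1 := by
      unfold sStep
      split_ifs <;> constructor <;> first | omega | (dsimp only; omega)
    obtain ⟨h2, h3⟩ := ih _ h1.1
    refine ⟨h2, h3.trans ?_⟩
    rw [List.length_cons]; omega

theorem slotOf_eq (w : List ℕ) (v : ℕ) :
    slotOf w v = (w.foldl (sStep v) (false, 0, 1)).2.2 := by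
  rw [sFold v w 0 1 (by omega), slotOf, Nat.zero_add]

theorem sz_nat_le (n : ℕ) : sz n ≤ n := by
  show n.bits.length ≤ n
  rw [Nat.size_eq_bits_len]
  exact Nat.size_le.2 Nat.lt_two_pow_self

theorem sStep_lf : LF 0 (fun p : ((List ℕ × ℕ) × SS) × ℕ => sStep p.1.1.2 p.1.2 p.2) := by
  unfold sStep
  fun_prop

theorem slot_lf : LF 1 (fun p : List ℕ × ℕ => slotOf p.1 p.2) := by
  have h : LF 1 (fun p : List ℕ × ℕ => p.1.foldl (sStep p.2) (false, 0, 1)) := by
    refine LF.foldl (k := 0) (l := fun p : List ℕ × ℕ => p.1)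
      (i := fun _ => ((false, 0, 1) : SS)) (f := fun p => sStep p.2) (by fun_prop) (by fun_prop)
      sStep_lf ⟨20, fun a l1 l2 h => ?_⟩
    obtain ⟨h1, h2⟩ := sFold_bound a.2 l1 (false, 0, 1) (by simp)
    rw [sz_prod, sz_prod, sz_bool]
    have e1 := sz_nat_le (l1.foldl (sStep a.2) (false, 0, 1)).2.1
    have e2 := sz_nat_le (l1.foldl (sStep a.2) (false, 0, 1)).2.2
    have e3 : l1.length ≤ sz a.1 := by
      have : sz a.1 = sz l1 + sz l2 := by rw [h, sz_append]
      have := length_le_sz l1
      omega
    have e4 : sz a = 2 * sz a.1 + 1 + sz a.2 := sz_prod a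
    simp only at h2
    omega
  exact (LF.comp (g := fun s : SS => s.2.2) (by fun_prop) h).congr fun p => (slotOf_eq _ _).symm

/-! ### the flat part of the output -/

/-- prepend the code of a number to `acc`; the raw form -/
def natCons (k : ℕ) (acc : Bits) : Bits := ⟨Crest.Enc.natCode k ++ acc.val⟩

theorem natCons_eq (k : ℕ) (acc : Bits) :
    natCons k acc = ⟨Lib.PT.pair k.bits (false :: acc.val)⟩ := by
  simp [natCons, Crest.Enc.natCode, Lib.PT.pair, List.flatMap, List.append_assoc]

theorem natCons_lf {α : Type} [PTCode α] {k : ℕ} {f : α → ℕ} {g : α → Bits}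
    (hf : LF k f) (hg : LF k g) : LF k (fun a => natCons (f a) (g a)) := by
  have h0 : LF k (fun p : ℕ × Bits => (p.1, R286.consB false p.2)) := by
    have : LF k (R286.consB false) := ⟨(TF.consB false).mono (by omega), GF.consB false⟩
    exact LF.prodMk (by fun_prop) (LF.comp this (by fun_prop))
  have h1 : LF k (fun p : ℕ × Bits => (⟨Lib.PT.pair p.1.bits p.2.val⟩ : Bits)) :=
    ⟨(TF.ofEnc fun p => by simp [enc_nat]).mono (by omega),
      GF.ofEnc fun p => by simp [enc_nat]⟩
  have h2 : LF k (fun p : ℕ × Bits => natCons p.1 p.2) :=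
    (LF.comp h1 h0).congr fun p => by rw [natCons_eq]; rfl
  exact LF.comp (f := fun a => (f a, g a)) h2 (LF.prodMk hf hg)

theorem sz_natCons (k : ℕ) (acc : Bits) : sz (natCons k acc) = 2 * sz k + 2 + sz acc := by
  rw [natCons_eq]
  simp [sz, enc_nat]
  omega

/-- the flat part -/
def flat (p : List ℕ × List ℕ) : Bits :=
  p.1.reverse.foldl (fun acc x => natCons (slotOf p.2 x) acc) ⟨[]⟩

theorem foldl_val (w : List ℕ) (l : List ℕ) : ∀ acc : Bits,
    (l.foldl (fun acc x => natCons (slotOf w x) acc) acc).val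
      = ((l.reverse.map (slotOf w)).map Crest.Enc.natCode).flatten ++ acc.val := by
  induction l with
  | nil => intro acc; simp
  | cons x l ih =>
    intro acc
    rw [List.foldl_cons, ih]
    simp [natCons]

theorem flat_val (p : List ℕ × List ℕ) :
    (flat p).val = ((p.1.map (slotOf p.2)).map Crest.Enc.natCode).flatten := by
  rw [flat, foldl_val]
  simp

theorem slotOf_le (w : List ℕ) (x : ℕ) : slotOf w x ≤ w.length + 1 := by
  have := List.idxOf_le_length (a := x) (l := w)
  unfold slotOf
  omega

theorem sz_flat_le (w : List ℕ) (l : List ℕ) : ∀ acc : Bits,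
    sz (l.foldl (fun acc x => natCons (slotOf w x) acc) acc)
      ≤ l.length * (2 * (w.length + 1) + 2) + sz acc := by
  induction l with
  | nil => intro acc; simp
  | cons x l ih =>
    intro acc
    rw [List.foldl_cons]
    refine (ih _).trans ?_
    rw [sz_natCons, List.length_cons]
    have h1 := (sz_nat_le (slotOf w x)).trans (slotOf_le w x)
    have : (l.length + 1) * (2 * (w.length + 1) + 2)
      = l.length * (2 * (w.length + 1) + 2) + (2 * (w.length + 1) + 2) := by ring
    omega

theorem flat_tf : TF 5 flat := by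
  have hl : LF 1 (fun p : List ℕ × List ℕ => p.1.reverse) := LF.reverse (k := 0) (by fun_prop)
  refine TF.foldl (D := 5) (df := 2) (eN := 1) (b := 2)
    (l := fun p : List ℕ × List ℕ => p.1.reverse) (i := fun _ => (⟨[]⟩ : Bits))
    (f := fun p acc x => natCons (slotOf p.2 x) acc) (hl.1.mono (by omega)) hl.2
    ((TF.const _).mono (by omega)) ?_ ⟨8, fun a l1 l2 h => ?_⟩ (by omega) (by omega) (by omega)
    (by omega)
  · have h1 : LF 1 (fun q : ((List ℕ × List ℕ) × Bits) × ℕ => slotOf q.1.1.2 q.2) :=
      LF.comp (g := fun p : List ℕ × ℕ => slotOf p.1 p.2)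
        (f := fun q : ((List ℕ × List ℕ) × Bits) × ℕ => (q.1.1.2, q.2)) slot_lf (by fun_prop)
    exact (natCons_lf (k := 1) h1 (by fun_prop)).1
  · refine (sz_flat_le a.2 l1 _).trans ?_
    have e0 : sz (⟨[]⟩ : Bits) = 0 := rfl
    rw [e0]
    have e1 : l1.length ≤ sz a.1 := by
      have h3 : a.1.length = l1.length + l2.length := by
        rw [← List.length_reverse, h, List.length_append]
      have := length_le_sz a.1
      omega
    have e2 : a.2.length ≤ sz a.2 := length_le_sz _
    have e4 : sz a = 2 * sz a.1 + 1 + sz a.2 := sz_prod a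
    calc l1.length * (2 * (a.2.length + 1) + 2) + 0
        ≤ sz a * (2 * (sz a + 1) + 2) := by
          rw [add_zero]
          exact Nat.mul_le_mul (by omega) (by omega)
      _ ≤ 8 * (sz a + 1) ^ 2 := by nlinarith [Nat.zero_le (sz a)]

theorem flat_gf : GF 2 flat := by
  refine ⟨8, fun a => ?_⟩
  refine (sz_flat_le a.2 a.1.reverse _).trans ?_
  have e0 : sz (⟨[]⟩ : Bits) = 0 := rfl
  rw [e0, List.length_reverse]
  have e1 : a.1.length ≤ sz a.1 := length_le_sz _
  have e2 : a.2.length ≤ sz a.2 := length_le_sz _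
  have e4 : sz a = 2 * sz a.1 + 1 + sz a.2 := sz_prod a
  calc a.1.length * (2 * (a.2.length + 1) + 2) + 0
      ≤ sz a * (2 * (sz a + 1) + 2) := by
        rw [add_zero]
        exact Nat.mul_le_mul (by omega) (by omega)
    _ ≤ 8 * (sz a + 1) ^ 2 := by nlinarith [Nat.zero_le (sz a)]

/-! ### the length -/

theorem len_fold {β : Type} (l : List β) : ∀ n : ℕ, l.foldl (fun n _ => n + 1) n = n + l.length := by
  induction l with
  | nil => intro n; rfl
  | cons x l ih => intro n; rw [List.foldl_cons, ih, List.length_cons]; omega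

theorem len_lf : LF 1 (fun p : List ℕ × List ℕ => p.1.length) := by
  refine (LF.foldl (k := 0) (l := fun p : List ℕ × List ℕ => p.1) (i := fun _ => 0)
    (f := fun _ n _ => n + 1) (by fun_prop) (by fun_prop) (by fun_prop)
    ⟨1, fun a l1 l2 h => ?_⟩).congr fun p => by rw [len_fold, Nat.zero_add]
  rw [len_fold, Nat.zero_add, Nat.one_mul]
  have e1 := sz_nat_le l1.length
  have e3 : l1.length ≤ sz a.1 := by
    have : sz a.1 = sz l1 + sz l2 := by rw [h, sz_append]
    have := length_le_sz l1
    omega
  have e4 : sz a = 2 * sz a.1 + 1 + sz a.2 := sz_prod a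
  omega

theorem outTime : OutTime := by
  have h1 : TF 5 (fun p : List ℕ × List ℕ => R286.consB false (flat p)) :=
    TF.comp (TF.consB false) flat_tf flat_gf le_rfl (by omega)
  have g1 : GF 2 (fun p : List ℕ × List ℕ => R286.consB false (flat p)) :=
    GF.comp (GF.consB false) flat_gf (by omega)
  have h2 : TF 5 (fun p : List ℕ × List ℕ => (p.1.length, R286.consB false (flat p))) :=
    TF.prodMk (len_lf.1.mono (by omega)) h1 (len_lf.2.mono (by omega)) g1 (by omega) (by omega)
  have g2 : GF 2 (fun p : List ℕ × List ℕ => (p.1.length, R286.consB false (flat p))) :=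
    GF.prodMk (len_lf.2.mono (by omega)) g1
  have h3 : TF 0 (fun q : ℕ × Bits => (⟨Lib.PT.pair q.1.bits q.2.val⟩ : Bits)) :=
    TF.ofEnc fun q => by simp [enc_nat]
  have h4 := TF.comp (D := 16) h3 h2 g2 (by omega) (by omega)
  refine h4.congr fun p => ?_
  have h5 := natCons_eq p.1.length (flat p)
  have h6 : (natCons p.1.length (flat p)).val
      = Crest.Enc.listCode (p.1.map (slotOf p.2)) := by
    rw [natCons, Crest.Enc.listCode, List.length_map, flat_val]
  have h7 : natCons p.1.length (flat p) = ⟨Crest.Enc.listCode (p.1.map (slotOf p.2))⟩ := by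
    rw [← h6]
  rw [← h7, h5]
  rfl

end Crest.Agent.R286.TimeOut
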