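import Crest.Agent.R286.TimeDefs

/-! # Row 286, time side: the parser -/

set_option autoImplicit false
set_option linter.dupNamespace false

namespace Crest.Agent.R286.TimeParse

open Function Crest.Agent.Lib.PT

/-- the invariant of the parser: after `k` bits everything is bounded by `k` -/
def Inv (k : ℕ) (s : PSt) : Prop :=
  s.1.length ≤ k ∧ (∀ j ∈ s.1, j ≤ k) ∧ s.2.1 ≤ k ∧ s.2.2.1 ≤ k ∧ s.2.2.2.length ≤ k ∧
    ∀ p ∈ s.2.2.2, p.1 ≤ k ∧ p.2 ≤ k

theorem inv_step {k : ℕ} {s : PSt} (h : Inv k s) (nb : List Bool) (b : Bool) :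
    Inv (k + 1) (pstep nb s b) := by
  obtain ⟨jobs, row, col, R⟩ := s
  obtain ⟨h1, h2, h3, h4, h5, h6⟩ := h
  simp only at h1 h2 h3 h4 h5 h6
  have hj : (if col = 0 then jobs ++ [row] else jobs).length ≤ k + 1 ∧
      ∀ j ∈ (if col = 0 then jobs ++ [row] else jobs), j ≤ k + 1 := by
    split
    · refine ⟨by simp; omega, fun j hj => ?_⟩
      rcases List.mem_append.1 hj with hj | hj
      · have := h2 j hj; omega
      · simp at hj; omega
    · exact ⟨by omega, fun j hj => (h2 j hj).trans (by omega)⟩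
  have hR : (if b = true then (row, col) :: R else R).length ≤ k + 1 ∧
      ∀ p ∈ (if b = true then (row, col) :: R else R), p.1 ≤ k + 1 ∧ p.2 ≤ k + 1 := by
    split
    · refine ⟨by simp; omega, fun p hp => ?_⟩
      rcases List.mem_cons.1 hp with rfl | hp
      · exact ⟨by simp only; omega, by simp only; omega⟩
      · exact ⟨(h6 p hp).1.trans (by omega), (h6 p hp).2.trans (by omega)⟩
    · exact ⟨by omega, fun p hp => ⟨(h6 p hp).1.trans (by omega), (h6 p hp).2.trans (by omega)⟩⟩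
  unfold pstep
  simp only
  split
  · exact ⟨hj.1, hj.2, by simp only; omega, by simp only; omega, hR.1, hR.2⟩
  · exact ⟨hj.1, hj.2, by simp only; omega, by simp only; omega, hR.1, hR.2⟩

theorem inv_foldl (nb l : List Bool) : ∀ {k : ℕ} {s : PSt}, Inv k s →
    Inv (k + l.length) (l.foldl (pstep nb) s) := by
  induction l with
  | nil => intro k s h; exact h
  | cons b l ih =>
    intro k s h
    have := ih (inv_step h nb b)
    rw [List.foldl_cons, List.length_cons]
    have e : k + (l.length + 1) = k + 1 + l.length := by omega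
    rw [e]; exact this

theorem inv_init : Inv 0 (([], 0, 0, []) : PSt) := by
  simp [Inv]

theorem inv_run (nb l : List Bool) : Inv l.length (l.foldl (pstep nb) ([], 0, 0, [])) := by
  have := inv_foldl nb l inv_init
  rwa [Nat.zero_add] at this

theorem sz_nat_le (n : ℕ) : sz n ≤ n := by
  rw [sz, enc_nat, Nat.size_eq_bits_len]
  exact Nat.size_le.2 n.lt_two_pow_self

theorem sz_nat_le' {n k : ℕ} (h : n ≤ k) : sz n ≤ k := (sz_nat_le n).trans h

theorem Inv.sz_le {k : ℕ} {s : PSt} (h : Inv k s) : sz s ≤ 10 * (k + 1) ^ 2 := by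
  obtain ⟨jobs, row, col, R⟩ := s
  obtain ⟨h1, h2, h3, h4, h5, h6⟩ := h
  simp only at h1 h2 h3 h4 h5 h6
  have e1 : sz jobs ≤ k * (2 * k + 1) :=
    (sz_le_of_forall jobs fun j hj => sz_nat_le' (h2 j hj)).trans (Nat.mul_le_mul_right _ h1)
  have e2 : sz R ≤ k * (2 * (3 * k + 1) + 1) :=
    (sz_le_of_forall (B := 3 * k + 1) R fun p hp => by
      have h7 := sz_nat_le' (h6 p hp).1
      have h8 := sz_nat_le' (h6 p hp).2
      rw [sz_prod]; omega).trans (Nat.mul_le_mul_right _ h5)
  have e3 := sz_nat_le' h3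
  have e4 := sz_nat_le' h4
  rw [sz_prod, sz_prod, sz_prod]
  simp only
  nlinarith

/-- the list of table bits -/
def tbl (a : Bits) : List Bool := bitList (tailB (sndB a))

theorem length_tbl (a : Bits) : (tbl a).length ≤ sz a := by
  have h := length_snd a.val
  simp only [tbl, bitList, tailB, sndB, sz, enc_bits, List.length_tail]
  omega

/-- one step of the parser as a function of the whole input -/
def pf (a : Bits) (s : PSt) (b : Bool) : PSt := pstep (fstB a).val s b

theorem lf_pf : LF 1 (fun p : (Bits × PSt) × Bool => pf p.1.1 p.1.2 p.2) := by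
  have hfst : LF 1 (fun p : (Bits × PSt) × Bool => fstB p.1.1) :=
    LF.comp (g := fun z : Bits => fstB z) ⟨TF.fstB.mono (by omega), GF.fstB⟩ (by fun_prop)
  have hj : LF 1 (fun p : (Bits × PSt) × Bool =>
      if p.1.2.2.2.1 = 0 then p.1.2.1 ++ [p.1.2.2.1] else p.1.2.1) := by
    have h1 : LF 1 (fun p : (Bits × PSt) × Bool => p.1.2.1 ++ [p.1.2.2.1]) :=
      LF.append (k := 0) (by fun_prop) (by fun_prop)
    exact LF.iteEq (by fun_prop) (by fun_prop) h1 (by fun_prop)
  have hR : LF 1 (fun p : (Bits × PSt) × Bool =>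
      if p.2 = true then (p.1.2.2.1, p.1.2.2.2.1) :: p.1.2.2.2.2 else p.1.2.2.2.2) := by
    fun_prop
  have hc : LF 1 (fun p : (Bits × PSt) × Bool =>
      decide (enc (p.1.2.2.2.1 + 1) = enc (fstB p.1.1))) :=
    LF.eqEnc (by fun_prop) hfst
  have h1 : LF 1 (fun p : (Bits × PSt) × Bool =>
      ((if p.1.2.2.2.1 = 0 then p.1.2.1 ++ [p.1.2.2.1] else p.1.2.1), p.1.2.2.1 + 1, (0 : ℕ),
        (if p.2 = true then (p.1.2.2.1, p.1.2.2.2.1) :: p.1.2.2.2.2 else p.1.2.2.2.2))) :=
    LF.prodMk hj (LF.prodMk (by fun_prop) (LF.prodMk (by fun_prop) hR))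
  have h2 : LF 1 (fun p : (Bits × PSt) × Bool =>
      ((if p.1.2.2.2.1 = 0 then p.1.2.1 ++ [p.1.2.2.1] else p.1.2.1), p.1.2.2.1,
        p.1.2.2.2.1 + 1,
        (if p.2 = true then (p.1.2.2.1, p.1.2.2.2.1) :: p.1.2.2.2.2 else p.1.2.2.2.2))) :=
    LF.prodMk hj (LF.prodMk (by fun_prop) (LF.prodMk (by fun_prop) hR))
  refine (LF.iteB hc h1 h2).congr fun p => ?_
  by_cases h : (p.1.2.2.2.1 + 1).bits = (fstB p.1.1).val
  · have h' : decide (enc (p.1.2.2.2.1 + 1) = enc (fstB p.1.1)) = true := decide_eq_true h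
    rw [if_pos h']
    simp only [pf, pstep]
    rw [if_pos h]
  · have h' : ¬ decide (enc (p.1.2.2.2.1 + 1) = enc (fstB p.1.1)) = true := by
      rw [decide_eq_true_eq]; exact h
    rw [if_neg h']
    simp only [pf, pstep]
    rw [if_neg h]

theorem tf_fold : TF 5 (fun a : Bits => (tbl a).foldl (pf a) ([], 0, 0, [])) := by
  have hl : LF 0 (fun a : Bits => tbl a) := by
    have h1 : LF 0 (fun a : Bits => sndB a) := ⟨TF.sndB, GF.sndB⟩
    have h2 : LF 0 (fun a : Bits => tailB a) := ⟨TF.tailB.mono (by omega), GF.tailB⟩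
    have h3 : LF 0 (fun a : Bits => bitList a) := ⟨TF.bitList, GF.bitList⟩
    exact LF.comp (g := fun a : Bits => bitList a) (f := fun a : Bits => tailB (sndB a)) h3
      (LF.comp (g := fun a : Bits => tailB a) (f := fun a : Bits => sndB a) h2 h1)
  refine TF.foldl (df := 2) (eN := 1) (b := 2) (hl.1.mono (by omega)) hl.2
    ((TF.const _).mono (by omega)) lf_pf.1 ⟨10, fun a l1 l2 h => ?_⟩ (by omega) (by omega)
    (by omega) (by omega)
  have h1 : Inv l1.length (l1.foldl (pf a) ([], 0, 0, [])) := inv_run (fstB a).val l1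
  refine h1.sz_le.trans (Nat.mul_le_mul_left _ (Nat.pow_le_pow_left ?_ 2))
  have h2 := length_tbl a
  rw [h, List.length_append] at h2
  omega

theorem parseTime : ParseTime := by
  have h1 : LF 5 (fun s : PSt => (s.1, s.2.1, s.2.2.2)) := by fun_prop
  have hg : GF 2 (fun a : Bits => (tbl a).foldl (pf a) ([], 0, 0, [])) := by
    refine ⟨10, fun a => ?_⟩
    have h1 : Inv (tbl a).length ((tbl a).foldl (pf a) ([], 0, 0, [])) :=
      inv_run (fstB a).val (tbl a)
    refine h1.sz_le.trans (Nat.mul_le_mul_left _ (Nat.pow_le_pow_left ?_ 2))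
    have h2 := length_tbl a
    omega
  exact TF.comp (g := fun s : PSt => (s.1, s.2.1, s.2.2.2)) h1.1 tf_fold hg (by omega) (by omega)

theorem parseSize : ParseSize := by
  intro x
  have h1 : Inv ((Lib.PT.snd x).tail.length)
      ((Lib.PT.snd x).tail.foldl (pstep (Lib.PT.fst x)) ([], 0, 0, [])) := inv_run _ _
  have h2 : (Lib.PT.snd x).tail.length ≤ x.length := by
    have := length_snd x
    rw [List.length_tail]; omega
  obtain ⟨a1, a2, a3, a4, a5, a6⟩ := h1
  refine ⟨⟨?_, fun j hj => ?_⟩, ?_, ?_, fun p hp => ⟨?_, ?_⟩⟩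
  · exact a1.trans h2
  · exact (sz_nat_le' (a2 j hj)).trans h2
  · exact (sz_nat_le' a3).trans h2
  · exact (a5.trans h2).trans (by nlinarith [Nat.zero_le x.length, Nat.le_self_pow two_ne_zero x.length])
  · exact (sz_nat_le' (a6 p hp).1).trans h2
  · exact (sz_nat_le' (a6 p hp).2).trans h2

end Crest.Agent.R286.TimeParse
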