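import Crest.Agent.R286.TimeDefs

/-! # Row 286, time side: the table search -/

set_option autoImplicit false
set_option linter.dupNamespace false
set_option linter.unusedVariables false
set_option linter.unusedSectionVars false

namespace Crest.Agent.R286.TSearch

open Function Crest.Agent.Lib.PT Crest.Agent.R286

variable {α β γ δ σ κ : Type} [PTCode α] [PTCode β] [PTCode γ] [PTCode δ] [PTCode σ] [PTCode κ]

variable {k : ℕ}

/-! ### `firstSome` -/

theorem sz_firstSome_le {M : ℕ} (f : β → Option γ) (l : List β) (acc : Option γ)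
    (hacc : sz acc ≤ M) (h : ∀ x ∈ l, sz (f x) ≤ M) :
    sz (l.foldl (fun acc x => match acc with | some r => some r | none => f x) acc) ≤ M := by
  induction l generalizing acc with
  | nil => exact hacc
  | cons x l ih =>
    rw [List.foldl_cons]
    refine ih _ ?_ (fun y hy => h y (List.mem_cons_of_mem _ hy))
    cases acc with
    | none => exact h x (by simp)
    | some r => exact hacc

theorem LF.firstSome {l : α → List β} {f : α → β → Option γ} (hl : LF k l)
    (hf : LF k (fun q : α × β => f q.1 q.2))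
    (hb : ∃ B, ∀ a, ∀ x ∈ l a, sz (f a x) ≤ B * (sz a + 1)) :
    LF (k + 1) (fun a => R286.firstSome (f a) (l a)) := by
  obtain ⟨B, hB⟩ := hb
  have hf' : LF k (fun q : (α × Option γ) × β => f q.1.1 q.2) :=
    LF.comp (g := fun q : α × β => f q.1 q.2) (f := fun q : (α × Option γ) × β => (q.1.1, q.2)) hf
      (by fun_prop)
  have hstep : LF k (fun q : (α × Option γ) × β =>
      (fun (a : α) (acc : Option γ) (x : β) => match acc with | some r => some r | none => f a x)
        q.1.1 q.1.2 q.2) :=
    (LF.optCase (s := fun q : (α × Option γ) × β => q.1.2) (f := fun q => f q.1.1 q.2)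
      (g := fun _ r => some r) (by fun_prop) hf' (by fun_prop)).congr fun q => by
        rcases q with ⟨⟨a, acc⟩, x⟩
        cases acc <;> rfl
  exact LF.foldl (l := l) (i := fun _ => (none : Option γ))
    (f := fun (a : α) (acc : Option γ) (x : β) => match acc with | some r => some r | none => f a x)
    hl (LF.const none) hstep
    ⟨B, fun a l1 l2 h => sz_firstSome_le (f a) l1 none (by simp [sz_none])
      (fun x hx => hB a x (by rw [h]; exact List.mem_append_left _ hx))⟩

/-! ### `Nodup` -/

/-- a step of the duplicate test -/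
def nodupStep (s : List ℕ × Bool) (x : ℕ) : List ℕ × Bool :=
  if s.1.contains x = true then (s.1, false) else (x :: s.1, s.2)

theorem foldl_nodupStep (l : List ℕ) (seen : List ℕ) (b : Bool) :
    (l.foldl nodupStep (seen, b)).2 = (b && decide (l.Nodup ∧ ∀ x ∈ l, x ∉ seen)) := by
  induction l generalizing seen b with
  | nil => simp
  | cons x l ih =>
    rw [List.foldl_cons, nodupStep]
    by_cases hx : x ∈ seen
    · rw [if_pos (by simpa using hx), ih]
      simp [hx]
    · rw [if_neg (by simpa using hx), ih]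
      congr 1
      rw [decide_eq_decide]
      constructor
      · rintro ⟨h1, h2⟩
        refine ⟨List.nodup_cons.2 ⟨fun h => h2 x h (by simp), h1⟩, ?_⟩
        intro y hy
        rcases List.mem_cons.1 hy with rfl | hy
        · exact hx
        · exact fun h => h2 y hy (List.mem_cons_of_mem _ h)
      · rintro ⟨h1, h2⟩
        rw [List.nodup_cons] at h1
        refine ⟨h1.2, fun y hy => ?_⟩
        intro h
        rcases List.mem_cons.1 h with rfl | h
        · exact h1.1 hy
        · exact h2 y (List.mem_cons_of_mem _ hy) h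

theorem sz_foldl_nodupStep (l : List ℕ) (seen : List ℕ) (b : Bool) :
    sz (l.foldl nodupStep (seen, b)).1 ≤ sz seen + sz l := by
  induction l generalizing seen b with
  | nil => simp
  | cons x l ih =>
    rw [List.foldl_cons, nodupStep, sz_cons]
    split
    · have := ih seen false
      show sz (l.foldl nodupStep (seen, false)).1 ≤ _
      omega
    · have := ih (x :: seen) b
      rw [sz_cons] at this
      show sz (l.foldl nodupStep (x :: seen, b)).1 ≤ _
      omega

theorem LF.nodup {l : α → List ℕ} (hl : LF (k + 1) l) :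
    LF (k + 2) (fun a => decide ((l a).Nodup)) := by
  obtain ⟨A, hA⟩ := hl.2
  have hc : LF (k + 1) (fun q : (α × (List ℕ × Bool)) × ℕ => q.1.2.1.contains q.2) :=
    LF.contains (k := k) (by fun_prop) (by fun_prop)
  have hstep : LF (k + 1) (fun q : (α × (List ℕ × Bool)) × ℕ =>
      (fun (_ : α) (s : List ℕ × Bool) (x : ℕ) => nodupStep s x) q.1.1 q.1.2 q.2) :=
    (LF.iteB (k := k + 1) (c := fun q : (α × (List ℕ × Bool)) × ℕ => q.1.2.1.contains q.2)
      (f := fun q => (q.1.2.1, false)) (g := fun q => (q.2 :: q.1.2.1, q.1.2.2)) hc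
      (by fun_prop) (by fun_prop)).congr fun q => rfl
  have h := LF.foldl (l := l) (i := fun _ => (([] : List ℕ), true))
    (f := fun (_ : α) (s : List ℕ × Bool) (x : ℕ) => nodupStep s x) hl (LF.const _) hstep
    ⟨2 * A + 2, fun a l1 l2 h => by
      show sz (l1.foldl nodupStep ([], true)) ≤ _
      have h1 := sz_foldl_nodupStep l1 [] true
      have h2 := hA a
      rw [pow_one, h, sz_append] at h2
      rw [sz_nil] at h1
      rw [sz_prod, sz_bool]
      have : (2 * A + 2) * (sz a + 1) = 2 * (A * (sz a + 1)) + 2 * (sz a + 1) := by ring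
      rw [this]
      omega⟩
  have h' := LF.comp (k := k + 2) (g := fun s : List ℕ × Bool => s.2) (by fun_prop) h
  refine h'.congr fun a => ?_
  rw [foldl_nodupStep]
  simp

theorem LF.relContains {l : α → Rel} {x : α → ℕ × ℕ} (hl : LF k l) (hx : LF k x) :
    LF (k + 1) (fun a => (l a).contains (x a)) :=
  (LF.contains hl hx).congr fun a => by
    exact Bool.eq_iff_iff.2 ((@List.contains_iff_mem (ℕ × ℕ) instBEqOfDecidableEq _ _ _).trans
      (@List.contains_iff_mem (ℕ × ℕ) instBEqProd _ _ _).symm)

/-! ### `good` -/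

theorem sz_sublist {l1 l2 : List β} (h : l1.Sublist l2) : sz l1 ≤ sz l2 := by
  induction h with
  | slnil => exact le_rfl
  | cons b _ ih => rw [sz_cons]; omega
  | cons_cons b _ ih => rw [sz_cons, sz_cons]; omega

theorem sz_perm {l1 l2 : List β} (h : l1.Perm l2) : sz l1 = sz l2 := by
  induction h with
  | nil => rfl
  | cons b _ ih => rw [sz_cons, sz_cons, ih]
  | swap a b l => rw [sz_cons, sz_cons, sz_cons, sz_cons]; ring
  | trans _ _ ih1 ih2 => exact ih1.trans ih2

theorem sz_le_of_good {R : Rel} {X w1 w2 : List ℕ} (h : good R X w1 w2 = true) :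
    sz (w1 ++ w2) ≤ sz X := by
  unfold good at h
  simp only [Bool.and_eq_true, decide_eq_true_eq, List.all_eq_true, List.contains_iff_mem] at h
  obtain ⟨h1, h2, -⟩ := h
  obtain ⟨l, hl1, hl2⟩ := h1.subperm h2
  rw [← sz_perm hl1]
  exact sz_sublist hl2

theorem lf_good : LF 3 (fun q : (Rel × List ℕ) × (List ℕ × List ℕ) =>
    good q.1.1 q.1.2 q.2.1 q.2.2) := by
  have w0 : LF 1 (fun q : (Rel × List ℕ) × (List ℕ × List ℕ) => q.2.1 ++ q.2.2) :=
    LF.append (k := 0) (by fun_prop) (by fun_prop)
  have w1 : LF 1 (fun q : ((Rel × List ℕ) × (List ℕ × List ℕ)) × ℕ => q.1.2.1 ++ q.1.2.2) :=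
    LF.append (k := 0) (by fun_prop) (by fun_prop)
  have a1 : LF 3 (fun q : (Rel × List ℕ) × (List ℕ × List ℕ) => decide ((q.2.1 ++ q.2.2).Nodup)) :=
    (LF.nodup (k := 0) w0).mono (by omega)
  have a2 : LF 3 (fun q : (Rel × List ℕ) × (List ℕ × List ℕ) =>
      (q.2.1 ++ q.2.2).all (fun a => q.1.2.contains a)) :=
    (LF.all (k := 1) (p := fun (q : (Rel × List ℕ) × (List ℕ × List ℕ)) a => q.1.2.contains a) w0
      (LF.contains (k := 0) (by fun_prop) (by fun_prop))).mono (by omega)
  have a3 : LF 3 (fun q : (Rel × List ℕ) × (List ℕ × List ℕ) =>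
      q.1.2.all (fun a => (q.2.1 ++ q.2.2).contains a)) :=
    LF.all (k := 2)
      (p := fun (q : (Rel × List ℕ) × (List ℕ × List ℕ)) a => (q.2.1 ++ q.2.2).contains a)
      (by fun_prop) (LF.contains (k := 1) w1 (by fun_prop))
  have a4 : LF 3 (fun q : (Rel × List ℕ) × (List ℕ × List ℕ) =>
      q.2.2.any fun z => q.2.1.any fun y => q.1.1.contains (z, y)) :=
    LF.any (k := 2)
      (p := fun (q : (Rel × List ℕ) × (List ℕ × List ℕ)) z => q.2.1.any fun y =>
        q.1.1.contains (z, y)) (by fun_prop)
      (LF.any (k := 1) (p := fun (q : ((Rel × List ℕ) × (List ℕ × List ℕ)) × ℕ) y =>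
        q.1.1.1.contains (q.2, y)) (by fun_prop)
        (LF.relContains (k := 0)
          (l := fun q : (((Rel × List ℕ) × (List ℕ × List ℕ)) × ℕ) × ℕ => q.1.1.1.1)
          (x := fun q => (q.1.2, q.2)) (by fun_prop) (by fun_prop)))
  have := LF.and a1 (LF.and a2 (LF.and a3 (LF.not a4)))
  exact this

/-! ### `search` -/

theorem sz_fst_le (p : α × β) : 2 * sz p.1 + 1 + sz p.2 = sz p := (sz_prod p).symm

theorem sz_le_of_mem {x : β} {l : List β} (h : x ∈ l) : 2 * sz x + 1 ≤ sz l := by
  induction l with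
  | nil => simp at h
  | cons y l ih =>
    rw [sz_cons]
    rcases List.mem_cons.1 h with rfl | h
    · omega
    · have := ih h; omega

/-- the inner function of the search -/
def inner (R : Rel) (X w1 : List ℕ) (q : List ℕ × Option (List ℕ)) : Option (List ℕ) :=
  match q.2 with
  | none => none
  | some w2 => if good R X w1 w2 then some (w1 ++ w2) else none

theorem sz_inner_le (R : Rel) (X w1 : List ℕ) (q : List ℕ × Option (List ℕ)) :
    sz (inner R X w1 q) ≤ sz X + 1 := by
  unfold inner
  split
  · simp [sz_none]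
  · split
    · rename_i h
      rw [sz_some]
      have := sz_le_of_good h
      omega
    · simp [sz_none]

theorem search_eq (R : Rel) (T : Tab) (X : List ℕ) : search R T X =
    firstSome (fun p : List ℕ × Option (List ℕ) => match p.2 with
    | none => none
    | some w1 => firstSome (inner R X w1) T) T := rfl

theorem sz_firstSome_le' {M : ℕ} (f : β → Option γ) (l : List β)
    (h : ∀ x ∈ l, sz (f x) ≤ M) : sz (firstSome f l) ≤ M :=
  sz_firstSome_le f l none (by simp [sz_none]) h

theorem sz_search_le (R : Rel) (T : Tab) (X : List ℕ) : sz (search R T X) ≤ sz X + 1 := by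
  rw [search_eq]
  refine sz_firstSome_le' _ _ fun p _ => ?_
  split
  · simp [sz_none]
  · exact sz_firstSome_le' _ _ fun q _ => sz_inner_le _ _ _ _

/-- environment of the search -/
abbrev SEnv : Type := (Rel × Tab) × List ℕ

theorem lf_inner : LF 3 (fun q : (SEnv × List ℕ) × (List ℕ × Option (List ℕ)) =>
    inner q.1.1.1.1 q.1.1.2 q.1.2 q.2) := by
  have g1 : LF 3 (fun q : ((SEnv × List ℕ) × (List ℕ × Option (List ℕ))) × List ℕ =>
      good q.1.1.1.1.1 q.1.1.1.2 q.1.1.2 q.2) :=
    LF.comp (f := fun q : ((SEnv × List ℕ) × (List ℕ × Option (List ℕ))) × List ℕ =>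
      ((q.1.1.1.1.1, q.1.1.1.2), (q.1.1.2, q.2))) lf_good (by fun_prop)
  have g2 : LF 3 (fun q : ((SEnv × List ℕ) × (List ℕ × Option (List ℕ))) × List ℕ =>
      q.1.1.2 ++ q.2) := (LF.append (k := 0) (by fun_prop) (by fun_prop)).mono (by omega)
  have g3 := LF.iteB (k := 3)
    (c := fun q : ((SEnv × List ℕ) × (List ℕ × Option (List ℕ))) × List ℕ =>
      good q.1.1.1.1.1 q.1.1.1.2 q.1.1.2 q.2) (f := fun q => some (q.1.1.2 ++ q.2))
      (g := fun _ => none) g1 (LF.optSome g2) (LF.const none)
  exact (LF.optCase (s := fun q : (SEnv × List ℕ) × (List ℕ × Option (List ℕ)) => q.2.2)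
    (f := fun _ => (none : Option (List ℕ)))
    (g := fun q w2 => if good q.1.1.1.1 q.1.1.2 q.1.2 w2 = true then some (q.1.2 ++ w2) else none)
    (by fun_prop) (LF.const none) g3).congr fun q => by
      rcases q with ⟨q, ⟨Y, o⟩⟩
      cases o <;> rfl

theorem lf_search : LF 5 (fun q : SEnv => search q.1.1 q.1.2 q.2) := by
  have h1 : LF 4 (fun q : SEnv × List ℕ => firstSome (inner q.1.1.1 q.1.2 q.2) q.1.1.2) :=
    LF.firstSome (k := 3) (f := fun q : SEnv × List ℕ => inner q.1.1.1 q.1.2 q.2) (by fun_prop)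
      lf_inner ⟨1, fun a x _ => (sz_inner_le _ _ _ _).trans (by
        have e1 := sz_fst_le a
        have e2 := sz_fst_le a.1
        omega)⟩
  have h2 : LF 4 (fun q : SEnv × (List ℕ × Option (List ℕ)) =>
      match q.2.2 with | none => none | some w1 => firstSome (inner q.1.1.1 q.1.2 w1) q.1.1.2) :=
    (LF.optCase (s := fun q : SEnv × (List ℕ × Option (List ℕ)) => q.2.2) (f := fun _ => none)
      (g := fun q w1 => firstSome (inner q.1.1.1 q.1.2 w1) q.1.1.2) (by fun_prop) (LF.const none)
      (LF.comp (f := fun q : (SEnv × (List ℕ × Option (List ℕ))) × List ℕ => (q.1.1, q.2)) h1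
        (by fun_prop))).congr fun q => by
          rcases q with ⟨q, ⟨Y, o⟩⟩
          cases o <;> rfl
  exact LF.firstSome (k := 4) (l := fun q : SEnv => q.1.2)
    (f := fun (q : SEnv) (p : List ℕ × Option (List ℕ)) =>
      match p.2 with | none => none | some w1 => firstSome (inner q.1.1 q.2 w1) q.1.2)
    (by fun_prop) h2 ⟨1, fun a p _ => by
      have : sz (match p.2 with | none => none | some w1 => firstSome (inner a.1.1 a.2 w1) a.1.2)
          ≤ sz a.2 + 1 := by
        split
        · simp [sz_none]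
        · exact sz_firstSome_le' _ _ fun q _ => sz_inner_le _ _ _ _
      refine this.trans ?_
      have e1 := sz_fst_le a
      omega⟩

/-! ### `isLeaf`, `tabRound` -/

theorem lf_isLeaf : LF 3 (fun q : Rel × List ℕ => isLeaf q.1 q.2) := by
  have a1 : LF 3 (fun q : Rel × List ℕ => q.2.any fun x => q.2.any fun y => q.1.contains (x, y)) :=
    LF.any (k := 2)
      (p := fun (q : Rel × List ℕ) x => q.2.any fun y => q.1.contains (x, y)) (by fun_prop)
      (LF.any (k := 1) (p := fun (q : (Rel × List ℕ) × ℕ) y => q.1.1.contains (q.2, y))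
        (by fun_prop) (LF.relContains (k := 0) (l := fun q : ((Rel × List ℕ) × ℕ) × ℕ => q.1.1.1)
          (x := fun q => (q.1.2, q.2)) (by fun_prop) (by fun_prop)))
  have a2 : LF 3 (fun q : Rel × List ℕ => q.2.isEmpty || ((!q.2.tail.tail.isEmpty &&
      q.2.tail.tail.tail.isEmpty) && !(q.2.any fun x => q.2.any fun y => q.1.contains (x, y)))) := by
    fun_prop
  exact a2

/-- the new value of an entry of the table -/
def entry (R : Rel) (T : Tab) (p : List ℕ × Option (List ℕ)) : List ℕ × Option (List ℕ) :=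
  (p.1, match p.2 with
    | some w => some w
    | none => if isLeaf R p.1 then some p.1 else search R T p.1)

theorem tabRound_eq (R : Rel) (T : Tab) : tabRound R T = T.map (entry R T) := rfl

theorem sz_entry_le (R : Rel) (T : Tab) (p : List ℕ × Option (List ℕ)) :
    sz (entry R T p).2 ≤ max (sz p.2) (sz p.1 + 1) := by
  unfold entry
  rcases p with ⟨X, o⟩
  cases o with
  | some w => exact le_max_left _ _
  | none =>
    refine le_trans ?_ (le_max_right _ _)
    simp only
    split
    · rw [sz_some]
    · exact sz_search_le _ _ _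

theorem sz_entry_le' (R : Rel) (T : Tab) (p : List ℕ × Option (List ℕ)) :
    sz (entry R T p) ≤ 2 * sz p := by
  have h := sz_entry_le R T p
  rw [sz_prod, ← sz_fst_le p]
  have : (entry R T p).1 = p.1 := rfl
  rw [this]
  rcases max_choice (sz p.2) (sz p.1 + 1) with h' | h' <;> rw [h'] at h <;> omega

theorem sz_map_le_mul {c : ℕ} (f : β → γ) (l : List β)
    (h : ∀ x ∈ l, 2 * sz (f x) + 1 ≤ c * (2 * sz x + 1)) : sz (l.map f) ≤ c * sz l := by
  induction l with
  | nil => simp [sz_nil]
  | cons x l ih =>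
    rw [List.map_cons, sz_cons, sz_cons, mul_add]
    exact Nat.add_le_add (h x (by simp)) (ih fun y hy => h y (List.mem_cons_of_mem _ hy))

theorem sz_tabRound_le (R : Rel) (T : Tab) : sz (tabRound R T) ≤ 2 * sz T := by
  rw [tabRound_eq]
  refine sz_map_le_mul _ _ fun p _ => ?_
  have := sz_entry_le' R T p
  omega

theorem lf_entry : LF 5 (fun q : (Rel × Tab) × (List ℕ × Option (List ℕ)) =>
    entry q.1.1 q.1.2 q.2) := by
  have h1 : LF 5 (fun q : (Rel × Tab) × (List ℕ × Option (List ℕ)) => isLeaf q.1.1 q.2.1) :=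
    LF.comp (f := fun q : (Rel × Tab) × (List ℕ × Option (List ℕ)) => (q.1.1, q.2.1))
      (lf_isLeaf.mono (by omega)) (by fun_prop)
  have h2 : LF 5 (fun q : (Rel × Tab) × (List ℕ × Option (List ℕ)) =>
      search q.1.1 q.1.2 q.2.1) :=
    LF.comp (f := fun q : (Rel × Tab) × (List ℕ × Option (List ℕ)) => (q.1, q.2.1))
      lf_search (by fun_prop)
  have h3 := LF.iteB (k := 5)
    (c := fun q : (Rel × Tab) × (List ℕ × Option (List ℕ)) => isLeaf q.1.1 q.2.1)
    (f := fun q => some q.2.1) (g := fun q => search q.1.1 q.1.2 q.2.1) h1 (by fun_prop) h2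
  have h4 : LF 5 (fun q : (Rel × Tab) × (List ℕ × Option (List ℕ)) => (match q.2.2 with
      | none => if isLeaf q.1.1 q.2.1 then some q.2.1 else search q.1.1 q.1.2 q.2.1
      | some w => some w : Option (List ℕ))) :=
    (LF.optCase (s := fun q : (Rel × Tab) × (List ℕ × Option (List ℕ)) => q.2.2)
      (f := fun q => if isLeaf q.1.1 q.2.1 then some q.2.1 else search q.1.1 q.1.2 q.2.1)
      (g := fun _ w => some w) (by fun_prop) h3 (by fun_prop)).congr fun q => by
        rcases q with ⟨q, ⟨Y, o⟩⟩
        cases o <;> rfl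
  refine (LF.prodMk (k := 5)
    (f := fun q : (Rel × Tab) × (List ℕ × Option (List ℕ)) => q.2.1) (by fun_prop) h4).congr
    fun q => ?_
  rcases q with ⟨q, ⟨Y, o⟩⟩
  cases o <;> rfl

theorem lf_tabRound : LF 6 (fun q : Rel × Tab => tabRound q.1 q.2) :=
  LF.map (k := 5) (l := fun q : Rel × Tab => q.2) (f := fun (q : Rel × Tab) p => entry q.1 q.2 p)
    (by fun_prop) lf_entry ⟨2, fun a => (sz_tabRound_le a.1 a.2).trans (by
      have := sz_fst_le a
      omega)⟩

/-! ### the rounds -/

/-- shape of the table during the rounds -/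
def TabOK (F : List (List ℕ)) (T : Tab) : Prop :=
  List.Forall₂ (fun X (p : List ℕ × Option (List ℕ)) => p.1 = X ∧ sz p.2 ≤ sz X + 1) F T

theorem tabOK_init (F : List (List ℕ)) : TabOK F (F.map fun X => (X, none)) := by
  induction F with
  | nil => exact List.Forall₂.nil
  | cons X F ih => exact List.Forall₂.cons ⟨rfl, by simp [sz_none]⟩ ih

theorem TabOK.map_entry {F : List (List ℕ)} {T : Tab} (h : TabOK F T) (R : Rel) (T' : Tab) :
    TabOK F (T.map (entry R T')) := by
  induction h with
  | nil => exact List.Forall₂.nil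
  | @cons X p F T hp _ ih =>
    refine List.Forall₂.cons ⟨hp.1, ?_⟩ ih
    have := sz_entry_le R T' p
    rw [hp.1] at this
    exact this.trans (max_le hp.2 le_rfl)

theorem TabOK.tabRound {F : List (List ℕ)} {T : Tab} (h : TabOK F T) (R : Rel) :
    TabOK F (R286.tabRound R T) := h.map_entry R T

theorem TabOK.sz_le {F : List (List ℕ)} {T : Tab} (h : TabOK F T) : sz T ≤ 5 * sz F := by
  induction h with
  | nil => simp [sz_nil]
  | @cons X p F T hp _ ih =>
    rw [sz_cons, sz_cons, ← sz_fst_le p, hp.1]
    have := hp.2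
    omega

theorem tabOK_foldl {F : List (List ℕ)} (R : Rel) (l : List ℕ) {T : Tab} (h : TabOK F T) :
    TabOK F (l.foldl (fun T _ => tabRound R T) T) := by
  induction l generalizing T with
  | nil => exact h
  | cons x l ih => exact ih (h.tabRound R)

/-- environment of the solver -/
abbrev TEnv : Type := (List ℕ × Rel) × List (List ℕ)

theorem lf_rounds : LF 7 (fun q : TEnv => (0 :: q.1.1).foldl (fun T _ => tabRound q.1.2 T)
    (q.2.map fun X => (X, (none : Option (List ℕ))))) := by
  have h0 : LF 6 (fun q : TEnv => q.2.map fun X => (X, (none : Option (List ℕ)))) :=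
    (LF.map (k := 0) (l := fun q : TEnv => q.2)
      (f := fun (_ : TEnv) X => (X, (none : Option (List ℕ)))) (by fun_prop) (by fun_prop)
      ⟨5, fun a => (tabOK_init a.2).sz_le.trans (by have := sz_fst_le a; omega)⟩).mono (by omega)
  exact LF.foldl (k := 6) (l := fun q : TEnv => 0 :: q.1.1)
    (i := fun q : TEnv => q.2.map fun X => (X, (none : Option (List ℕ))))
    (f := fun (q : TEnv) (T : Tab) (_ : ℕ) => tabRound q.1.2 T) (by fun_prop) h0
    (LF.comp (f := fun q : (TEnv × Tab) × ℕ => (q.1.1.1.2, q.1.2)) lf_tabRound (by fun_prop))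
    ⟨5, fun a l1 l2 _ => (tabOK_foldl a.1.2 l1 (tabOK_init a.2)).sz_le.trans (by
      have := sz_fst_le a
      omega)⟩

theorem lf_solveTab : LF 8 (fun q : TEnv => solveTab q.1.1 q.1.2 q.2) :=
  LF.firstSome (k := 7)
    (l := fun q : TEnv => (0 :: q.1.1).foldl (fun T _ => tabRound q.1.2 T)
      (q.2.map fun X => (X, (none : Option (List ℕ)))))
    (f := fun (q : TEnv) (p : List ℕ × Option (List ℕ)) => if p.1 = q.1.1 then p.2 else none)
    lf_rounds
    (LF.iteEq (k := 7) (u := fun q : TEnv × (List ℕ × Option (List ℕ)) => q.2.1)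
      (v := fun q => q.1.1.1) (f := fun q => q.2.2) (g := fun _ => none) (by fun_prop)
      (by fun_prop) (by fun_prop) (LF.const none))
    ⟨5, fun a p hp => by
      have h1 := (sz_le_of_mem hp).trans (tabOK_foldl a.1.2 (0 :: a.1.1) (tabOK_init a.2)).sz_le
      have h3 := sz_fst_le p
      have h4 := sz_fst_le a
      split
      · omega
      · rw [sz_none]; omega⟩

theorem searchTime : SearchTime :=
  ⟨lf_solveTab.1.mono (by omega), lf_solveTab.2⟩

end Crest.Agent.R286.TSearch
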