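import Crest.Agent.R286.Win

/-!
# Row 286, node R: NAND levels of the described sets, duality, and `MathClaim 12`
-/

set_option autoImplicit false
set_option linter.dupNamespace false

namespace Crest.Agent.R286.Win

open Crest.Agent.R286

variable {α : Type} {lt : α → α → Prop} {nu : α → ℕ}

/-- `A` at level `i` and its complement at level `j` -/
def Lv (lt : α → α → Prop) (nu : α → ℕ) (i j : ℕ) (A : Set α) : Prop :=
  Fam lt nu i A ∧ Fam lt nu j Aᶜ

theorem Fam.le {i j : ℕ} {A : Set α} (h : Fam lt nu i A) (hij : i ≤ j) : Fam lt nu j A := by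
  induction hij with
  | refl => exact h
  | step _ ih => exact ih.mono

theorem Lv.le {i j i' j' : ℕ} {A : Set α} (h : Lv lt nu i j A) (hi : i ≤ i') (hj : j ≤ j') :
    Lv lt nu i' j' A := ⟨Fam.le h.1 hi, Fam.le h.2 hj⟩

theorem Lv.compl {i j : ℕ} {A : Set α} (h : Lv lt nu i j A) : Lv lt nu j i Aᶜ :=
  ⟨h.2, by rw [compl_compl]; exact h.1⟩

theorem Lv.atom {A : Set α} (h : Fam lt nu 0 A) : Lv lt nu 0 1 A :=
  ⟨h, by have := Fam.nand h h; rwa [Set.inter_self] at this⟩

theorem Lv.inter {i j i' j' k : ℕ} {A B : Set α} (hA : Lv lt nu i j A) (hB : Lv lt nu i' j' B)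
    (h : i ≤ k) (h' : i' ≤ k) : Lv lt nu (k + 2) (k + 1) (A ∩ B) := by
  have h1 : Fam lt nu (k + 1) (A ∩ B)ᶜ := Fam.nand (Fam.le hA.1 h) (Fam.le hB.1 h')
  refine ⟨?_, h1⟩
  have := Fam.nand h1 h1
  rwa [Set.inter_self, compl_compl] at this

theorem Lv.union {i j i' j' k : ℕ} {A B : Set α} (hA : Lv lt nu i j A) (hB : Lv lt nu i' j' B)
    (h : j ≤ k) (h' : j' ≤ k) : Lv lt nu (k + 1) (k + 2) (A ∪ B) := by
  have := (hA.compl.inter hB.compl h h').compl
  rwa [Set.compl_inter, compl_compl, compl_compl] at this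

theorem Lv.empty : Lv lt nu 0 1 (∅ : Set α) := Lv.atom .empty
theorem Lv.univ : Lv lt nu 0 1 (Set.univ : Set α) := Lv.atom .univ

theorem Lv.union3 {A B C : Set α} (hA : Lv lt nu 0 1 A) (hB : Lv lt nu 0 1 B)
    (hC : Lv lt nu 0 1 C) : Lv lt nu 4 5 (A ∪ B ∪ C) :=
  (hA.union hB le_rfl le_rfl).union hC (le_refl 3) (by norm_num)

theorem lv_pd {D : Set α} (h : PD lt D) : Lv lt nu 4 5 D := by
  rcases h with rfl | ⟨a, b, c, rfl⟩
  · exact Lv.univ.le (by norm_num) (by norm_num)
  · have := Lv.union3 (lt := lt) (nu := nu) (Lv.atom (.down a)) (Lv.atom (.down b))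
      (Lv.atom (.down c))
    convert this using 1
    ext z
    simp only [Set.mem_ofPred_eq, Set.mem_union]
    tauto

theorem lv_pu {D : Set α} (h : PD (fun a b => lt b a) D) : Lv lt nu 4 5 D := by
  rcases h with rfl | ⟨a, b, c, rfl⟩
  · exact Lv.univ.le (by norm_num) (by norm_num)
  · have := Lv.union3 (lt := lt) (nu := nu) (Lv.atom (.up a)) (Lv.atom (.up b))
      (Lv.atom (.up c))
    convert this using 1
    ext z
    simp only [Set.mem_ofPred_eq, Set.mem_union]
    tauto

theorem lv_nd {D : Set α} (h : NV lt D) : Lv lt nu 4 5 D := by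
  rcases h with rfl | h
  · exact Lv.empty.le (by norm_num) (by norm_num)
  · exact lv_pd (Or.inr h)

theorem lv_nu {D : Set α} (h : NV (fun a b => lt b a) D) : Lv lt nu 4 5 D := by
  rcases h with rfl | h
  · exact Lv.empty.le (by norm_num) (by norm_num)
  · exact lv_pu (Or.inr h)

theorem lv_slot {D : Set α} (h : Slot D) : Lv lt nu 4 5 D := by
  rcases h with rfl | ⟨a, b, c, rfl⟩
  · exact Lv.empty.le (by norm_num) (by norm_num)
  · have := Lv.union3 (lt := lt) (nu := nu) (Lv.atom (.single a)) (Lv.atom (.single b))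
      (Lv.atom (.single c))
    convert this using 1
    ext z
    simp only [Set.mem_insert_iff, Set.mem_singleton_iff, Set.mem_union]
    tauto

/-- stairs: intersection of a frame with a threshold set of level `(i, j)` -/
theorem lv_stair {F E : Set α} (hF : Frame lt F) (hE : Lv lt nu 0 1 E) :
    Lv lt nu 2 3 (F ∩ E) := by
  rcases hF with rfl | ⟨b, c, rfl⟩
  · rw [Set.univ_inter]
    exact hE.le (by norm_num) (by norm_num)
  · have h1 : Lv lt nu 2 1 ({z | lt z b} ∩ E) := (Lv.atom (.down b)).inter hE le_rfl le_rfl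
    have h2 : Lv lt nu 2 1 ({z | lt z c} ∩ E) := (Lv.atom (.down c)).inter hE le_rfl le_rfl
    have := h1.union h2 le_rfl le_rfl
    rwa [← Set.union_inter_distrib_right] at this

theorem lv_stair' {F E : Set α} (hF : Frame (fun a b => lt b a) F) (hE : Lv lt nu 1 0 E) :
    Lv lt nu 3 4 (F ∩ E) := by
  rcases hF with rfl | ⟨b, c, rfl⟩
  · rw [Set.univ_inter]
    exact hE.le (by norm_num) (by norm_num)
  · have h1 : Lv lt nu 3 2 ({z | lt b z} ∩ E) :=
      (Lv.atom (.up b)).inter hE (k := 1) (by norm_num) le_rfl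
    have h2 : Lv lt nu 3 2 ({z | lt c z} ∩ E) :=
      (Lv.atom (.up c)).inter hE (k := 1) (by norm_num) le_rfl
    have := h1.union h2 le_rfl le_rfl
    rwa [← Set.union_inter_distrib_right] at this

theorem lv_desc {S : Set α} (h : DescU lt nu S) : Lv lt nu 6 7 S := by
  rcases h with rfl | ⟨F0, F1, F2, h0, h1, h2, a0, a1, a2, rfl⟩
  · exact Lv.univ.le (by norm_num) (by norm_num)
  · have e0 := lv_stair (nu := nu) h0 (Lv.atom (.pre a0))
    have e1 := lv_stair (nu := nu) h1 (Lv.atom (.pre a1))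
    have e2 := lv_stair (nu := nu) h2 (Lv.atom (.pre a2))
    have := (e0.union e1 le_rfl le_rfl).union e2 (le_refl 5) (by norm_num)
    convert this using 1
    ext z
    simp only [Set.mem_ofPred_eq, Set.mem_union, Set.mem_inter_iff]
    tauto

theorem lv_pre' {M : ℕ} (hM : ∀ a, nu a ≤ M) (k : ℕ) : Lv lt nu 1 0 {z | M - nu z < k} := by
  have h1 : Lv lt nu 0 1 {z | nu z < M + 1 - k} := Lv.atom (.pre _)
  have := h1.compl
  convert this using 1
  ext z
  simp only [Set.mem_ofPred_eq, Set.mem_compl_iff]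
  have := hM z
  omega

theorem lv_desc' {M : ℕ} (hM : ∀ a, nu a ≤ M) {S : Set α}
    (h : DescU (fun a b => lt b a) (fun a => M - nu a) S) : Lv lt nu 7 8 S := by
  rcases h with rfl | ⟨F0, F1, F2, h0, h1, h2, a0, a1, a2, rfl⟩
  · exact Lv.univ.le (by norm_num) (by norm_num)
  · have e0 := lv_stair' (nu := nu) h0 (lv_pre' hM a0)
    have e1 := lv_stair' (nu := nu) h1 (lv_pre' hM a1)
    have e2 := lv_stair' (nu := nu) h2 (lv_pre' hM a2)
    have := (e0.union e1 le_rfl le_rfl).union e2 (le_refl 6) (by norm_num)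
    convert this using 1
    ext z
    simp only [Set.mem_ofPred_eq, Set.mem_union, Set.mem_inter_iff]
    tauto

theorem lv_sh {M : ℕ} (hM : ∀ a, nu a ≤ M) {Q : Set α} (h : Sh lt nu (fun a => M - nu a) Q) :
    Lv lt nu 12 11 Q := by
  obtain ⟨D, U, St, St', V, V', S, h1, h2, h3, h4, h5, h6, h7, h8⟩ := h
  have e1 : Lv lt nu 6 5 (D ∩ U) := (lv_pd h1).inter (lv_pu h2) le_rfl le_rfl
  have e2 : Lv lt nu 8 7 (D ∩ U ∩ St) := e1.inter (lv_desc h3) (k := 6) le_rfl le_rfl
  have e3 : Lv lt nu 10 9 (D ∩ U ∩ St ∩ St') := e2.inter (lv_desc' hM h4) (k := 8) le_rfl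
    (by norm_num)
  have e4 : Lv lt nu 7 6 (Sᶜ ∩ V'ᶜ) := (lv_slot h7).compl.inter (lv_nd h6).compl (k := 5)
    le_rfl le_rfl
  have e5 : Lv lt nu 9 8 (Sᶜ ∩ V'ᶜ ∩ Vᶜ) := e4.inter (lv_nu h5).compl (k := 7) le_rfl
    (by norm_num)
  have e6 := e3.inter e5 (k := 10) le_rfl (by norm_num)
  convert e6 using 1
  ext z
  rw [h8]
  simp only [Set.mem_inter_iff, Set.mem_compl_iff]
  tauto

theorem fam_sh_union {M : ℕ} (hM : ∀ a, nu a ≤ M) {Q S : Set α}
    (h : Sh lt nu (fun a => M - nu a) Q) (hS : Slot S) : Fam lt nu 12 (Q ∪ S) :=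
  ((lv_sh hM h).union (lv_slot hS) (k := 11) le_rfl (by norm_num)).1

/-- node R -/
theorem mathClaim_of_T (hT : TClaim) : MathClaim 12 := by
  intro α _ _ lt nu hirr htr hinj hmono T s hcard hs
  obtain ⟨M, hM⟩ : ∃ M, ∀ a, nu a ≤ M :=
    ⟨Finset.univ.sup nu, fun a => Finset.le_sup (Finset.mem_univ a)⟩
  have H : Hyp lt nu (fun a => M - nu a) (Fam lt nu 12) :=
    { irr := hirr
      trans := htr
      mono := hmono
      mono' := fun a b h => by
        have h1 := hmono _ _ h
        have h2 := hM a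
        have h3 := hM b
        show M - nu a < M - nu b
        omega
      T := hT α lt nu hirr htr hinj hmono
      T' := hT α (fun a b => lt b a) (fun a => M - nu a) hirr (fun a b c h1 h2 => htr c b a h2 h1)
        (fun a b h => hinj (by
          have h2 := hM a
          have h3 := hM b
          have h4 : M - nu a = M - nu b := h
          omega))
        (fun a b h => by
          have h1 := hmono _ _ h
          have h2 := hM a
          have h3 := hM b
          show M - nu a < M - nu b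
          omega)
      K0 := Fam.le .empty (by norm_num)
      K1 := fun S hS => Fam.le (lv_slot hS).1 (by norm_num)
      K2 := fun Q hQ => (lv_sh hM hQ).1
      K3 := fun Q S hQ hS => fam_sh_union hM hQ hS }
  have hV : IsV lt (fun a => M - nu a) ((Finset.univ : Finset α) : Set α) :=
    ⟨Set.univ, Set.univ, Set.univ, ∅, ∅, Or.inl rfl, Or.inl rfl, Or.inl rfl, Or.inl rfl,
      Or.inl rfl, fun x y _ _ _ _ _ => ⟨trivial, trivial, fun h => h, fun h => h⟩, fun z => by simp⟩
  have hP : Pack lt (Finset.univ : Finset α) T (fun a => (s a : ℕ) + 1) := by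
    refine ⟨fun x _ => ⟨Nat.succ_le_succ (Nat.zero_le _), (s x).2⟩, fun i h1 h2 => ?_,
      fun x _ y _ h => ?_⟩
    · rw [← hcard ⟨i - 1, by omega⟩]
      congr 1
      ext x
      simp only [Finset.mem_filter, Finset.mem_univ, true_and, Fin.ext_iff]
      omega
    · have := hs x y h
      show (s x : ℕ) + 1 < (s y : ℕ) + 1
      have h2 : (s x : ℕ) < (s y : ℕ) := this
      omega
  have := tree_of_isV (Finset.univ : Finset α).card lt nu _ H Finset.univ le_rfl hV T ⟨_, hP⟩
  rw [Finset.coe_univ] at this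
  exact this.toTree

end Crest.Agent.R286.Win
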