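import Crest.Agent.R286.TstT
import Crest.Agent.R286.NodeR
import Crest.Agent.R286.WinFam
import Crest.Agent.R286.PureTop
import Crest.Agent.R286.PackTop
import Crest.Agent.R286.TimeAll
import Crest.Agent.R286.TimeOut
import Crest.Agent.R286.TimeParse
import Crest.Agent.R286.TimeFam
import Crest.Agent.R286.TimeSearch

/-! # Row 286: top of the mathematical side and assembly from the time modules -/

set_option autoImplicit false
set_option linter.dupNamespace false

namespace Crest.Agent.R286.MathTop

open Crest.Agent.R286 Crest.Agent.Lib.PT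

/-- the structure theorem -/
theorem tClaim : Win.TClaim := by
  intro α _ _ R nu _ htr hinj hmono X N h
  exact Tst.T htr hinj hmono h

/-- the combinatorial theorem, level 12 -/
theorem mathClaim12 : MathClaim 12 := Win.mathClaim_of_T tClaim

/-- the structure theorem -/
theorem tAll : NodeR.TAll := by
  intro α _ _ R nu _ htr hinj hmono X N h
  exact Tst.T htr hinj hmono h

/-- the combinatorial theorem, level 13 -/
theorem mathClaim13 : MathClaim 13 := NodeR.mathClaim tAll

theorem algoCorrect13 : AlgoCorrect 13 := PureTop.algoCorrect mathClaim13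

/-- S0431 from the main loop -/
theorem s0431_of_main (hm : MainTime) :
    ∃ f : List Bool → List Bool,
      (∃ C : ℕ, Crest.DTime.TimeBound f (fun L => C * (L + 2) ^ 150020 + C)) ∧
      ∀ (n : ℕ) (E : Fin n → Fin n → Bool), 1 ≤ n → Crest.Sched3.Acyclic E →
        ∃ τ : Fin n → ℕ, f (Crest.Sched3.precCode n E) = Crest.Enc.listCode (List.ofFn τ) ∧
          Crest.Sched3.IsSchedule E τ ∧
          ∀ τ' : Fin n → ℕ, Crest.Sched3.IsSchedule E τ' →
            Finset.univ.sup τ ≤ Finset.univ.sup τ' :=
  s0431_of le_rfl (tf_algo TimeParse.parseTime TimeParse.parseSize TimeFam.famTime TimeFam.famSize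
    TSearch.searchTime hm TimeOut.outTime)
    algoCorrect13

end Crest.Agent.R286.MathTop
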