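import Mathlib

/-!
Row 286, packing side: packings of finite posets into slots of `m` jobs, cuts, restriction,
concatenation.  `R` is an explicit strict order so that duality is free.
-/

set_option autoImplicit false
set_option linter.unusedSectionVars false

namespace Crest.Agent.R286.Pack

variable {P : Type*} [DecidableEq P]

/-- `σ` packs the finite set `Y` into the slots `0, …, T-1`, `m` jobs per slot, respecting `R`. -/
structure IsPack (m : ℕ) (R : P → P → Prop) (Y : Finset P) (T : ℕ) (σ : P → ℕ) : Prop where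
  lt : ∀ z ∈ Y, σ z < T
  card : ∀ t < T, (Y.filter (fun z => σ z = t)).card = m
  mono : ∀ x ∈ Y, ∀ y ∈ Y, R x y → σ x < σ y

/-- jobs of `Y` executed before cut `t`. -/
def cut (Y : Finset P) (σ : P → ℕ) (t : ℕ) : Finset P := Y.filter (fun z => σ z < t)

/-- jobs of `Y` executed after cut `t`. -/
def rest (Y : Finset P) (σ : P → ℕ) (t : ℕ) : Finset P := Y.filter (fun z => t ≤ σ z)

omit [DecidableEq P] in
@[simp] theorem mem_cut {Y : Finset P} {σ : P → ℕ} {t : ℕ} {z : P} :
    z ∈ cut Y σ t ↔ z ∈ Y ∧ σ z < t := by simp [cut]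

omit [DecidableEq P] in
@[simp] theorem mem_rest {Y : Finset P} {σ : P → ℕ} {t : ℕ} {z : P} :
    z ∈ rest Y σ t ↔ z ∈ Y ∧ t ≤ σ z := by simp [rest]

omit [DecidableEq P] in
theorem cut_mono {Y : Finset P} {σ : P → ℕ} {s t : ℕ} (h : s ≤ t) : cut Y σ s ⊆ cut Y σ t := by
  intro z hz; simp only [mem_cut] at *; exact ⟨hz.1, lt_of_lt_of_le hz.2 h⟩

omit [DecidableEq P] in
theorem cut_zero (Y : Finset P) (σ : P → ℕ) : cut Y σ 0 = ∅ := by
  ext z; simp

theorem cut_subset (Y : Finset P) (σ : P → ℕ) (t : ℕ) : cut Y σ t ⊆ Y := by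
  intro z hz; exact (mem_cut.1 hz).1

variable {m : ℕ} {R : P → P → Prop} {Y : Finset P} {T : ℕ} {σ : P → ℕ}

theorem IsPack.cut_top (h : IsPack m R Y T σ) {t : ℕ} (ht : T ≤ t) : cut Y σ t = Y := by
  ext z; simp only [mem_cut, and_iff_left_iff_imp]; intro hz; exact lt_of_lt_of_le (h.lt z hz) ht

/-- restriction of a packing to a left piece. -/
theorem IsPack.cut (h : IsPack m R Y T σ) {t : ℕ} (ht : t ≤ T) : IsPack m R (cut Y σ t) t σ where
  lt := fun z hz => (mem_cut.1 hz).2
  card := by
    intro s hs
    rw [← h.card s (lt_of_lt_of_le hs ht)]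
    congr 1
    ext z; simp only [Finset.mem_filter, mem_cut]
    constructor
    · rintro ⟨⟨h1, -⟩, h3⟩; exact ⟨h1, h3⟩
    · rintro ⟨h1, h3⟩; exact ⟨⟨h1, by omega⟩, h3⟩
  mono := fun x hx y hy hxy => h.mono x (mem_cut.1 hx).1 y (mem_cut.1 hy).1 hxy

/-- restriction of a packing to a right piece. -/
theorem IsPack.rest (h : IsPack m R Y T σ) (t : ℕ) :
    IsPack m R (rest Y σ t) (T - t) (fun z => σ z - t) where
  lt := by
    intro z hz
    have h1 := h.lt z (mem_rest.1 hz).1
    have h2 := (mem_rest.1 hz).2
    show σ z - t < T - t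
    omega
  card := by
    intro s hs
    have := h.card (s + t) (by omega)
    rw [← this]
    congr 1
    ext z; simp only [Finset.mem_filter, mem_rest]
    constructor
    · rintro ⟨⟨h1, h2⟩, h3⟩; exact ⟨h1, by omega⟩
    · rintro ⟨h1, h3⟩; exact ⟨⟨h1, by omega⟩, by omega⟩
  mono := by
    intro x hx y hy hxy
    have h1 := h.mono x (mem_rest.1 hx).1 y (mem_rest.1 hy).1 hxy
    have h2 := (mem_rest.1 hx).2
    have h3 := (mem_rest.1 hy).2
    show σ x - t < σ y - t
    omega

/-- concatenation of packings. -/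
theorem IsPack.append {X Z : Finset P} {a b : ℕ} {f g : P → ℕ} (hX : IsPack m R X a f)
    (hZ : IsPack m R Z b g) (hd : Disjoint X Z) (hR : ∀ z ∈ Z, ∀ x ∈ X, ¬ R z x) :
    IsPack m R (X ∪ Z) (a + b) (fun z => if z ∈ X then f z else a + g z) where
  lt := by
    intro z hz
    rcases Finset.mem_union.1 hz with h | h
    · have := hX.lt z h
      simp only [h, if_true]; omega
    · have h' : z ∉ X := fun h'' => Finset.disjoint_left.1 hd h'' h
      have := hZ.lt z h
      simp only [h', if_false]; omega
  card := by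
    intro t ht
    by_cases hta : t < a
    · rw [← hX.card t hta]
      congr 1
      ext z; simp only [Finset.mem_filter, Finset.mem_union]
      constructor
      · rintro ⟨h1, h2⟩
        by_cases hz : z ∈ X
        · exact ⟨hz, by simpa [hz] using h2⟩
        · simp only [hz, if_false] at h2; omega
      · rintro ⟨h1, h2⟩; exact ⟨Or.inl h1, by simpa [h1] using h2⟩
    · rw [← hZ.card (t - a) (by omega)]
      congr 1
      ext z; simp only [Finset.mem_filter, Finset.mem_union]
      constructor
      · rintro ⟨h1, h2⟩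
        by_cases hz : z ∈ X
        · have := hX.lt z hz
          simp only [hz, if_true] at h2; omega
        · simp only [hz, if_false] at h2
          exact ⟨h1.resolve_left hz, by omega⟩
      · rintro ⟨h1, h2⟩
        have h' : z ∉ X := fun h'' => Finset.disjoint_left.1 hd h'' h1
        exact ⟨Or.inr h1, by simp only [h', if_false]; omega⟩
  mono := by
    intro x hx y hy hxy
    by_cases h1 : x ∈ X <;> by_cases h2 : y ∈ X
    · simpa [h1, h2] using hX.mono x h1 y h2 hxy
    · have := hX.lt x h1
      simp only [h1, h2, if_true, if_false]; omega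
    · exfalso
      have hx' := (Finset.mem_union.1 hx).resolve_left h1
      exact hR x hx' y h2 hxy
    · have hx' := (Finset.mem_union.1 hx).resolve_left h1
      have hy' := (Finset.mem_union.1 hy).resolve_left h2
      have := hZ.mono x hx' y hy' hxy
      simp only [h1, h2, if_false]; omega

/-- the dual packing (reversed order, reversed slots). -/
theorem IsPack.dual (h : IsPack m R Y T σ) :
    IsPack m (fun a b => R b a) Y T (fun z => T - 1 - σ z) where
  lt := by
    intro z hz; have := h.lt z hz
    show T - 1 - σ z < T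
    omega
  card := by
    intro t ht
    rw [← h.card (T - 1 - t) (by omega)]
    congr 1
    ext z; simp only [Finset.mem_filter]
    constructor
    · rintro ⟨h1, h2⟩; have := h.lt z h1; exact ⟨h1, by omega⟩
    · rintro ⟨h1, h2⟩; have := h.lt z h1; exact ⟨h1, by omega⟩
  mono := by
    intro x hx y hy hxy
    have h1 := h.mono y hy x hx hxy
    have h2 := h.lt x hx
    show T - 1 - σ x < T - 1 - σ y
    omega

theorem IsPack.congr {τ : P → ℕ} (h : IsPack m R Y T σ) (he : ∀ z ∈ Y, τ z = σ z) :
    IsPack m R Y T τ where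
  lt := fun z hz => by rw [he z hz]; exact h.lt z hz
  card := by
    intro t ht
    rw [← h.card t ht]
    congr 1
    ext z; simp only [Finset.mem_filter]
    constructor
    · rintro ⟨h1, h2⟩; exact ⟨h1, by rw [← he z h1]; exact h2⟩
    · rintro ⟨h1, h2⟩; exact ⟨h1, by rw [he z h1]; exact h2⟩
  mono := fun x hx y hy hxy => by rw [he x hx, he y hy]; exact h.mono x hx y hy hxy

end Crest.Agent.R286.Pack
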