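import Crest.Agent.R286.PackBasic

/-!
Row 286: the left chain lemma with an arbitrary set `M` of permitted hands, the right chain lemma
by duality, and the two-sided exchange.
-/

set_option autoImplicit false
set_option linter.unusedSectionVars false

namespace Crest.Agent.R286.Pack

variable {P : Type*} [DecidableEq P]
variable {m : ℕ} {R : P → P → Prop}

/-- `s` blocks every left move (through permitted hands `M`) of `x` at the top cut of `D`. -/
def LBlock (R : P → P → Prop) (M : P → Prop) (D : Finset P) (σ : P → ℕ) (x : P) (s : ℕ) : Prop :=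
  ∀ h, (h = x ∨ (h ∈ D ∧ M h ∧ s ≤ σ h)) → ∃ z ∈ D, R z h ∧ s ≤ σ z + 1

/-- result of a left chain inserting `x` and removing `y`. -/
structure LMove (m : ℕ) (R : P → P → Prop) (M : P → Prop) (D : Finset P) (T : ℕ) (σ : P → ℕ)
    (x y : P) (σ' : P → ℕ) : Prop where
  pack : IsPack m R (insert x (D.erase y)) T σ'
  le : ∀ z ∈ D, z ≠ y → σ' z ≤ σ z
  fix : ∀ z ∈ D, z ≠ y → ¬ M z → σ' z = σ z
  cut_le : ∀ c ≤ σ y, cut (insert x (D.erase y)) σ' c = cut D σ c
  cut_gt : ∀ c, σ y < c → c ≤ T → ∃ u, (u = x ∨ (u ∈ D ∧ u ≠ y ∧ M u ∧ c ≤ σ u)) ∧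
    cut (insert x (D.erase y)) σ' c = insert u ((cut D σ c).erase y)

/-- placing `x` directly in the slot of `y`. -/
theorem LMove.direct {M : P → Prop} {D : Finset P} {T : ℕ} {σ : P → ℕ}
    (h : IsPack m R D T σ) {x y : P} (hx : x ∉ D) (hy : y ∈ D) (hymax : ∀ z ∈ D, ¬ R y z)
    (hxs : ∀ z ∈ D, ¬ R x z) (hI : ¬ R x x) (hyx : ¬ R y x)
    (hj : ∀ z ∈ D, R z x → σ z < σ y) :
    LMove m R M D T σ x y (fun z => if z = x then σ y else σ z) where
  pack :=
    { lt := by
        intro z hz
        by_cases hzx : z = x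
        · simp only [hzx, if_true]; exact h.lt y hy
        · simp only [hzx, if_false]
          rcases Finset.mem_insert.1 hz with h1 | h1
          · exact absurd h1 hzx
          · exact h.lt z (Finset.mem_of_mem_erase h1)
      card := by
        intro t ht
        rw [← h.card t ht]
        by_cases hty : σ y = t
        · have e1 : (insert x (D.erase y)).filter (fun z => (if z = x then σ y else σ z) = t)
              = insert x ((D.filter (fun z => σ z = t)).erase y) := by
            ext z
            simp only [Finset.mem_filter, Finset.mem_insert, Finset.mem_erase]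
            constructor
            · rintro ⟨h1, h2⟩
              by_cases hzx : z = x
              · exact Or.inl hzx
              · rw [if_neg hzx] at h2
                rcases h1 with h1 | h1
                · exact absurd h1 hzx
                · exact Or.inr ⟨h1.1, h1.2, h2⟩
            · rintro (h1 | ⟨h1, h2, h3⟩)
              · exact ⟨Or.inl h1, by rw [if_pos h1]; exact hty⟩
              · have : z ≠ x := fun e => hx (e ▸ h2)
                exact ⟨Or.inr ⟨h1, h2⟩, by rw [if_neg this]; exact h3⟩
          rw [e1, Finset.card_insert_of_notMem, Finset.card_erase_of_mem]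
          · have : 0 < (D.filter (fun z => σ z = t)).card :=
              Finset.card_pos.2 ⟨y, Finset.mem_filter.2 ⟨hy, hty⟩⟩
            omega
          · exact Finset.mem_filter.2 ⟨hy, hty⟩
          · intro h1
            exact hx (Finset.mem_filter.1 (Finset.mem_of_mem_erase h1)).1
        · congr 1
          ext z
          simp only [Finset.mem_filter, Finset.mem_insert, Finset.mem_erase]
          constructor
          · rintro ⟨h1, h2⟩
            by_cases hzx : z = x
            · rw [if_pos hzx] at h2; exact absurd h2 hty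
            · rw [if_neg hzx] at h2
              rcases h1 with h1 | h1
              · exact absurd h1 hzx
              · exact ⟨h1.2, h2⟩
          · rintro ⟨h2, h3⟩
            have h4 : z ≠ x := fun e => hx (e ▸ h2)
            have h5 : z ≠ y := fun e => hty (e ▸ h3)
            exact ⟨Or.inr ⟨h5, h2⟩, by rw [if_neg h4]; exact h3⟩
      mono := by
        intro a ha b hb hab
        have ha' : a = x ∨ (a ≠ y ∧ a ∈ D) := by simpa using ha
        have hb' : b = x ∨ (b ≠ y ∧ b ∈ D) := by simpa using hb
        rcases ha' with rfl | ⟨ha1, ha2⟩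
        · rcases hb' with rfl | ⟨hb1, hb2⟩
          · exact absurd hab hI
          · exact absurd hab (hxs b hb2)
        · have h4 : a ≠ x := fun e => hx (e ▸ ha2)
          rcases hb' with rfl | ⟨hb1, hb2⟩
          · simp only [h4, if_false, if_true]; exact hj a ha2 hab
          · have h5 : b ≠ x := fun e => hx (e ▸ hb2)
            simp only [h4, h5, if_false]; exact h.mono a ha2 b hb2 hab }
  le := by
    intro z hz hzy
    have h4 : z ≠ x := fun e => hx (e ▸ hz)
    simp [h4]
  fix := by
    intro z hz hzy _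
    have h4 : z ≠ x := fun e => hx (e ▸ hz)
    simp [h4]
  cut_le := by
    intro c hc
    ext z
    simp only [mem_cut, Finset.mem_insert, Finset.mem_erase]
    constructor
    · rintro ⟨h1, h2⟩
      by_cases hzx : z = x
      · rw [if_pos hzx] at h2; omega
      · rw [if_neg hzx] at h2
        rcases h1 with h1 | h1
        · exact absurd h1 hzx
        · exact ⟨h1.2, h2⟩
    · rintro ⟨h2, h3⟩
      have h4 : z ≠ x := fun e => hx (e ▸ h2)
      have h5 : z ≠ y := by rintro rfl; omega
      exact ⟨Or.inr ⟨h5, h2⟩, by rw [if_neg h4]; exact h3⟩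
  cut_gt := by
    intro c hc _
    refine ⟨x, Or.inl rfl, ?_⟩
    ext z
    simp only [mem_cut, Finset.mem_insert, Finset.mem_erase]
    constructor
    · rintro ⟨h1, h2⟩
      by_cases hzx : z = x
      · exact Or.inl hzx
      · rw [if_neg hzx] at h2
        rcases h1 with h1 | h1
        · exact absurd h1 hzx
        · exact Or.inr ⟨h1.1, h1.2, h2⟩
    · rintro (h1 | ⟨h1, h2, h3⟩)
      · exact ⟨Or.inl h1, by rw [if_pos h1]; exact hc⟩
      · have h4 : z ≠ x := fun e => hx (e ▸ h2)
        exact ⟨Or.inr ⟨h1, h2⟩, by rw [if_neg h4]; exact h3⟩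

/-- one more hand: `x` goes to the slot `j` of `g`, and `g` is moved by a chain below. -/
theorem LMove.step {M : P → Prop} {D : Finset P} {T : ℕ} {σ σ2 : P → ℕ}
    (h : IsPack m R D T σ) {x y g : P} (hx : x ∉ D) (hy : y ∈ D) (hg : g ∈ D) (hMg : M g)
    (hxs : ∀ z ∈ D, ¬ R x z) (hI : ¬ R x x)
    (hyg : σ y < σ g)
    (hj : ∀ z ∈ D, R z x → σ z < σ g)
    (h2 : LMove m R M (cut D σ (σ g)) (σ g) σ g y σ2) :
    LMove m R M D T σ x y
      (fun z => if z = x then σ g else if z ∈ insert g ((cut D σ (σ g)).erase y) then σ2 z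
        else σ z) := by
  set D1 : Finset P := insert g ((cut D σ (σ g)).erase y) with hD1
  have hgT : σ g < T := h.lt g hg
  have hxD1 : x ∉ D1 := by
    intro h1
    rcases Finset.mem_insert.1 h1 with h3 | h3
    · exact hx (h3 ▸ hg)
    · exact hx (mem_cut.1 (Finset.mem_of_mem_erase h3)).1
  have hD1D : ∀ z ∈ D1, z ∈ D ∧ z ≠ y := by
    intro z hz
    rcases Finset.mem_insert.1 hz with h3 | h3
    · subst h3; exact ⟨hg, by rintro rfl; omega⟩
    · exact ⟨(mem_cut.1 (Finset.mem_of_mem_erase h3)).1, Finset.ne_of_mem_erase h3⟩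
  have hmem : ∀ z ∈ D, z ≠ y → σ z < σ g → z ∈ D1 := by
    intro z hz hzy hlt
    exact Finset.mem_insert_of_mem (Finset.mem_erase.2 ⟨hzy, mem_cut.2 ⟨hz, hlt⟩⟩)
  have hnot : ∀ z ∈ D, z ≠ y → z ∉ D1 → σ g ≤ σ z := by
    intro z hz hzy hn
    by_contra hc
    exact hn (hmem z hz hzy (by omega))
  have hD1le : ∀ z ∈ D1, σ z ≤ σ g := by
    intro z hz
    rcases Finset.mem_insert.1 hz with h3 | h3
    · rw [h3]
    · exact (mem_cut.1 (Finset.mem_of_mem_erase h3)).2.le
  have hgD1 : g ∈ D1 := Finset.mem_insert_self _ _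
  have hD1ge : ∀ z ∈ D1, σ g ≤ σ z → z = g := by
    intro z hz hle
    rcases Finset.mem_insert.1 hz with h3 | h3
    · exact h3
    · have := (mem_cut.1 (Finset.mem_of_mem_erase h3)).2; omega
  have hlt2 : ∀ z ∈ D1, σ2 z < σ g := fun z hz => h2.pack.lt z hz
  refine ⟨⟨?_, ?_, ?_⟩, ?_, ?_, ?_, ?_⟩
  · intro z hz
    by_cases hzx : z = x
    · simp only [hzx, if_true]; exact hgT
    · simp only [hzx, if_false]
      by_cases hz1 : z ∈ D1
      · simp only [hz1, if_true]; have := hlt2 z hz1; omega
      · simp only [hz1, if_false]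
        rcases Finset.mem_insert.1 hz with h1 | h1
        · exact absurd h1 hzx
        · exact h.lt z (Finset.mem_of_mem_erase h1)
  · intro t ht
    rcases lt_trichotomy t (σ g) with htg | htg | htg
    · rw [← h2.pack.card t htg]
      congr 1
      ext z
      simp only [Finset.mem_filter]
      constructor
      · rintro ⟨h3, h4⟩
        by_cases hzx : z = x
        · rw [if_pos hzx] at h4; omega
        · rw [if_neg hzx] at h4
          have h3' : z ≠ y ∧ z ∈ D := by simpa [hzx] using h3
          by_cases hz1 : z ∈ D1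
          · rw [if_pos hz1] at h4; exact ⟨hz1, h4⟩
          · rw [if_neg hz1] at h4
            have := hnot z h3'.2 h3'.1 hz1; omega
      · rintro ⟨h3, h4⟩
        have h5 := hD1D z h3
        have h6 : z ≠ x := fun e => hx (e ▸ h5.1)
        refine ⟨Finset.mem_insert_of_mem (Finset.mem_erase.2 ⟨h5.2, h5.1⟩), ?_⟩
        rw [if_neg h6, if_pos h3]; exact h4
    · subst htg
      rw [← h.card (σ g) ht]
      have e1 : (insert x (D.erase y)).filter
          (fun z => (if z = x then σ g else if z ∈ D1 then σ2 z else σ z) = σ g)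
            = insert x ((D.filter (fun z => σ z = σ g)).erase g) := by
        ext z
        simp only [Finset.mem_filter, Finset.mem_insert, Finset.mem_erase]
        constructor
        · rintro ⟨h3, h4⟩
          by_cases hzx : z = x
          · exact Or.inl hzx
          · rw [if_neg hzx] at h4
            have h3' := h3.resolve_left hzx
            by_cases hz1 : z ∈ D1
            · rw [if_pos hz1] at h4; have := hlt2 z hz1; omega
            · rw [if_neg hz1] at h4
              refine Or.inr ⟨?_, h3'.2, h4⟩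
              rintro rfl; exact hz1 hgD1
        · rintro (h3 | ⟨h3, h4, h5⟩)
          · exact ⟨Or.inl h3, by rw [if_pos h3]⟩
          · have h6 : z ≠ x := fun e => hx (e ▸ h4)
            have h7 : z ∉ D1 := by
              intro h8
              rcases Finset.mem_insert.1 h8 with h9 | h9
              · exact h3 h9
              · have := (mem_cut.1 (Finset.mem_of_mem_erase h9)).2; omega
            have h8 : z ≠ y := by rintro rfl; omega
            exact ⟨Or.inr ⟨h8, h4⟩, by rw [if_neg h6, if_neg h7]; exact h5⟩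
      rw [e1, Finset.card_insert_of_notMem, Finset.card_erase_of_mem]
      · have : 0 < (D.filter (fun z => σ z = σ g)).card :=
          Finset.card_pos.2 ⟨g, Finset.mem_filter.2 ⟨hg, rfl⟩⟩
        omega
      · exact Finset.mem_filter.2 ⟨hg, rfl⟩
      · intro h1
        exact hx (Finset.mem_filter.1 (Finset.mem_of_mem_erase h1)).1
    · rw [← h.card t ht]
      congr 1
      ext z
      simp only [Finset.mem_filter]
      constructor
      · rintro ⟨h3, h4⟩
        by_cases hzx : z = x
        · rw [if_pos hzx] at h4; omega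
        · rw [if_neg hzx] at h4
          have h3' : z ≠ y ∧ z ∈ D := by simpa [hzx] using h3
          by_cases hz1 : z ∈ D1
          · rw [if_pos hz1] at h4; have := hlt2 z hz1; omega
          · rw [if_neg hz1] at h4
            exact ⟨h3'.2, h4⟩
      · rintro ⟨h3, h4⟩
        have h6 : z ≠ x := fun e => hx (e ▸ h3)
        have h7 : z ∉ D1 := fun h8 => by have := hD1le z h8; omega
        have h8 : z ≠ y := by rintro rfl; omega
        refine ⟨Finset.mem_insert_of_mem (Finset.mem_erase.2 ⟨h8, h3⟩), ?_⟩
        rw [if_neg h6, if_neg h7]; exact h4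
  · intro a ha b hb hab
    have ha' : a = x ∨ (a ≠ y ∧ a ∈ D) := by simpa using ha
    have hb' : b = x ∨ (b ≠ y ∧ b ∈ D) := by simpa using hb
    rcases ha' with rfl | ⟨ha1, ha2⟩
    · rcases hb' with rfl | ⟨hb1, hb2⟩
      · exact absurd hab hI
      · exact absurd hab (hxs b hb2)
    · have h4 : a ≠ x := fun e => hx (e ▸ ha2)
      rcases hb' with rfl | ⟨hb1, hb2⟩
      · simp only [h4, if_false, if_true]
        have h5 := hj a ha2 hab
        have h6 : a ∈ D1 := hmem a ha2 ha1 h5
        simp only [h6, if_true]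
        exact hlt2 a h6
      · have h5 : b ≠ x := fun e => hx (e ▸ hb2)
        have h6 := h.mono a ha2 b hb2 hab
        simp only [h4, h5, if_false]
        by_cases ha3 : a ∈ D1 <;> by_cases hb3 : b ∈ D1
        · simp only [ha3, hb3, if_true]; exact h2.pack.mono a ha3 b hb3 hab
        · simp only [ha3, hb3, if_true, if_false]
          have := hlt2 a ha3
          have := hnot b hb2 hb1 hb3
          omega
        · exfalso
          have h7 := hnot a ha2 ha1 ha3
          have h8 := hD1le b hb3
          omega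
        · simp only [ha3, hb3, if_false]; exact h6
  · intro z hz hzy
    have h4 : z ≠ x := fun e => hx (e ▸ hz)
    simp only [h4, if_false]
    by_cases hz1 : z ∈ D1
    · simp only [hz1, if_true]
      rcases Finset.mem_insert.1 hz1 with h3 | h3
      · have := hlt2 z hz1; rw [h3] at this ⊢; omega
      · exact h2.le z (Finset.mem_of_mem_erase h3) hzy
    · simp [hz1]
  · intro z hz hzy hMz
    have h4 : z ≠ x := fun e => hx (e ▸ hz)
    simp only [h4, if_false]
    by_cases hz1 : z ∈ D1
    · simp only [hz1, if_true]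
      rcases Finset.mem_insert.1 hz1 with h3 | h3
      · exact absurd (h3 ▸ hMg) hMz
      · exact h2.fix z (Finset.mem_of_mem_erase h3) hzy hMz
    · simp [hz1]
  · intro c hc
    have h3 := h2.cut_le c hc
    rw [← hD1] at h3
    ext z
    have h3z := Finset.ext_iff.1 h3 z
    simp only [mem_cut, Finset.mem_insert, Finset.mem_erase] at h3z ⊢
    constructor
    · rintro ⟨h5, h6⟩
      by_cases hzx : z = x
      · rw [if_pos hzx] at h6; omega
      · rw [if_neg hzx] at h6
        have h5' := h5.resolve_left hzx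
        by_cases hz1 : z ∈ D1
        · rw [if_pos hz1] at h6
          have := h3z.1 ⟨hz1, h6⟩
          exact ⟨this.1.1, this.2⟩
        · rw [if_neg hz1] at h6; exact ⟨h5'.2, h6⟩
    · rintro ⟨h5, h6⟩
      have h7 : z ≠ x := fun e => hx (e ▸ h5)
      have h8 := h3z.2 ⟨⟨h5, by omega⟩, h6⟩
      refine ⟨Or.inr ⟨(hD1D z h8.1).2, h5⟩, ?_⟩
      rw [if_neg h7, if_pos h8.1]; exact h8.2
  · intro c hc hcT
    by_cases hcg : c ≤ σ g
    · obtain ⟨u, hu, h3⟩ := h2.cut_gt c hc hcg
      rw [← hD1] at h3
      refine ⟨u, Or.inr ?_, ?_⟩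
      · rcases hu with rfl | ⟨hu1, hu2, hu3, hu4⟩
        · exact ⟨hg, by rintro rfl; omega, hMg, hcg⟩
        · exact ⟨(mem_cut.1 hu1).1, hu2, hu3, hu4⟩
      · ext z
        have h3z := Finset.ext_iff.1 h3 z
        have huD : u ∈ D ∧ u ≠ y := by
          rcases hu with rfl | ⟨hu1, hu2, hu3, hu4⟩
          · exact ⟨hg, by rintro rfl; omega⟩
          · exact ⟨(mem_cut.1 hu1).1, hu2⟩
        have huD1 : u ∈ D1 ∧ σ2 u < c := by
          have h3u := Finset.ext_iff.1 h3 u
          have := h3u.2 (Finset.mem_insert_self _ _)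
          exact mem_cut.1 this
        simp only [mem_cut, Finset.mem_insert, Finset.mem_erase] at h3z ⊢
        constructor
        · rintro ⟨h5, h6⟩
          by_cases hzx : z = x
          · rw [if_pos hzx] at h6; omega
          · rw [if_neg hzx] at h6
            have h5' := h5.resolve_left hzx
            by_cases hz1 : z ∈ D1
            · rw [if_pos hz1] at h6
              rcases h3z.1 ⟨hz1, h6⟩ with h7 | h7
              · exact Or.inl h7
              · exact Or.inr ⟨h7.1, h7.2.1.1, h7.2.2⟩
            · rw [if_neg hz1] at h6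
              have := hnot z h5'.2 h5'.1 hz1
              omega
        · rintro (h5 | ⟨h5, h6, h7⟩)
          · subst h5
            have h7 : z ≠ x := fun e => hx (e ▸ huD.1)
            refine ⟨Or.inr ⟨huD.2, huD.1⟩, ?_⟩
            rw [if_neg h7, if_pos huD1.1]; exact huD1.2
          · have h7' : z ≠ x := fun e => hx (e ▸ h6)
            have h8 := h3z.2 (Or.inr ⟨h5, ⟨h6, by omega⟩, h7⟩)
            refine ⟨Or.inr ⟨h5, h6⟩, ?_⟩
            rw [if_neg h7', if_pos h8.1]; exact h8.2
    · refine ⟨x, Or.inl rfl, ?_⟩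
      ext z
      simp only [mem_cut, Finset.mem_insert, Finset.mem_erase]
      constructor
      · rintro ⟨h5, h6⟩
        by_cases hzx : z = x
        · exact Or.inl hzx
        · rw [if_neg hzx] at h6
          have h5' := h5.resolve_left hzx
          refine Or.inr ⟨h5'.1, h5'.2, ?_⟩
          by_cases hz1 : z ∈ D1
          · have := hD1le z hz1; omega
          · rw [if_neg hz1] at h6; exact h6
      · rintro (h5 | ⟨h5, h6, h7⟩)
        · exact ⟨Or.inl h5, by rw [if_pos h5]; omega⟩
        · have h7' : z ≠ x := fun e => hx (e ▸ h6)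
          refine ⟨Or.inr ⟨h5, h6⟩, ?_⟩
          rw [if_neg h7']
          by_cases hz1 : z ∈ D1
          · rw [if_pos hz1]; have := hlt2 z hz1; omega
          · rw [if_neg hz1]; exact h7

/-- LEFT CHAIN LEMMA. -/
theorem leftChain (hI : ∀ a, ¬ R a a) (M : P → Prop) :
    ∀ (T : ℕ) (D : Finset P) (σ : P → ℕ), IsPack m R D T σ → ∀ x, x ∉ D → (∀ z ∈ D, ¬ R x z) →
      ∀ y ∈ D, (∀ z ∈ D, ¬ R y z) → ¬ R y x →
      (∃ σ', LMove m R M D T σ x y σ') ∨ (∃ s, σ y < s ∧ s ≤ T ∧ LBlock R M D σ x s) := by
  intro T
  induction T using Nat.strong_induction_on with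
  | _ T ih =>
    intro D σ h x hx hxs y hy hymax hyx
    classical
    by_cases hd : ∀ z ∈ D, R z x → σ z < σ y
    · exact Or.inl ⟨_, LMove.direct h hx hy hymax hxs (hI x) hyx hd⟩
    push Not at hd
    obtain ⟨z0, hz0, hz0x, hz0y⟩ := hd
    -- the last predecessor of x
    have hne : (D.filter (fun z => R z x)).Nonempty := ⟨z0, Finset.mem_filter.2 ⟨hz0, hz0x⟩⟩
    obtain ⟨p, hp, hpmax⟩ := Finset.exists_max_image (D.filter (fun z => R z x)) σ hne
    have hp' := Finset.mem_filter.1 hp
    have hpy : p ≠ y := fun e => hyx (e ▸ hp'.2)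
    have hpy2 : σ y ≤ σ p := le_trans hz0y (hpmax z0 (Finset.mem_filter.2 ⟨hz0, hz0x⟩))
    have hpT := h.lt p hp'.1
    have hall : ∀ z ∈ D, R z x → σ z ≤ σ p := fun z hz hzx =>
      hpmax z (Finset.mem_filter.2 ⟨hz, hzx⟩)
    -- blocked hands
    by_cases hs : ∃ g ∈ D, M g ∧ σ p + 1 ≤ σ g ∧
        ∃ σ2, LMove m R M (cut D σ (σ g)) (σ g) σ g y σ2
    · obtain ⟨g, hg, hMg, hpg, σ2, h2⟩ := hs
      left
      refine ⟨_, LMove.step h hx hy hg hMg hxs (hI x) (by omega) ?_ h2⟩
      intro z hz hzx
      have := hall z hz hzx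
      omega
    · push Not at hs
      right
      have key : ∀ g ∈ D, M g → σ p + 1 ≤ σ g →
          ∃ s, σ y < s ∧ s ≤ σ g ∧ LBlock R M (cut D σ (σ g)) σ g s := by
        intro g hg hMg hpg
        have hgT := h.lt g hg
        rcases ih (σ g) hgT (cut D σ (σ g)) σ (h.cut hgT.le) g (by simp)
          (by intro z hz hgz
              have h1 := mem_cut.1 hz
              have := h.mono g hg z h1.1 hgz
              omega)
          y (mem_cut.2 ⟨hy, by omega⟩)
          (fun z hz => hymax z (mem_cut.1 hz).1) (hymax g hg) with h1 | h1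
        · obtain ⟨σ2, h2⟩ := h1
          exact absurd h2 (hs g hg hMg hpg σ2)
        · exact h1
      by_cases hex : ∃ s, ∃ g ∈ D, M g ∧ σ p + 1 ≤ σ g ∧ σ y < s ∧ s ≤ σ g ∧
          LBlock R M (cut D σ (σ g)) σ g s
      · have hmin : ∀ s, s < Nat.find hex → _ := fun s => Nat.find_min hex (m := s)
        have hspec := Nat.find_spec hex
        generalize Nat.find hex = s0 at hmin hspec
        obtain ⟨g0, hg0, hM0, hpg0, hys0, hs0g, hb0⟩ := hspec
        refine ⟨min (σ p + 1) s0, ?_, ?_, ?_⟩
        · exact lt_min (by omega) hys0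
        · exact le_trans (min_le_left _ _) hpT
        · intro k hk
          rcases hk with rfl | ⟨hk1, hk2, hk3⟩
          · exact ⟨p, hp'.1, hp'.2, min_le_left _ _⟩
          · by_cases hkp : σ p + 1 ≤ σ k
            · obtain ⟨s, hs1, hs2, hs3⟩ := key k hk1 hk2 hkp
              have hle : s0 ≤ s := by
                by_contra hc
                push Not at hc
                exact hmin s hc ⟨k, hk1, hk2, hkp, hs1, hs2, hs3⟩
              obtain ⟨z, hz, hzk, hsz⟩ := hs3 k (Or.inl rfl)
              refine ⟨z, (mem_cut.1 hz).1, hzk, ?_⟩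
              exact le_trans (min_le_right _ _) (le_trans hle hsz)
            · have hs0k : s0 ≤ σ k := by
                rcases le_total s0 (σ p + 1) with h5 | h5
                · rwa [min_eq_right h5] at hk3
                · rw [min_eq_left h5] at hk3; omega
              obtain ⟨z, hz, hzk, hsz⟩ := hb0 k
                (Or.inr ⟨mem_cut.2 ⟨hk1, by omega⟩, hk2, hs0k⟩)
              exact ⟨z, (mem_cut.1 hz).1, hzk, le_trans (min_le_right _ _) hsz⟩
      · refine ⟨σ p + 1, by omega, hpT, ?_⟩
        intro k hk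
        rcases hk with rfl | ⟨hk1, hk2, hk3⟩
        · exact ⟨p, hp'.1, hp'.2, le_refl _⟩
        · exfalso
          obtain ⟨s, hs1, hs2, hs3⟩ := key k hk1 hk2 hk3
          exact hex ⟨s, k, hk1, hk2, hk3, hs1, hs2, hs3⟩

end Crest.Agent.R286.Pack
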