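import Crest.Agent.R286.PackChain

/-!
Row 286: right chain lemma (dual of the left chain lemma) and the two-sided exchange.
-/

set_option autoImplicit false
set_option linter.unusedSectionVars false

namespace Crest.Agent.R286.Pack

variable {P : Type*} [DecidableEq P]
variable {m : ℕ} {R : P → P → Prop}

/-- result of a right chain inserting `y` and removing `x`. -/
structure RMove (m : ℕ) (R : P → P → Prop) (M : P → Prop) (D : Finset P) (T : ℕ) (σ : P → ℕ)
    (y x : P) (σ' : P → ℕ) : Prop where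
  pack : IsPack m R (insert y (D.erase x)) T σ'
  ge : ∀ z ∈ D, z ≠ x → σ z ≤ σ' z
  fix : ∀ z ∈ D, z ≠ x → ¬ M z → σ' z = σ z
  rest_gt : ∀ c, σ x < c → rest (insert y (D.erase x)) σ' c = rest D σ c
  rest_le : ∀ c ≤ σ x, ∃ w, (w = y ∨ (w ∈ D ∧ w ≠ x ∧ M w ∧ σ w < c)) ∧
    rest (insert y (D.erase x)) σ' c = insert w ((rest D σ c).erase x)

/-- RIGHT CHAIN LEMMA. -/
theorem rightChain (hI : ∀ a, ¬ R a a) (M : P → Prop) (T : ℕ) (D : Finset P) (σ : P → ℕ)
    (h : IsPack m R D T σ) (y : P) (hy : y ∉ D) (hys : ∀ z ∈ D, ¬ R z y)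
    (x : P) (hx : x ∈ D) (hxmin : ∀ z ∈ D, ¬ R z x) (hyx : ¬ R y x) :
    (∃ σ', RMove m R M D T σ y x σ') ∨
      (∃ e, e ≤ σ x ∧ ∀ k, (k = y ∨ (k ∈ D ∧ M k ∧ σ k < e)) → ∃ z ∈ D, R k z ∧ σ z ≤ e) := by
  have hxT := h.lt x hx
  rcases leftChain (R := fun a b => R b a) (m := m) hI M T D _ h.dual y hy hys x hx hxmin hyx
    with ⟨σ', h1⟩ | ⟨s, hs1, hs2, hs3⟩
  · left
    refine ⟨fun z => T - 1 - σ' z, ?_, ?_, ?_, ?_, ?_⟩
    · exact h1.pack.dual
    · intro z hz hzx
      have := h1.le z hz hzx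
      have h3 := h.lt z hz
      (try simp only at this ⊢)
      omega
    · intro z hz hzx hM
      have := h1.fix z hz hzx hM
      have h3 := h.lt z hz
      (try simp only at this ⊢)
      omega
    · intro c hc
      by_cases hcT : T < c
      · ext z
        simp only [mem_rest]
        constructor
        · rintro ⟨h5, h6⟩; omega
        · rintro ⟨h5, h6⟩; have := h.lt z h5; omega
      have h3 := h1.cut_le (T - c) (by (try simp only); omega)
      ext z
      have h3z := Finset.ext_iff.1 h3 z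
      simp only [mem_cut, mem_rest] at h3z ⊢
      constructor
      · rintro ⟨h5, h6⟩
        have h7 := h1.pack.lt z h5
        have h8 := h3z.1 ⟨h5, by omega⟩
        have h9 := h.lt z h8.1
        exact ⟨h8.1, by omega⟩
      · rintro ⟨h5, h6⟩
        have h9 := h.lt z h5
        have h8 := h3z.2 ⟨h5, by omega⟩
        have h7 := h1.pack.lt z h8.1
        exact ⟨h8.1, by omega⟩
    · intro c hc
      obtain ⟨w, hw, h3⟩ := h1.cut_gt (T - c) (by (try simp only); omega) (by omega)
      refine ⟨w, ?_, ?_⟩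
      · rcases hw with hw | ⟨hw1, hw2, hw3, hw4⟩
        · exact Or.inl hw
        · have := h.lt w hw1
          exact Or.inr ⟨hw1, hw2, hw3, by (try simp only at hw4); omega⟩
      · ext z
        have h3z := Finset.ext_iff.1 h3 z
        simp only [mem_cut, mem_rest] at h3z ⊢
        constructor
        · rintro ⟨h5, h6⟩
          have h7 := h1.pack.lt z h5
          have h8 := h3z.1 ⟨h5, by omega⟩
          rcases Finset.mem_insert.1 h8 with h8 | h8
          · exact Finset.mem_insert.2 (Or.inl h8)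
          · have h10 := mem_cut.1 (Finset.mem_of_mem_erase h8)
            have h11 := Finset.ne_of_mem_erase h8
            have h9 := h.lt z h10.1
            exact Finset.mem_insert.2 (Or.inr (Finset.mem_erase.2 ⟨h11, mem_rest.2
              ⟨h10.1, by have := h10.2; (try simp only at this); omega⟩⟩))
        · intro h5
          rcases Finset.mem_insert.1 h5 with h5 | h5
          · have h8 := h3z.2 (Finset.mem_insert.2 (Or.inl h5))
            have h7 := h1.pack.lt z h8.1
            exact ⟨h8.1, by omega⟩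
          · have h10 := mem_rest.1 (Finset.mem_of_mem_erase h5)
            have h11 := Finset.ne_of_mem_erase h5
            have h9 := h.lt z h10.1
            have h8 := h3z.2 (Finset.mem_insert.2 (Or.inr (Finset.mem_erase.2 ⟨h11, mem_cut.2
              ⟨h10.1, by (try simp only); omega⟩⟩)))
            have h7 := h1.pack.lt z h8.1
            exact ⟨h8.1, by omega⟩
  · right
    (try simp only at hs1)
    refine ⟨T - s, by omega, ?_⟩
    intro k hk
    have hk' : k = y ∨ (k ∈ D ∧ M k ∧ s ≤ T - 1 - σ k) := by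
      rcases hk with hk | ⟨h1, h2, h3⟩
      · exact Or.inl hk
      · exact Or.inr ⟨h1, h2, by omega⟩
    obtain ⟨z, hz, hz1, hz2⟩ := hs3 k hk'
    have := h.lt z hz
    simp only at hz2
    exact ⟨z, hz, hz1, by omega⟩

/-- result of a two-sided exchange at cut `t`: `x` enters `D_t`, `y` leaves it. -/
structure Exch (m : ℕ) (R : P → P → Prop) (ML MR : P → Prop) (Y : Finset P) (T : ℕ)
    (σ : P → ℕ) (t : ℕ) (x y : P) (σ' : P → ℕ) : Prop where
  pack : IsPack m R Y T σ'
  left : ∀ z ∈ Y, z ≠ y → σ z < t → σ' z ≤ σ z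
  left_fix : ∀ z ∈ Y, z ≠ y → σ z < t → ¬ ML z → σ' z = σ z
  right : ∀ z ∈ Y, z ≠ x → t ≤ σ z → σ z ≤ σ' z
  right_fix : ∀ z ∈ Y, z ≠ x → t ≤ σ z → ¬ MR z → σ' z = σ z
  x_lt : σ' x < t
  y_ge : t ≤ σ' y
  cut_le : ∀ c ≤ σ y, cut Y σ' c = cut Y σ c
  cut_mid1 : ∀ c, σ y < c → c ≤ t →
    ∃ u, (u = x ∨ (u ∈ Y ∧ u ≠ y ∧ ML u ∧ c ≤ σ u ∧ σ u < t)) ∧
      cut Y σ' c = insert u ((cut Y σ c).erase y)
  cut_t : cut Y σ' t = insert x ((cut Y σ t).erase y)
  cut_mid2 : ∀ c, t ≤ c → c ≤ σ x →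
    ∃ w, (w = y ∨ (w ∈ Y ∧ w ≠ x ∧ MR w ∧ t ≤ σ w ∧ σ w < c)) ∧
      cut Y σ' c = insert x ((cut Y σ c).erase w)
  cut_gt : ∀ c, σ x < c → cut Y σ' c = cut Y σ c

theorem Exch.of_moves {ML MR : P → Prop} {Y : Finset P} {T : ℕ} {σ : P → ℕ}
    (h : IsPack m R Y T σ) {t : ℕ} {x y : P} (hx : x ∈ Y) (hxt : t ≤ σ x) (hy : y ∈ Y)
    (hyt : σ y < t) (hxmin : ∀ z ∈ Y, t ≤ σ z → ¬ R z x) (hymax : ∀ z ∈ Y, σ z < t → ¬ R y z)
    (hyx : ¬ R y x) {σL σR : P → ℕ}
    (hL : LMove m R ML (cut Y σ t) t σ x y σL)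
    (hR : RMove m R MR (rest Y σ t) (T - t) (fun z => σ z - t) y x σR) :
    Exch m R ML MR Y T σ t x y
      (fun z => if z ∈ insert x ((cut Y σ t).erase y) then σL z else t + σR z) := by
  have hxT := h.lt x hx
  have hne : x ≠ y := by rintro rfl; omega
  set X : Finset P := insert x ((cut Y σ t).erase y) with hX
  set Z : Finset P := insert y ((rest Y σ t).erase x) with hZ
  have hdis : Disjoint X Z := by
    rw [Finset.disjoint_left]
    intro z hzX hzZ
    rcases Finset.mem_insert.1 hzX with h1 | h1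
    · rcases Finset.mem_insert.1 hzZ with h2 | h2
      · exact hne (h1 ▸ h2)
      · exact Finset.ne_of_mem_erase h2 h1
    · have h3 := (mem_cut.1 (Finset.mem_of_mem_erase h1)).2
      rcases Finset.mem_insert.1 hzZ with h2 | h2
      · exact Finset.ne_of_mem_erase h1 h2
      · have := (mem_rest.1 (Finset.mem_of_mem_erase h2)).2
        omega
  have hXm : ∀ z, z ∈ X ↔ z = x ∨ (z ∈ Y ∧ z ≠ y ∧ σ z < t) := by
    intro z
    rw [hX, Finset.mem_insert, Finset.mem_erase, mem_cut]
    tauto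
  have hZm : ∀ z, z ∈ Z ↔ z = y ∨ (z ∈ Y ∧ z ≠ x ∧ t ≤ σ z) := by
    intro z
    rw [hZ, Finset.mem_insert, Finset.mem_erase, mem_rest]
    tauto
  have hun : X ∪ Z = Y := by
    ext z
    rw [Finset.mem_union, hXm, hZm]
    constructor
    · rintro ((rfl | h1) | (rfl | h1))
      · exact hx
      · exact h1.1
      · exact hy
      · exact h1.1
    · intro hz
      by_cases h1 : σ z < t
      · by_cases h2 : z = y
        · exact Or.inr (Or.inl h2)
        · exact Or.inl (Or.inr ⟨hz, h2, h1⟩)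
      · by_cases h2 : z = x
        · exact Or.inl (Or.inl h2)
        · exact Or.inr (Or.inr ⟨hz, h2, by omega⟩)
  have hcross : ∀ z ∈ Z, ∀ w ∈ X, ¬ R z w := by
    intro z hz w hw hzw
    rcases (hZm z).1 hz with rfl | ⟨h1, h2, h3⟩
    · rcases (hXm w).1 hw with rfl | ⟨h4, h5, h6⟩
      · exact hyx hzw
      · exact hymax w h4 h6 hzw
    · rcases (hXm w).1 hw with rfl | ⟨h4, h5, h6⟩
      · exact hxmin z h1 h3 hzw
      · have := h.mono z h1 w h4 hzw; omega
  have hpk := hL.pack.append hR.pack hdis hcross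
  have htT : t ≤ T := by omega
  rw [← hX, ← hZ, hun, show t + (T - t) = T by omega] at hpk
  have hyX : y ∉ X := by
    intro h1
    rcases (hXm y).1 h1 with h2 | ⟨h2, h3, h4⟩
    · exact hne h2.symm
    · exact h3 rfl
  have hxX : x ∈ X := (hXm x).2 (Or.inl rfl)
  have hLlt : ∀ z ∈ X, σL z < t := fun z hz => hL.pack.lt z hz
  refine ⟨hpk, ?_, ?_, ?_, ?_, ?_, ?_, ?_, ?_, ?_, ?_, ?_⟩
  · intro z hz hzy hzt
    have h1 : z ∈ X := (hXm z).2 (Or.inr ⟨hz, hzy, hzt⟩)
    simp only [h1, if_true]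
    exact hL.le z (mem_cut.2 ⟨hz, hzt⟩) hzy
  · intro z hz hzy hzt hM
    have h1 : z ∈ X := (hXm z).2 (Or.inr ⟨hz, hzy, hzt⟩)
    simp only [h1, if_true]
    exact hL.fix z (mem_cut.2 ⟨hz, hzt⟩) hzy hM
  · intro z hz hzx hzt
    have h1 : z ∉ X := by
      intro h1
      rcases (hXm z).1 h1 with h2 | ⟨h2, h3, h4⟩
      · exact hzx h2
      · omega
    simp only [h1, if_false]
    have := hR.ge z (mem_rest.2 ⟨hz, hzt⟩) hzx
    (try simp only at this)
    omega
  · intro z hz hzx hzt hM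
    have h1 : z ∉ X := by
      intro h1
      rcases (hXm z).1 h1 with h2 | ⟨h2, h3, h4⟩
      · exact hzx h2
      · omega
    simp only [h1, if_false]
    have := hR.fix z (mem_rest.2 ⟨hz, hzt⟩) hzx hM
    (try simp only at this)
    omega
  · simp only [hxX, if_true]
    exact hLlt x hxX
  · simp only [hyX, if_false]
    omega
  · intro c hc
    have h3 := hL.cut_le c hc
    rw [← hX] at h3
    ext z
    have h3z := Finset.ext_iff.1 h3 z
    simp only [mem_cut] at h3z ⊢
    constructor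
    · rintro ⟨h5, h6⟩
      by_cases hz1 : z ∈ X
      · rw [if_pos hz1] at h6
        have := h3z.1 ⟨hz1, h6⟩
        exact ⟨this.1.1, this.2⟩
      · rw [if_neg hz1] at h6; omega
    · rintro ⟨h5, h6⟩
      have := h3z.2 ⟨⟨h5, by omega⟩, h6⟩
      exact ⟨h5, by rw [if_pos this.1]; exact this.2⟩
  · intro c hc hct
    obtain ⟨u, hu, h3⟩ := hL.cut_gt c hc hct
    rw [← hX] at h3
    refine ⟨u, ?_, ?_⟩
    · rcases hu with hu | ⟨hu1, hu2, hu3, hu4⟩
      · exact Or.inl hu
      · exact Or.inr ⟨(mem_cut.1 hu1).1, hu2, hu3, hu4, (mem_cut.1 hu1).2⟩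
    · ext z
      have h3z := Finset.ext_iff.1 h3 z
      simp only [mem_cut, Finset.mem_insert, Finset.mem_erase] at h3z ⊢
      have huX : u ∈ X ∧ σL u < c := by
        have := (Finset.ext_iff.1 h3 u).2 (Finset.mem_insert_self _ _)
        exact mem_cut.1 this
      constructor
      · rintro ⟨h5, h6⟩
        by_cases hz1 : z ∈ X
        · rw [if_pos hz1] at h6
          rcases h3z.1 ⟨hz1, h6⟩ with h7 | h7
          · exact Or.inl h7
          · exact Or.inr ⟨h7.1, h7.2.1.1, h7.2.2⟩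
        · rw [if_neg hz1] at h6; omega
      · rintro (h5 | ⟨h5, h6, h7⟩)
        · subst h5
          refine ⟨?_, ?_⟩
          · have := Finset.mem_union_left Z huX.1
            rwa [hun] at this
          · rw [if_pos huX.1]; exact huX.2
        · have h8 := h3z.2 (Or.inr ⟨h5, ⟨h6, by omega⟩, h7⟩)
          exact ⟨h6, by rw [if_pos h8.1]; exact h8.2⟩
  · ext z
    simp only [mem_cut]
    rw [← hX]
    constructor
    · rintro ⟨h5, h6⟩
      by_cases hz1 : z ∈ X
      · exact hz1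
      · rw [if_neg hz1] at h6; omega
    · intro h5
      refine ⟨?_, ?_⟩
      · have := Finset.mem_union_left Z h5
        rwa [hun] at this
      · rw [if_pos h5]; exact hLlt z h5
  · intro c htc hcx
    obtain ⟨w, hw, h3⟩ := hR.rest_le (c - t) (by (try simp only); omega)
    rw [← hZ] at h3
    refine ⟨w, ?_, ?_⟩
    · rcases hw with hw | ⟨hw1, hw2, hw3, hw4⟩
      · exact Or.inl hw
      · have h9 := mem_rest.1 hw1
        exact Or.inr ⟨h9.1, hw2, hw3, h9.2, by (try simp only at hw4); omega⟩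
    · have hwne : w ≠ x := by
        rcases hw with hw | ⟨hw1, hw2, hw3, hw4⟩
        · rw [hw]; exact hne.symm
        · exact hw2
      have hwZ : w ∈ Z ∧ c - t ≤ σR w := by
        have := (Finset.ext_iff.1 h3 w).2 (Finset.mem_insert_self _ _)
        exact mem_rest.1 this
      ext z
      have h3z := Finset.ext_iff.1 h3 z
      simp only [mem_cut, mem_rest, Finset.mem_insert, Finset.mem_erase] at h3z ⊢
      constructor
      · rintro ⟨h5, h6⟩
        by_cases hzx : z = x
        · exact Or.inl hzx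
        · right
          by_cases hz1 : z ∈ X
          · have h10 := (hXm z).1 hz1
            have h11 := h10.resolve_left hzx
            refine ⟨?_, h5, by omega⟩
            rintro rfl
            exact Finset.disjoint_left.1 hdis hz1 hwZ.1
          · rw [if_neg hz1] at h6
            have hzZ : z ∈ Z := by
              have : z ∈ X ∪ Z := by rw [hun]; exact h5
              exact (Finset.mem_union.1 this).resolve_left hz1
            have h12 : ¬ (z = w ∨ z ≠ x ∧ (z ∈ Y ∧ t ≤ σ z) ∧ c - t ≤ σ z - t) := by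
              intro h13
              have := h3z.2 h13
              omega
            push Not at h12
            refine ⟨h12.1, h5, ?_⟩
            by_contra hc
            have := h12.2 hzx ⟨h5, by omega⟩
            omega
      · rintro (h5 | ⟨h5, h6, h7⟩)
        · subst h5
          refine ⟨hx, ?_⟩
          rw [if_pos hxX]; have := hLlt z hxX; omega
        · refine ⟨h6, ?_⟩
          by_cases hz1 : z ∈ X
          · rw [if_pos hz1]; have := hLlt z hz1; omega
          · rw [if_neg hz1]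
            have hzZ : z ∈ Z := by
              have : z ∈ X ∪ Z := by rw [hun]; exact h6
              exact (Finset.mem_union.1 this).resolve_left hz1
            by_contra hc
            have h8 := h3z.1 ⟨hzZ, by omega⟩
            rcases h8 with h8 | ⟨h8, ⟨h9, h10⟩, h11⟩
            · exact h5 h8
            · omega
  · intro c hc
    have h3 := hR.rest_gt (c - t) (by (try simp only); omega)
    rw [← hZ] at h3
    ext z
    have h3z := Finset.ext_iff.1 h3 z
    simp only [mem_cut, mem_rest] at h3z ⊢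
    constructor
    · rintro ⟨h5, h6⟩
      refine ⟨h5, ?_⟩
      by_cases hz1 : z ∈ X
      · rcases (hXm z).1 hz1 with h7 | ⟨h7, h8, h9⟩
        · rw [h7]; exact hc
        · omega
      · rw [if_neg hz1] at h6
        by_contra hcc
        have h8 := h3z.2 ⟨⟨h5, by omega⟩, by omega⟩
        omega
    · rintro ⟨h5, h6⟩
      refine ⟨h5, ?_⟩
      by_cases hz1 : z ∈ X
      · rw [if_pos hz1]; have := hLlt z hz1; omega
      · rw [if_neg hz1]
        have hzZ : z ∈ Z := by
          have : z ∈ X ∪ Z := by rw [hun]; exact h5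
          exact (Finset.mem_union.1 this).resolve_left hz1
        by_contra hcc
        have h8 := h3z.1 ⟨hzZ, by omega⟩
        omega

/-- TWO-SIDED EXCHANGE. -/
theorem exchange (hI : ∀ a, ¬ R a a) (ML MR : P → Prop) {Y : Finset P} {T : ℕ} {σ : P → ℕ}
    (h : IsPack m R Y T σ) {t : ℕ} {x y : P} (hx : x ∈ Y) (hxt : t ≤ σ x) (hy : y ∈ Y)
    (hyt : σ y < t) (hxmin : ∀ z ∈ Y, t ≤ σ z → ¬ R z x) (hymax : ∀ z ∈ Y, σ z < t → ¬ R y z)
    (hyx : ¬ R y x) :
    (∃ σ', Exch m R ML MR Y T σ t x y σ') ∨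
    (∃ s, σ y < s ∧ s ≤ t ∧ ∀ k, (k = x ∨ (k ∈ Y ∧ ML k ∧ s ≤ σ k ∧ σ k < t)) →
      ∃ z ∈ Y, σ z < t ∧ R z k ∧ s ≤ σ z + 1) ∨
    (∃ e, t ≤ e ∧ e ≤ σ x ∧ ∀ k, (k = y ∨ (k ∈ Y ∧ MR k ∧ t ≤ σ k ∧ σ k < e)) →
      ∃ z ∈ Y, t ≤ σ z ∧ R k z ∧ σ z ≤ e) := by
  have hxT := h.lt x hx
  have hcutx : x ∉ cut Y σ t := by intro h1; have := (mem_cut.1 h1).2; omega
  have hresty : y ∉ rest Y σ t := by intro h1; have := (mem_rest.1 h1).2; omega
  rcases leftChain hI ML t (cut Y σ t) σ (h.cut (by omega)) x hcutx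
    (by intro z hz hxz
        have h1 := mem_cut.1 hz
        have := h.mono x hx z h1.1 hxz; omega)
    y (mem_cut.2 ⟨hy, hyt⟩) (fun z hz => hymax z (mem_cut.1 hz).1 (mem_cut.1 hz).2) hyx
    with ⟨σL, hL⟩ | ⟨s, hs1, hs2, hs3⟩
  · rcases rightChain hI MR (T - t) (rest Y σ t) _ (h.rest t) y hresty
      (by intro z hz hzy
          have h1 := mem_rest.1 hz
          have := h.mono z h1.1 y hy hzy; omega)
      x (mem_rest.2 ⟨hx, hxt⟩) (fun z hz => hxmin z (mem_rest.1 hz).1 (mem_rest.1 hz).2) hyx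
      with ⟨σR, hR⟩ | ⟨e, he1, he2⟩
    · exact Or.inl ⟨_, Exch.of_moves h hx hxt hy hyt hxmin hymax hyx hL hR⟩
    · right; right
      (try simp only at he1)
      refine ⟨t + e, by omega, by omega, ?_⟩
      intro k hk
      obtain ⟨z, hz, hz1, hz2⟩ := he2 k (by
        rcases hk with hk | ⟨h1, h2, h3, h4⟩
        · exact Or.inl hk
        · exact Or.inr ⟨mem_rest.2 ⟨h1, h3⟩, h2, by omega⟩)
      have h5 := mem_rest.1 hz
      (try simp only at hz2)
      exact ⟨z, h5.1, h5.2, hz1, by omega⟩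
  · right; left
    refine ⟨s, hs1, hs2, ?_⟩
    intro k hk
    obtain ⟨z, hz, hz1, hz2⟩ := hs3 k (by
      rcases hk with hk | ⟨h1, h2, h3, h4⟩
      · exact Or.inl hk
      · exact Or.inr ⟨mem_cut.2 ⟨h1, h4⟩, h2, h3⟩)
    have h5 := mem_cut.1 hz
    exact ⟨z, h5.1, h5.2, hz1, hz2⟩

end Crest.Agent.R286.Pack
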