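import Crest.Agent.R286.TF

/-! # From `TF` bounds to `Crest.DTime.TimeBound` -/

set_option autoImplicit false
set_option linter.dupNamespace false

namespace Crest.Agent.R286

open Crest.Agent.Lib.PT

/-- A program with a step bound gives `TimeBound`. -/
theorem timeBound_of_exec {f : List Bool → List Bool} (c : Cmd) (t T : ℕ → ℕ)
    (h : ∀ x, ∃ n, n ≤ t x.length ∧ Exec c (init x) (init (f x)) n)
    (hT : ∀ n, t n + 1 ≤ T n) : Crest.DTime.TimeBound f T := by
  refine ⟨{ tm := Cmd.toTM c
            inputAlphabet := Equiv.refl _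
            outputAlphabet := Equiv.refl _
            time := fun n => t n + 1
            outputsFun := fun x => ?_ }, hT⟩
  have e1 : ∀ y : List Bool, (List.map (id : Bool → Bool) y) = y := fun y => List.map_id y
  have h1 : ∀ y z : List Bool, y = x → z = f x →
      (flip bind (Cmd.toTM c).step)^[(h x).choose + 1] (some (Turing.initList (Cmd.toTM c) y)) =
      some (Turing.haltList (Cmd.toTM c) z) := by
    rintro y z rfl rfl
    exact outputs_of_exec (h y).choose_spec.2
  exact
    { steps := (h x).choose + 1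
      evals_in_steps := h1 _ _ (e1 x) (e1 (f x))
      steps_le_m := Nat.add_le_add_right (h x).choose_spec.1 1 }

/-- the packaging used in `S0431` -/
theorem timeBound_of_TF {f : List Bool → List Bool} {d D : ℕ} (hd : d ≤ D)
    (h : TF d (fun x : Bits => (⟨f x.val⟩ : Bits))) :
    ∃ C : ℕ, Crest.DTime.TimeBound f (fun L => C * (L + 2) ^ D + C) := by
  obtain ⟨c, C, hc⟩ := h
  refine ⟨C + 1, timeBound_of_exec c (fun n => C * (n + 1) ^ d) _ (fun x => hc ⟨x⟩) fun n => ?_⟩
  have h1 : (n + 1) ^ d ≤ (n + 2) ^ D :=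
    (Nat.pow_le_pow_left (Nat.le_succ _) d).trans (Nat.pow_le_pow_right (by omega) hd)
  have h2 : C * (n + 1) ^ d ≤ (C + 1) * (n + 2) ^ D :=
    Nat.mul_le_mul (Nat.le_succ _) h1
  omega

end Crest.Agent.R286
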