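import Crest.Agent.R286.TFIter

/-! # Primitive programs: equality of codes, binary successor, raw bit operations -/

set_option autoImplicit false
set_option linter.dupNamespace false

namespace Crest.Agent.R286

open Function Crest.Agent.Lib.PT

variable {α β γ δ σ κ : Type} [PTCode α] [PTCode β] [PTCode γ] [PTCode δ] [PTCode σ] [PTCode κ]

/-! ### equality -/

/-- one comparison step on stacks 1, 2 with flag on 3 -/
def cmpBody : Cmd :=
  .ite 3
    (.ite 1 .skip
      (.ite 2 (.seq (.pop 1) (.push 3 true)) (.seq (.pop 1) (.pop 2))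
        (.seq (.pop 1) (.push 3 true)))
      (.ite 2 (.seq (.pop 1) (.push 3 true)) (.seq (.pop 1) (.push 3 true))
        (.seq (.pop 1) (.pop 2))))
    (.pop 1) (.pop 1)

theorem run_cmp (u v w : List Bool) (hw : w = [] ∨ w = [true]) :
    ∃ v' w', Run (.loop 1 cmpBody) (st4 [] u v w) (st4 [] [] v' w') (7 * u.length + 1) ∧
      v'.length ≤ v.length ∧ w'.length ≤ 1 ∧ ((v' = [] ∧ w' = []) ↔ (w = [] ∧ u = v)) := by
  induction u generalizing v w with
  | nil =>
    refine ⟨v, w, (Run.loop_nil rfl).of_eq rfl (by simp), le_rfl, ?_, ?_⟩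
    · rcases hw with rfl | rfl <;> simp
    · constructor
      · rintro ⟨rfl, rfl⟩; exact ⟨rfl, rfl⟩
      · rintro ⟨rfl, rfl⟩; exact ⟨rfl, rfl⟩
  | cons a u ih =>
    have step : ∀ (v1 w1 : List Bool), (w1 = [] ∨ w1 = [true]) → v1.length ≤ v.length →
        Run cmpBody (st4 [] (a :: u) v w) (st4 [] u v1 w1) 6 →
        ((w1 = [] ∧ u = v1) ↔ (w = [] ∧ a :: u = v)) →
        ∃ v' w', Run (.loop 1 cmpBody) (st4 [] (a :: u) v w) (st4 [] [] v' w')
          (7 * (a :: u).length + 1) ∧
          v'.length ≤ v.length ∧ w'.length ≤ 1 ∧ ((v' = [] ∧ w' = []) ↔ (w = [] ∧ a :: u = v)) := by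
      intro v1 w1 h1 h2 h3 h4
      obtain ⟨v', w', k1, k2, k3, k4⟩ := ih v1 w1 h1
      refine ⟨v', w', ?_, k2.trans h2, k3, k4.trans h4⟩
      refine (Run.loop_cons (k := 1) (by simp) h3 k1).mono ?_
      simp only [List.length_cons]; omega
    have p1 : ∀ (w1 : List Bool), Run (.pop 1) (st4 [] (a :: u) v w1) (st4 [] u v w1) 1 :=
      fun w1 => (run_pop 1 _).of_eq (by simp) le_rfl
    have p2 : ∀ (v1 w1 : List Bool), Run (.pop 2) (st4 [] u v1 w1) (st4 [] u v1.tail w1) 1 :=
      fun v1 w1 => (run_pop 2 _).of_eq (by simp) le_rfl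
    have p3 : ∀ (v1 : List Bool), Run (.push 3 true) (st4 [] u v1 []) (st4 [] u v1 [true]) 1 :=
      fun v1 => (run_push 3 true _).of_eq (by simp) le_rfl
    rcases hw with rfl | rfl
    · -- comparing
      rcases v with _ | ⟨b, v⟩
      · refine step [] [true] (Or.inr rfl) le_rfl ?_ (by simp)
        cases a
        · exact (Run.ite_nil (k := 3) rfl (Run.ite_false (k := 1) (l := u) rfl
            (Run.ite_nil (k := 2) rfl ((p1 _).seq (p3 _))))).mono (by omega)
        · exact (Run.ite_nil (k := 3) rfl (Run.ite_true (k := 1) (l := u) rfl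
            (Run.ite_nil (k := 2) rfl ((p1 _).seq (p3 _))))).mono (by omega)
      · cases a <;> cases b
        · refine step v [] (Or.inl rfl) (by simp) ?_ (by simp)
          exact (Run.ite_nil (k := 3) rfl (Run.ite_false (k := 1) (l := u) rfl
            (Run.ite_false (k := 2) (l := v) rfl ((p1 _).seq (p2 _ _))))).mono (by omega)
        · refine step (true :: v) [true] (Or.inr rfl) (by simp) ?_ (by simp)
          exact (Run.ite_nil (k := 3) rfl (Run.ite_false (k := 1) (l := u) rfl
            (Run.ite_true (k := 2) (l := v) rfl ((p1 _).seq (p3 _))))).mono (by omega)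
        · refine step (false :: v) [true] (Or.inr rfl) (by simp) ?_ (by simp)
          exact (Run.ite_nil (k := 3) rfl (Run.ite_true (k := 1) (l := u) rfl
            (Run.ite_false (k := 2) (l := v) rfl ((p1 _).seq (p3 _))))).mono (by omega)
        · refine step v [] (Or.inl rfl) (by simp) ?_ (by simp)
          exact (Run.ite_nil (k := 3) rfl (Run.ite_true (k := 1) (l := u) rfl
            (Run.ite_true (k := 2) (l := v) rfl ((p1 _).seq (p2 _ _))))).mono (by omega)
    · refine step v [true] (Or.inr rfl) le_rfl ?_ (by simp)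
      exact (Run.ite_true (k := 3) (l := []) rfl (p1 _)).mono (by omega)

/-- compare the two components -/
def eqCmd : Cmd :=
  .seq parse (.seq (mv 0 2) (.seq (.loop 1 cmpBody)
    (.seq (.ite 3 (.ite 2 (.push 0 true) (.push 0 false) (.push 0 false)) (.push 0 false)
      (.push 0 false)) (.seq (clear 2) (clear 3)))))

theorem run_eqCmd (z : List Bool) :
    Run eqCmd (init z) (init [decide (Lib.PT.fst z = Lib.PT.snd z)]) (40 * z.length + 40) := by
  have h1 := run_parse z
  have h2 : Run (mv 0 2) (st3 (Lib.PT.snd z) (Lib.PT.fst z).reverse [])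
      (st4 [] (Lib.PT.fst z).reverse (Lib.PT.snd z).reverse []) (4 * (Lib.PT.snd z).length + 1) :=
    (run_mv (by decide) _).of_eq (by
      funext j; rcases j with _ | _ | _ | _ | j <;> simp [st3, st4]) (by simp [st3])
  obtain ⟨v', w', h3, k1, k2, k3⟩ := run_cmp (Lib.PT.fst z).reverse (Lib.PT.snd z).reverse []
    (Or.inl rfl)
  have h4 : Run (.ite 3 (.ite 2 (.push 0 true) (.push 0 false) (.push 0 false)) (.push 0 false)
      (.push 0 false)) (st4 [] [] v' w') (st4 [decide (Lib.PT.fst z = Lib.PT.snd z)] [] v' w')
      3 := by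
    have e : (Lib.PT.fst z = Lib.PT.snd z) ↔ (v' = [] ∧ w' = []) := by
      rw [k3]
      constructor
      · intro h; exact ⟨rfl, by rw [h]⟩
      · rintro ⟨-, h⟩; exact List.reverse_injective h
    have pf : ∀ b, Run (.push 0 b) (st4 [] [] v' w') (st4 [b] [] v' w') 1 :=
      fun b => (run_push 0 b _).of_eq (by simp) le_rfl
    rcases w' with _ | ⟨b, w'⟩
    · rcases v' with _ | ⟨c, v'⟩
      · have : decide (Lib.PT.fst z = Lib.PT.snd z) = true := by simp [e]
        rw [this]
        exact (Run.ite_nil (k := 3) rfl (Run.ite_nil (k := 2) rfl (pf _))).mono (by omega)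
      · have : decide (Lib.PT.fst z = Lib.PT.snd z) = false := by simp [e]
        rw [this]
        cases c
        · exact (Run.ite_nil (k := 3) rfl (Run.ite_false (k := 2) (l := v') rfl (pf _))).mono
            (by omega)
        · exact (Run.ite_nil (k := 3) rfl (Run.ite_true (k := 2) (l := v') rfl (pf _))).mono
            (by omega)
    · have : decide (Lib.PT.fst z = Lib.PT.snd z) = false := by simp [e]
      rw [this]
      cases b
      · exact (Run.ite_false (k := 3) (l := w') rfl (pf _)).mono (by omega)
      · exact (Run.ite_true (k := 3) (l := w') rfl (pf _)).mono (by omega)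
  have h5 : Run (clear 2) (st4 [decide (Lib.PT.fst z = Lib.PT.snd z)] [] v' w')
      (st4 [decide (Lib.PT.fst z = Lib.PT.snd z)] [] [] w') (2 * v'.length + 1) :=
    (run_clear 2 _).of_eq (by simp) (by simp)
  have h6 : Run (clear 3) (st4 [decide (Lib.PT.fst z = Lib.PT.snd z)] [] [] w')
      (init [decide (Lib.PT.fst z = Lib.PT.snd z)]) (2 * w'.length + 1) :=
    (run_clear 3 _).of_eq (by simp [init_eq_st4]) (by simp)
  refine (h1.seq (h2.seq (h3.seq (h4.seq (h5.seq h6))))).mono ?_
  have l1 := length_fst z
  have l2 := length_snd z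
  simp only [List.length_reverse] at *
  omega

/-- equality of codes -/
def eqEnc (p : α × β) : Bool := decide (enc p.1 = enc p.2)

theorem TF.eqEnc : TF 1 (R286.eqEnc : α × β → Bool) :=
  TF.of_linear eqCmd 40 40 fun p => by
    have := run_eqCmd (enc p)
    simpa [sz, R286.eqEnc] using this

theorem sz_bool (b : Bool) : sz b = 1 := rfl

theorem GF.bool (f : α → Bool) : GF 0 f := ⟨1, fun a => by simp [sz_bool]⟩

/-! ### successor -/

/-- successor on binary codes -/
def succBits : List Bool → List Bool
  | [] => [true]
  | false :: l => true :: l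
  | true :: l => false :: succBits l

theorem succBits_bits (n : ℕ) : succBits n.bits = (n + 1).bits := by
  induction n using Nat.binaryRec' with
  | zero => rfl
  | bit b n h ih =>
    rw [Nat.bits_append_bit n b h]
    cases b with
    | false =>
      have e : Nat.bit false n + 1 = Nat.bit true n := by simp [Nat.bit_val]
      rw [e, Nat.bits_append_bit n true (fun _ => rfl)]
      rfl
    | true =>
      have e : Nat.bit true n + 1 = Nat.bit false (n + 1) := by simp [Nat.bit_val]; ring
      rw [e, Nat.bits_append_bit (n + 1) false (fun h => absurd h (Nat.succ_ne_zero n))]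
      simp [succBits, ih]

/-- binary successor program -/
def succCmd : Cmd :=
  .seq (.push 2 true) (.seq (.loop 2 (.ite 0 (.seq (.push 0 true) (.pop 2))
    (.seq (.pop 0) (.push 1 false)) (.seq (.pop 0) (.seq (.push 0 true) (.pop 2))))) (mv 1 0))

theorem run_succ_loop (x acc : List Bool) :
    ∃ y acc', Run (.loop 2 (.ite 0 (.seq (.push 0 true) (.pop 2))
      (.seq (.pop 0) (.push 1 false)) (.seq (.pop 0) (.seq (.push 0 true) (.pop 2)))))
      (st4 x acc [true] []) (st4 y acc' [] []) (5 * x.length + 6) ∧
      acc'.reverse ++ y = acc.reverse ++ succBits x ∧ acc'.length ≤ acc.length + x.length := by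
  induction x generalizing acc with
  | nil =>
    refine ⟨[true], acc, ?_, by simp [succBits], by simp⟩
    have h1 : Run (.ite 0 (.seq (.push 0 true) (.pop 2))
        (.seq (.pop 0) (.push 1 false)) (.seq (.pop 0) (.seq (.push 0 true) (.pop 2))))
        (st4 [] acc [true] []) (st4 [true] acc [] []) 3 := by
      refine Run.ite_nil (k := 0) (n := 2) rfl ?_
      exact ((run_push 0 true _).seq (run_pop 2 _)).of_eq (by simp) le_rfl
    exact (Run.loop_cons (k := 2) (by simp) h1 (Run.loop_nil rfl)).mono (by simp)
  | cons b x ih =>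
    cases b with
    | false =>
      refine ⟨true :: x, acc, ?_, by simp [succBits], by simp⟩
      have h1 : Run (.ite 0 (.seq (.push 0 true) (.pop 2))
          (.seq (.pop 0) (.push 1 false)) (.seq (.pop 0) (.seq (.push 0 true) (.pop 2))))
          (st4 (false :: x) acc [true] []) (st4 (true :: x) acc [] []) 4 := by
        refine Run.ite_false (k := 0) (n := 3) (l := x) rfl ?_
        exact ((run_pop 0 _).seq ((run_push 0 true _).seq (run_pop 2 _))).of_eq (by simp) le_rfl
      exact (Run.loop_cons (k := 2) (by simp) h1 (Run.loop_nil rfl)).mono (by simp)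
    | true =>
      obtain ⟨y, acc', k1, k2, k3⟩ := ih (false :: acc)
      refine ⟨y, acc', ?_, ?_, ?_⟩
      · have h1 : Run (.ite 0 (.seq (.push 0 true) (.pop 2))
            (.seq (.pop 0) (.push 1 false)) (.seq (.pop 0) (.seq (.push 0 true) (.pop 2))))
            (st4 (true :: x) acc [true] []) (st4 x (false :: acc) [true] []) 3 := by
          refine Run.ite_true (k := 0) (n := 2) (l := x) rfl ?_
          exact ((run_pop 0 _).seq (run_push 1 false _)).of_eq (by simp) le_rfl
        refine (Run.loop_cons (k := 2) (by simp) h1 k1).mono ?_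
        simp only [List.length_cons]; omega
      · rw [k2]; simp [succBits]
      · simp only [List.length_cons] at *; omega

theorem length_succBits (x : List Bool) : (succBits x).length ≤ x.length + 1 := by
  induction x with
  | nil => simp [succBits]
  | cons b x ih => cases b <;> simp [succBits]; omega

theorem run_succ (x : List Bool) :
    Run succCmd (init x) (init (succBits x)) (9 * x.length + 10) := by
  obtain ⟨y, acc', k1, k2, k3⟩ := run_succ_loop x []
  have h0 : Run (.push 2 true) (init x) (st4 x [] [true] []) 1 :=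
    (run_push 2 true _).of_eq (by simp [init_eq_st4]) le_rfl
  have h2 : Run (mv 1 0) (st4 y acc' [] []) (init (succBits x)) (4 * acc'.length + 1) := by
    refine (run_mv (by decide) _).of_eq ?_ (by simp)
    simp only [List.reverse_nil, List.nil_append] at k2
    rw [← k2]
    simp [init_eq_st4]
  refine (h0.seq (k1.seq h2)).mono ?_
  simp only [List.length_nil, zero_add] at k3
  omega

theorem TF.succ : TF 1 (fun n : ℕ => n + 1) :=
  TF.of_linear succCmd 9 10 fun n => by
    have := run_succ n.bits
    rw [succBits_bits] at this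
    exact this

theorem sz_succ (n : ℕ) : sz (n + 1) ≤ sz n + 1 := by
  have := length_succBits n.bits
  rw [succBits_bits] at this
  exact this

theorem GF.succ : GF 1 (fun n : ℕ => n + 1) := GF.of_linear 1 1 fun n => by
  have := sz_succ n; omega

/-! ### raw bits -/

/-- push a bit -/
def consB (b : Bool) (z : Bits) : Bits := ⟨b :: z.val⟩
/-- drop a bit -/
def tailB (z : Bits) : Bits := ⟨z.val.tail⟩

theorem TF.consB (b : Bool) : TF 0 (R286.consB b) :=
  ⟨.push 0 b, 1, fun z => by
    refine (run_push 0 b _).of_eq ?_ (by simp)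
    funext j; rcases j with _ | j <;> simp [init, R286.consB]⟩

theorem GF.consB (b : Bool) : GF 1 (R286.consB b) := GF.of_linear 1 1 fun z => by
  simp [sz, R286.consB]

theorem TF.tailB : TF 0 R286.tailB :=
  ⟨.pop 0, 1, fun z => by
    refine (run_pop 0 _).of_eq ?_ (by simp)
    funext j; rcases j with _ | j <;> simp [init, R286.tailB]⟩

theorem GF.tailB : GF 1 R286.tailB := GF.of_linear 1 0 fun z => by
  simp [sz, R286.tailB]

theorem TF.some : TF 0 (Option.some : α → Option α) :=
  ⟨.push 0 true, 1, fun z => by
    refine (run_push 0 true _).of_eq ?_ (by simp)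
    funext j; rcases j with _ | j <;> simp [init]⟩

theorem GF.some : GF 1 (Option.some : α → Option α) := GF.of_linear 1 1 fun z => by
  rw [sz_some]; omega

/-- raw bits as a typed list -/
def bitList (z : Bits) : List Bool := z.val

theorem enc_boolList (l : List Bool) :
    enc l = l.flatMap (fun b => [true, b, false]) := by
  induction l with
  | nil => rfl
  | cons b l ih => rw [enc_cons, ih]; simp [pair]

theorem TF.bitList : TF 1 R286.bitList := by
  refine TF.of_linear (.seq (mv 0 1) (mvMap 1 0 (fun b => [true, b, false]))) 100 100 fun z => ?_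
  have h1 : Run (mv 0 1) (init z.val) (st4 [] z.val.reverse [] []) (4 * z.val.length + 1) :=
    (run_mv (by decide) _).of_eq (by simp [init_eq_st4]) (by simp)
  have h2 := run_mvMap (a := 1) (b := 0) (by decide) (fun b => [true, b, false])
    (st4 [] z.val.reverse [] [])
  refine (h1.seq h2).of_eq ?_ ?_
  · rw [R286.bitList, enc_boolList]
    simp [init_eq_st4]
  · simp [sz]
    omega

theorem GF.bitList : GF 1 R286.bitList := by
  refine GF.of_linear 3 0 fun z => ?_
  have : ∀ l : List Bool, (enc l).length = 3 * l.length := by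
    intro l
    induction l with
    | nil => rfl
    | cons b l ih => simp [ih]; omega
  simp [sz, R286.bitList, this]

end Crest.Agent.R286
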