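import Crest.Agent.R286.PureSearch

/-!
# Row 286, pure side, P1/P2: completeness of the table search
-/

set_option autoImplicit false
set_option linter.dupNamespace false

namespace Crest.Agent.R286.Pure

open Crest.Agent.R286

open Classical in
/-- the sublist of `J` described by a set of positions -/
noncomputable def lst (J : List ℕ) (S : Set (Fin J.length)) : List ℕ :=
  ((List.finRange J.length).filter fun i => decide (i ∈ S)).map J.get

theorem map_get (J : List ℕ) : (List.finRange J.length).map J.get = J := by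
  rw [← List.ofFn_eq_map, List.ofFn_get]

theorem lst_eq_filter {J : List ℕ} {S : Set (Fin J.length)} {p : ℕ → Bool}
    (h : ∀ i, p (J.get i) = true ↔ i ∈ S) : lst J S = J.filter p := by
  classical
  conv_rhs => rw [← map_get J]
  rw [List.filter_map]
  unfold lst
  congr 1
  apply List.filter_congr
  intro i _
  by_cases hi : i ∈ S
  · simp only [Function.comp, (h i).2 hi, hi, decide_true]
  · have : p (J.get i) = false := by
      by_contra hc
      exact hi ((h i).1 (by simpa using hc))
    simp only [Function.comp, this, hi, decide_false]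

theorem mem_lst {J : List ℕ} {S : Set (Fin J.length)} {z : ℕ} :
    z ∈ lst J S ↔ ∃ i ∈ S, J.get i = z := by
  classical
  unfold lst
  rw [List.mem_map]
  constructor
  · rintro ⟨i, hi, rfl⟩
    rw [List.mem_filter] at hi
    exact ⟨i, by simpa using hi.2, rfl⟩
  · rintro ⟨i, hi, rfl⟩
    exact ⟨i, by rw [List.mem_filter]; exact ⟨List.mem_finRange i, by simpa using hi⟩, rfl⟩

theorem get_inj {J : List ℕ} (hJ : J.Nodup) {i j : Fin J.length} (h : J.get i = J.get j) :
    i = j := (List.nodup_iff_injective_get.1 hJ) h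

theorem get_mem_lst {J : List ℕ} (hJ : J.Nodup) {S : Set (Fin J.length)} {i : Fin J.length} :
    J.get i ∈ lst J S ↔ i ∈ S := by
  rw [mem_lst]
  constructor
  · rintro ⟨j, hj, he⟩
    rwa [← get_inj hJ he]
  · intro h
    exact ⟨i, h, rfl⟩

theorem length_lst (J : List ℕ) (S : Set (Fin J.length)) : (lst J S).length = S.ncard := by
  classical
  unfold lst
  rw [List.length_map, Set.ncard_eq_toFinset_card' S]
  have hn : ((List.finRange J.length).filter fun i => decide (i ∈ S)).Nodup :=
    (List.nodup_finRange _).filter _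
  rw [← List.toFinset_card_of_nodup hn]
  congr 1
  ext i
  simp

theorem lst_univ (J : List ℕ) : lst J Set.univ = J := by
  rw [lst_eq_filter (p := fun _ => true) (by simp)]
  simp

theorem lst_empty (J : List ℕ) : lst J ∅ = [] := by
  rw [lst_eq_filter (p := fun _ => false) (by simp)]
  simp

/-- the relation on positions -/
def ltp (R : Rel) (J : List ℕ) (i j : Fin J.length) : Prop := (J.get i, J.get j) ∈ R

theorem take_eq_filter {J : List ℕ} (hJ : J.Nodup) (k : ℕ) :
    lst J {i | i.val < k} = J.take k := by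
  have h1 : ∀ i : Fin J.length, (fun z => decide (z ∈ J.take k)) (J.get i) = true ↔
      i ∈ {i : Fin J.length | i.val < k} := by
    intro i
    simp only [decide_eq_true_eq]
    rw [List.mem_take_iff_getElem]
    constructor
    · rintro ⟨j, hj, he⟩
      have : (⟨j, by omega⟩ : Fin J.length) = i := get_inj hJ (by simpa using he)
      rw [← this]
      show j < k
      omega
    · intro h
      have h' : i.val < k := h
      exact ⟨i.val, by have := i.isLt; omega, rfl⟩
  rw [lst_eq_filter (p := fun z => decide (z ∈ J.take k)) h1]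
  have hnd := hJ
  rw [← List.take_append_drop k J, List.nodup_append] at hnd
  have e : J.filter (fun z => decide (z ∈ J.take k)) =
      (J.take k ++ J.drop k).filter (fun z => decide (z ∈ J.take k)) := by
    rw [List.take_append_drop k J]
  rw [e, List.filter_append, List.filter_eq_self.2, List.filter_eq_nil_iff.2, List.append_nil]
  · intro a ha
    rw [decide_eq_true_eq]
    exact fun h => hnd.2.2 a h a ha rfl
  · intro a ha
    rw [decide_eq_true_eq]
    exact ha

theorem takeWhile_eq_take {J : List ℕ} (hJ : J.Nodup) (i : Fin J.length) :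
    J.takeWhile (fun z => z != J.get i) = J.take i.val := by
  have hnd := hJ
  rw [← List.take_append_drop i.val J, List.nodup_append] at hnd
  have hd : J.drop i.val = J.get i :: J.drop (i.val + 1) := by
    rw [List.drop_eq_getElem_cons i.isLt]
    rfl
  have e : J.takeWhile (fun z => z != J.get i) =
      (J.take i.val ++ J.drop i.val).takeWhile (fun z => z != J.get i) := by
    rw [List.take_append_drop i.val J]
  rw [e, List.takeWhile_append_of_pos, hd]
  · simp
  · intro a ha
    rw [bne_iff_ne]
    intro h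
    exact hnd.2.2 a ha (J.get i) (by rw [hd]; exact List.mem_cons_self) h

theorem fam_complete {J : List ℕ} {R : Rel} (hJ : J.Nodup) {d : ℕ} {S : Set (Fin J.length)}
    (h : Fam (ltp R J) (fun i => i.val) d S) : lst J S ∈ fam d J R := by
  induction h with
  | empty =>
    rw [lst_empty]
    simp [fam, fam0]
  | univ =>
    rw [lst_univ]
    simp [fam, fam0]
  | single a =>
    have : lst J {a} = [J.get a] := by
      rw [lst_eq_filter (p := fun z => z == J.get a)]
      · rw [List.filter_beq, List.count_eq_one_of_mem hJ (List.get_mem J a)]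
        rfl
      · intro i
        rw [beq_iff_eq]
        exact ⟨fun h => get_inj hJ h, fun h => by rw [Set.mem_singleton_iff.1 h]⟩
    rw [this]
    simp only [fam, fam0, List.mem_cons, List.mem_append, List.mem_map]
    exact Or.inr (Or.inr (Or.inl ⟨J.get a, List.get_mem J a, rfl⟩))
  | up a =>
    rw [lst_eq_filter (p := fun z => R.contains (J.get a, z)) (by
      intro i; simp [ltp])]
    simp only [fam, fam0, List.mem_cons, List.mem_append, List.mem_map]
    exact Or.inr (Or.inr (Or.inr (Or.inl ⟨J.get a, List.get_mem J a, rfl⟩)))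
  | down a =>
    rw [lst_eq_filter (p := fun z => R.contains (z, J.get a)) (by
      intro i; simp [ltp])]
    simp only [fam, fam0, List.mem_cons, List.mem_append, List.mem_map]
    exact Or.inr (Or.inr (Or.inr (Or.inr (Or.inl ⟨J.get a, List.get_mem J a, rfl⟩))))
  | pre k =>
    rw [take_eq_filter hJ k]
    simp only [fam, fam0, List.mem_cons, List.mem_append, List.mem_map]
    by_cases hk : k < J.length
    · refine Or.inr (Or.inr (Or.inr (Or.inr (Or.inr ⟨J.get ⟨k, hk⟩, List.get_mem J _, ?_⟩))))
      exact takeWhile_eq_take hJ ⟨k, hk⟩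
    · exact Or.inr (Or.inl (List.take_of_length_le (by omega)))
  | mono _ ih =>
    simp only [fam, famStep, List.mem_append]
    exact Or.inl ih
  | @nand i A B _ _ ihA ihB =>
    rw [lst_eq_filter (p := fun z => !((lst J A).contains z && (lst J B).contains z)) (by
      intro i
      rw [Bool.not_eq_true', Bool.and_eq_false_iff]
      have eA : (lst J A).contains (J.get i) = false ↔ i ∉ A := by
        rw [← get_mem_lst hJ (S := A)]; simp
      have eB : (lst J B).contains (J.get i) = false ↔ i ∉ B := by
        rw [← get_mem_lst hJ (S := B)]; simp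
      rw [eA, eB, Set.mem_compl_iff, Set.mem_inter_iff]
      tauto)]
    simp only [fam, famStep, List.mem_append, List.mem_map, List.mem_flatMap]
    exact Or.inr (Or.inl ⟨_, ihA, _, ihB, rfl⟩)
  | @ups i A _ ih =>
    rw [lst_eq_filter (p := fun z => (lst J A).any fun a => R.contains (a, z)) (by
      intro i
      rw [List.any_eq_true]
      constructor
      · rintro ⟨a, ha, h⟩
        obtain ⟨j, hj, rfl⟩ := mem_lst.1 ha
        exact ⟨j, hj, by simpa [ltp] using h⟩
      · rintro ⟨j, hj, h⟩
        exact ⟨J.get j, (get_mem_lst hJ).2 hj, by simpa [ltp] using h⟩)]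
    simp only [fam, famStep, List.mem_append, List.mem_map, List.mem_flatMap]
    exact Or.inr (Or.inr (Or.inl ⟨_, ih, rfl⟩))
  | @downs i A _ ih =>
    rw [lst_eq_filter (p := fun z => (lst J A).any fun a => R.contains (z, a)) (by
      intro i
      rw [List.any_eq_true]
      constructor
      · rintro ⟨a, ha, h⟩
        obtain ⟨j, hj, rfl⟩ := mem_lst.1 ha
        exact ⟨j, hj, by simpa [ltp] using h⟩
      · rintro ⟨j, hj, h⟩
        exact ⟨J.get j, (get_mem_lst hJ).2 hj, by simpa [ltp] using h⟩)]
    simp only [fam, famStep, List.mem_append, List.mem_map, List.mem_flatMap]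
    exact Or.inr (Or.inr (Or.inr ⟨_, ih, rfl⟩))

/-! ### rounds -/

/-- every entry of `X` carries a packing -/
def Kn (T : Tab) (X : List ℕ) : Prop := ∀ o, (X, o) ∈ T → ∃ w, o = some w

/-- table after `k` rounds -/
def tabN (d : ℕ) (J : List ℕ) (R : Rel) : ℕ → Tab
  | 0 => (fam d J R).map fun X => (X, none)
  | k + 1 => tabRound R (tabN d J R k)

theorem foldl_round_eq (R : Rel) (l : List ℕ) (T : Tab) :
    l.foldl (fun T _ => tabRound R T) T = (tabRound R)^[l.length] T := by
  induction l generalizing T with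
  | nil => rfl
  | cons a l ih => rw [List.foldl_cons, ih, List.length_cons, Function.iterate_succ_apply]

theorem tabN_eq (d : ℕ) (J : List ℕ) (R : Rel) (k : ℕ) :
    tabN d J R k = (tabRound R)^[k] ((fam d J R).map fun X => (X, none)) := by
  induction k with
  | zero => rfl
  | succ k ih => rw [Function.iterate_succ_apply', ← ih]; rfl

theorem mem_tabRound {R : Rel} {T : Tab} {X : List ℕ} {o : Option (List ℕ)}
    (h : (X, o) ∈ tabRound R T) : ∃ o', (X, o') ∈ T ∧ o = match o' with
      | some w => some w
      | none => if isLeaf R X then some X else search R T X := by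
  unfold tabRound at h
  rw [List.mem_map] at h
  obtain ⟨p, hp, he⟩ := h
  rw [Prod.mk.injEq] at he
  obtain ⟨h1, h2⟩ := he
  subst h1
  exact ⟨p.2, hp, h2.symm⟩

theorem exists_entry {d : ℕ} {J : List ℕ} {R : Rel} {X : List ℕ} (hX : X ∈ fam d J R) (k : ℕ) :
    ∃ o, (X, o) ∈ tabN d J R k := by
  induction k with
  | zero => exact ⟨none, List.mem_map.2 ⟨X, hX, rfl⟩⟩
  | succ k ih =>
    obtain ⟨o, ho⟩ := ih
    exact ⟨_, List.mem_map.2 ⟨(X, o), ho, rfl⟩⟩

theorem tabN_ok {d : ℕ} {J : List ℕ} (hJ : J.Nodup) (R : Rel) (k : ℕ) : TabOK R (tabN d J R k) := by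
  induction k with
  | zero =>
    intro q hq
    obtain ⟨X, hX, rfl⟩ := List.mem_map.1 hq
    exact ⟨fam_nodup hJ R d X hX, fun w h => by simp at h⟩
  | succ k ih => exact tabRound_ok ih

theorem kn_mono {R : Rel} {T : Tab} {X : List ℕ} (h : Kn T X) : Kn (tabRound R T) X := by
  intro o ho
  obtain ⟨o', ho', rfl⟩ := mem_tabRound ho
  obtain ⟨w, rfl⟩ := h o' ho'
  exact ⟨w, rfl⟩

theorem kn_leaf {R : Rel} {T : Tab} {X : List ℕ} (h : isLeaf R X = true) :
    Kn (tabRound R T) X := by
  intro o ho
  obtain ⟨o', ho', rfl⟩ := mem_tabRound ho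
  cases o' with
  | some w => exact ⟨w, rfl⟩
  | none => exact ⟨X, by simp [h]⟩

theorem kn_search {R : Rel} {T : Tab} {X : List ℕ} (h : ∃ w, search R T X = some w) :
    Kn (tabRound R T) X := by
  intro o ho
  obtain ⟨o', ho', rfl⟩ := mem_tabRound ho
  cases o' with
  | some w => exact ⟨w, rfl⟩
  | none =>
    by_cases hl : isLeaf R X = true
    · exact ⟨X, by simp [hl]⟩
    · obtain ⟨w, hw⟩ := h
      exact ⟨w, by simp [hl, hw]⟩

theorem search_complete {R : Rel} {T : Tab} {X Y Z w1 w2 : List ℕ}
    (h1 : (Y, some w1) ∈ T) (h2 : (Z, some w2) ∈ T) (hg : good R X w1 w2 = true) :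
    ∃ w, search R T X = some w := by
  unfold search
  obtain ⟨w', hw'⟩ := firstSome_complete (f := fun q : List ℕ × Option (List ℕ) =>
    match q.2 with
      | none => none
      | some w2 => if good R X w1 w2 then some (w1 ++ w2) else none) h2 (r := w1 ++ w2)
      (by simp [hg])
  exact firstSome_complete h1 (r := w') hw'

theorem good_of {R : Rel} {J : List ℕ} (hJ : J.Nodup) {Y Z : Set (Fin J.length)}
    (hd : Disjoint Y Z) (ho : ∀ y ∈ Y, ∀ z ∈ Z, ¬ ltp R J z y) {w1 w2 : List ℕ}
    (h1 : PkList R (lst J Y) w1) (h2 : PkList R (lst J Z) w2) :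
    good R (lst J (Y ∪ Z)) w1 w2 = true := by
  unfold good
  rw [Bool.and_eq_true, Bool.and_eq_true, Bool.and_eq_true, decide_eq_true_eq]
  refine ⟨?_, ?_, ?_, ?_⟩
  · rw [List.nodup_append]
    refine ⟨h1.nodup, h2.nodup, ?_⟩
    rintro a ha b hb rfl
    obtain ⟨i, hi, hie⟩ := mem_lst.1 ((h1.mem a).1 ha)
    obtain ⟨j, hj, hje⟩ := mem_lst.1 ((h2.mem a).1 hb)
    have : i = j := get_inj hJ (by rw [hie, hje])
    subst this
    exact Set.disjoint_left.1 hd hi hj
  · rw [List.all_eq_true]
    intro a ha
    rw [List.contains_iff_mem]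
    rcases List.mem_append.1 ha with ha | ha
    · obtain ⟨i, hi, hie⟩ := mem_lst.1 ((h1.mem a).1 ha)
      exact mem_lst.2 ⟨i, Or.inl hi, hie⟩
    · obtain ⟨i, hi, hie⟩ := mem_lst.1 ((h2.mem a).1 ha)
      exact mem_lst.2 ⟨i, Or.inr hi, hie⟩
  · rw [List.all_eq_true]
    intro a ha
    rw [List.contains_iff_mem, List.mem_append]
    obtain ⟨i, hi | hi, hie⟩ := mem_lst.1 ha
    · exact Or.inl ((h1.mem a).2 (mem_lst.2 ⟨i, hi, hie⟩))
    · exact Or.inr ((h2.mem a).2 (mem_lst.2 ⟨i, hi, hie⟩))
  · rw [Bool.not_eq_true', List.any_eq_false]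
    intro z hz hany
    rw [List.any_eq_true] at hany
    obtain ⟨y, hy, hzy⟩ := hany
    obtain ⟨i, hi, hie⟩ := mem_lst.1 ((h1.mem y).1 hy)
    obtain ⟨j, hj, hje⟩ := mem_lst.1 ((h2.mem z).1 hz)
    refine ho i hi j hj ?_
    unfold ltp
    rw [hie, hje]
    simpa using hzy

theorem isLeaf_of {R : Rel} {J : List ℕ} {X : Set (Fin J.length)} (hc : X.ncard = 3)
    (ha : ∀ a ∈ X, ∀ b ∈ X, ¬ ltp R J a b) : isLeaf R (lst J X) = true := by
  have hl := length_lst J X
  rw [hc] at hl
  unfold isLeaf
  rw [Bool.or_eq_true]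
  right
  rw [Bool.and_eq_true, Bool.and_eq_true]
  refine ⟨⟨?_, ?_⟩, ?_⟩
  · match hX : lst J X, hl with
    | [a, b, c], _ => rfl
  · match hX : lst J X, hl with
    | [a, b, c], _ => rfl
  · rw [Bool.not_eq_true', List.any_eq_false]
    intro x hx hany
    rw [List.any_eq_true] at hany
    obtain ⟨y, hy, hxy⟩ := hany
    obtain ⟨i, hi, hie⟩ := mem_lst.1 hx
    obtain ⟨j, hj, hje⟩ := mem_lst.1 hy
    refine ha i hi j hj ?_
    unfold ltp
    rw [hie, hje]
    simpa using hxy

theorem kn_le {d : ℕ} {J : List ℕ} {R : Rel} {X : List ℕ} {k l : ℕ} (hkl : k ≤ l)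
    (h : Kn (tabN d J R k) X) : Kn (tabN d J R l) X := by
  induction hkl with
  | refl => exact h
  | step _ ih => exact kn_mono ih

theorem tree_complete {J : List ℕ} {R : Rel} (hJ : J.Nodup) {d : ℕ} {S : Set (Fin J.length)}
    (h : Tree (ltp R J) (fun i => i.val) d S) : ∀ k, S.ncard + 1 ≤ k →
      Kn (tabN d J R k) (lst J S) := by
  induction h with
  | empty =>
    intro k hk
    obtain ⟨m, rfl⟩ : ∃ m, k = m + 1 := ⟨k - 1, by omega⟩
    rw [lst_empty]
    exact kn_leaf rfl
  | leaf X hc ha =>
    intro k hk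
    obtain ⟨m, rfl⟩ : ∃ m, k = m + 1 := ⟨k - 1, by omega⟩
    exact kn_leaf (isLeaf_of hc ha)
  | node Y Z hY hZ hd ho _ _ ihY ihZ =>
    intro k hk
    have hu : (Y ∪ Z).ncard = Y.ncard + Z.ncard :=
      Set.ncard_union_eq hd (Set.toFinite _) (Set.toFinite _)
    rcases Nat.eq_zero_or_pos Y.ncard with hy0 | hy0
    · have hYe : Y = ∅ := (Set.ncard_eq_zero (Set.toFinite _)).1 hy0
      rw [hYe, Set.empty_union]
      exact ihZ k (by omega)
    rcases Nat.eq_zero_or_pos Z.ncard with hz0 | hz0
    · have hZe : Z = ∅ := (Set.ncard_eq_zero (Set.toFinite _)).1 hz0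
      rw [hZe, Set.union_empty]
      exact ihY k (by omega)
    obtain ⟨m, rfl⟩ : ∃ m, k = m + 1 := ⟨k - 1, by omega⟩
    obtain ⟨o1, ho1⟩ := exists_entry (fam_complete hJ hY) m
    obtain ⟨o2, ho2⟩ := exists_entry (fam_complete hJ hZ) m
    obtain ⟨w1, rfl⟩ := ihY m (by omega) o1 ho1
    obtain ⟨w2, rfl⟩ := ihZ m (by omega) o2 ho2
    have p1 := (tabN_ok (d := d) hJ R m _ ho1).2 w1 rfl
    have p2 := (tabN_ok (d := d) hJ R m _ ho2).2 w2 rfl
    exact kn_search (search_complete ho1 ho2 (good_of hJ hd ho p1 p2))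

theorem solveComplete {d : ℕ} (hM : MathClaim d) : SolveComplete d := by
  classical
  intro J R T s hG hP
  have hJ := hG.nodup
  have htree : Tree (ltp R J) (fun i => i.val) d Set.univ := by
    refine hM (Fin J.length) (ltp R J) (fun i => i.val) ?_ ?_ ?_ ?_ T
      (fun i => ⟨s (J.get i), hP.lt _ (List.get_mem J i)⟩) ?_ ?_
    · intro a h
      exact absurd (hG.incr _ (List.get_mem J a) _ (List.get_mem J a) h) (lt_irrefl _)
    · intro a b c hab hbc
      exact hG.trans _ (List.get_mem J a) _ (List.get_mem J b) _ (List.get_mem J c) hab hbc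
    · exact Fin.val_injective
    · intro a b hab
      have := hG.incr _ (List.get_mem J a) _ (List.get_mem J b) hab
      have e1 : J.idxOf (J.get a) = a.val := List.Nodup.idxOf_getElem hJ a.val a.isLt
      have e2 : J.idxOf (J.get b) = b.val := List.Nodup.idxOf_getElem hJ b.val b.isLt
      show a.val < b.val
      rw [e1, e2] at this
      exact this
    · intro t
      have hc := hP.card t.val t.isLt
      rw [← hc]
      conv_rhs => rw [← map_get J]
      rw [List.filter_map, List.length_map]
      have hn : ((List.finRange J.length).filter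
          ((fun a => decide (s a = t.val)) ∘ J.get)).Nodup :=
        (List.nodup_finRange _).filter _
      rw [← List.toFinset_card_of_nodup hn]
      congr 1
      ext i
      simp [Fin.ext_iff]
    · intro a b hab
      exact hP.mono _ (List.get_mem J a) _ (List.get_mem J b) hab
  have hfam : J ∈ fam d J R := by
    have hu : ∀ i, Fam (ltp R J) (fun i : Fin J.length => i.val) i Set.univ := by
      intro i
      induction i with
      | zero => exact Fam.univ
      | succ i ih => exact Fam.mono ih
    have := fam_complete hJ (hu d)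
    rwa [lst_univ] at this
  have hk := tree_complete hJ htree (J.length + 1) (by
    rw [Set.ncard_univ, Nat.card_eq_fintype_card, Fintype.card_fin])
  rw [lst_univ] at hk
  obtain ⟨o, ho⟩ := exists_entry hfam (J.length + 1)
  obtain ⟨w, rfl⟩ := hk o ho
  unfold solve
  rw [foldl_round_eq, List.length_cons, ← tabN_eq]
  exact firstSome_complete ho (r := w) (by simp)

end Crest.Agent.R286.Pure
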