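import Crest.Agent.R286.Algo

/-!
# Row 286, pure side: interfaces (frozen)

`PkList R X w`: `w` lists the jobs of `X`, consecutive blocks of three being the slots.
Nodes: `SolveSound`, `SolveComplete` (P1+P2), `TcSpec`, `TopoSpec` (P3b), `ParseSpec` (P3a),
`FillSpec` (P3): from these `AlgoCorrect d`.
-/

set_option autoImplicit false
set_option linter.dupNamespace false

namespace Crest.Agent.R286.Pure

open Crest.Agent.R286

/-- `w` is a packing of the jobs of `X`, in blocks of three. -/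
structure PkList (R : Rel) (X w : List ℕ) : Prop where
  nodup : w.Nodup
  mem : ∀ a, a ∈ w ↔ a ∈ X
  len : ∃ T, w.length = 3 * T
  mono : ∀ a ∈ w, ∀ b ∈ w, (a, b) ∈ R → w.idxOf a / 3 < w.idxOf b / 3

/-- `s` is a perfect packing of the jobs `J` into the slots `0, …, T - 1`. -/
structure PkFun (R : Rel) (J : List ℕ) (T : ℕ) (s : ℕ → ℕ) : Prop where
  lt : ∀ a ∈ J, s a < T
  card : ∀ t, t < T → (J.filter fun a => s a = t).length = 3
  mono : ∀ a ∈ J, ∀ b ∈ J, (a, b) ∈ R → s a < s b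

/-- `J` without repetitions, `R` a strict order on `J`, increasing along `J`. -/
structure Good (R : Rel) (J : List ℕ) : Prop where
  nodup : J.Nodup
  trans : ∀ a ∈ J, ∀ b ∈ J, ∀ c ∈ J, (a, b) ∈ R → (b, c) ∈ R → (a, c) ∈ R
  incr : ∀ a ∈ J, ∀ b ∈ J, (a, b) ∈ R → J.idxOf a < J.idxOf b

/-- P1/P2: the solver only returns packings. -/
def SolveSound (d : ℕ) : Prop :=
  ∀ (J : List ℕ) (R : Rel) (w : List ℕ), J.Nodup → solve d J R = some w → PkList R J w

/-- P1/P2: the solver finds a packing if there is one. -/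
def SolveComplete (d : ℕ) : Prop :=
  ∀ (J : List ℕ) (R : Rel) (T : ℕ) (s : ℕ → ℕ), Good R J → PkFun R J T s →
    ∃ w, solve d J R = some w

/-- P3b: transitive closure. -/
def TcSpec : Prop :=
  ∀ (n : ℕ) (R : Rel), 1 ≤ n → (∀ p ∈ R, p.1 < n ∧ p.2 < n) →
    (∀ a, ¬ Relation.TransGen (fun x y => (x, y) ∈ R) a a) →
    ∀ a b, (a, b) ∈ tc (List.range n) R ↔ Relation.TransGen (fun x y => (x, y) ∈ R) a b

/-- P3b: topological order. -/
def TopoSpec : Prop :=
  ∀ (J : List ℕ) (R : Rel), J.Nodup → (∀ a ∈ J, (a, a) ∉ R) →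
    (∀ a ∈ J, ∀ b ∈ J, ∀ c ∈ J, (a, b) ∈ R → (b, c) ∈ R → (a, c) ∈ R) →
    (topo R J).Perm J ∧
      ∀ a ∈ J, ∀ b ∈ J, (a, b) ∈ R → (topo R J).idxOf a < (topo R J).idxOf b

/-- P3a: the parser. -/
def ParseSpec : Prop :=
  ∀ (n : ℕ) (E : Fin n → Fin n → Bool), 1 ≤ n → ∃ R : Rel,
    parseIn (Crest.Sched3.precCode n E) = (List.range n, n, R) ∧
      ∀ a b, (a, b) ∈ R ↔ ∃ (ha : a < n) (hb : b < n), E ⟨a, ha⟩ ⟨b, hb⟩ = true

/-- P3: fillers, optimality. -/
def FillSpec : Prop :=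
  ∀ d : ℕ, SolveSound d → SolveComplete d → TcSpec → TopoSpec → ParseSpec → AlgoCorrect d

end Crest.Agent.R286.Pure
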