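import Crest.Agent.R286.PureDefs

/-!
# Row 286, pure side, P1/P2: the table search is sound and complete
-/

set_option autoImplicit false
set_option linter.dupNamespace false

namespace Crest.Agent.R286.Pure

open Crest.Agent.R286

/-! ### `firstSome` -/

theorem foldl_some {α β : Type} (f : α → Option β) (l : List α) (r : β) :
    l.foldl (fun acc x => match acc with | some r => some r | none => f x) (some r) = some r := by
  induction l with
  | nil => rfl
  | cons a l ih => simpa using ih

theorem firstSome_cons {α β : Type} (f : α → Option β) (a : α) (l : List α) :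
    firstSome f (a :: l) = match f a with | some r => some r | none => firstSome f l := by
  unfold firstSome
  rw [List.foldl_cons]
  cases h : f a with
  | none => simp [h]
  | some r => simp only [h]; exact foldl_some f l r

theorem firstSome_sound {α β : Type} {f : α → Option β} {l : List α} {r : β}
    (h : firstSome f l = some r) : ∃ x ∈ l, f x = some r := by
  induction l with
  | nil => simp [firstSome] at h
  | cons a l ih =>
    rw [firstSome_cons] at h
    cases ha : f a with
    | none =>
      rw [ha] at h
      obtain ⟨x, hx, hf⟩ := ih h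
      exact ⟨x, List.mem_cons_of_mem _ hx, hf⟩
    | some r' =>
      rw [ha] at h
      exact ⟨a, List.mem_cons_self, by rw [ha]; exact h⟩

theorem firstSome_complete {α β : Type} {f : α → Option β} {l : List α} {x : α} {r : β}
    (hx : x ∈ l) (hf : f x = some r) : ∃ r', firstSome f l = some r' := by
  induction l with
  | nil => simp at hx
  | cons a l ih =>
    rw [firstSome_cons]
    cases ha : f a with
    | none =>
      rcases List.mem_cons.1 hx with rfl | hx
      · rw [hf] at ha; exact absurd ha (by simp)
      · exact ih hx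
    | some r' => exact ⟨r', rfl⟩

/-! ### packing lists -/

theorem pkList_nil (R : Rel) : PkList R [] [] :=
  ⟨List.nodup_nil, fun _ => Iff.rfl, ⟨0, rfl⟩, by simp⟩

theorem pkList_leaf {R : Rel} {X : List ℕ} (hX : X.Nodup) (h : isLeaf R X = true) :
    PkList R X X := by
  unfold isLeaf at h
  rw [Bool.or_eq_true] at h
  rcases h with h | h
  · rw [List.isEmpty_iff] at h
    subst h
    exact pkList_nil R
  · rw [Bool.and_eq_true, Bool.and_eq_true] at h
    obtain ⟨⟨h1, h2⟩, h3⟩ := h
    match X, hX, h1, h2, h3 with
    | [], _, h1, _, _ => simp at h1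
    | [_], _, h1, _, _ => simp at h1
    | [_, _], _, h1, _, _ => simp at h1
    | [a, b, c], hX, _, _, h3 =>
      refine ⟨hX, fun _ => Iff.rfl, ⟨1, rfl⟩, ?_⟩
      intro x hx y hy hxy
      exfalso
      rw [Bool.not_eq_true', List.any_eq_false] at h3
      refine h3 x hx ?_
      rw [List.any_eq_true]
      exact ⟨y, hy, by simpa using hxy⟩
    | (a :: b :: c :: e :: l), _, _, h2, _ => simp at h2

theorem pkList_good {R : Rel} {X Y Z w1 w2 : List ℕ} (h1 : PkList R Y w1) (h2 : PkList R Z w2)
    (h : good R X w1 w2 = true) : PkList R X (w1 ++ w2) := by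
  unfold good at h
  rw [Bool.and_eq_true, Bool.and_eq_true, Bool.and_eq_true, decide_eq_true_eq] at h
  obtain ⟨hn, hsub, hsup, hord⟩ := h
  rw [List.all_eq_true] at hsub hsup
  rw [Bool.not_eq_true', List.any_eq_false] at hord
  obtain ⟨T1, hT1⟩ := h1.len
  obtain ⟨T2, hT2⟩ := h2.len
  have hdisj : ∀ a, a ∈ w1 → a ∉ w2 := fun a ha hb =>
    (List.nodup_append.1 hn).2.2 a ha a hb rfl
  refine ⟨hn, fun a => ⟨fun ha => by simpa using hsub a ha, fun ha => by
    simpa using hsup a ha⟩, ⟨T1 + T2, by rw [List.length_append, hT1, hT2]; ring⟩, ?_⟩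
  intro a ha b hb hab
  rcases List.mem_append.1 ha with ha1 | ha2
  · rw [List.idxOf_append_of_mem ha1]
    rcases List.mem_append.1 hb with hb1 | hb2
    · rw [List.idxOf_append_of_mem hb1]
      exact h1.mono a ha1 b hb1 hab
    · rw [List.idxOf_append_of_notMem (fun h => hdisj b h hb2)]
      have := List.idxOf_lt_length_of_mem ha1
      omega
  · have hna : a ∉ w1 := fun h => hdisj a h ha2
    rcases List.mem_append.1 hb with hb1 | hb2
    · exfalso
      refine hord a ha2 ?_
      rw [List.any_eq_true]
      exact ⟨b, hb1, by simpa using hab⟩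
    · rw [List.idxOf_append_of_notMem hna,
        List.idxOf_append_of_notMem (fun h => hdisj b h hb2)]
      have := h2.mono a ha2 b hb2 hab
      omega

/-- soundness of a table -/
def TabOK (R : Rel) (T : Tab) : Prop :=
  ∀ p ∈ T, p.1.Nodup ∧ ∀ w, p.2 = some w → PkList R p.1 w

theorem search_sound {R : Rel} {T : Tab} (hT : TabOK R T) {X w : List ℕ}
    (h : search R T X = some w) : PkList R X w := by
  unfold search at h
  obtain ⟨p, hp, hpf⟩ := firstSome_sound h
  cases hp2 : p.2 with
  | none => rw [hp2] at hpf; simp at hpf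
  | some w1 =>
    rw [hp2] at hpf
    simp only at hpf
    obtain ⟨q, hq, hqf⟩ := firstSome_sound hpf
    cases hq2 : q.2 with
    | none => rw [hq2] at hqf; simp at hqf
    | some w2 =>
      rw [hq2] at hqf
      simp only at hqf
      by_cases hg : good R X w1 w2 = true
      · rw [if_pos hg] at hqf
        rw [← Option.some.inj hqf]
        exact pkList_good ((hT p hp).2 w1 hp2) ((hT q hq).2 w2 hq2) hg
      · rw [if_neg hg] at hqf
        simp at hqf

theorem tabRound_ok {R : Rel} {T : Tab} (hT : TabOK R T) : TabOK R (tabRound R T) := by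
  intro q hq
  unfold tabRound at hq
  rw [List.mem_map] at hq
  obtain ⟨p, hp, rfl⟩ := hq
  obtain ⟨hn, hw⟩ := hT p hp
  refine ⟨hn, ?_⟩
  intro w h
  simp only at h ⊢
  cases hp2 : p.2 with
  | some w' =>
    rw [hp2] at h
    simp only at h
    rw [← Option.some.inj h]
    exact hw w' hp2
  | none =>
    rw [hp2] at h
    simp only at h
    by_cases hl : isLeaf R p.1 = true
    · rw [if_pos hl] at h
      rw [← Option.some.inj h]
      exact pkList_leaf hn hl
    · rw [if_neg hl] at h
      exact search_sound hT h

theorem foldl_round_ok {R : Rel} (l : List ℕ) {T : Tab} (hT : TabOK R T) :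
    TabOK R (l.foldl (fun T _ => tabRound R T) T) := by
  induction l generalizing T with
  | nil => exact hT
  | cons a l ih => exact ih (tabRound_ok hT)

theorem fam_nodup {J : List ℕ} (hJ : J.Nodup) (R : Rel) (d : ℕ) :
    ∀ X ∈ fam d J R, X.Nodup := by
  induction d with
  | zero =>
    intro X hX
    simp only [fam, fam0, List.mem_cons, List.mem_append, List.mem_map] at hX
    rcases hX with rfl | rfl | ⟨a, _, rfl⟩ | ⟨a, _, rfl⟩ | ⟨a, _, rfl⟩ | ⟨a, _, rfl⟩
    · exact List.nodup_nil
    · exact hJ
    · exact List.nodup_singleton a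
    · exact hJ.filter _
    · exact hJ.filter _
    · exact hJ.sublist (List.takeWhile_sublist _)
  | succ d ih =>
    intro X hX
    simp only [fam, famStep, List.mem_append, List.mem_map, List.mem_flatMap] at hX
    rcases hX with hX | ⟨A, _, B, _, rfl⟩ | ⟨A, _, rfl⟩ | ⟨A, _, rfl⟩
    · exact ih X hX
    · exact hJ.filter _
    · exact hJ.filter _
    · exact hJ.filter _

theorem solveSound (d : ℕ) : SolveSound d := by
  intro J R w hJ h
  unfold solve at h
  obtain ⟨p, hp, hpf⟩ := firstSome_sound h
  have hOK : TabOK R ((0 :: J).foldl (fun T _ => tabRound R T)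
      ((fam d J R).map fun X => (X, none))) := by
    apply foldl_round_ok
    intro q hq
    rw [List.mem_map] at hq
    obtain ⟨X, hX, rfl⟩ := hq
    exact ⟨fam_nodup hJ R d X hX, fun w h => by simp at h⟩
  by_cases hpJ : p.1 = J
  · rw [if_pos hpJ] at hpf
    rw [← hpJ]
    exact (hOK p hp).2 w hpf
  · rw [if_neg hpJ] at hpf
    simp at hpf

end Crest.Agent.R286.Pure
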