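import Crest.Agent.R286.FamD

/-!
Row 286, node R (helper327): assembly. From node T for all orders (`TAll`) and the V-step
(`VStep`, node R1) to `MathClaim 13`.
-/

set_option autoImplicit false

namespace Crest.Agent.R286.RD

open Crest.Agent.R286

variable {α : Type}

/-! ### duality of packings -/

theorem Pack.flip [DecidableEq α] {lt : α → α → Prop} {X : Finset α} {N : ℕ} {s : α → ℕ}
    (h : Pack lt X N s) : Pack (fun a b => lt b a) X N (fun x => N + 1 - s x) := by
  obtain ⟨h1, h2, h3⟩ := h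
  refine ⟨fun x hx => ?_, fun i hi hi' => ?_, fun x hx y hy hxy => ?_⟩
  · have := h1 x hx
    show 1 ≤ N + 1 - s x ∧ N + 1 - s x ≤ N
    omega
  · rw [← h2 (N + 1 - i) (by omega) (by omega)]
    congr 1
    apply Finset.filter_congr
    intro x hx
    have := h1 x hx
    show N + 1 - s x = i ↔ s x = N + 1 - i
    omega
  · have := h3 y hy x hx hxy
    have h4 := h1 x hx
    have h5 := h1 y hy
    show N + 1 - s x < N + 1 - s y
    omega

theorem PP.flip [DecidableEq α] {lt : α → α → Prop} {X : Finset α} (h : PP lt X) :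
    PP (fun a b => lt b a) X := by
  obtain ⟨N, s, hs⟩ := h
  exact ⟨N, _, Pack.flip hs⟩

/-! ### one step for a V-context -/

theorem vc_step [Fintype α] [DecidableEq α] {lt : α → α → Prop} {nu nu' : α → ℕ}
    {K : ℕ → Set α → Prop} (hG : Graded K) (hA : Atm K lt nu nu')
    (htr : ∀ a b c, lt a b → lt b c → lt a c) (hnu' : ∀ a b, lt a b → nu' b < nu' a)
    (hV : VStep lt nu) (X : Finset α) (hX : VC lt nu' (X : Set α)) (hPP : PP lt X)
    (IH : ∀ W : Finset α, W ⊂ X → PP lt W → VC (fun a b => lt b a) nu (W : Set α) →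
      TreeD lt (K 13) (W : Set α)) : TreeD lt (K 13) (X : Set α) := by
  have hX' := hX
  obtain ⟨Q, Q', G, hXe, hQ, hQ', hGG⟩ := hX'
  refine hV (K 13) X Q (Q' ∩ G) hXe (fun a b hab ha => VC_L_up htr hnu' hQ' hGG hab ha) hPP
    (fun C _ hC => hG.le (by omega) (hA.tri C hC))
    (fun S hS C _ hC => lev_cut hG hA hX hS hC)
    (fun S hS C _ hC => lev_cut' hG hA hX hS hC)
    (fun S hS C D _ _ hC hD => lev_win hG hA hQ hS hC hD)
    (fun C _ hC => lev_last hG hA hQ hC) ?_ ?_
  · intro S hS C D _ _ hC hD W hW hWX hPW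
    refine IH W hWX hPW ⟨up lt C, Q, S \ (up lt D ∪ D), hW, Or.inr ⟨C, hC, rfl⟩, ?_,
      Or.inr ⟨S, hS, D, hD, rfl⟩⟩
    rcases hQ with rfl | ⟨C', hC', rfl⟩
    · exact Or.inl rfl
    · exact Or.inr ⟨C', hC', rfl⟩
  · intro C _ hC W hW hWX hPW
    refine IH W hWX hPW ⟨up lt C, Q, Set.univ, by rw [Set.inter_univ]; exact hW,
      Or.inr ⟨C, hC, rfl⟩, ?_, Or.inl rfl⟩
    rcases hQ with rfl | ⟨C', hC', rfl⟩
    · exact Or.inl rfl
    · exact Or.inr ⟨C', hC', rfl⟩

/-! ### the induction -/

theorem both [Fintype α] [DecidableEq α] {lt : α → α → Prop} {nu nu' : α → ℕ}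
    {K : ℕ → Set α → Prop} (hG : Graded K) (hA : Atm K lt nu nu')
    (htr : ∀ a b c, lt a b → lt b c → lt a c)
    (hnu : ∀ a b, lt a b → nu a < nu b) (hnu' : ∀ a b, lt a b → nu' b < nu' a)
    (hV : VStep lt nu) (hV' : VStep (fun a b => lt b a) nu') :
    ∀ (n : ℕ) (X : Finset α), X.card = n → PP lt X →
      (VC lt nu' (X : Set α) → TreeD lt (K 13) (X : Set α)) ∧
      (VC (fun a b => lt b a) nu (X : Set α) → TreeD lt (K 13) (X : Set α)) := by
  intro n
  induction n using Nat.strong_induction_on with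
  | _ n ih =>
    intro X hXn hPP
    refine ⟨fun hX => ?_, fun hX => ?_⟩
    · exact vc_step hG hA htr hnu' hV X hX hPP (fun W hW hPW hWc =>
        (ih W.card (by rw [← hXn]; exact Finset.card_lt_card hW) W rfl hPW).2 hWc)
    · refine TreeD.flip (lt := lt) ?_
      refine vc_step (lt := fun a b => lt b a) hG hA.flip (fun a b c h1 h2 => htr _ _ _ h2 h1)
        (fun a b h => hnu _ _ h) hV' X hX hPP.flip (fun W hW hPW hWc => ?_)
      have := (ih W.card (by rw [← hXn]; exact Finset.card_lt_card hW) W rfl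
        (PP.flip hPW)).1 hWc
      exact TreeD.flip (lt := fun a b => lt b a) this

/-- **Node R**: node T for all orders and the V-step give `MathClaim 13`. -/
theorem mathClaim_of (hT : TAll)
    (hV : ∀ (α : Type) [Fintype α] [DecidableEq α] (lt : α → α → Prop) (nu : α → ℕ),
      (∀ a, ¬ lt a a) → (∀ a b c, lt a b → lt b c → lt a c) → Function.Injective nu →
      (∀ a b, lt a b → nu a < nu b) → TStmt lt nu → VStep lt nu) : MathClaim 13 := by
  intro α _ _ lt nu hirr htr hinj hnu T s hs hslt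
  classical
  set M : ℕ := Finset.univ.sup nu with hM
  have hM' : ∀ z, nu z ≤ M := fun z => Finset.le_sup (f := nu) (Finset.mem_univ z)
  have hinj' : Function.Injective (fun z => M - nu z) := by
    intro x y hxy
    apply hinj
    have h1 := hM' x
    have h2 := hM' y
    simp only at hxy
    omega
  have hmono' : ∀ a b, lt b a → M - nu a < M - nu b := by
    intro a b h
    have h1 := hM' a
    have h3 := hM' b
    have h2 := hnu b a h
    omega
  have hV1 : VStep lt nu := hV α lt nu hirr htr hinj hnu (hT α lt nu hirr htr hinj hnu)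
  have hV2 : VStep (fun a b => lt b a) (fun z => M - nu z) :=
    hV α _ _ hirr (fun a b c h1 h2 => htr _ _ _ h2 h1) hinj' hmono'
      (hT α _ _ hirr (fun a b c h1 h2 => htr _ _ _ h2 h1) hinj' hmono')
  have hPP : PP lt (Finset.univ : Finset α) := by
    refine ⟨T, fun a => (s a : ℕ) + 1, fun x _ => ⟨Nat.succ_le_succ (Nat.zero_le _), (s x).2⟩,
      fun i hi hi' => ?_,
      fun x _ y _ h => ?_⟩
    · rw [← hs ⟨i - 1, by omega⟩]
      congr 1
      apply Finset.filter_congr
      intro x _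
      show (s x : ℕ) + 1 = i ↔ s x = ⟨i - 1, by omega⟩
      rw [Fin.ext_iff]
      show (s x : ℕ) + 1 = i ↔ (s x : ℕ) = i - 1
      omega
    · have := hslt x y h
      have h2 : (s x : ℕ) < s y := this
      show (s x : ℕ) + 1 < (s y : ℕ) + 1
      omega
  have := (both (graded_fam lt nu) (atm_fam lt nu M hM') htr hnu
    (fun a b h => hmono' b a h) hV1 hV2 _ Finset.univ rfl hPP).1
      ⟨Set.univ, Set.univ, Set.univ, by simp, Or.inl rfl, Or.inl rfl, Or.inl rfl⟩
  have h2 := TreeD.toTree this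
  rwa [Finset.coe_univ] at h2

end Crest.Agent.R286.RD
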