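import Crest.Agent.R286.Algo

/-!
Row 286, node R, interface (helper327, R2).

* `TreeD lt Dsc X`: splitting trees over an abstract family `Dsc` of described sets (self-dual);
* `TreeD.toTree`: `TreeD lt (Fam lt nu d) X → Tree lt nu d X`;
* `Frame`, `Desc`, `Pack`, `LFree`, `TStmt`: exactly helper669's export of node T;
* `VStep`: the statement of R1 for one context `X = Q ∩ L`;
* `VStep` for the flipped order gives the U-step (`ustep_of_vstep`).
-/

set_option autoImplicit false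

namespace Crest.Agent.R286.RD

open Crest.Agent.R286

/-- Splitting trees over an abstract family of sets. -/
inductive TreeD {α : Type} (lt : α → α → Prop) (Dsc : Set α → Prop) : Set α → Prop
  | empty : TreeD lt Dsc ∅
  | leaf (X : Set α) : X.ncard = 3 → (∀ a ∈ X, ∀ b ∈ X, ¬ lt a b) → TreeD lt Dsc X
  | node (Y Z : Set α) : Dsc Y → Dsc Z → Disjoint Y Z →
      (∀ y ∈ Y, ∀ z ∈ Z, ¬ lt z y) → TreeD lt Dsc Y → TreeD lt Dsc Z → TreeD lt Dsc (Y ∪ Z)

theorem TreeD.flip {α : Type} {lt : α → α → Prop} {Dsc : Set α → Prop} {X : Set α}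
    (h : TreeD (fun a b => lt b a) Dsc X) : TreeD lt Dsc X := by
  induction h with
  | empty => exact .empty
  | leaf X h1 h2 => exact .leaf X h1 (fun a ha b hb => h2 b hb a ha)
  | node Y Z hY hZ hd hs _ _ ihY ihZ =>
      rw [Set.union_comm]
      exact .node Z Y hZ hY hd.symm (fun z hz y hy => hs y hy z hz) ihZ ihY

theorem TreeD.toTree {α : Type} {lt : α → α → Prop} {nu : α → ℕ} {d : ℕ} {X : Set α}
    (h : TreeD lt (Fam lt nu d) X) : Tree lt nu d X := by
  induction h with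
  | empty => exact .empty
  | leaf X h1 h2 => exact .leaf X h1 h2
  | node Y Z hY hZ hd hs _ _ ihY ihZ => exact .node Y Z hY hZ hd hs ihY ihZ

/-- strict up-closure and strict down-closure of a set of jobs -/
def up {α : Type} (lt : α → α → Prop) (T : Set α) : Set α := {z | ∃ a ∈ T, lt a z}
def dn {α : Type} (lt : α → α → Prop) (T : Set α) : Set α := {z | ∃ a ∈ T, lt z a}

/-- frames and staircases (as in node T) -/
def Frame {α : Type} (lt : α → α → Prop) (F : Set α) : Prop :=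
  F = Set.univ ∨ ∃ b c, F = {z | lt z b ∨ lt z c}

def Desc {α : Type} (lt : α → α → Prop) (nu : α → ℕ) (S : Set α) : Prop :=
  ∃ F0 F1 F2 : Set α, Frame lt F0 ∧ Frame lt F1 ∧ Frame lt F2 ∧ ∃ a0 a1 a2 : ℕ,
    S = {z | (z ∈ F0 ∧ nu z < a0) ∨ (z ∈ F1 ∧ nu z < a1) ∨ (z ∈ F2 ∧ nu z < a2)}

/-- packings: slots `1..N`, three jobs each -/
def Pack {α : Type} [DecidableEq α] (R : α → α → Prop) (X : Finset α) (N : ℕ) (s : α → ℕ) : Prop :=
  (∀ x ∈ X, 1 ≤ s x ∧ s x ≤ N) ∧ (∀ i, 1 ≤ i → i ≤ N → (X.filter (s · = i)).card = 3) ∧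
    (∀ x ∈ X, ∀ y ∈ X, R x y → s x < s y)

def LFree {α : Type} (R : α → α → Prop) (X : Finset α) (s : α → ℕ) (t : ℕ) : Prop :=
  ∀ q, 1 ≤ q → q < t → ∃ x ∈ X, q < s x ∧ s x ≤ t ∧ ∀ w ∈ X, s w = q → ¬ R w x

/-- node T for the order `lt` -/
def TStmt {α : Type} [DecidableEq α] (lt : α → α → Prop) (nu : α → ℕ) : Prop :=
  ∀ (X : Finset α) (N : ℕ), (∃ s, Pack lt X N s) → ∃ s, Pack lt X N s ∧
    ∀ t, 1 ≤ t → t ≤ N → LFree lt X s t → ∃ S, Desc lt nu S ∧
      ∀ z ∈ X, (s z ≤ t ↔ z ∈ S ∧ ∀ w ∈ X, s w = t → ¬ lt w z)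

/-- node T for all orders -/
def TAll : Prop := ∀ (α : Type) [DecidableEq α] (lt : α → α → Prop) (nu : α → ℕ),
  (∀ a, ¬ lt a a) → (∀ a b c, lt a b → lt b c → lt a c) → Function.Injective nu →
    (∀ a b, lt a b → nu a < nu b) → TStmt lt nu

/-- `X` can be packed -/
def PP {α : Type} [DecidableEq α] (lt : α → α → Prop) (X : Finset α) : Prop := ∃ N s, Pack lt X N s

/-- The window of the context `X = Q ∩ L` below the L-free cut with last slot `D`, staircase `S`:
`up C ∩ (Q ∩ S \ (up D ∪ D))`. -/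
def Win {α : Type} (lt : α → α → Prop) (Q S C D : Set α) : Set α :=
  up lt C ∩ (Q ∩ (S \ (up lt D ∪ D)))

/-- R1 (V-step), statement: `X = Q ∩ L`, `L` an up-set. All sets that occur are assumed to be
described (`Dsc`), windows have trees by the induction hypothesis. -/
def VStep {α : Type} [Fintype α] [DecidableEq α] (lt : α → α → Prop) (nu : α → ℕ) : Prop :=
  ∀ (Dsc : Set α → Prop) (X : Finset α) (Q L : Set α), (X : Set α) = Q ∩ L →
    (∀ a b, lt a b → a ∈ L → b ∈ L) → PP lt X →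
    -- triples and the empty set are described
    (∀ C : Finset α, C ⊆ X → C.card ≤ 3 → Dsc C) →
    -- described cuts
    (∀ S, Desc lt nu S → ∀ C : Finset α, C ⊆ X → C.card = 3 →
      Dsc (X ∩ (S \ up lt C))) →
    -- cuts before the last slot
    (∀ S, Desc lt nu S → ∀ C : Finset α, C ⊆ X → C.card = 3 →
      Dsc (X ∩ (S \ (up lt C ∪ C)))) →
    -- windows
    (∀ S, Desc lt nu S → ∀ C D : Finset α, C ⊆ X → D ⊆ X → C.card = 3 → D.card = 3 →
      Dsc (Win lt Q S C D)) →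
    (∀ C : Finset α, C ⊆ X → C.card = 3 → Dsc (up lt C ∩ Q)) →
    -- induction hypothesis: windows have trees
    (∀ S, Desc lt nu S → ∀ C D : Finset α, C ⊆ X → D ⊆ X → C.card = 3 → D.card = 3 →
      ∀ W : Finset α, (W : Set α) = Win lt Q S C D → W ⊂ X → PP lt W → TreeD lt Dsc W) →
    (∀ C : Finset α, C ⊆ X → C.card = 3 →
      ∀ W : Finset α, (W : Set α) = up lt C ∩ Q → W ⊂ X → PP lt W → TreeD lt Dsc W) →
    TreeD lt Dsc X

end Crest.Agent.R286.RD
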