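import Crest.Agent.R286.Greedy

/-!
Row 286: the two types of free jobs (alpha / beta) and the update of the staircase.
-/

set_option autoImplicit false

namespace Crest.Agent.R286.T3

variable {α : Type*} [DecidableEq α] {r : α → α → Prop} {ν : α → ℕ}
  {F : ℕ → Set α} {a : ℕ → ℕ} {I : Finset ℕ}

/-- the lexicographic comparison used by the greedy rule -/
def LexLe (ν : α → ℕ) (F : ℕ → Set α) (a : ℕ → ℕ) (I : Finset ℕ) (T S : Finset α) : Prop :=
  hits ν F a I T < hits ν F a I S ∨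
    (hits ν F a I T = hits ν F a I S ∧ ∑ x ∈ T, ν x ≤ ∑ x ∈ S, ν x)

/-- the situation of a greedy step -/
structure Sit (r : α → α → Prop) (ν : α → ℕ) (F : ℕ → Set α) (a : ℕ → ℕ) (I : Finset ℕ)
    (D S : Finset α) (G : α → Prop) : Prop where
  irr : ∀ x : α, ¬ r x x
  tr : ∀ ⦃x y z : α⦄, r x y → r y z → r x z
  mon : ∀ ⦃x y⦄, r x y → ν x < ν y
  inj : Function.Injective ν
  ok : OK r F a I
  cov : ∀ z ∈ D, ∃ i ∈ I, Cov ν F a i z
  cell : ∀ i ∈ I, ∃ z ∈ D, Cell ν F a I i z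
  SD : S ⊆ D
  S3 : S.card = 3
  Smax : ∀ x ∈ S, ∀ y ∈ D, ¬ r x y
  GS : ∀ g, G g → g ∈ S
  exc : ∀ g, G g → ∀ y ∈ D, (∀ x ∈ D, ¬ r y x) → y ∉ S → LexLe ν F a I (insert y (S.erase g)) S

namespace Sit

variable {D S : Finset α} {G : α → Prop}

/-- the nu-maximum of a cell is maximal in `D` -/
theorem cellMax (h : Sit r ν F a I D S G) {i : ℕ} (hi : i ∈ I) :
    ∃ y ∈ D, Cell ν F a I i y ∧ (∀ z ∈ D, Cell ν F a I i z → ν z ≤ ν y) ∧ ∀ x ∈ D, ¬ r y x := by
  classical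
  obtain ⟨z, hz, hcz⟩ := h.cell i hi
  have hne : (D.filter fun z => Cell ν F a I i z).Nonempty := ⟨z, by simp [hz, hcz]⟩
  obtain ⟨y, hy, hmax⟩ := Finset.exists_max_image _ ν hne
  rw [Finset.mem_filter] at hy
  refine ⟨y, hy.1, hy.2, fun z hz hc => hmax z (by simp [hz, hc]), fun x hx hyx => ?_⟩
  have key : ∀ j ∈ I, Cov ν F a j x → j = i := by
    intro j hj hcj
    by_contra hne
    exact hy.2.2 j hj hne (h.ok.down h.tr h.mon hj hyx hcj)
  obtain ⟨j, hj, hcj⟩ := h.cov x hx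
  have hji := key j hj hcj
  subst hji
  have : x ∈ D.filter fun z => Cell ν F a I j z := by
    rw [Finset.mem_filter]
    exact ⟨hx, hcj, fun k hk hkj hck => hkj (key k hk hck)⟩
  have h1 := hmax x this
  have h2 := h.mon hyx
  omega

theorem sum_erase (_ : Sit r ν F a I D S G) {g : α} (hg : g ∈ S) :
    ∑ x ∈ S, ν x = ∑ x ∈ S.erase g, ν x + ν g := by
  rw [Finset.sum_erase_add _ _ hg]

/-- type alpha -/
theorem alpha (h : Sit r ν F a I D S G) {g : α} (hg : G g)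
    (hm : ∃ i ∈ I, ∀ p ∈ S.erase g, ¬ Cell ν F a I i p) :
    ∃ l ∈ I, Cell ν F a I l g ∧ ∀ z ∈ D, Cell ν F a I l z → ν z ≤ ν g := by
  classical
  obtain ⟨i, hi, hmi⟩ := hm
  have hgS := h.GS g hg
  obtain ⟨y, hyD, hyc, hymax, hyM⟩ := h.cellMax hi
  by_cases hyg : y = g
  · subst hyg; exact ⟨i, hi, hyc, hymax⟩
  have hyS : y ∉ S := fun hyS => hmi y (Finset.mem_erase.2 ⟨hyg, hyS⟩) hyc
  have hS : insert g (S.erase g) = S := Finset.insert_erase hgS
  have h1 := h.exc g hg y hyD hyM hyS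
  have h2 := hits_insert_of_miss (ν := ν) (F := F) (a := a) hi hyc hmi
  -- `g` hits a new cell
  have h3 : ∃ l ∈ I, Cell ν F a I l g ∧ ∀ p ∈ S.erase g, ¬ Cell ν F a I l p := by
    by_contra hno
    push Not at hno
    have h4 := hits_insert_le (ν := ν) (F := F) (a := a) (I := I) (P := S.erase g) (y := g)
      (fun i hi hc => hno i hi hc)
    rw [hS] at h4
    rcases h1 with h1 | h1 <;> omega
  obtain ⟨l, hl, hlc, hlm⟩ := h3
  have h4 := hits_insert_of_miss (ν := ν) (F := F) (a := a) hl hlc hlm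
  rw [hS] at h4
  obtain ⟨y', hyD', hyc', hymax', hyM'⟩ := h.cellMax hl
  by_cases hyg' : y' = g
  · subst hyg'; exact ⟨l, hl, hyc', hymax'⟩
  have hyS' : y' ∉ S := fun hyS => hlm y' (Finset.mem_erase.2 ⟨hyg', hyS⟩) hyc'
  have h5 := h.exc g hg y' hyD' hyM' hyS'
  have h6 := hits_insert_of_miss (ν := ν) (F := F) (a := a) hl hyc' hlm
  have h7 : y' ∉ S.erase g := fun hc => hyS' (Finset.mem_of_mem_erase hc)
  have h8 : ν y' ≤ ν g := by
    rcases h5 with h5 | ⟨_, h5⟩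
    · omega
    · rw [Finset.sum_insert h7, h.sum_erase hgS] at h5; omega
  exact ⟨l, hl, hlc, fun z hz hc => (hymax' z hz hc).trans h8⟩

/-- type beta -/
theorem beta (h : Sit r ν F a I D S G) {g : α} (hg : G g)
    (hm : ∀ i ∈ I, ∃ p ∈ S.erase g, Cell ν F a I i p) {z : α} (hz : z ∈ D) (hzS : z ∉ S) :
    ν z < ν g ∨ ∃ p ∈ S.erase g, r z p := by
  classical
  have hgS := h.GS g hg
  obtain ⟨m, hmD, hmz, hmM⟩ := exists_max_above h.tr h.mon D hz
  have hS : insert g (S.erase g) = S := Finset.insert_erase hgS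
  by_cases hmS : m ∈ S
  · have hzm : r z m := by
      rcases hmz with rfl | hmz
      · exact absurd hmS hzS
      · exact hmz
    by_cases hmg : m = g
    · subst hmg; exact Or.inl (h.mon hzm)
    · exact Or.inr ⟨m, Finset.mem_erase.2 ⟨hmg, hmS⟩, hzm⟩
  · left
    have h1 := h.exc g hg m hmD hmM hmS
    have h2 := hits_insert_le (ν := ν) (F := F) (a := a) (I := I) (P := S.erase g) (y := m)
      (fun i hi _ => hm i hi)
    have h3 := hits_insert_le (ν := ν) (F := F) (a := a) (I := I) (P := S.erase g) (y := g)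
      (fun i hi _ => hm i hi)
    rw [hS] at h3
    have h7 : m ∉ S.erase g := fun hc => hmS (Finset.mem_of_mem_erase hc)
    have h4 : ν m ≤ ν g := by
      rcases h1 with h1 | ⟨_, h1⟩
      · omega
      · rw [Finset.sum_insert h7, h.sum_erase hgS] at h1; omega
    have h5 : ν m ≠ ν g := fun he => hmS (h.inj he ▸ hgS)
    have h6 : ν z ≤ ν m := by
      rcases hmz with rfl | hmz
      · exact le_rfl
      · exact (h.mon hmz).le
    omega

/-- all free jobs of type alpha -/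
theorem stepAlpha (h : Sit r ν F a I D S G)
    (hα : ∀ g, G g → ∃ l ∈ I, Cell ν F a I l g ∧ ∀ z ∈ D, Cell ν F a I l z → ν z ≤ ν g) :
    ∃ X : Set α, IsSt r ν X ∧ X ⊆ Stc ν F a I ∧ (∀ z ∈ D, z ∉ S → z ∈ X) ∧ ∀ g, G g → g ∉ X := by
  classical
  have hch : ∀ i : ℕ, ∃ b : ℕ, (∃ g, G g ∧ Cell ν F a I i g ∧ b = ν g ∧
      ∀ z ∈ D, Cell ν F a I i z → ν z ≤ ν g) ∨
      ((¬ ∃ g, G g ∧ Cell ν F a I i g ∧ ∀ z ∈ D, Cell ν F a I i z → ν z ≤ ν g) ∧ b = a i) := by
    intro i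
    by_cases hi : ∃ g, G g ∧ Cell ν F a I i g ∧ ∀ z ∈ D, Cell ν F a I i z → ν z ≤ ν g
    · obtain ⟨g, h1, h2, h3⟩ := hi
      exact ⟨ν g, Or.inl ⟨g, h1, h2, rfl, h3⟩⟩
    · exact ⟨a i, Or.inr ⟨hi, rfl⟩⟩
  choose b hb using hch
  have hle : ∀ i, b i ≤ a i := by
    intro i
    rcases hb i with ⟨g, _, hc, he, _⟩ | ⟨_, he⟩
    · rw [he]; exact hc.1.2.le
    · exact he.le
  have hgD : ∀ g, G g → g ∈ D := fun g hg => h.SD (h.GS g hg)
  -- lower bound for lowered thresholds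
  have hlow : ∀ i ∈ I, ∀ j ∈ I, i < j → a i ≤ b j := by
    intro i hi j hj hij
    rcases hb j with ⟨g, _, hc, he, _⟩ | ⟨_, he⟩
    · rw [he]
      by_contra hlt
      push Not at hlt
      exact hc.2 i hi hij.ne ⟨(h.ok.mono i hi j hj hij.le).1 hc.1.1, hlt⟩
    · rw [he]; exact (h.ok.mono i hi j hj hij.le).2
  refine ⟨Stc ν F b I, ⟨F, b, I, ⟨h.ok.card, h.ok.frame, ?_⟩, rfl⟩, ?_, ?_, ?_⟩
  · intro i hi j hj hij
    refine ⟨(h.ok.mono i hi j hj hij).1, ?_⟩
    rcases eq_or_lt_of_le hij with rfl | hlt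
    · exact le_rfl
    · exact (hle i).trans (hlow i hi j hj hlt)
  · rintro z ⟨i, hi, hc⟩
    exact ⟨i, hi, hc.1, hc.2.trans_le (hle i)⟩
  · intro z hz hzS
    have hne : (I.filter fun i => Cov ν F a i z).Nonempty := by
      obtain ⟨i, hi, hc⟩ := h.cov z hz
      exact ⟨i, by simp [hi, hc]⟩
    obtain ⟨i, hi, hmax⟩ := Finset.exists_max_image _ (fun i => i) hne
    rw [Finset.mem_filter] at hi
    refine ⟨i, hi.1, hi.2.1, ?_⟩
    rcases hb i with ⟨g, hg, hc, he, hm⟩ | ⟨_, he⟩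
    · rw [he]
      by_cases hcz : Cell ν F a I i z
      · have h1 := hm z hz hcz
        have h2 : ν z ≠ ν g := fun he => hzS (h.inj he ▸ h.GS g hg)
        omega
      · have : ∃ j ∈ I, j ≠ i ∧ Cov ν F a j z := by
          by_contra hno
          push Not at hno
          exact hcz ⟨hi.2, fun j hj hji hcj => hno j hj hji hcj⟩
        obtain ⟨j, hj, hji, hcj⟩ := this
        have h1 : j ≤ i := hmax j (by simp [hj, hcj])
        have h2 : j < i := lt_of_le_of_ne h1 hji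
        have h3 := hlow j hj i hi.1 h2
        have h4 := hcj.2
        omega
    · rw [he]; exact hi.2.2
  · rintro g hg ⟨i, hi, hc⟩
    obtain ⟨l, hl, hlc, hlm⟩ := hα g hg
    have hil : i = l := by
      by_contra hne
      exact hlc.2 i hi hne ⟨hc.1, hc.2.trans_le (hle i)⟩
    subst hil
    rcases hb i with ⟨g', hg', hc', he, _⟩ | ⟨hno, _⟩
    · have h1 := hlm g' (hgD g' hg') hc'
      have h2 := hc.2
      omega
    · exact hno ⟨g, hg, hlc, hlm⟩

end Sit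

end Crest.Agent.R286.T3
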