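import Crest.Agent.R286.Step

/-!
Row 286: the beta updates and the complete STEP lemma.
-/

set_option autoImplicit false

namespace Crest.Agent.R286.T3

variable {α : Type*} [DecidableEq α] {r : α → α → Prop} {ν : α → ℕ}
  {F : ℕ → Set α} {a : ℕ → ℕ} {I : Finset ℕ}

namespace Sit

variable {D S : Finset α} {G : α → Prop}

/-- two new stairs -/
theorem stepTwo (h : Sit r ν F a I D S G) {i j : ℕ} (hi : i ∈ I) (hj : j ∈ I)
    (hij : ∀ l ∈ I, i ≤ l ∧ l ≤ j) {g p q : α} (hg : G g) (hP : S.erase g = {p, q})
    (hp : Cov ν F a i p) (hq : Cov ν F a j q) (hgi : ν g ≤ a i)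
    (hm : ∀ i ∈ I, ∃ p ∈ S.erase g, Cell ν F a I i p)
    (hmin : ∀ g', G g' → ν g ≤ ν g') :
    ∃ X : Set α, IsSt r ν X ∧ X ⊆ Stc ν F a I ∧ (∀ z ∈ D, z ∉ S → z ∈ X) ∧ ∀ g, G g → g ∉ X := by
  classical
  let F' : ℕ → Set α := fun n => if n = 0 then F i else {z | r z p ∨ r z q}
  let a' : ℕ → ℕ := fun n => if n = 0 then ν g else a j
  have hpS : p ∈ S := Finset.mem_of_mem_erase (by rw [hP]; simp)
  have hqS : q ∈ S := Finset.mem_of_mem_erase (by rw [hP]; simp)
  have hjF : F j ⊆ F i := (h.ok.mono i hi j hj (hij j hj).1).1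
  have hja : a i ≤ a j := (h.ok.mono i hi j hj (hij j hj).1).2
  have hnest : {z | r z p ∨ r z q} ⊆ F i := by
    rintro z (hz | hz)
    · exact (h.ok.frame i hi).down h.tr hz hp.1
    · exact (h.ok.frame i hi).down h.tr hz (hjF hq.1)
  refine ⟨Stc ν F' a' {0, 1}, ⟨F', a', {0, 1}, ⟨by decide, ?_, ?_⟩, rfl⟩, ?_, ?_, ?_⟩
  · intro n hn
    simp only [Finset.mem_insert, Finset.mem_singleton] at hn
    rcases hn with rfl | rfl
    · simpa [F'] using h.ok.frame i hi
    · exact Or.inr ⟨p, q, by simp [F']⟩
  · intro m hm n hn hmn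
    simp only [Finset.mem_insert, Finset.mem_singleton] at hm hn
    rcases hm with rfl | rfl <;> rcases hn with rfl | rfl
    · exact ⟨subset_rfl, le_rfl⟩
    · refine ⟨by simpa [F'] using hnest, ?_⟩
      simp only [a']; simpa using hgi.trans hja
    · omega
    · exact ⟨subset_rfl, le_rfl⟩
  · rintro z ⟨n, hn, hz⟩
    simp only [Finset.mem_insert, Finset.mem_singleton] at hn
    rcases hn with rfl | rfl
    · have h1 : z ∈ F i := by simpa [F'] using hz.1
      have h2 : ν z < ν g := by simpa [a'] using hz.2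
      exact ⟨i, hi, h1, by omega⟩
    · have h1 : r z p ∨ r z q := by simpa [F'] using hz.1
      rcases h1 with h1 | h1
      · exact ⟨i, hi, h.ok.down h.tr h.mon hi h1 hp⟩
      · exact ⟨j, hj, h.ok.down h.tr h.mon hj h1 hq⟩
  · intro z hz hzS
    obtain ⟨l, hl, hc⟩ := h.cov z hz
    have hzi : z ∈ F i := (h.ok.mono i hi l hl (hij l hl).1).1 hc.1
    have hzj : ν z < a j := hc.2.trans_le (h.ok.mono l hl j hj (hij l hl).2).2
    rcases h.beta hg hm hz hzS with hb | ⟨x, hx, hb⟩
    · exact ⟨0, by simp, by simpa [F'] using hzi, by simpa [a'] using hb⟩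
    · rw [hP] at hx
      simp only [Finset.mem_insert, Finset.mem_singleton] at hx
      refine ⟨1, by simp, ?_, by simpa [a'] using hzj⟩
      show z ∈ F' 1
      simp only [F', one_ne_zero, if_false, Set.mem_ofPred_eq]
      rcases hx with rfl | rfl
      · exact Or.inl hb
      · exact Or.inr hb
  · rintro x hx ⟨n, hn, hz⟩
    simp only [Finset.mem_insert, Finset.mem_singleton] at hn
    have hxS := h.GS x hx
    rcases hn with rfl | rfl
    · have h2 : ν x < ν g := by simpa [a'] using hz.2
      have := hmin x hx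
      omega
    · have h1 : r x p ∨ r x q := by simpa [F'] using hz.1
      rcases h1 with h1 | h1
      · exact h.Smax x hxS p (h.SD hpS) h1
      · exact h.Smax x hxS q (h.SD hqS) h1

/-- three new stairs -/
theorem stepThree (h : Sit r ν F a I D S G) {i j : ℕ} (hi : i ∈ I) (hj : j ∈ I)
    (hij : i < j) (hI : ∀ l ∈ I, l = i ∨ l = j) {g p q : α} (hg : G g) (hP : S.erase g = {p, q})
    (hq : Cov ν F a j q) (b : ℕ) (hb1 : b ≤ ν g) (hb2 : ν g ≤ a j) (hb3 : b ≤ a i)
    (hpg : ν p ≤ ν g)
    (hm : ∀ i ∈ I, ∃ p ∈ S.erase g, Cell ν F a I i p)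
    (hcell : ∀ z ∈ D, z ∉ S → Cell ν F a I i z → ν z < b)
    (hx1 : ∀ g', G g' → g' ∈ F i → b ≤ ν g')
    (hx2 : ∀ g', G g' → g' ∈ F j → ν g ≤ ν g') :
    ∃ X : Set α, IsSt r ν X ∧ X ⊆ Stc ν F a I ∧ (∀ z ∈ D, z ∉ S → z ∈ X) ∧ ∀ g, G g → g ∉ X := by
  classical
  let F' : ℕ → Set α := fun n => if n = 0 then F i else if n = 1 then F j else {z | r z q ∨ r z q}
  let a' : ℕ → ℕ := fun n => if n = 0 then b else if n = 1 then ν g else a j
  have hqS : q ∈ S := Finset.mem_of_mem_erase (by rw [hP]; simp)
  have hjF : F j ⊆ F i := (h.ok.mono i hi j hj hij.le).1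
  have hja : a i ≤ a j := (h.ok.mono i hi j hj hij.le).2
  have hnest : {z | r z q ∨ r z q} ⊆ F j := by
    rintro z (hz | hz) <;> exact (h.ok.frame j hj).down h.tr hz hq.1
  refine ⟨Stc ν F' a' {0, 1, 2}, ⟨F', a', {0, 1, 2}, ⟨by decide, ?_, ?_⟩, rfl⟩, ?_, ?_, ?_⟩
  · intro n hn
    simp only [Finset.mem_insert, Finset.mem_singleton] at hn
    rcases hn with rfl | rfl | rfl
    · simpa [F'] using h.ok.frame i hi
    · simpa [F'] using h.ok.frame j hj
    · exact Or.inr ⟨q, q, by simp [F']⟩
  · intro m hm n hn hmn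
    simp only [Finset.mem_insert, Finset.mem_singleton] at hm hn
    rcases hm with rfl | rfl | rfl <;> rcases hn with rfl | rfl | rfl
    · exact ⟨subset_rfl, le_rfl⟩
    · exact ⟨by simpa [F'] using hjF, by simpa [a'] using hb1⟩
    · exact ⟨by simpa [F'] using hnest.trans hjF, by simpa [a'] using hb1.trans hb2⟩
    · omega
    · exact ⟨subset_rfl, le_rfl⟩
    · exact ⟨by simpa [F'] using hnest, by simpa [a'] using hb2⟩
    · omega
    · omega
    · exact ⟨subset_rfl, le_rfl⟩
  · rintro z ⟨n, hn, hz⟩
    simp only [Finset.mem_insert, Finset.mem_singleton] at hn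
    rcases hn with rfl | rfl | rfl
    · have h1 : z ∈ F i := by simpa [F'] using hz.1
      have h2 : ν z < b := by simpa [a'] using hz.2
      exact ⟨i, hi, h1, by omega⟩
    · have h1 : z ∈ F j := by simpa [F'] using hz.1
      have h2 : ν z < ν g := by simpa [a'] using hz.2
      exact ⟨j, hj, h1, by omega⟩
    · have h1 : r z q := by simpa [F'] using hz.1
      exact ⟨j, hj, h.ok.down h.tr h.mon hj h1 hq⟩
  · intro z hz hzS
    obtain ⟨l, hl, hc⟩ := h.cov z hz
    have hzj : ν z < a j := by
      rcases hI l hl with rfl | rfl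
      · exact hc.2.trans_le hja
      · exact hc.2
    by_cases hzF : z ∈ F j
    · by_cases hzg : ν z < ν g
      · exact ⟨1, by simp, by simpa [F'] using hzF, by simpa [a'] using hzg⟩
      · rcases h.beta hg hm hz hzS with hb | ⟨x, hx, hb⟩
        · exact absurd hb hzg
        · rw [hP] at hx
          simp only [Finset.mem_insert, Finset.mem_singleton] at hx
          rcases hx with rfl | rfl
          · have := h.mon hb; omega
          · exact ⟨2, by simp, by simpa [F'] using hb, by simpa [a'] using hzj⟩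
    · have hcell' : Cell ν F a I i z := by
        rcases hI l hl with rfl | rfl
        · refine ⟨hc, fun k hk hkl hck => ?_⟩
          rcases hI k hk with rfl | rfl
          · exact hkl rfl
          · exact hzF hck.1
        · exact absurd hc.1 hzF
      exact ⟨0, by simp, by simpa [F'] using hcell'.1.1, by simpa [a'] using hcell z hz hzS hcell'⟩
  · rintro x hx ⟨n, hn, hz⟩
    simp only [Finset.mem_insert, Finset.mem_singleton] at hn
    have hxS := h.GS x hx
    rcases hn with rfl | rfl | rfl
    · have h1 : x ∈ F i := by simpa [F'] using hz.1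
      have h2 : ν x < b := by simpa [a'] using hz.2
      have := hx1 x hx h1
      omega
    · have h1 : x ∈ F j := by simpa [F'] using hz.1
      have h2 : ν x < ν g := by simpa [a'] using hz.2
      have := hx2 x hx h1
      omega
    · have h1 : r x q := by simpa [F'] using hz.1
      exact h.Smax x hxS q (h.SD hqS) h1

/-- THE STEP LEMMA -/
theorem step (h : Sit r ν F a I D S G) :
    ∃ X : Set α, IsSt r ν X ∧ X ⊆ Stc ν F a I ∧ (∀ z ∈ D, z ∉ S → z ∈ X) ∧ ∀ g, G g → g ∉ X := by
  classical
  by_cases hα : ∀ g, G g → ∃ l ∈ I, Cell ν F a I l g ∧ ∀ z ∈ D, Cell ν F a I l z → ν z ≤ ν g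
  · exact h.stepAlpha hα
  -- beta jobs hit all cells
  have hhit : ∀ g, G g → (¬ ∃ l ∈ I, Cell ν F a I l g ∧ ∀ z ∈ D, Cell ν F a I l z → ν z ≤ ν g) →
      ∀ i ∈ I, ∃ p ∈ S.erase g, Cell ν F a I i p := by
    intro g hg hno i hi
    by_contra hc
    push Not at hc
    exact hno (h.alpha hg ⟨i, hi, hc⟩)
  have hne : (S.filter fun g => G g ∧ ¬ ∃ l ∈ I, Cell ν F a I l g ∧
      ∀ z ∈ D, Cell ν F a I l z → ν z ≤ ν g).Nonempty := by
    by_contra hemp
    rw [Finset.not_nonempty_iff_eq_empty] at hemp
    refine hα fun g hg => ?_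
    by_contra hno
    have : g ∈ S.filter fun g => G g ∧ ¬ ∃ l ∈ I, Cell ν F a I l g ∧
      ∀ z ∈ D, Cell ν F a I l z → ν z ≤ ν g := Finset.mem_filter.2 ⟨h.GS g hg, hg, hno⟩
    rw [hemp] at this
    simp at this
  obtain ⟨g, hgm, hgmin⟩ := Finset.exists_min_image _ ν hne
  rw [Finset.mem_filter] at hgm
  obtain ⟨hgS, hg, hgβ⟩ := hgm
  have hm := hhit g hg hgβ
  have hP2 : (S.erase g).card = 2 := by rw [Finset.card_erase_of_mem hgS, h.S3]
  -- at most two cells
  have hI2 : I.card ≤ 2 := by
    haveI : Nonempty α := ⟨g⟩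
    choose! f hf using hm
    rw [← hP2]
    refine Finset.card_le_card_of_injOn f (fun i hi => (hf i hi).1) ?_
    intro i hi j hj hij
    have h1 := (hf i hi).2
    have h2 := (hf j hj).2
    rw [← hij] at h2
    exact Cell.unique hi h1 h2
  have hI0 : I.Nonempty := by
    obtain ⟨i, hi, _⟩ := h.cov g (h.SD hgS)
    exact ⟨i, hi⟩
  have hI0' := Finset.card_pos.2 hI0
  rcases Nat.lt_or_ge 1 I.card with hI1 | hI1
  · -- two cells
    have hI2' : I.card = 2 := by omega
    obtain ⟨i, j, hij, hIeq⟩ : ∃ i j, i < j ∧ I = {i, j} := by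
      obtain ⟨x, y, hxy, hI⟩ := Finset.card_eq_two.1 hI2'
      rcases lt_or_gt_of_ne hxy with h1 | h1
      · exact ⟨x, y, h1, hI⟩
      · exact ⟨y, x, h1, by rw [hI, Finset.pair_comm]⟩
    have hi : i ∈ I := by rw [hIeq]; simp
    have hj : j ∈ I := by rw [hIeq]; simp
    have hI : ∀ l ∈ I, l = i ∨ l = j := by
      intro l hl; rw [hIeq] at hl; simpa using hl
    have hjF : F j ⊆ F i := (h.ok.mono i hi j hj hij.le).1
    have hja : a i ≤ a j := (h.ok.mono i hi j hj hij.le).2
    obtain ⟨p, hp, hpc⟩ := hm i hi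
    obtain ⟨q, hq, hqc⟩ := hm j hj
    have hpq : p ≠ q := by
      rintro rfl
      exact hij.ne (Cell.unique hi hpc hqc)
    have hP : S.erase g = {p, q} := by
      symm
      apply Finset.eq_of_subset_of_card_le
      · intro x hx
        simp only [Finset.mem_insert, Finset.mem_singleton] at hx
        rcases hx with rfl | rfl
        · exact hp
        · exact hq
      · rw [hP2, Finset.card_pair hpq]
    have hGcase : ∀ x, G x → x = g ∨ x = p ∨ x = q := by
      intro x hx
      by_cases hxg : x = g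
      · exact Or.inl hxg
      · have : x ∈ S.erase g := Finset.mem_erase.2 ⟨hxg, h.GS x hx⟩
        rw [hP] at this
        simp only [Finset.mem_insert, Finset.mem_singleton] at this
        exact Or.inr this
    have hgD := h.SD hgS
    have hpD := h.SD (Finset.mem_of_mem_erase hp)
    have hqD := h.SD (Finset.mem_of_mem_erase hq)
    -- facts on `p` and `q`
    have hpF : p ∉ F j := fun hc => hpc.2 j hj hij.ne' ⟨hc, hpc.1.2.trans_le hja⟩
    have hqa : a i ≤ ν q := by
      by_contra hlt
      push Not at hlt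
      exact hqc.2 i hi hij.ne ⟨hjF hqc.1.1, hlt⟩
    -- every element of `D` is in `F i`
    have hDF : ∀ z ∈ D, z ∈ F i := by
      intro z hz
      obtain ⟨l, hl, hc⟩ := h.cov z hz
      rcases hI l hl with rfl | rfl
      · exact hc.1
      · exact hjF hc.1
    -- if `G x` and `x` has smaller nu than `g` then `x` is of type alpha
    have hαx : ∀ x, G x → ν x < ν g → ∃ l ∈ I, Cell ν F a I l x ∧
        ∀ z ∈ D, Cell ν F a I l z → ν z ≤ ν x := by
      intro x hx hxg
      by_contra hno
      have := hgmin x (Finset.mem_filter.2 ⟨h.GS x hx, hx, hno⟩)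
      omega
    -- `p` of type alpha: it is the maximum of cell `i`
    have hpmax : G p → ν p < ν g → ∀ z ∈ D, Cell ν F a I i z → ν z ≤ ν p := by
      intro hGp hlt
      obtain ⟨l, hl, hlc, hlm⟩ := hαx p hGp hlt
      have : i = l := Cell.unique hi hpc hlc
      subst this
      exact hlm
    by_cases hga : a i ≤ ν g
    · -- sub-case A
      have hgj : Cov ν F a j g := by
        obtain ⟨l, hl, hc⟩ := h.cov g hgD
        rcases hI l hl with rfl | rfl
        · have := hc.2; omega
        · exact hc
      have hgc : Cell ν F a I j g := by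
        refine ⟨hgj, fun k hk hkj hck => ?_⟩
        rcases hI k hk with rfl | rfl
        · have := hck.2; omega
        · exact hkj rfl
      have hpg : ν p < ν g := hpc.1.2.trans_le hga
      have hq2 : G q → ν g ≤ ν q := by
        intro hGq
        by_contra hlt
        push Not at hlt
        obtain ⟨l, hl, hlc, hlm⟩ := hαx q hGq hlt
        have : j = l := Cell.unique hj hqc hlc
        subst this
        have := hlm g hgD hgc
        omega
      by_cases hGp : G p
      · refine h.stepThree hi hj hij hI hg hP hqc.1 (ν p) hpg.le hgj.2.le hpc.1.2.le hpg.le hm ?_ ?_ ?_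
        · intro z hz hzS hzc
          have h1 := hpmax hGp hpg z hz hzc
          have h2 : ν z ≠ ν p := fun he => hzS (h.inj he ▸ Finset.mem_of_mem_erase hp)
          omega
        · intro x hx _
          rcases hGcase x hx with rfl | rfl | rfl
          · exact hpg.le
          · exact le_rfl
          · exact hpc.1.2.le.trans hqa
        · intro x hx hxF
          rcases hGcase x hx with rfl | rfl | rfl
          · exact le_rfl
          · exact absurd hxF hpF
          · exact hq2 hx
      · refine h.stepThree hi hj hij hI hg hP hqc.1 (a i) hga hgj.2.le le_rfl hpg.le hm ?_ ?_ ?_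
        · intro z _ _ hzc
          exact hzc.1.2
        · intro x hx _
          rcases hGcase x hx with rfl | rfl | rfl
          · exact hga
          · exact absurd hx hGp
          · exact hqa
        · intro x hx hxF
          rcases hGcase x hx with rfl | rfl | rfl
          · exact le_rfl
          · exact absurd hxF hpF
          · exact hq2 hx
    · push Not at hga
      by_cases hB : G p ∧ ν p < ν g
      · -- sub-case B1
        obtain ⟨hGp, hpg⟩ := hB
        have hmx := hpmax hGp hpg
        refine h.stepThree hi hj hij hI hg hP hqc.1 (ν p) hpg.le (hga.le.trans hja) hpc.1.2.le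
          hpg.le hm ?_ ?_ ?_
        · intro z hz hzS hzc
          have h1 := hmx z hz hzc
          have h2 : ν z ≠ ν p := fun he => hzS (h.inj he ▸ Finset.mem_of_mem_erase hp)
          omega
        · intro x hx _
          rcases hGcase x hx with rfl | rfl | rfl
          · exact hpg.le
          · exact le_rfl
          · exact hpc.1.2.le.trans hqa
        · intro x hx hxF
          rcases hGcase x hx with rfl | rfl | rfl
          · exact le_rfl
          · exact absurd hxF hpF
          · omega
      · -- sub-case B2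
        refine h.stepTwo hi hj ?_ hg hP hpc.1 hqc.1 hga.le hm ?_
        · intro l hl
          rcases hI l hl with rfl | rfl <;> omega
        · intro x hx
          rcases hGcase x hx with rfl | rfl | rfl
          · exact le_rfl
          · by_contra hlt
            push Not at hlt
            exact hB ⟨hx, hlt⟩
          · omega
  · -- one cell
    obtain ⟨i, hIi⟩ := Finset.card_eq_one.1 (show I.card = 1 by omega)
    have hi : i ∈ I := by rw [hIi]; simp
    have hI : ∀ l ∈ I, l = i := by intro l hl; rw [hIi] at hl; simpa using hl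
    have hcell : ∀ z ∈ D, Cell ν F a I i z := by
      intro z hz
      obtain ⟨l, hl, hc⟩ := h.cov z hz
      have := hI l hl
      subst this
      exact ⟨hc, fun k hk hkl => absurd (hI k hk) hkl⟩
    have hne2 : (S.filter fun g => G g).Nonempty := ⟨g, by simp [hgS, hg]⟩
    obtain ⟨g', hgm', hgmin'⟩ := Finset.exists_min_image _ ν hne2
    rw [Finset.mem_filter] at hgm'
    obtain ⟨hgS', hg'⟩ := hgm'
    have hP2' : (S.erase g').card = 2 := by rw [Finset.card_erase_of_mem hgS', h.S3]
    obtain ⟨p, q, _, hP⟩ := Finset.card_eq_two.1 hP2'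
    have hpD : p ∈ D := h.SD (Finset.mem_of_mem_erase (a := g') (by rw [hP]; simp))
    have hqD : q ∈ D := h.SD (Finset.mem_of_mem_erase (a := g') (by rw [hP]; simp))
    refine h.stepTwo hi hi ?_ hg' hP (hcell p hpD).1 (hcell q hqD).1
      (hcell g' (h.SD hgS')).1.2.le ?_ ?_
    · intro l hl
      rw [hI l hl]; exact ⟨le_rfl, le_rfl⟩
    · intro l hl
      rw [hI l hl]
      exact ⟨p, by rw [hP]; simp, hcell p hpD⟩
    · intro x hx
      exact hgmin' x (Finset.mem_filter.2 ⟨h.GS x hx, hx⟩)

end Sit

end Crest.Agent.R286.T3
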