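import Mathlib

/-!
# Row 286: the abstract greedy lemma and the Step lemma

Everything here is independent of how packings are represented: `Feas` is the predicate
"feasible last slot of `D`", `Fr S g` is "g is free in some packing of `D` with last slot `S`".
-/

set_option autoImplicit false
set_option linter.unusedVariables false

namespace Crest.Agent.R286.StepAbs

open Classical

variable {α : Type*}

/-- frames: everything, or strictly below one of two jobs -/
def Frame (R : α → α → Prop) (F : Set α) : Prop :=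
  F = Set.univ ∨ ∃ b c, F = {z | R z b ∨ R z c}

/-- three stairs -/
def stair (nu : α → ℕ) (F0 F1 F2 : Set α) (a0 a1 a2 : ℕ) : Set α :=
  {z | (z ∈ F0 ∧ nu z < a0) ∨ (z ∈ F1 ∧ nu z < a1) ∨ (z ∈ F2 ∧ nu z < a2)}

/-- staircase sets with nested frames and monotone thresholds -/
def SD (R : α → α → Prop) (nu : α → ℕ) (St : Set α) : Prop :=
  ∃ F0 F1 F2 : Set α, ∃ a0 a1 a2 : ℕ, Frame R F0 ∧ Frame R F1 ∧ Frame R F2 ∧
    F1 ⊆ F0 ∧ F2 ⊆ F1 ∧ a0 ≤ a1 ∧ a1 ≤ a2 ∧ St = stair nu F0 F1 F2 a0 a1 a2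

theorem Frame.down {R : α → α → Prop} (htr : ∀ a b c, R a b → R b c → R a c) {F : Set α}
    (hF : Frame R F) {y z : α} (hyz : R y z) (hz : z ∈ F) : y ∈ F := by
  rcases hF with rfl | ⟨b, c, rfl⟩
  · trivial
  · rcases hz with h | h
    · exact Or.inl (htr _ _ _ hyz h)
    · exact Or.inr (htr _ _ _ hyz h)

theorem SD.down {R : α → α → Prop} {nu : α → ℕ} (htr : ∀ a b c, R a b → R b c → R a c)
    (hnu : ∀ a b, R a b → nu a < nu b) {St : Set α}
    (hS : SD R nu St) {y z : α} (hyz : R y z) (hz : z ∈ St) : y ∈ St := by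
  obtain ⟨F0, F1, F2, a0, a1, a2, f0, f1, f2, -, -, -, -, rfl⟩ := hS
  have := hnu _ _ hyz
  rcases hz with ⟨h, h'⟩ | ⟨h, h'⟩ | ⟨h, h'⟩
  · exact Or.inl ⟨f0.down htr hyz h, by omega⟩
  · exact Or.inr (Or.inl ⟨f1.down htr hyz h, by omega⟩)
  · exact Or.inr (Or.inr ⟨f2.down htr hyz h, by omega⟩)

/-- The data of one step: a finite set `D` of jobs, its feasible last slots, and the freeness
relation, with the exchange property (E). -/
structure StepData (R : α → α → Prop) (nu : α → ℕ) (D : Finset α)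
    (Feas : Finset α → Prop) (Fr : Finset α → α → Prop) : Prop where
  tr : ∀ a b c, R a b → R b c → R a c
  inj : Function.Injective nu
  mono : ∀ a b, R a b → nu a < nu b
  sub : ∀ S, Feas S → S ⊆ D
  card : ∀ S, Feas S → S.card = 3
  maxl : ∀ S, Feas S → ∀ s ∈ S, ∀ z ∈ D, ¬ R s z
  exch : ∀ S g y, Feas S → g ∈ S → Fr S g → y ∈ D → y ∉ S → (∀ z ∈ D, ¬ R y z) →
    Feas (insert y (S.erase g))
  ex : ∃ S, Feas S

section greedy

variable {ι : Type} [Fintype ι]

/-- number of cells hit -/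
noncomputable def hit (C : ι → Finset α) (S : Finset α) : ℕ :=
  (Finset.univ.filter fun i => ∃ s ∈ S, s ∈ C i).card

theorem hit_insert_new (C : ι → Finset α) (hd : ∀ i j, i ≠ j → Disjoint (C i) (C j))
    (T : Finset α) (x : α) (i : ι) (hx : x ∈ C i) (hT : ∀ s ∈ T, s ∉ C i) :
    hit C (insert x T) = hit C T + 1 := by
  have h : (Finset.univ.filter fun j => ∃ s ∈ insert x T, s ∈ C j) =
      insert i (Finset.univ.filter fun j => ∃ s ∈ T, s ∈ C j) := by
    ext j
    simp only [Finset.mem_filter, Finset.mem_univ, true_and, Finset.mem_insert]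
    constructor
    · rintro ⟨s, rfl | hs, hsj⟩
      · left
        by_contra hij
        exact Finset.disjoint_left.mp (hd j i hij) hsj hx
      · exact Or.inr ⟨s, hs, hsj⟩
    · rintro (rfl | ⟨s, hs, hsj⟩)
      · exact ⟨x, Or.inl rfl, hx⟩
      · exact ⟨s, Or.inr hs, hsj⟩
  unfold hit
  rw [h, Finset.card_insert_of_notMem]
  simp only [Finset.mem_filter, Finset.mem_univ, true_and]
  rintro ⟨s, hs, hsi⟩
  exact hT s hs hsi

theorem hit_mono (C : ι → Finset α) {S T : Finset α} (h : S ⊆ T) : hit C S ≤ hit C T := by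
  apply Finset.card_le_card
  intro i hi
  simp only [Finset.mem_filter, Finset.mem_univ, true_and] at hi ⊢
  obtain ⟨s, hs, hsi⟩ := hi
  exact ⟨s, h hs, hsi⟩

theorem hit_insert_old (C : ι → Finset α) (T : Finset α) (x : α)
    (h : ∀ i, x ∈ C i → ∃ s ∈ T, s ∈ C i) : hit C (insert x T) = hit C T := by
  apply le_antisymm _ (hit_mono C (Finset.subset_insert x T))
  apply Finset.card_le_card
  intro i hi
  simp only [Finset.mem_filter, Finset.mem_univ, true_and, Finset.mem_insert] at hi ⊢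
  obtain ⟨s, rfl | hs, hsi⟩ := hi
  · exact h i hsi
  · exact ⟨s, hs, hsi⟩

/-- The greedy lemma. -/
theorem greedy {R : α → α → Prop} {nu : α → ℕ} {D : Finset α}
    {Feas : Finset α → Prop} {Fr : Finset α → α → Prop} (H : StepData R nu D Feas Fr)
    (C : ι → Finset α) (hd : ∀ i j, i ≠ j → Disjoint (C i) (C j)) (hsub : ∀ i, C i ⊆ D)
    (hup : ∀ i, ∀ z ∈ C i, ∀ y ∈ D, R z y → y ∈ C i) (hne : ∀ i, (C i).Nonempty) :
    ∃ S, Feas S ∧ ∀ g ∈ S, Fr S g →
      ((∃ i, g ∈ C i ∧ (∀ z ∈ C i, nu z ≤ nu g) ∧ ∀ s ∈ S, s ≠ g → s ∉ C i) ∨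
       ((∀ i, ∃ s ∈ S, s ≠ g ∧ s ∈ C i) ∧
        ∀ y ∈ D, y ∉ S → (∀ z ∈ D, ¬ R y z) → nu y < nu g)) := by
  obtain ⟨S0, hS0⟩ := H.ex
  set M : ℕ := ∑ s ∈ D, nu s + 1 with hM
  set ph : Finset α → ℕ := fun S => hit C S * M + ∑ s ∈ S, nu s with hph
  obtain ⟨S, hS, hmax⟩ := Finset.exists_max_image (D.powerset.filter Feas) ph
    ⟨S0, by simp [hS0, H.sub _ hS0]⟩
  simp only [Finset.mem_filter, Finset.mem_powerset] at hS hmax
  refine ⟨S, hS.2, ?_⟩
  intro g hg hfr
  have hw : ∀ T : Finset α, T ⊆ D → ∑ s ∈ T, nu s < M := by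
    intro T hT
    have := Finset.sum_le_sum_of_subset (f := nu) hT
    omega
  -- comparison after exchange
  have key : ∀ y ∈ D, y ∉ S → (∀ z ∈ D, ¬ R y z) →
      hit C (insert y (S.erase g)) ≤ hit C S ∧
      (hit C (insert y (S.erase g)) = hit C S → nu y < nu g) := by
    intro y hy hyS hym
    have hf := H.exch S g y hS.2 hg hfr hy hyS hym
    have hle := hmax (insert y (S.erase g)) ⟨H.sub _ hf, hf⟩
    have e1 : ∑ s ∈ insert y (S.erase g), nu s = nu y + ∑ s ∈ S.erase g, nu s :=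
      Finset.sum_insert (fun h => hyS (Finset.mem_of_mem_erase h))
    have e2 : nu g + ∑ s ∈ S.erase g, nu s = ∑ s ∈ S, nu s := Finset.add_sum_erase S nu hg
    have w2 := hw S hS.1
    simp only [hph] at hle
    constructor
    · by_contra hcon
      push Not at hcon
      have : (hit C S + 1) * M ≤ hit C (insert y (S.erase g)) * M :=
        Nat.mul_le_mul_right M hcon
      rw [Nat.add_mul, one_mul] at this
      omega
    · intro heq
      rw [heq] at hle
      have h1 : nu y ≤ nu g := by omega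
      rcases Nat.lt_or_ge (nu y) (nu g) with h | h
      · exact h
      · exact absurd (H.inj (le_antisymm h1 h)) (fun h' => hyS (h' ▸ hg))
  -- the nu-maximum of a cell is maximal in D
  have hcm : ∀ i, ∃ y ∈ C i, (∀ z ∈ C i, nu z ≤ nu y) ∧ ∀ z ∈ D, ¬ R y z := by
    intro i
    obtain ⟨y, hy, hym⟩ := Finset.exists_max_image (C i) nu (hne i)
    refine ⟨y, hy, hym, ?_⟩
    intro z hz hyz
    have := hym z (hup i y hy z hz hyz)
    have := H.mono _ _ hyz
    omega
  have hSg : insert g (S.erase g) = S := Finset.insert_erase hg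
  by_cases hall : ∀ i, ∃ s ∈ S, s ≠ g ∧ s ∈ C i
  · right
    refine ⟨hall, ?_⟩
    intro y hy hyS hym
    have h1 : ∀ x, hit C (insert x (S.erase g)) = hit C (S.erase g) := by
      intro x
      apply hit_insert_old
      intro i _
      obtain ⟨s, hs, hsg, hsi⟩ := hall i
      exact ⟨s, Finset.mem_erase.mpr ⟨hsg, hs⟩, hsi⟩
    apply (key y hy hyS hym).2
    have h2 := h1 g
    rw [hSg] at h2
    rw [h1 y, h2]
  · left
    push Not at hall
    obtain ⟨i0, hi0⟩ := hall
    have hmiss : ∀ i, (∀ s ∈ S, s ≠ g → s ∉ C i) → ∀ s ∈ S.erase g, s ∉ C i := by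
      intro i h s hs
      exact h s (Finset.mem_of_mem_erase hs) (Finset.ne_of_mem_erase hs)
    obtain ⟨y0, hy0, hy0m, hy0D⟩ := hcm i0
    by_cases hyg : y0 = g
    · subst hyg
      exact ⟨i0, hy0, hy0m, hi0⟩
    · have hy0S : y0 ∉ S := fun h => hi0 y0 h hyg hy0
      have k0 := key y0 (hsub i0 hy0) hy0S hy0D
      have e0 := hit_insert_new C hd (S.erase g) y0 i0 hy0 (hmiss i0 hi0)
      -- g hits a new cell
      have hgnew : ∃ i, g ∈ C i ∧ ∀ s ∈ S, s ≠ g → s ∉ C i := by
        by_contra hcon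
        push Not at hcon
        have : hit C (insert g (S.erase g)) = hit C (S.erase g) := by
          apply hit_insert_old
          intro i hgi
          obtain ⟨s, hs, hsg, hsi⟩ := hcon i hgi
          exact ⟨s, Finset.mem_erase.mpr ⟨hsg, hs⟩, hsi⟩
        rw [hSg] at this
        omega
      obtain ⟨i1, hg1, hi1⟩ := hgnew
      refine ⟨i1, hg1, ?_, hi1⟩
      obtain ⟨y1, hy1, hy1m, hy1D⟩ := hcm i1
      by_cases hy1g : y1 = g
      · subst hy1g
        exact hy1m
      · exfalso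
        have hy1S : y1 ∉ S := fun h => hi1 y1 h hy1g hy1
        have k1 := key y1 (hsub i1 hy1) hy1S hy1D
        have e1 := hit_insert_new C hd (S.erase g) y1 i1 hy1 (hmiss i1 hi1)
        have e2 := hit_insert_new C hd (S.erase g) g i1 hg1 (hmiss i1 hi1)
        rw [hSg] at e2
        have := k1.2 (by omega)
        have := hy1m g hg1
        omega

end greedy

/-- everything not in `S` is below threshold `nu g` or below a job of `S - g` (type beta) -/
theorem below_beta {R : α → α → Prop} {nu : α → ℕ} {D : Finset α}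
    {Feas : Finset α → Prop} {Fr : Finset α → α → Prop} (H : StepData R nu D Feas Fr)
    {S : Finset α} {g : α} (hg : g ∈ S)
    (hb : ∀ y ∈ D, y ∉ S → (∀ z ∈ D, ¬ R y z) → nu y < nu g)
    {z : α} (hz : z ∈ D) (hzS : z ∉ S) : nu z < nu g ∨ ∃ s ∈ S, s ≠ g ∧ R z s := by
  obtain ⟨m, hm, hmm⟩ := Finset.exists_max_image (D.filter fun y => y = z ∨ R z y) nu
    ⟨z, by simp [hz]⟩
  simp only [Finset.mem_filter] at hm hmm
  have hmD : ∀ y ∈ D, ¬ R m y := by
    intro y hy hmy
    have h1 : nu y ≤ nu m := by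
      apply hmm y ⟨hy, Or.inr ?_⟩
      rcases hm.2 with h | h
      · exact h ▸ hmy
      · exact H.tr _ _ _ h hmy
    have := H.mono _ _ hmy
    omega
  by_cases hmS : m ∈ S
  · rcases hm.2 with h | h
    · exact absurd (h ▸ hmS) hzS
    · by_cases hmg : m = g
      · left
        exact hmg ▸ H.mono _ _ h
      · exact Or.inr ⟨m, hmS, hmg, h⟩
  · left
    have h1 := hb m hm.1 hmS hmD
    rcases hm.2 with h | h
    · exact h ▸ h1
    · have := H.mono _ _ h
      omega

end Crest.Agent.R286.StepAbs
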