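import Crest.Agent.R286.StepAbs

/-!
# Row 286: the Step lemma (update of the staircase)
-/

set_option autoImplicit false
set_option linter.unusedVariables false

namespace Crest.Agent.R286.StepAbs

open Classical

variable {α : Type*}

/-- conclusion of one step -/
def Concl (R : α → α → Prop) (nu : α → ℕ) (D : Finset α)
    (Feas : Finset α → Prop) (Fr : Finset α → α → Prop) (St : Set α) : Prop :=
  ∃ (S : Finset α) (St' : Set α), Feas S ∧ SD R nu St' ∧ St' ⊆ St ∧
    (∀ z ∈ D, z ∉ S → z ∈ St') ∧ ∀ g ∈ S, Fr S g → g ∉ St'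

theorem Concl.mono {R : α → α → Prop} {nu : α → ℕ} {D : Finset α}
    {Feas : Finset α → Prop} {Fr : Finset α → α → Prop} {St1 St2 : Set α}
    (h : Concl R nu D Feas Fr St1) (hs : St1 ⊆ St2) : Concl R nu D Feas Fr St2 := by
  obtain ⟨S, St', h1, h2, h3, h4, h5⟩ := h
  exact ⟨S, St', h1, h2, h3.trans hs, h4, h5⟩

theorem exists_b {nu : α → ℕ} (hinj : Function.Injective nu) (S D : Finset α) (K Gp : α → Prop)
    (l a : ℕ) (hSD : S ⊆ D) (hla : l ≤ a) (hl : ∀ z ∈ D, K z → l ≤ nu z)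
    (ha : ∀ z ∈ D, K z → nu z < a) :
    ∃ b, l ≤ b ∧ b ≤ a ∧ (∀ z ∈ D, z ∉ S → K z → nu z < b) ∧
      ∀ g ∈ S, Gp g → K g → (∀ z ∈ D, K z → nu z ≤ nu g) → b ≤ nu g := by
  by_cases h : ∃ g ∈ S, Gp g ∧ K g ∧ ∀ z ∈ D, K z → nu z ≤ nu g
  · obtain ⟨g0, hg0, -, hK, hm⟩ := h
    refine ⟨nu g0, hl g0 (hSD hg0) hK, (ha g0 (hSD hg0) hK).le, ?_, ?_⟩
    · intro z hz hzS hKz
      rcases (hm z hz hKz).lt_or_eq with h | h
      · exact h
      · exact absurd (hinj h ▸ hg0) hzS
    · intro g hg _ hKg hmg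
      exact hmg g0 (hSD hg0) hK
  · refine ⟨a, hla, le_rfl, ?_, ?_⟩
    · intro z hz _ hKz
      exact ha z hz hKz
    · intro g hg hG hKg hmg
      exact absurd ⟨g, hg, hG, hKg, hmg⟩ h

theorem three_elems {S : Finset α} (hc : S.card = 3) {g p q : α} (hg : g ∈ S) (hp : p ∈ S)
    (hq : q ∈ S) (hgp : g ≠ p) (hgq : g ≠ q) (hpq : p ≠ q) : ∀ s ∈ S, s = g ∨ s = p ∨ s = q := by
  have h : ({g, p, q} : Finset α) = S := by
    apply Finset.eq_of_subset_of_card_le
    · intro x hx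
      simp only [Finset.mem_insert, Finset.mem_singleton] at hx
      rcases hx with rfl | rfl | rfl <;> assumption
    · rw [hc, Finset.card_insert_of_notMem (by simp [hgp, hgq]),
        Finset.card_insert_of_notMem (by simp [hpq]), Finset.card_singleton]
  intro s hs
  rw [← h] at hs
  simpa using hs

section

variable {R : α → α → Prop} {nu : α → ℕ} {D : Finset α}
    {Feas : Finset α → Prop} {Fr : Finset α → α → Prop}

theorem step1 (H : StepData R nu D Feas Fr) {F0 : Set α} {a0 : ℕ} (f0 : Frame R F0)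
    (hD : ∀ z ∈ D, z ∈ F0 ∧ nu z < a0) :
    Concl R nu D Feas Fr {z | z ∈ F0 ∧ nu z < a0} := by
  obtain ⟨S0, hS0⟩ := H.ex
  have hDne : D.Nonempty := by
    have : S0.Nonempty := by
      rw [← Finset.card_pos, H.card _ hS0]
      norm_num
    exact this.mono (H.sub _ hS0)
  obtain ⟨S, hS, hgr⟩ := greedy H (fun _ : Unit => D) (fun i j h => absurd rfl h)
    (fun _ => subset_rfl) (fun _ z _ y hy _ => hy) (fun _ => hDne)
  have hSD := H.sub S hS
  have hc := H.card S hS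
  by_cases hex : ∃ g ∈ S, Fr S g
  · obtain ⟨g', hg', hfg'⟩ := hex
    obtain ⟨g, hg, hmin⟩ := Finset.exists_min_image (S.filter (Fr S)) nu
      ⟨g', Finset.mem_filter.mpr ⟨hg', hfg'⟩⟩
    simp only [Finset.mem_filter] at hg hmin
    have hcard : (S.erase g).card = 2 := by
      rw [Finset.card_erase_of_mem hg.1, hc]
    obtain ⟨p, q, hpq, hpqS⟩ := Finset.card_eq_two.mp hcard
    have hp : p ∈ S.erase g := by rw [hpqS]; simp
    have hq : q ∈ S.erase g := by rw [hpqS]; simp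
    have hpS := Finset.mem_of_mem_erase hp
    have hqS := Finset.mem_of_mem_erase hq
    have hpg := Finset.ne_of_mem_erase hp
    have hqg := Finset.ne_of_mem_erase hq
    have hel := three_elems hc hg.1 hpS hqS hpg.symm hqg.symm hpq
    have hbeta : ∀ y ∈ D, y ∉ S → (∀ z ∈ D, ¬ R y z) → nu y < nu g := by
      rcases hgr g hg.1 hg.2 with ⟨i, _, _, h⟩ | h
      · exact absurd (hSD hpS) (h p hpS hpg)
      · exact h.2
    refine ⟨S, stair nu F0 {z | R z p ∨ R z q} {z | R z p ∨ R z q} (nu g) a0 a0, hS,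
      ⟨F0, _, _, nu g, a0, a0, f0, Or.inr ⟨p, q, rfl⟩, Or.inr ⟨p, q, rfl⟩, ?_, subset_rfl,
        (hD g (hSD hg.1)).2.le, le_rfl, rfl⟩, ?_, ?_, ?_⟩
    · rintro z (h | h)
      · exact f0.down H.tr h (hD p (hSD hpS)).1
      · exact f0.down H.tr h (hD q (hSD hqS)).1
    · have hg0 := (hD g (hSD hg.1)).2
      rintro z (⟨h, h'⟩ | ⟨h, h'⟩ | ⟨h, h'⟩)
      · exact ⟨h, by omega⟩
      all_goals
        refine ⟨?_, h'⟩
        rcases h with h | h
        · exact f0.down H.tr h (hD p (hSD hpS)).1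
        · exact f0.down H.tr h (hD q (hSD hqS)).1
    · intro z hz hzS
      rcases below_beta H hg.1 hbeta hz hzS with h | ⟨s, hs, hsg, hzs⟩
      · exact Or.inl ⟨(hD z hz).1, h⟩
      · refine Or.inr (Or.inl ⟨?_, (hD z hz).2⟩)
        rcases hel s hs with h | h | h
        · exact absurd h hsg
        · exact Or.inl (h ▸ hzs)
        · exact Or.inr (h ▸ hzs)
    · intro g1 hg1 hfg1 hmem
      have h1 := hmin g1 ⟨hg1, hfg1⟩
      rcases hmem with ⟨_, h⟩ | ⟨h | h, _⟩ | ⟨h | h, _⟩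
      · omega
      · exact H.maxl S hS g1 hg1 p (hSD hpS) h
      · exact H.maxl S hS g1 hg1 q (hSD hqS) h
      · exact H.maxl S hS g1 hg1 p (hSD hpS) h
      · exact H.maxl S hS g1 hg1 q (hSD hqS) h
  · refine ⟨S, stair nu F0 F0 F0 a0 a0 a0, hS,
      ⟨F0, F0, F0, a0, a0, a0, f0, f0, f0, subset_rfl, subset_rfl, le_rfl, le_rfl, rfl⟩, ?_, ?_, ?_⟩
    · rintro z (h | h | h) <;> exact h
    · intro z hz _
      exact Or.inl (hD z hz)
    · intro g hg hfg
      exact absurd ⟨g, hg, hfg⟩ hex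

theorem step2 (H : StepData R nu D Feas Fr) {F0 F1 : Set α} {a0 a1 : ℕ} (f0 : Frame R F0)
    (f1 : Frame R F1) (h10 : F1 ⊆ F0) (h01 : a0 ≤ a1)
    (hD : ∀ z ∈ D, (z ∈ F0 ∧ nu z < a0) ∨ (z ∈ F1 ∧ nu z < a1)) :
    Concl R nu D Feas Fr {z | (z ∈ F0 ∧ nu z < a0) ∨ (z ∈ F1 ∧ nu z < a1)} := by
  by_cases c0 : ∃ z ∈ D, z ∉ F1
  swap
  · push Not at c0
    refine (step1 H f1 (a0 := a1) ?_).mono ?_
    · intro z hz
      refine ⟨c0 z hz, ?_⟩
      rcases hD z hz with ⟨_, h⟩ | ⟨_, h⟩ <;> omega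
    · rintro z ⟨h, h'⟩
      exact Or.inr ⟨h, h'⟩
  by_cases c1 : ∃ z ∈ D, a0 ≤ nu z
  swap
  · push Not at c1
    refine (step1 H f0 (a0 := a0) ?_).mono ?_
    · intro z hz
      refine ⟨?_, c1 z hz⟩
      rcases hD z hz with ⟨h, _⟩ | ⟨h, _⟩
      · exact h
      · exact h10 h
    · rintro z ⟨h, h'⟩
      exact Or.inl ⟨h, h'⟩
  have down1 : ∀ {y z : α}, R y z → z ∈ F1 → y ∈ F1 := fun h h' => f1.down H.tr h h'
  have down0 : ∀ {y z : α}, R y z → z ∈ F0 → y ∈ F0 := fun h h' => f0.down H.tr h h'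
  obtain ⟨S, hS, hgr⟩ := greedy H
    (fun i : Bool => if i then D.filter (fun z => a0 ≤ nu z) else D.filter (fun z => z ∉ F1))
    (by
      intro i j hij
      have key : Disjoint (D.filter (fun z => a0 ≤ nu z)) (D.filter (fun z => z ∉ F1)) := by
        rw [Finset.disjoint_left]
        intro z hz hz'
        simp only [Finset.mem_filter] at hz hz'
        rcases hD z hz.1 with ⟨_, h⟩ | ⟨h, _⟩
        · omega
        · exact hz'.2 h
      cases i <;> cases j
      · exact absurd rfl hij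
      · simpa using key.symm
      · simpa using key
      · exact absurd rfl hij)
    (by intro i; cases i <;> simp [Finset.filter_subset])
    (by
      intro i z hz y hy hzy
      cases i
      · simp only [Bool.false_eq_true, if_false, Finset.mem_filter] at hz ⊢
        exact ⟨hy, fun h => hz.2 (down1 hzy h)⟩
      · simp only [if_true, Finset.mem_filter] at hz ⊢
        have := H.mono _ _ hzy
        exact ⟨hy, by omega⟩)
    (by
      intro i
      cases i
      · obtain ⟨z, hz, hz'⟩ := c0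
        exact ⟨z, by simp [hz, hz']⟩
      · obtain ⟨z, hz, hz'⟩ := c1
        exact ⟨z, by simp [hz, hz']⟩)
  have hSD := H.sub S hS
  have hc := H.card S hS
  -- readable classification
  have hcl : ∀ g ∈ S, Fr S g →
      (g ∉ F1 ∧ (∀ z ∈ D, z ∉ F1 → nu z ≤ nu g) ∧ (∀ s ∈ S, s ≠ g → s ∈ F1)) ∨
      (a0 ≤ nu g ∧ (∀ z ∈ D, a0 ≤ nu z → nu z ≤ nu g) ∧ (∀ s ∈ S, s ≠ g → nu s < a0)) ∨
      ((∃ s ∈ S, s ≠ g ∧ s ∉ F1) ∧ (∃ s ∈ S, s ≠ g ∧ a0 ≤ nu s) ∧
        ∀ y ∈ D, y ∉ S → (∀ z ∈ D, ¬ R y z) → nu y < nu g) := by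
    intro g hg hfg
    rcases hgr g hg hfg with ⟨i, h1, h2, h3⟩ | ⟨h1, h2⟩
    · cases i
      · left
        simp only [Bool.false_eq_true, if_false, Finset.mem_filter] at h1 h2 h3
        refine ⟨h1.2, fun z hz hz' => h2 z ⟨hz, hz'⟩, ?_⟩
        intro s hs hsg
        by_contra hcon
        exact h3 s hs hsg ⟨hSD hs, hcon⟩
      · right; left
        simp only [if_true, Finset.mem_filter] at h1 h2 h3
        refine ⟨h1.2, fun z hz hz' => h2 z ⟨hz, hz'⟩, ?_⟩
        intro s hs hsg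
        by_contra hcon
        exact h3 s hs hsg ⟨hSD hs, by omega⟩
    · right; right
      refine ⟨?_, ?_, h2⟩
      · obtain ⟨s, hs, hsg, hsC⟩ := h1 false
        simp only [Bool.false_eq_true, if_false, Finset.mem_filter] at hsC
        exact ⟨s, hs, hsg, hsC.2⟩
      · obtain ⟨s, hs, hsg, hsC⟩ := h1 true
        simp only [if_true, Finset.mem_filter] at hsC
        exact ⟨s, hs, hsg, hsC.2⟩
  have hb0 : ∀ z ∈ D, z ∉ F1 → z ∈ F0 ∧ nu z < a0 := by
    intro z hz hz'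
    rcases hD z hz with h | h
    · exact h
    · exact absurd h.1 hz'
  have hb1 : ∀ z ∈ D, a0 ≤ nu z → z ∈ F1 ∧ nu z < a1 := by
    intro z hz hz'
    rcases hD z hz with h | h
    · omega
    · exact h
  have hF0 : ∀ z ∈ D, z ∈ F0 := by
    intro z hz
    rcases hD z hz with h | h
    · exact h.1
    · exact h10 h.1
  have ha1 : ∀ z ∈ D, nu z < a1 := by
    intro z hz
    rcases hD z hz with h | h <;> omega
  -- beta elements
  set Be : α → Prop := fun g => Fr S g ∧ (∃ s ∈ S, s ≠ g ∧ s ∉ F1) ∧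
    (∃ s ∈ S, s ≠ g ∧ a0 ≤ nu s) ∧
        ∀ y ∈ D, y ∉ S → (∀ z ∈ D, ¬ R y z) → nu y < nu g with hBe
  by_cases hbe : ∃ g ∈ S, Be g
  · obtain ⟨g', hg', hfg'⟩ := hbe
    obtain ⟨g, hg, hmin⟩ := Finset.exists_min_image (S.filter Be) nu
      ⟨g', Finset.mem_filter.mpr ⟨hg', hfg'⟩⟩
    simp only [Finset.mem_filter] at hg hmin
    obtain ⟨hgS, hgB⟩ := hg
    obtain ⟨hfg, ⟨p0, hp0S, hp0g, hp0⟩, ⟨p1, hp1S, hp1g, hp1⟩, hbd⟩ := hgB
    have hp0' := hb0 p0 (hSD hp0S) hp0
    have hp1' := hb1 p1 (hSD hp1S) hp1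
    have hp01 : p0 ≠ p1 := by
      rintro rfl
      omega
    have hel := three_elems hc hgS hp0S hp1S hp0g.symm hp1g.symm hp01
    have hbelow : ∀ z ∈ D, z ∉ S → nu z < nu g ∨ R z p0 ∨ R z p1 := by
      intro z hz hzS
      rcases below_beta H hgS hbd hz hzS with h | ⟨s, hs, hsg, hzs⟩
      · exact Or.inl h
      · rcases hel s hs with h | h | h
        · exact absurd h hsg
        · exact Or.inr (Or.inl (h ▸ hzs))
        · exact Or.inr (Or.inr (h ▸ hzs))
    have hanti : ∀ x ∈ S, ∀ y ∈ S, ¬ R x y := fun x hx y hy => H.maxl S hS x hx y (hSD hy)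
    have hga1 := ha1 g (hSD hgS)
    have hneg1 : nu p1 ≠ nu g := fun h => hp1g (H.inj h)
    have hneg0 : nu p0 ≠ nu g := fun h => hp0g (H.inj h)
    by_cases hcase : a0 ≤ nu g
    · -- case A
      have hgF1 := (hb1 g (hSD hgS) hcase).1
      -- p1 free => nu g < nu p1
      have hp1min : Fr S p1 → nu g < nu p1 := by
        intro hf
        rcases hcl p1 hp1S hf with ⟨h, _, _⟩ | ⟨_, _, h⟩ | h
        · exact absurd hp1'.1 h
        · have := h g hgS (Ne.symm hp1g)
          omega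
        · have := hmin p1 ⟨hp1S, hf, h⟩
          omega
      -- p0 free => it is the maximum of cell 0
      have hp0max : Fr S p0 → ∀ z ∈ D, z ∉ F1 → nu z ≤ nu p0 := by
        intro hf
        rcases hcl p0 hp0S hf with ⟨_, h, _⟩ | ⟨h, _, _⟩ | ⟨⟨s, hs, hsp, hsF⟩, _, _⟩
        · exact h
        · omega
        · rcases hel s hs with h | h | h
          · exact absurd (h ▸ hgF1) hsF
          · exact absurd h hsp
          · exact absurd (h ▸ hp1'.1) hsF
      obtain ⟨b, hb_le, hb_in, hb_ex⟩ : ∃ b, b ≤ a0 ∧ (∀ z ∈ D, z ∉ S → z ∉ F1 → nu z < b) ∧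
          (Fr S p0 → b ≤ nu p0) := by
        by_cases hf : Fr S p0
        · refine ⟨nu p0, by omega, ?_, fun _ => le_rfl⟩
          intro z hz hzS hzF
          rcases (hp0max hf z hz hzF).lt_or_eq with h | h
          · exact h
          · exact absurd (H.inj h ▸ hp0S) hzS
        · exact ⟨a0, le_rfl, fun z hz _ hzF => (hb0 z hz hzF).2, fun h => absurd h hf⟩
      refine ⟨S, stair nu F0 F1 {z | R z p1 ∨ R z p1} b (nu g) a1, hS,
        ⟨F0, F1, _, b, nu g, a1, f0, f1, Or.inr ⟨p1, p1, rfl⟩, h10, ?_, by omega, hga1.le, rfl⟩,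
        ?_, ?_, ?_⟩
      · rintro z (h | h) <;> exact down1 h hp1'.1
      · rintro z (⟨h, h'⟩ | ⟨h, h'⟩ | ⟨h, h'⟩)
        · exact Or.inl ⟨h, by omega⟩
        · exact Or.inr ⟨h, by omega⟩
        · refine Or.inr ⟨?_, h'⟩
          rcases h with h | h <;> exact down1 h hp1'.1
      · intro z hz hzS
        by_cases hzF : z ∈ F1
        · by_cases hzg : nu z < nu g
          · exact Or.inr (Or.inl ⟨hzF, hzg⟩)
          · rcases hbelow z hz hzS with h | h | h
            · exact absurd h hzg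
            · have := H.mono _ _ h
              omega
            · exact Or.inr (Or.inr ⟨Or.inl h, ha1 z hz⟩)
        · exact Or.inl ⟨hF0 z hz, hb_in z hz hzS hzF⟩
      · intro x hx hfx hmem
        rcases hel x hx with rfl | rfl | rfl
        · rcases hmem with ⟨_, h⟩ | ⟨_, h⟩ | ⟨h | h, _⟩
          · omega
          · omega
          · exact hanti _ hx _ hp1S h
          · exact hanti _ hx _ hp1S h
        · rcases hmem with ⟨_, h⟩ | ⟨h, _⟩ | ⟨h | h, _⟩
          · have := hb_ex hfx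
            omega
          · exact hp0 h
          · exact hanti _ hx _ hp1S h
          · exact hanti _ hx _ hp1S h
        · have := hp1min hfx
          rcases hmem with ⟨_, h⟩ | ⟨_, h⟩ | ⟨h | h, _⟩
          · omega
          · omega
          · exact hanti _ hx _ hp1S h
          · exact hanti _ hx _ hp1S h
    · -- case B : nu g < a0
      push Not at hcase
      by_cases hsub : Fr S p0 ∧ nu p0 < nu g
      · -- B1
        obtain ⟨hf0, hlt⟩ := hsub
        have hp0max : (∀ z ∈ D, z ∉ F1 → nu z ≤ nu p0) ∧ g ∈ F1 := by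
          rcases hcl p0 hp0S hf0 with ⟨_, h, h'⟩ | ⟨h, _, _⟩ | h
          · exact ⟨h, h' g hgS (Ne.symm hp0g)⟩
          · omega
          · have := hmin p0 ⟨hp0S, hf0, h⟩
            omega
        refine ⟨S, stair nu F0 F1 {z | R z p1 ∨ R z p1} (nu p0) (nu g) a1, hS,
          ⟨F0, F1, _, nu p0, nu g, a1, f0, f1, Or.inr ⟨p1, p1, rfl⟩, h10, ?_, hlt.le, hga1.le, rfl⟩,
          ?_, ?_, ?_⟩
        · rintro z (h | h) <;> exact down1 h hp1'.1
        · rintro z (⟨h, h'⟩ | ⟨h, h'⟩ | ⟨h, h'⟩)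
          · exact Or.inl ⟨h, by omega⟩
          · exact Or.inr ⟨h, by omega⟩
          · refine Or.inr ⟨?_, h'⟩
            rcases h with h | h <;> exact down1 h hp1'.1
        · intro z hz hzS
          by_cases hzF : z ∈ F1
          · by_cases hzg : nu z < nu g
            · exact Or.inr (Or.inl ⟨hzF, hzg⟩)
            · rcases hbelow z hz hzS with h | h | h
              · exact absurd h hzg
              · have := H.mono _ _ h
                omega
              · exact Or.inr (Or.inr ⟨Or.inl h, ha1 z hz⟩)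
          · refine Or.inl ⟨hF0 z hz, ?_⟩
            rcases (hp0max.1 z hz hzF).lt_or_eq with h | h
            · exact h
            · exact absurd (H.inj h ▸ hp0S) hzS
        · intro x hx hfx hmem
          rcases hel x hx with rfl | rfl | rfl
          · rcases hmem with ⟨_, h⟩ | ⟨_, h⟩ | ⟨h | h, _⟩
            · omega
            · omega
            · exact hanti _ hx _ hp1S h
            · exact hanti _ hx _ hp1S h
          · rcases hmem with ⟨_, h⟩ | ⟨h, _⟩ | ⟨h | h, _⟩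
            · omega
            · exact hp0 h
            · exact hanti _ hx _ hp1S h
            · exact hanti _ hx _ hp1S h
          · rcases hmem with ⟨_, h⟩ | ⟨_, h⟩ | ⟨h | h, _⟩
            · omega
            · omega
            · exact hanti _ hx _ hp1S h
            · exact hanti _ hx _ hp1S h
      · -- B2
        have hp0c : Fr S p0 → nu g < nu p0 := by
          intro hf
          by_contra hcon
          exact hsub ⟨hf, by omega⟩
        refine ⟨S, stair nu F0 {z | R z p0 ∨ R z p1} {z | R z p0 ∨ R z p1} (nu g) a1 a1, hS,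
          ⟨F0, _, _, nu g, a1, a1, f0, Or.inr ⟨p0, p1, rfl⟩, Or.inr ⟨p0, p1, rfl⟩, ?_,
            subset_rfl, hga1.le, le_rfl, rfl⟩, ?_, ?_, ?_⟩
        · rintro z (h | h)
          · exact down0 h hp0'.1
          · exact h10 (down1 h hp1'.1)
        · have aux : ∀ z : α, (R z p0 ∨ R z p1) → nu z < a1 →
              (z ∈ F0 ∧ nu z < a0) ∨ (z ∈ F1 ∧ nu z < a1) := by
            rintro z (h | h) hz
            · have := H.mono _ _ h
              exact Or.inl ⟨down0 h hp0'.1, by omega⟩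
            · exact Or.inr ⟨down1 h hp1'.1, hz⟩
          rintro z (⟨h, h'⟩ | ⟨h, h'⟩ | ⟨h, h'⟩)
          · exact Or.inl ⟨h, by omega⟩
          · exact aux z h h'
          · exact aux z h h'
        · intro z hz hzS
          rcases hbelow z hz hzS with h | h
          · exact Or.inl ⟨hF0 z hz, h⟩
          · exact Or.inr (Or.inl ⟨h, ha1 z hz⟩)
        · intro x hx hfx hmem
          have hno : ¬ (R x p0 ∨ R x p1) := by
            rintro (h | h)
            · exact hanti _ hx _ hp0S h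
            · exact hanti _ hx _ hp1S h
          rcases hmem with ⟨_, h⟩ | ⟨h, _⟩ | ⟨h, _⟩
          · rcases hel x hx with rfl | rfl | rfl
            · omega
            · have := hp0c hfx
              omega
            · omega
          · exact hno h
          · exact hno h
  · -- all free elements are of type alpha
    obtain ⟨b0, -, hb0a, hb0i, hb0e⟩ := exists_b H.inj S D (fun z => z ∉ F1) (Fr S) 0 a0 hSD
      (Nat.zero_le _) (fun _ _ _ => Nat.zero_le _) (fun z hz h => (hb0 z hz h).2)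
    obtain ⟨b1, hb1l, hb1a, hb1i, hb1e⟩ := exists_b H.inj S D (fun z => a0 ≤ nu z) (Fr S) a0 a1 hSD
      h01 (fun _ _ h => h) (fun z hz h => (hb1 z hz h).2)
    refine ⟨S, stair nu F0 F1 F1 b0 b1 b1, hS,
      ⟨F0, F1, F1, b0, b1, b1, f0, f1, f1, h10, subset_rfl, by omega, le_rfl, rfl⟩, ?_, ?_, ?_⟩
    · rintro z (⟨h, h'⟩ | ⟨h, h'⟩ | ⟨h, h'⟩)
      · exact Or.inl ⟨h, by omega⟩
      · exact Or.inr ⟨h, by omega⟩
      · exact Or.inr ⟨h, by omega⟩
    · intro z hz hzS
      by_cases hzF : z ∈ F1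
      · refine Or.inr (Or.inl ⟨hzF, ?_⟩)
        by_cases hza : a0 ≤ nu z
        · exact hb1i z hz hzS hza
        · omega
      · exact Or.inl ⟨hF0 z hz, hb0i z hz hzS hzF⟩
    · intro g hg hfg hmem
      rcases hcl g hg hfg with ⟨h1, h2, _⟩ | ⟨h1, h2, _⟩ | h
      · have h3 := hb0e g hg hfg h1 h2
        rcases hmem with ⟨_, h⟩ | ⟨h, _⟩ | ⟨h, _⟩
        · omega
        · exact h1 h
        · exact h1 h
      · have h3 := hb1e g hg hfg h1 h2
        rcases hmem with ⟨_, h⟩ | ⟨_, h⟩ | ⟨_, h⟩ <;> omega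
      · exact hbe ⟨g, hg, hfg, h⟩

theorem step (H : StepData R nu D Feas Fr) {St : Set α} (hSt : SD R nu St)
    (hD : ∀ z ∈ D, z ∈ St) : Concl R nu D Feas Fr St := by
  obtain ⟨F0, F1, F2, a0, a1, a2, f0, f1, f2, h10, h21, h01, h12, rfl⟩ := hSt
  by_cases c0 : ∃ z ∈ D, z ∉ F1
  swap
  · push Not at c0
    refine (step2 H f1 f2 h21 h12 ?_).mono ?_
    · intro z hz
      rcases hD z hz with ⟨_, h⟩ | h | h
      · exact Or.inl ⟨c0 z hz, by omega⟩
      · exact Or.inl h
      · exact Or.inr h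
    · rintro z (h | h)
      · exact Or.inr (Or.inl h)
      · exact Or.inr (Or.inr h)
  by_cases c1 : ∃ z ∈ D, z ∉ F2 ∧ a0 ≤ nu z
  swap
  · push Not at c1
    refine (step2 H f0 f2 (h21.trans h10) (h01.trans h12) ?_).mono ?_
    · intro z hz
      rcases hD z hz with h | ⟨h, h'⟩ | h
      · exact Or.inl h
      · by_cases hz2 : z ∈ F2
        · exact Or.inr ⟨hz2, by omega⟩
        · exact Or.inl ⟨h10 h, c1 z hz hz2⟩
      · exact Or.inr h
    · rintro z (h | h)
      · exact Or.inl h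
      · exact Or.inr (Or.inr h)
  by_cases c2 : ∃ z ∈ D, a1 ≤ nu z
  swap
  · push Not at c2
    refine (step2 H f0 f1 h10 h01 ?_).mono ?_
    · intro z hz
      rcases hD z hz with h | h | ⟨h, _⟩
      · exact Or.inl h
      · exact Or.inr h
      · exact Or.inr ⟨h21 h, c2 z hz⟩
    · rintro z (h | h)
      · exact Or.inl h
      · exact Or.inr (Or.inl h)
  -- three live cells
  have hb0 : ∀ z ∈ D, z ∉ F1 → nu z < a0 := by
    intro z hz hz'
    rcases hD z hz with h | h | h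
    · exact h.2
    · exact absurd h.1 hz'
    · exact absurd (h21 h.1) hz'
  have hb1 : ∀ z ∈ D, (z ∉ F2 ∧ a0 ≤ nu z) → z ∈ F1 ∧ nu z < a1 := by
    intro z hz hz'
    rcases hD z hz with h | h | h
    · omega
    · exact h
    · exact absurd h.1 hz'.1
  have hb2 : ∀ z ∈ D, a1 ≤ nu z → z ∈ F2 ∧ nu z < a2 := by
    intro z hz hz'
    rcases hD z hz with h | h | h
    · omega
    · omega
    · exact h
  have hF0 : ∀ z ∈ D, z ∈ F0 := by
    intro z hz
    rcases hD z hz with h | h | h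
    · exact h.1
    · exact h10 h.1
    · exact h10 (h21 h.1)
  set C : Fin 3 → Finset α := fun i =>
    if i = 0 then D.filter (fun z => z ∉ F1)
    else if i = 1 then D.filter (fun z => z ∉ F2 ∧ a0 ≤ nu z)
    else D.filter (fun z => a1 ≤ nu z) with hC
  have C0 : C 0 = D.filter (fun z => z ∉ F1) := by simp [hC]
  have C1 : C 1 = D.filter (fun z => z ∉ F2 ∧ a0 ≤ nu z) := by simp [hC]
  have C2 : C 2 = D.filter (fun z => a1 ≤ nu z) := by simp [hC]
  have m0 : ∀ z, z ∈ C 0 ↔ z ∈ D ∧ z ∉ F1 := by intro z; rw [C0]; simp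
  have m1 : ∀ z, z ∈ C 1 ↔ z ∈ D ∧ z ∉ F2 ∧ a0 ≤ nu z := by intro z; rw [C1]; simp
  have m2 : ∀ z, z ∈ C 2 ↔ z ∈ D ∧ a1 ≤ nu z := by intro z; rw [C2]; simp
  have d01 : Disjoint (C 0) (C 1) := by
    rw [Finset.disjoint_left]
    intro z hz hz'
    rw [m0] at hz; rw [m1] at hz'
    exact hz.2 (hb1 z hz.1 hz'.2).1
  have d02 : Disjoint (C 0) (C 2) := by
    rw [Finset.disjoint_left]
    intro z hz hz'
    rw [m0] at hz; rw [m2] at hz'
    exact hz.2 (h21 (hb2 z hz.1 hz'.2).1)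
  have d12 : Disjoint (C 1) (C 2) := by
    rw [Finset.disjoint_left]
    intro z hz hz'
    rw [m1] at hz; rw [m2] at hz'
    exact hz.2.1 (hb2 z hz.1 hz'.2).1
  obtain ⟨S, hS, hgr⟩ := greedy H C
    (by
      intro i j hij
      fin_cases i <;> fin_cases j
      · exact absurd rfl hij
      · exact d01
      · exact d02
      · exact d01.symm
      · exact absurd rfl hij
      · exact d12
      · exact d02.symm
      · exact d12.symm
      · exact absurd rfl hij)
    (by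
      intro i z hz
      fin_cases i
      · exact ((m0 z).mp hz).1
      · exact ((m1 z).mp hz).1
      · exact ((m2 z).mp hz).1)
    (by
      intro i z hz y hy hzy
      have hlt := H.mono _ _ hzy
      fin_cases i
      · exact (m0 y).mpr ⟨hy, fun h => ((m0 z).mp hz).2 (f1.down H.tr hzy h)⟩
      · have h := (m1 z).mp hz
        exact (m1 y).mpr ⟨hy, fun h' => h.2.1 (f2.down H.tr hzy h'), by omega⟩
      · have h := (m2 z).mp hz
        exact (m2 y).mpr ⟨hy, by omega⟩)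
    (by
      intro i
      fin_cases i
      · obtain ⟨z, hz, hz'⟩ := c0
        exact ⟨z, (m0 z).mpr ⟨hz, hz'⟩⟩
      · obtain ⟨z, hz, hz'⟩ := c1
        exact ⟨z, (m1 z).mpr ⟨hz, hz'⟩⟩
      · obtain ⟨z, hz, hz'⟩ := c2
        exact ⟨z, (m2 z).mpr ⟨hz, hz'⟩⟩)
  have hSD := H.sub S hS
  have hc := H.card S hS
  have hcl : ∀ g ∈ S, Fr S g →
      (g ∉ F1 ∧ (∀ z ∈ D, z ∉ F1 → nu z ≤ nu g)) ∨
      ((g ∉ F2 ∧ a0 ≤ nu g) ∧ (∀ z ∈ D, (z ∉ F2 ∧ a0 ≤ nu z) → nu z ≤ nu g)) ∨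
      (a1 ≤ nu g ∧ (∀ z ∈ D, a1 ≤ nu z → nu z ≤ nu g)) := by
    intro g hg hfg
    rcases hgr g hg hfg with ⟨i, h1, h2, -⟩ | ⟨h1, -⟩
    · fin_cases i
      · left
        exact ⟨((m0 g).mp h1).2, fun z hz hz' => h2 z ((m0 z).mpr ⟨hz, hz'⟩)⟩
      · right; left
        exact ⟨((m1 g).mp h1).2, fun z hz hz' => h2 z ((m1 z).mpr ⟨hz, hz'⟩)⟩
      · right; right
        exact ⟨((m2 g).mp h1).2, fun z hz hz' => h2 z ((m2 z).mpr ⟨hz, hz'⟩)⟩
    · exfalso
      obtain ⟨s0, hs0, hs0g, hs0C⟩ := h1 0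
      obtain ⟨s1, hs1, hs1g, hs1C⟩ := h1 1
      obtain ⟨s2, hs2, hs2g, hs2C⟩ := h1 2
      have n01 : s0 ≠ s1 := fun h => Finset.disjoint_left.mp d01 hs0C (h ▸ hs1C)
      have n02 : s0 ≠ s2 := fun h => Finset.disjoint_left.mp d02 hs0C (h ▸ hs2C)
      have n12 : s1 ≠ s2 := fun h => Finset.disjoint_left.mp d12 hs1C (h ▸ hs2C)
      rcases three_elems hc hs0 hs1 hs2 n01 n02 n12 g hg with h | h | h
      · exact hs0g h.symm
      · exact hs1g h.symm
      · exact hs2g h.symm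
  obtain ⟨b0, -, hb0a, hb0i, hb0e⟩ := exists_b H.inj S D (fun z => z ∉ F1) (Fr S) 0 a0 hSD
    (Nat.zero_le _) (fun _ _ _ => Nat.zero_le _) (fun z hz h => hb0 z hz h)
  obtain ⟨b1, hb1l, hb1a, hb1i, hb1e⟩ := exists_b H.inj S D (fun z => z ∉ F2 ∧ a0 ≤ nu z) (Fr S)
    a0 a1 hSD h01 (fun _ _ h => h.2) (fun z hz h => (hb1 z hz h).2)
  obtain ⟨b2, hb2l, hb2a, hb2i, hb2e⟩ := exists_b H.inj S D (fun z => a1 ≤ nu z) (Fr S) a1 a2 hSD
    h12 (fun _ _ h => h) (fun z hz h => (hb2 z hz h).2)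
  refine ⟨S, stair nu F0 F1 F2 b0 b1 b2, hS,
    ⟨F0, F1, F2, b0, b1, b2, f0, f1, f2, h10, h21, by omega, by omega, rfl⟩, ?_, ?_, ?_⟩
  · rintro z (⟨h, h'⟩ | ⟨h, h'⟩ | ⟨h, h'⟩)
    · exact Or.inl ⟨h, by omega⟩
    · exact Or.inr (Or.inl ⟨h, by omega⟩)
    · exact Or.inr (Or.inr ⟨h, by omega⟩)
  · intro z hz hzS
    by_cases hz2 : z ∈ F2
    · refine Or.inr (Or.inr ⟨hz2, ?_⟩)
      by_cases hza : a1 ≤ nu z
      · exact hb2i z hz hzS hza
      · omega
    · by_cases hz1 : z ∈ F1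
      · refine Or.inr (Or.inl ⟨hz1, ?_⟩)
        by_cases hza : a0 ≤ nu z
        · exact hb1i z hz hzS ⟨hz2, hza⟩
        · omega
      · exact Or.inl ⟨hF0 z hz, hb0i z hz hzS hz1⟩
  · intro g hg hfg hmem
    rcases hcl g hg hfg with ⟨h1, h2⟩ | ⟨h1, h2⟩ | ⟨h1, h2⟩
    · have h3 := hb0e g hg hfg h1 h2
      rcases hmem with ⟨_, h⟩ | ⟨h, _⟩ | ⟨h, _⟩
      · omega
      · exact h1 h
      · exact h1 (h21 h)
    · have h3 := hb1e g hg hfg h1 h2
      rcases hmem with ⟨_, h⟩ | ⟨_, h⟩ | ⟨h, _⟩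
      · omega
      · omega
      · exact h1.1 h
    · have h3 := hb2e g hg hfg h1 h2
      rcases hmem with ⟨_, h⟩ | ⟨_, h⟩ | ⟨_, h⟩ <;> omega

end

end Crest.Agent.R286.StepAbs
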