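import Crest.Agent.Lib.PT.Typed
import Crest.Prelude.Def_TimeBound

/-!
# Time-tracked typed functions

`TF d f`: the program runs in `C (sz a + 1) ^ d` steps on the code of `a`.
`GF e f`: `sz (f a) ≤ C (sz a + 1) ^ e`.
`LF k f`: `TF (k+1) f` and `GF 1 f`.
-/

set_option autoImplicit false
set_option linter.dupNamespace false

namespace Crest.Agent.R286

open Function Crest.Agent.Lib.PT

variable {α β γ δ σ κ : Type} [PTCode α] [PTCode β] [PTCode γ] [PTCode δ] [PTCode σ] [PTCode κ]

/-- time bound on codes -/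
def TF (d : ℕ) (f : α → β) : Prop :=
  ∃ (c : Cmd) (C : ℕ), ∀ a, Run c (init (enc a)) (init (enc (f a))) (C * (sz a + 1) ^ d)

/-- growth bound on codes -/
def GF (e : ℕ) (f : α → β) : Prop := ∃ C : ℕ, ∀ a, sz (f a) ≤ C * (sz a + 1) ^ e

theorem pow_mono' {a d d' : ℕ} (h : d ≤ d') : (a + 1) ^ d ≤ (a + 1) ^ d' :=
  Nat.pow_le_pow_right (Nat.succ_pos a) h

theorem TF.mono {d d' : ℕ} {f : α → β} (hf : TF d f) (h : d ≤ d') : TF d' f := by
  obtain ⟨c, C, hc⟩ := hf
  exact ⟨c, C, fun a => (hc a).mono (Nat.mul_le_mul_left _ (pow_mono' h))⟩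

theorem GF.mono {d d' : ℕ} {f : α → β} (hf : GF d f) (h : d ≤ d') : GF d' f := by
  obtain ⟨C, hc⟩ := hf
  exact ⟨C, fun a => (hc a).trans (Nat.mul_le_mul_left _ (pow_mono' h))⟩

theorem TF.congr {d : ℕ} {f g : α → β} (hf : TF d f) (h : ∀ a, f a = g a) : TF d g := by
  have : f = g := funext h
  rwa [← this]

theorem GF.congr {d : ℕ} {f g : α → β} (hf : GF d f) (h : ∀ a, f a = g a) : GF d g := by
  have : f = g := funext h
  rwa [← this]

/-- helper: run bound linear in the size gives `TF 1`. -/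
theorem TF.of_linear {f : α → β} (c : Cmd) (A B : ℕ)
    (h : ∀ a, Run c (init (enc a)) (init (enc (f a))) (A * sz a + B)) : TF 1 f := by
  refine ⟨c, A + B, fun a => (h a).mono ?_⟩
  rw [pow_one]
  nlinarith [Nat.zero_le (sz a), Nat.zero_le A, Nat.zero_le B,
    Nat.mul_le_mul_left B (Nat.zero_le (sz a))]

theorem GF.of_linear {f : α → β} (A B : ℕ) (h : ∀ a, sz (f a) ≤ A * sz a + B) : GF 1 f := by
  refine ⟨A + B, fun a => (h a).trans ?_⟩
  rw [pow_one]
  nlinarith [Nat.zero_le (sz a), Nat.zero_le A, Nat.zero_le B,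
    Nat.mul_le_mul_left B (Nat.zero_le (sz a))]

theorem mul_pow_comp {A B s t e d : ℕ} (h : t ≤ A * (s + 1) ^ e) :
    B * (t + 1) ^ d ≤ B * (A + 1) ^ d * (s + 1) ^ (e * d) := by
  have h1 : t + 1 ≤ (A + 1) * (s + 1) ^ e := by
    have : 1 ≤ (s + 1) ^ e := Nat.one_le_pow _ _ (Nat.succ_pos s)
    nlinarith
  calc B * (t + 1) ^ d ≤ B * ((A + 1) * (s + 1) ^ e) ^ d :=
        Nat.mul_le_mul_left _ (Nat.pow_le_pow_left h1 d)
    _ = B * (A + 1) ^ d * (s + 1) ^ (e * d) := by rw [mul_pow, ← pow_mul, mul_assoc]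

theorem TF.comp {a e b D : ℕ} {g : β → γ} {f : α → β} (hg : TF b g) (hf : TF a f) (gf : GF e f)
    (h1 : a ≤ D) (h2 : e * b ≤ D) : TF D (fun x => g (f x)) := by
  obtain ⟨c, C, hc⟩ := hf
  obtain ⟨c', C', hc'⟩ := hg
  obtain ⟨A, hA⟩ := gf
  refine ⟨.seq c c', C + C' * (A + 1) ^ b, fun x => ((hc x).seq (hc' (f x))).mono ?_⟩
  rw [add_mul]
  refine Nat.add_le_add (Nat.mul_le_mul_left _ (pow_mono' h1)) ?_
  exact (mul_pow_comp (hA x)).trans (Nat.mul_le_mul_left _ (pow_mono' h2))

theorem GF.comp {e b D : ℕ} {g : β → γ} {f : α → β} (hg : GF b g) (hf : GF e f)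
    (h2 : e * b ≤ D) : GF D (fun x => g (f x)) := by
  obtain ⟨C', hc'⟩ := hg
  obtain ⟨A, hA⟩ := hf
  refine ⟨C' * (A + 1) ^ b, fun x => (hc' (f x)).trans ?_⟩
  exact (mul_pow_comp (hA x)).trans (Nat.mul_le_mul_left _ (pow_mono' h2))

theorem TF.id : TF 0 (fun a : α => a) :=
  ⟨.skip, 1, fun a => by simpa using run_skip (init (enc a))⟩

/-- two types with the same code -/
theorem TF.ofEnc {f : α → β} (h : ∀ a, enc (f a) = enc a) : TF 0 f :=
  ⟨.skip, 1, fun a => by rw [h a]; simpa using run_skip (init (enc a))⟩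

theorem GF.ofEnc {f : α → β} (h : ∀ a, enc (f a) = enc a) : GF 1 f :=
  GF.of_linear 1 0 fun a => by simp [sz, h a]

theorem run_const (w x : List Bool) :
    Run (.seq (clear 0) (pushAll 0 w)) (init x) (init w) (2 * x.length + (w.length + 2)) := by
  refine ((run_clear 0 (init x)).seq (run_pushAll 0 w _)).of_eq ?_ ?_
  · funext j
    rcases j with _ | j <;> simp [init]
  · simp only [init_zero]
    omega

theorem TF.const (b : β) : TF 1 (fun _ : α => b) :=
  TF.of_linear (.seq (clear 0) (pushAll 0 (enc b))) 2 ((enc b).length + 2)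
    fun a => run_const (enc b) (enc a)

theorem GF.const (b : β) : GF 0 (fun _ : α => b) := ⟨sz b, fun a => by simp⟩

theorem run_fst (z : List Bool) :
    Run (.seq parse (.seq (clear 0) (mv 1 0))) (init z) (init (Lib.PT.fst z))
      (12 * z.length + 9) := by
  refine ((run_parse z).seq ((run_clear 0 _).seq (run_mv (by decide) _))).of_eq ?_ ?_
  · funext j; rcases j with _ | _ | _ | j <;> simp [st3, init]
  · have h1 := length_fst z
    have h2 := length_snd z
    simp [st3]
    omega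

theorem run_snd (z : List Bool) :
    Run (.seq parse (clear 1)) (init z) (init (Lib.PT.snd z)) (8 * z.length + 8) := by
  refine ((run_parse z).seq (run_clear 1 _)).of_eq ?_ ?_
  · funext j; rcases j with _ | _ | _ | j <;> simp [st3, init]
  · have h1 := length_fst z
    simp [st3]
    omega

theorem TF.fst : TF 1 (fun p : α × β => p.1) :=
  TF.of_linear _ 12 9 fun p => by
    have := run_fst (enc p)
    simpa [sz] using this

theorem TF.snd : TF 1 (fun p : α × β => p.2) :=
  TF.of_linear _ 8 8 fun p => by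
    have := run_snd (enc p)
    simpa [sz] using this

theorem sz_prod (p : α × β) : sz p = 2 * sz p.1 + 1 + sz p.2 := by
  simp [sz]

theorem GF.fst : GF 1 (fun p : α × β => p.1) :=
  GF.of_linear 1 0 fun p => by rw [sz_prod]; omega

theorem GF.snd : GF 1 (fun p : α × β => p.2) :=
  GF.of_linear 1 0 fun p => by rw [sz_prod]; omega

/-- raw first component -/
def fstB (z : Bits) : Bits := ⟨Lib.PT.fst z.val⟩
/-- raw second component -/
def sndB (z : Bits) : Bits := ⟨Lib.PT.snd z.val⟩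

theorem TF.fstB : TF 1 fstB := TF.of_linear _ 12 9 fun p => by
  simpa [sz, R286.fstB] using run_fst (enc p)
theorem TF.sndB : TF 1 sndB := TF.of_linear _ 8 8 fun p => by
  simpa [sz, R286.sndB] using run_snd (enc p)
theorem GF.fstB : GF 1 fstB := GF.of_linear 1 0 fun p => by
  have := length_fst p.val
  simp [sz, R286.fstB]; omega
theorem GF.sndB : GF 1 sndB := GF.of_linear 1 0 fun p => by
  have := length_snd p.val
  simp [sz, R286.sndB]; omega

theorem run_pair {c d : Cmd} {x y z : List Bool} {n m : ℕ} (h : Run c (init x) (init y) n)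
    (h' : Run d (init x) (init z) m) :
    Run (.seq (both c d) (.seq (mv 2 3) (.seq (mv 3 0) (.seq (.push 0 false) (.seq (mv 1 3)
    (mvMap 3 0 (fun b => [true, b]))))))) (init x) (init (pair y z))
      (n + m + 21 * x.length + 12 * y.length + 8 * z.length + 10) := by
  have h1 := run_both h h'
  have h2 : Run (mv 2 3) (st4 [] y z []) (st4 [] y [] z.reverse)
      (4 * z.length + 1) := (run_mv (by decide) _).of_eq (by simp) (by simp)
  have h3 : Run (mv 3 0) (st4 [] y [] z.reverse) (st4 z y [] [])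
      (4 * z.length + 1) := (run_mv (by decide) _).of_eq (by simp) (by simp)
  have h4 : Run (.push 0 false) (st4 z y [] []) (st4 (false :: z) y [] []) 1 :=
    (run_push 0 false _).of_eq (by simp) (by simp)
  have h5 : Run (mv 1 3) (st4 (false :: z) y [] []) (st4 (false :: z) [] [] y.reverse)
      (4 * y.length + 1) := (run_mv (by decide) _).of_eq (by simp) (by simp)
  have h6 : Run (mvMap 3 0 (fun b => [true, b])) (st4 (false :: z) [] [] y.reverse)
      (init (Lib.PT.pair y z)) (8 * y.length + 1) := by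
    refine (run_mvMap (by decide) _ _).of_eq ?_ (by simp)
    rw [init_eq_st4]
    simp [Lib.PT.pair]
  refine (h1.seq (h2.seq (h3.seq (h4.seq (h5.seq h6))))).mono ?_
  omega

theorem TF.prodMk {d e : ℕ} {f : α → β} {g : α → γ} (hf : TF d f) (hg : TF d g)
    (gf : GF e f) (gg : GF e g) (h1 : 1 ≤ d) (he : e ≤ d) : TF d (fun a => (f a, g a)) := by
  obtain ⟨c, C, hc⟩ := hf
  obtain ⟨c', C', hc'⟩ := hg
  obtain ⟨A, hA⟩ := gf
  obtain ⟨A', hA'⟩ := gg
  refine ⟨_, C + C' + 21 + 12 * A + 8 * A' + 10, fun a => (run_pair (hc a) (hc' a)).mono ?_⟩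
  have e1 : (enc a).length ≤ (sz a + 1) ^ d := by
    calc (enc a).length ≤ (sz a + 1) ^ 1 := by rw [pow_one]; exact Nat.le_succ _
      _ ≤ _ := pow_mono' h1
  have e2 : (enc (f a)).length ≤ A * (sz a + 1) ^ d :=
    (hA a).trans (Nat.mul_le_mul_left _ (pow_mono' he))
  have e3 : (enc (g a)).length ≤ A' * (sz a + 1) ^ d :=
    (hA' a).trans (Nat.mul_le_mul_left _ (pow_mono' he))
  have e4 : 1 ≤ (sz a + 1) ^ d := Nat.one_le_pow _ _ (Nat.succ_pos _)
  generalize (sz a + 1) ^ d = X at *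
  calc C * X + C' * X + 21 * (enc a).length + 12 * (enc (f a)).length + 8 * (enc (g a)).length + 10
      ≤ C * X + C' * X + 21 * X + 12 * (A * X) + 8 * (A' * X) + 10 * X := by omega
    _ = _ := by ring

theorem GF.prodMk {e : ℕ} {f : α → β} {g : α → γ}
    (gf : GF e f) (gg : GF e g) : GF e (fun a => (f a, g a)) := by
  obtain ⟨A, hA⟩ := gf
  obtain ⟨A', hA'⟩ := gg
  refine ⟨2 * A + A' + 1, fun a => ?_⟩
  rw [sz_prod]
  have h1 := hA a
  have h2 := hA' a
  have e4 : 1 ≤ (sz a + 1) ^ e := Nat.one_le_pow _ _ (Nat.succ_pos _)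
  generalize (sz a + 1) ^ e = X at *
  calc _ ≤ 2 * (A * X) + X + A' * X := by simp only; omega
    _ = _ := by ring

end Crest.Agent.R286
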