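import Crest.Agent.R286.TFLoop
import Crest.Agent.R286.LF

/-! # `TF` bounds for flat maps, maps and filters through the native loop

`TF.flatMapN`: if the list and the context have size exponent `b` and the body is `TF df`, then the
flat map is `TF (b + b * df)`; nothing is assumed about the size of the output. -/

set_option autoImplicit false
set_option linter.dupNamespace false
set_option linter.unusedVariables false
set_option linter.unusedSectionVars false

namespace Crest.Agent.R286

open Function Crest.Agent.Lib.PT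

variable {α β γ δ σ κ : Type} [PTCode α] [PTCode β] [PTCode γ] [PTCode δ] [PTCode σ] [PTCode κ]

theorem sz_flatMap_le {T : ℕ} (l : List α) (f : α → List β) (h : ∀ a ∈ l, sz (f a) ≤ T) :
    sz (l.flatMap f) ≤ l.length * T := by
  induction l with
  | nil => simp [sz_nil]
  | cons a l ih =>
    have h1 := h a (by simp)
    have h2 := ih (fun b hb => h b (by simp [hb]))
    rw [List.flatMap_cons, sz_append, List.length_cons, add_mul, one_mul]
    omega

theorem sum_map_le {T : ℕ} (l : List α) (f : α → ℕ) (h : ∀ a ∈ l, f a ≤ T) :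
    (l.map f).sum ≤ l.length * T := by
  induction l with
  | nil => simp
  | cons a l ih =>
    have h1 := h a (by simp)
    have h2 := ih (fun b hb => h b (by simp [hb]))
    rw [List.map_cons, List.sum_cons, List.length_cons, add_mul, one_mul]
    omega

theorem sz_mem_le' {l : List α} {a : α} (h : a ∈ l) : sz a ≤ sz l := by
  induction l with
  | nil => simp at h
  | cons b l ih =>
    rw [sz_cons]
    rcases List.mem_cons.1 h with rfl | h
    · omega
    · have := ih h; omega

theorem TF.flatMapN {D df b : ℕ} {l : γ → List α} {k : γ → κ} {f : κ → α → List β}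
    (hl : TF D l) (gl : GF b l) (hk : TF D k) (gk : GF b k)
    (hf : TF df (fun q : κ × α => f q.1 q.2)) (h1 : 1 ≤ b) (h2 : 1 ≤ df) (h3 : b + b * df ≤ D) :
    TF D (fun c => (l c).flatMap (f (k c))) := by
  have gf := hf.toGF h2
  obtain ⟨F, hF⟩ := gf
  obtain ⟨cf, T, hT⟩ := hf
  obtain ⟨A, hA⟩ := gl
  obtain ⟨B, hB⟩ := gk
  have hp : TF D (fun c => (l c, k c)) :=
    TF.prodMk hl hk ⟨A, hA⟩ ⟨B, hB⟩ (by omega) (by omega)
  obtain ⟨cp, P, hP⟩ := hp
  -- constant for the body
  set E := A + 2 * B + 1 with hE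
  set G := T * (E + 1) ^ df + 10 * A + 17 * B + 4 * (F * (E + 1) ^ df) + 14 with hG
  refine ⟨.seq cp (fmProg cf), P + (A * G + 10 * A + 10 * B + 12 * (A * (F * (E + 1) ^ df)) + 15),
    fun c => ?_⟩
  set X := (sz c + 1) ^ b with hX
  have X1 : 1 ≤ X := Nat.one_le_pow _ _ (Nat.succ_pos _)
  set Y := (sz c + 1) ^ (b * df) with hY
  have Y1 : 1 ≤ Y := Nat.one_le_pow _ _ (Nat.succ_pos _)
  have XY : X ≤ Y := pow_mono' (by nlinarith)
  set Z := (sz c + 1) ^ D with hZ
  have hXYZ : X * Y ≤ Z := by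
    rw [hX, hY, hZ, ← pow_add]; exact pow_mono' h3
  have hXZ : X ≤ Z := le_trans (Nat.le_mul_of_pos_right _ Y1) hXYZ
  have hlc : sz (l c) ≤ A * X := hA c
  have hkc : sz (k c) ≤ B * X := hB c
  have hlen : (l c).length ≤ A * X := (length_le_sz _).trans hlc
  have hka : ∀ a ∈ l c, sz (k c, a) ≤ E * X := by
    intro a ha
    rw [sz_prod]
    have := sz_mem_le' ha
    simp only
    calc 2 * sz (k c) + 1 + sz a ≤ 2 * (B * X) + X + A * X := by omega
      _ = E * X := by rw [hE]; ring
  have hpow : ∀ a ∈ l c, (sz (k c, a) + 1) ^ df ≤ (E + 1) ^ df * Y := by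
    intro a ha
    have e1 : sz (k c, a) + 1 ≤ (E + 1) * X := by
      have := hka a ha
      calc sz (k c, a) + 1 ≤ E * X + X := by omega
        _ = _ := by ring
    calc (sz (k c, a) + 1) ^ df ≤ ((E + 1) * X) ^ df := Nat.pow_le_pow_left e1 df
      _ = _ := by rw [mul_pow, hX, hY, ← pow_mul]
  have hout : ∀ a ∈ l c, sz (f (k c) a) ≤ F * (E + 1) ^ df * Y := by
    intro a ha
    calc sz (f (k c) a) ≤ F * (sz (k c, a) + 1) ^ df := hF (k c, a)
      _ ≤ F * ((E + 1) ^ df * Y) := Nat.mul_le_mul_left _ (hpow a ha)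
      _ = _ := by ring
  have hrun := run_fmProg (cf := cf) (f := fun q : κ × α => f q.1 q.2) (l c) (k c)
    (fun a => T * (sz (k c, a) + 1) ^ df) (fun a _ => hT (k c, a))
  simp only at hrun
  refine ((hP c).seq hrun).mono ?_
  have hsum : ((l c).map fun a => T * (sz (k c, a) + 1) ^ df + 10 * sz a + 17 * sz (k c) +
      4 * sz (f (k c) a) + 14).sum ≤ (l c).length * (G * Y) := by
    refine sum_map_le _ _ fun a ha => ?_
    have e1 : T * (sz (k c, a) + 1) ^ df ≤ T * (E + 1) ^ df * Y := by
      calc _ ≤ T * ((E + 1) ^ df * Y) := Nat.mul_le_mul_left _ (hpow a ha)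
        _ = _ := by ring
    have e2 : sz a ≤ A * Y := (sz_mem_le' ha).trans (hlc.trans (Nat.mul_le_mul_left _ XY))
    have e3 : sz (k c) ≤ B * Y := hkc.trans (Nat.mul_le_mul_left _ XY)
    have e4 := hout a ha
    calc _ ≤ T * (E + 1) ^ df * Y + 10 * (A * Y) + 17 * (B * Y) + 4 * (F * (E + 1) ^ df * Y)
          + 14 * Y := by omega
      _ = G * Y := by rw [hG]; ring
  have hsz : sz ((l c).flatMap fun a => f (k c) a) ≤ (l c).length * (F * (E + 1) ^ df * Y) :=
    sz_flatMap_le _ _ hout
  have t1 : (l c).length * (G * Y) ≤ A * G * Z := by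
    calc (l c).length * (G * Y) ≤ (A * X) * (G * Y) := Nat.mul_le_mul_right _ hlen
      _ = A * G * (X * Y) := by ring
      _ ≤ _ := Nat.mul_le_mul_left _ hXYZ
  have t2 : (l c).length * (F * (E + 1) ^ df * Y) ≤ A * (F * (E + 1) ^ df) * Z := by
    calc (l c).length * (F * (E + 1) ^ df * Y) ≤ (A * X) * (F * (E + 1) ^ df * Y) :=
          Nat.mul_le_mul_right _ hlen
      _ = A * (F * (E + 1) ^ df) * (X * Y) := by ring
      _ ≤ _ := Nat.mul_le_mul_left _ hXYZ
  have t3 : sz (l c) ≤ A * Z := hlc.trans (Nat.mul_le_mul_left _ hXZ)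
  have t4 : sz (k c) ≤ B * Z := hkc.trans (Nat.mul_le_mul_left _ hXZ)
  have t5 : 1 ≤ Z := X1.trans hXZ
  have hsz2 := hsz.trans t2
  have hsum2 := hsum.trans t1
  have h15 : 15 ≤ 15 * Z := by omega
  calc _ ≤ P * Z + (A * G * Z + 10 * (A * Z) + 10 * (B * Z) +
        12 * (A * (F * (E + 1) ^ df) * Z) + 15 * Z) :=
        Nat.add_le_add le_rfl (add_le_add (add_le_add (add_le_add (add_le_add hsum2
          (Nat.mul_le_mul_left _ t3)) (Nat.mul_le_mul_left _ t4)) (Nat.mul_le_mul_left _ hsz2)) h15)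
    _ = _ := by ring

theorem TF.singleton {D : ℕ} {f : α → β} (hf : TF D f) (h : 1 ≤ D) : TF D (fun a => [f a]) := by
  have h1 : TF D (fun a => (f a, ([] : List β))) :=
    TF.prodMk hf ((TF.const ([] : List β)).mono h) (hf.toGF h)
      ((GF.const ([] : List β)).mono (by omega)) h le_rfl
  exact TF.comp (e := D) (b := 0) (g := fun p : β × List β => p.1 :: p.2)
    (TF.ofEnc fun p => by simp) h1 (GF.prodMk (hf.toGF h) ((GF.const ([] : List β)).mono (by omega)))
    le_rfl (by omega)

theorem TF.mapN {D df b : ℕ} {l : γ → List α} {k : γ → κ} {f : κ → α → β}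
    (hl : TF D l) (gl : GF b l) (hk : TF D k) (gk : GF b k)
    (hf : TF df (fun q : κ × α => f q.1 q.2)) (h1 : 1 ≤ b) (h2 : 1 ≤ df) (h3 : b + b * df ≤ D) :
    TF D (fun c => (l c).map (f (k c))) := by
  have h := TF.flatMapN (f := fun x a => [f x a]) hl gl hk gk (TF.singleton hf h2) h1 h2 h3
  refine h.congr fun c => ?_
  induction l c with
  | nil => rfl
  | cons a l ih => rw [List.flatMap_cons, ih]; rfl

theorem TF.filterN {D df b : ℕ} {l : γ → List α} {k : γ → κ} {p : κ → α → Bool}
    (hl : TF D l) (gl : GF b l) (hk : TF D k) (gk : GF b k)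
    (hp : TF df (fun q : κ × α => p q.1 q.2)) (h1 : 1 ≤ b) (h2 : 1 ≤ df) (h3 : b + b * df ≤ D) :
    TF D (fun c => (l c).filter (p (k c))) := by
  have hb : TF df (fun q : κ × α => if p q.1 q.2 then [q.2] else []) :=
    TF.ite hp (TF.singleton (TF.snd.mono h2) h2) ((TF.const _).mono h2) h2
  have h := TF.flatMapN (f := fun x a => if p x a then [a] else []) hl gl hk gk hb h1 h2 h3
  refine h.congr fun c => ?_
  induction l c with
  | nil => rfl
  | cons a l ih =>
    rw [List.flatMap_cons, ih, List.filter_cons]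
    split <;> simp

end Crest.Agent.R286
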