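import Crest.Agent.R286.TF

/-! # Branching, case analysis, equality of codes, bounded iteration -/

set_option autoImplicit false
set_option linter.dupNamespace false

namespace Crest.Agent.R286

open Function Crest.Agent.Lib.PT

variable {α β γ δ σ κ : Type} [PTCode α] [PTCode β] [PTCode γ] [PTCode δ] [PTCode σ] [PTCode κ]

/-! ### branching on a Boolean -/

theorem run_ite {cc cf cg : Cmd} {x y : List Bool} {b : Bool} {n p : ℕ}
    (h : Run cc (init x) (init [b]) n) (hf : b = true → Run cf (init x) (init y) p)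
    (hg : b = false → Run cg (init x) (init y) p) :
    Run (.seq dup (.seq (cc.shift 1) (.ite 1 cg (.seq (clear 1) cf) (.seq (clear 1) cg))))
      (init x) (init y) (n + p + 13 * x.length + 8) := by
  have h1 := run_dup x
  have h2 := call_one h x
  have hcl : Run (clear 1) (st4 x [b] [] []) (init x) 3 :=
    (run_clear 1 _).of_eq (by simp [init_eq_st4]) (by simp)
  have h3 : Run (.ite 1 cg (.seq (clear 1) cf) (.seq (clear 1) cg)) (st4 x [b] [] [])
      (init y) (p + 4) := by
    cases b
    · exact (Run.ite_false (k := 1) (e := cg) (c := .seq (clear 1) cf)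
          (d := .seq (clear 1) cg) (s := st4 x [false] [] []) (l := []) rfl
          (hcl.seq (hg rfl))).mono (by omega)
    · exact (Run.ite_true (k := 1) (e := cg) (c := .seq (clear 1) cf)
          (d := .seq (clear 1) cg) (s := st4 x [true] [] []) (l := []) rfl
          (hcl.seq (hf rfl))).mono (by omega)
  refine (h1.seq (h2.seq h3)).mono ?_
  omega

theorem TF.ite {d : ℕ} {p : α → Bool} {f g : α → β} (hp : TF d p) (hf : TF d f) (hg : TF d g)
    (h1 : 1 ≤ d) : TF d (fun a => if p a then f a else g a) := by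
  obtain ⟨cp, P, hcp⟩ := hp
  obtain ⟨cf, F, hcf⟩ := hf
  obtain ⟨cg, G, hcg⟩ := hg
  refine ⟨.seq dup (.seq (cp.shift 1) (.ite 1 cg (.seq (clear 1) cf) (.seq (clear 1) cg))),
    P + (F + G) + 13 + 8, fun a => ?_⟩
  have key : Run (.seq dup (.seq (cp.shift 1) (.ite 1 cg (.seq (clear 1) cf) (.seq (clear 1) cg))))
      (init (enc a)) (init (enc (if p a then f a else g a)))
      (P * (sz a + 1) ^ d + (F + G) * (sz a + 1) ^ d + 13 * (enc a).length + 8) := by
    refine run_ite (b := p a) (hcp a) (fun h => ?_) (fun h => ?_)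
    · rw [if_pos h]
      exact (hcf a).mono (by rw [add_mul]; omega)
    · rw [if_neg (by simp [h])]
      exact (hcg a).mono (by rw [add_mul]; omega)
  refine key.mono ?_
  have e1 : (enc a).length ≤ (sz a + 1) ^ d := by
    calc (enc a).length ≤ (sz a + 1) ^ 1 := by rw [pow_one]; exact Nat.le_succ _
      _ ≤ _ := pow_mono' h1
  have e4 : 1 ≤ (sz a + 1) ^ d := Nat.one_le_pow _ _ (Nat.succ_pos _)
  generalize (sz a + 1) ^ d = X at *
  calc P * X + (F + G) * X + 13 * (enc a).length + 8
      ≤ P * X + (F + G) * X + 13 * X + 8 * X := by omega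
    _ = _ := by ring

theorem GF.ite {e : ℕ} {p : α → Bool} {f g : α → β} (hf : GF e f) (hg : GF e g) :
    GF e (fun a => if p a then f a else g a) := by
  obtain ⟨F, hcf⟩ := hf
  obtain ⟨G, hcg⟩ := hg
  refine ⟨F + G, fun a => ?_⟩
  rw [add_mul]
  have h1 := hcf a
  have h2 := hcg a
  by_cases h : p a = true
  · simp only [h, if_true]; omega
  · simp only [h]; simp only [Bool.false_eq_true, if_false]; omega

/-! ### case analysis on an option -/

/-- the program: on the code of `(c, o)` run `cg` on the code of `c` if `o = none`, and `cf` on the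
code of `(c, a)` if `o = some a`. -/
def optCmd (cg cf : Cmd) : Cmd :=
  .seq parse (.ite 0 (.seq (mv 1 0) cg)
    (.seq (.pop 0) (.seq (.push 0 false) (.seq (mvMap 1 0 (fun b => [true, b])) cf)))
    (.seq (.pop 0) (.seq (.push 0 false) (.seq (mvMap 1 0 (fun b => [true, b])) cf))))

theorem run_optCmd_none {cg cf : Cmd} {x y : List Bool} {n : ℕ}
    (h : Run cg (init x) (init y) n) :
    Run (optCmd cg cf) (init (pair x [])) (init y) (6 * (pair x []).length + 4 * x.length + n + 9) := by
  have h1 := run_parse (pair x [])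
  rw [fst_pair, snd_pair] at h1
  have h2 : Run (mv 1 0) (st3 [] x.reverse []) (init x) (4 * x.length + 1) :=
    (run_mv (by decide) _).of_eq (by
      funext j; rcases j with _ | _ | _ | j <;> simp [st3, init]) (by simp [st3])
  have h3 := Run.ite_nil (k := 0) (e := .seq (mv 1 0) cg)
    (c := (.seq (.pop 0) (.seq (.push 0 false) (.seq (mvMap 1 0 (fun b => [true, b])) cf))))
    (d := (.seq (.pop 0) (.seq (.push 0 false) (.seq (mvMap 1 0 (fun b => [true, b])) cf))))
    (s := st3 [] x.reverse []) rfl (h2.seq h)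
  exact (h1.seq h3).mono (by omega)

theorem run_optCmd_some {cg cf : Cmd} {x a y : List Bool} {n : ℕ}
    (h : Run cf (init (pair x a)) (init y) n) :
    Run (optCmd cg cf) (init (pair x (true :: a))) (init y)
      (6 * (pair x (true :: a)).length + 8 * x.length + n + 11) := by
  have h1 := run_parse (pair x (true :: a))
  rw [fst_pair, snd_pair] at h1
  have e1 : Run (.pop 0) (st3 (true :: a) x.reverse []) (st3 a x.reverse []) 1 :=
    (run_pop 0 _).of_eq (by funext j; rcases j with _ | _ | _ | j <;> simp [st3]) le_rfl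
  have e2 : Run (.push 0 false) (st3 a x.reverse []) (st3 (false :: a) x.reverse []) 1 :=
    (run_push 0 false _).of_eq (by funext j; rcases j with _ | _ | _ | j <;> simp [st3]) le_rfl
  have e3 : Run (mvMap 1 0 (fun b => [true, b])) (st3 (false :: a) x.reverse [])
      (init (pair x a)) (8 * x.length + 1) := by
    refine (run_mvMap (by decide) _ _).of_eq ?_ (by simp [st3])
    funext j; rcases j with _ | _ | _ | j <;> simp [st3, init, Lib.PT.pair]
  have h3 := Run.ite_true (k := 0) (e := .seq (mv 1 0) cg)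
    (c := (.seq (.pop 0) (.seq (.push 0 false) (.seq (mvMap 1 0 (fun b => [true, b])) cf))))
    (d := (.seq (.pop 0) (.seq (.push 0 false) (.seq (mvMap 1 0 (fun b => [true, b])) cf))))
    (s := st3 (true :: a) x.reverse []) (l := a) rfl (e1.seq (e2.seq (e3.seq h)))
  exact (h1.seq h3).mono (by omega)

theorem sz_none : sz (none : Option α) = 0 := rfl
theorem sz_some (a : α) : sz (some a) = sz a + 1 := rfl

theorem TF.optCase0 {d : ℕ} {g : γ → β} {f : γ × α → β} (hg : TF d g) (hf : TF d f) (h1 : 1 ≤ d) :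
    TF d (fun p : γ × Option α => match p.2 with | none => g p.1 | some a => f (p.1, a)) := by
  obtain ⟨cg, G, hcg⟩ := hg
  obtain ⟨cf, F, hcf⟩ := hf
  refine ⟨optCmd cg cf, F + G + 30, fun p => ?_⟩
  obtain ⟨c, o⟩ := p
  have e4 : sz (c, o) + 1 ≤ (sz (c, o) + 1) ^ d := by
    calc sz (c, o) + 1 = (sz (c, o) + 1) ^ 1 := (pow_one _).symm
      _ ≤ _ := pow_mono' h1
  cases o with
  | none =>
    have h := hcg c
    refine (run_optCmd_none h).mono ?_
    have e5 : G * (sz c + 1) ^ d ≤ G * (sz (c, (none : Option α)) + 1) ^ d :=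
      Nat.mul_le_mul_left _ (Nat.pow_le_pow_left (by rw [sz_prod]; simp only; omega) d)
    have e6 : (pair (enc c) []).length = sz (c, (none : Option α)) := rfl
    have e7 : (enc c).length ≤ sz (c, (none : Option α)) := by
      rw [sz_prod]; simp only [sz]; omega
    rw [e6]
    generalize (sz (c, (none : Option α)) + 1) ^ d = X at *
    calc _ ≤ 30 * X + G * X := by omega
      _ ≤ (F + G + 30) * X := by
        have : 0 ≤ F * X := Nat.zero_le _
        nlinarith
  | some a =>
    have h := hcf (c, a)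
    refine (run_optCmd_some (x := enc c) (a := enc a) h).mono ?_
    have e5 : F * (sz (c, a) + 1) ^ d ≤ F * (sz (c, some a) + 1) ^ d :=
      Nat.mul_le_mul_left _ (Nat.pow_le_pow_left (by
        rw [sz_prod, sz_prod]; simp only [sz_some]; omega) d)
    have e6 : (pair (enc c) (true :: enc a)).length = sz (c, some a) := rfl
    have e7 : (enc c).length ≤ sz (c, some a) := by
      rw [sz_prod]; simp only [sz]; omega
    rw [e6]
    generalize (sz (c, some a) + 1) ^ d = X at *
    calc _ ≤ 30 * X + F * X := by omega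
      _ ≤ (F + G + 30) * X := by
        have : 0 ≤ G * X := Nat.zero_le _
        nlinarith

/-! ### uncons -/

/-- first element and rest -/
def uncons (l : List α) : Option (α × List α) :=
  match l with
  | [] => none
  | a :: l => some (a, l)

omit [PTCode α] in
@[simp] theorem uncons_nil : uncons ([] : List α) = none := rfl
omit [PTCode α] in
@[simp] theorem uncons_cons (a : α) (l : List α) : uncons (a :: l) = some (a, l) := rfl

theorem TF.uncons : TF 0 (R286.uncons : List α → _) := by
  refine ⟨.ite 0 .skip (.push 0 true) (.push 0 true), 2, fun l => ?_⟩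
  rw [pow_zero, mul_one]
  cases l with
  | nil =>
    exact Run.ite_nil (k := 0) (s := init (enc ([] : List α))) rfl (run_skip _)
  | cons a l =>
    have hp : Run (.push 0 true) (init (pair (enc a) (enc l)))
        (init (true :: pair (enc a) (enc l))) 1 := by
      refine (run_push 0 true _).of_eq ?_ le_rfl
      funext j
      rcases j with _ | j <;> simp [init]
    rcases hh : pair (enc a) (enc l) with _ | ⟨b, r⟩
    · exact absurd hh (pair_ne_nil _ _)
    · rw [hh] at hp
      have e1 : enc (a :: l) = b :: r := by rw [enc_cons, hh]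
      have e2 : enc (R286.uncons (a :: l)) = true :: b :: r := by
        rw [uncons_cons, enc_some, enc_prod]; simp only; rw [hh]
      rw [e1, e2]
      cases b
      · exact Run.ite_false (k := 0) (s := init (false :: r)) (l := r) rfl hp
      · exact Run.ite_true (k := 0) (s := init (true :: r)) (l := r) rfl hp

theorem GF.uncons : GF 1 (R286.uncons : List α → _) :=
  GF.of_linear 1 1 fun l => by
    cases l with
    | nil => simp [sz]
    | cons a l => simp [sz]

/-! ### iteration -/

theorem run_iter_loop' {c : Cmd} {f : σ → σ} {n : ℕ} (u : List Bool) (y : σ)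
    (h : ∀ i < u.length, Run c (init (enc (f^[i] y))) (init (enc (f (f^[i] y)))) n) :
    Run (.loop 0 (.seq (.pop 0) (c.shift 1))) (st4 u (enc y) [] [])
      (st4 [] (enc (f^[u.length] y)) [] []) (u.length * (n + 2) + 1) := by
  induction u generalizing y with
  | nil =>
    exact (Run.loop_nil (k := 0) (c := .seq (.pop 0) (c.shift 1))
      (s := st4 [] (enc y) [] []) rfl).of_eq (by simp) (by simp)
  | cons b u ih =>
    have h1 : Run (.pop 0) (st4 (b :: u) (enc y) [] []) (st4 u (enc y) [] []) 1 :=
      (run_pop 0 _).of_eq (by simp) le_rfl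
    have h2 : Run (c.shift 1) (st4 u (enc y) [] []) (st4 u (enc (f y)) [] []) n :=
      call_one (h 0 (by simp)) u
    have h3 := ih (f y) (fun i hi => by
      have := h (i + 1) (by simpa using hi)
      simpa only [iterate_succ, comp_apply] using this)
    refine (Run.loop_cons (k := 0) (by simp) (h1.seq h2) h3).of_eq (by simp) ?_
    simp only [List.length_cons]
    ring_nf
    omega

/-- Bounded iteration: the size of `N a` is the number of rounds. -/
theorem TF.iterate {N : α → κ} {s : α → σ} {f : σ → σ} {eN b df D : ℕ}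
    (hN : TF D N) (hs : TF D s) (hf : TF df f) (gN : GF eN N)
    (hb : ∃ B, ∀ a i, i ≤ sz (N a) → sz (f^[i] (s a)) ≤ B * (sz a + 1) ^ b)
    (h3 : eN + b * df ≤ D) (h4 : b ≤ D) (h5 : 1 ≤ D) :
    TF D (fun a => f^[sz (N a)] (s a)) := by
  obtain ⟨B, hB⟩ := hb
  obtain ⟨cf, F, hcf⟩ := hf
  obtain ⟨cu, U, hcu⟩ := hN
  obtain ⟨cs, S, hcs⟩ := hs
  obtain ⟨A, hA⟩ := gN
  refine ⟨.seq (both cu cs) (.seq (mv 1 0) (.seq (mv 2 3) (.seq (mv 3 1)
    (.seq (.loop 0 (.seq (.pop 0) (cf.shift 1))) (.seq (mv 1 2) (mv 2 0)))))),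
    U + S + 21 + 4 * A + (A * (F * (B + 1) ^ df) + 2 * A) + 16 * B + 11, fun x => ?_⟩
  have h1 := run_both (hcu x) (hcs x)
  have h2 : Run (mv 1 0) (st4 [] (enc (N x)) (enc (s x)) []) (st4 (enc (N x)).reverse [] (enc (s x)) [])
      (4 * (enc (N x)).length + 1) := (run_mv (by decide) _).of_eq (by simp) (by simp)
  have h3' : Run (mv 2 3) (st4 (enc (N x)).reverse [] (enc (s x)) [])
      (st4 (enc (N x)).reverse [] [] (enc (s x)).reverse) (4 * (enc (s x)).length + 1) :=
    (run_mv (by decide) _).of_eq (by simp) (by simp)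
  have h4' : Run (mv 3 1) (st4 (enc (N x)).reverse [] [] (enc (s x)).reverse)
      (st4 (enc (N x)).reverse (enc (s x)) [] []) (4 * (enc (s x)).length + 1) :=
    (run_mv (by decide) _).of_eq (by simp) (by simp)
  have hstep : ∀ i ≤ sz (N x), F * (sz (f^[i] (s x)) + 1) ^ df ≤
      F * (B + 1) ^ df * (sz x + 1) ^ (b * df) := fun i hi => mul_pow_comp (hB x i hi)
  have h5' : Run (.loop 0 (.seq (.pop 0) (cf.shift 1))) (st4 (enc (N x)).reverse (enc (s x)) [] [])
      (st4 [] (enc (f^[sz (N x)] (s x))) [] [])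
      (sz (N x) * (F * (B + 1) ^ df * (sz x + 1) ^ (b * df) + 2) + 1) := by
    have := run_iter_loop' (c := cf) (f := f) (n := F * (B + 1) ^ df * (sz x + 1) ^ (b * df))
      (enc (N x)).reverse (s x)
      (fun i hi => (hcf _).mono (hstep i (by simpa [sz] using hi.le)))
    simpa [sz] using this
  set z := f^[sz (N x)] (s x) with hz
  have h6 : Run (mv 1 2) (st4 [] (enc z) [] [])
      (st4 [] [] (enc z).reverse [])
      (4 * (enc z).length + 1) :=
    (run_mv (by decide) _).of_eq (by simp) (by simp)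
  have h7 : Run (mv 2 0) (st4 [] [] (enc z).reverse [])
      (init (enc z))
      (4 * (enc z).length + 1) :=
    (run_mv (by decide) _).of_eq (by simp [init_eq_st4]) (by simp)
  refine (h1.seq (h2.seq (h3'.seq (h4'.seq (h5'.seq (h6.seq h7)))))).mono ?_
  have e0 : (enc x).length ≤ (sz x + 1) ^ D := by
    calc (enc x).length ≤ (sz x + 1) ^ 1 := by rw [pow_one]; exact Nat.le_succ _
      _ ≤ _ := pow_mono' h5
  have e1 : (enc (N x)).length ≤ A * (sz x + 1) ^ eN := hA x
  have e1' : A * (sz x + 1) ^ eN ≤ A * (sz x + 1) ^ D :=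
    Nat.mul_le_mul_left _ (pow_mono' (by omega))
  have e2 : (enc (s x)).length ≤ B * (sz x + 1) ^ D := by
    have := hB x 0 (Nat.zero_le _)
    simp only [iterate_zero, id_eq] at this
    exact this.trans (Nat.mul_le_mul_left _ (pow_mono' h4))
  have e3 : (enc z).length ≤ B * (sz x + 1) ^ D :=
    (hB x _ le_rfl).trans (Nat.mul_le_mul_left _ (pow_mono' h4))
  have e4 : 1 ≤ (sz x + 1) ^ D := Nat.one_le_pow _ _ (Nat.succ_pos _)
  have e5 : sz (N x) * (F * (B + 1) ^ df * (sz x + 1) ^ (b * df) + 2) ≤
      (A * (F * (B + 1) ^ df) + 2 * A) * (sz x + 1) ^ D := by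
    have k1 : sz (N x) * (F * (B + 1) ^ df * (sz x + 1) ^ (b * df)) ≤
        A * (F * (B + 1) ^ df) * (sz x + 1) ^ D := by
      calc _ ≤ (A * (sz x + 1) ^ eN) * (F * (B + 1) ^ df * (sz x + 1) ^ (b * df)) :=
            Nat.mul_le_mul_right _ (hA x)
        _ = A * (F * (B + 1) ^ df) * (sz x + 1) ^ (eN + b * df) := by rw [pow_add]; ring
        _ ≤ _ := Nat.mul_le_mul_left _ (pow_mono' h3)
    have k2 : sz (N x) ≤ A * (sz x + 1) ^ D := (hA x).trans e1'
    calc _ = sz (N x) * (F * (B + 1) ^ df * (sz x + 1) ^ (b * df)) + 2 * sz (N x) := by ring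
      _ ≤ A * (F * (B + 1) ^ df) * (sz x + 1) ^ D + 2 * (A * (sz x + 1) ^ D) := by omega
      _ = _ := by ring
  generalize (sz x + 1) ^ D = X at *
  have e6 := e1.trans e1'
  calc _ ≤ U * X + S * X + 21 * X + 4 * (A * X) + (A * (F * (B + 1) ^ df) + 2 * A) * X
        + 16 * (B * X) + 11 * X := by omega
    _ = _ := by ring

theorem GF.iterate {N : α → κ} {s : α → σ} {f : σ → σ} {b : ℕ}
    (hb : ∃ B, ∀ a i, i ≤ sz (N a) → sz (f^[i] (s a)) ≤ B * (sz a + 1) ^ b) :
    GF b (fun a => f^[sz (N a)] (s a)) := by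
  obtain ⟨B, hB⟩ := hb
  exact ⟨B, fun a => hB a _ le_rfl⟩

end Crest.Agent.R286
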