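import Crest.Agent.R286.TFIter

/-!
# Native loops over coded lists

`fmProg cf`: on the code of `(l, k)` runs `cf` on the code of `(k, a)` for every element `a` of `l`
and concatenates the resulting lists. `foProg cf`: on the code of `(l, (k, s))` the left fold. The
remaining list sits on its own stack, so a round costs only the call and the size of
`(k, a)` (resp. `(k, (s, a))`).
-/

set_option autoImplicit false
set_option linter.dupNamespace false

namespace Crest.Agent.R286

open Function Crest.Agent.Lib.PT

variable {α β γ δ σ κ : Type} [PTCode α] [PTCode β] [PTCode γ] [PTCode δ] [PTCode σ] [PTCode κ]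

/-- explicit small stores -/
def st6 (a b c d e f : List Bool) : Store := fun k =>
  match k with
  | 0 => a
  | 1 => b
  | 2 => c
  | 3 => d
  | 4 => e
  | 5 => f
  | _ + 6 => []

section st6
variable (a b c d e f v : List Bool)

@[simp] theorem st6_0 : st6 a b c d e f 0 = a := rfl
@[simp] theorem st6_1 : st6 a b c d e f 1 = b := rfl
@[simp] theorem st6_2 : st6 a b c d e f 2 = c := rfl
@[simp] theorem st6_3 : st6 a b c d e f 3 = d := rfl
@[simp] theorem st6_4 : st6 a b c d e f 4 = e := rfl
@[simp] theorem st6_5 : st6 a b c d e f 5 = f := rfl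

@[simp] theorem up6_0 : update (st6 a b c d e f) 0 v = st6 v b c d e f := by
  funext j; rcases j with _ | _ | _ | _ | _ | _ | j <;> simp [st6]
@[simp] theorem up6_1 : update (st6 a b c d e f) 1 v = st6 a v c d e f := by
  funext j; rcases j with _ | _ | _ | _ | _ | _ | j <;> simp [st6]
@[simp] theorem up6_2 : update (st6 a b c d e f) 2 v = st6 a b v d e f := by
  funext j; rcases j with _ | _ | _ | _ | _ | _ | j <;> simp [st6]
@[simp] theorem up6_3 : update (st6 a b c d e f) 3 v = st6 a b c v e f := by
  funext j; rcases j with _ | _ | _ | _ | _ | _ | j <;> simp [st6]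
@[simp] theorem up6_4 : update (st6 a b c d e f) 4 v = st6 a b c d v f := by
  funext j; rcases j with _ | _ | _ | _ | _ | _ | j <;> simp [st6]
@[simp] theorem up6_5 : update (st6 a b c d e f) 5 v = st6 a b c d e v := by
  funext j; rcases j with _ | _ | _ | _ | _ | _ | j <;> simp [st6]
end st6

theorem init_eq_st6 (z : List Bool) : init z = st6 z [] [] [] [] [] := by
  funext j; rcases j with _ | _ | _ | _ | _ | _ | j <;> simp [st6, init]

theorem st3_eq_st6 (a b c : List Bool) : st3 a b c = st6 a b c [] [] [] := by
  funext j; rcases j with _ | _ | _ | _ | _ | _ | j <;> simp [st6, st3]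

/-! ### parsing one element -/

theorem run_parse_pair_loop (x y acc : List Bool) :
    Run (.loop 2 parseBody) (st3 (pair x y) acc [true])
      (st3 y (x.reverse ++ acc) []) (6 * x.length + 6) := by
  have fin : ∀ a b : List Bool, Run (.loop 2 parseBody) (st3 a b []) (st3 a b []) 1 :=
    fun a b => Run.loop_nil rfl
  have hne : ∀ a b : List Bool, st3 a b [true] 2 ≠ [] := fun a b => by simp [st3]
  induction x generalizing acc with
  | nil =>
    have hb : Run parseBody (st3 (false :: y) acc [true]) (st3 y acc []) 3 := by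
      refine (Run.ite_false (n := 2) (l := y) rfl ((run_pop 0 _).seq (run_pop 2 _))).of_eq
        ?_ (by omega)
      funext j; rcases j with _ | _ | _ | j <;> simp [st3]
    refine (Run.loop_cons (hne _ _) hb (fin y acc)).of_eq ?_ ?_
    · simp
    · simp
  | cons b x ih =>
    have hpair : pair (b :: x) y = true :: b :: pair x y := by simp [pair]
    rw [hpair]
    have hb : Run parseBody (st3 (true :: b :: pair x y) acc [true]) (st3 (pair x y) (b :: acc) [true])
        5 := by
      refine (Run.ite_true (n := 1 + (1 + 2)) (l := b :: pair x y) rfl ((run_pop 0 _).seq ?_)).of_eq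
        rfl (by omega)
      have e1 : update (st3 (true :: b :: pair x y) acc [true]) 0
          ((st3 (true :: b :: pair x y) acc [true]) 0).tail = st3 (b :: pair x y) acc [true] := by
        funext j; rcases j with _ | _ | _ | j <;> simp [st3]
      rw [e1]
      have e2 : update (update (st3 (b :: pair x y) acc [true]) 0
          ((st3 (b :: pair x y) acc [true]) 0).tail) 1
          (b :: (update (st3 (b :: pair x y) acc [true]) 0
            ((st3 (b :: pair x y) acc [true]) 0).tail) 1)
          = st3 (pair x y) (b :: acc) [true] := by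
        funext j; rcases j with _ | _ | _ | j <;> simp [st3]
      cases b
      · exact Run.ite_false (n := 2) (l := pair x y) rfl
          (((run_pop 0 _).seq (run_push 1 false _)).of_eq e2 le_rfl)
      · exact Run.ite_true (n := 2) (l := pair x y) rfl
          (((run_pop 0 _).seq (run_push 1 true _)).of_eq e2 le_rfl)
    refine (Run.loop_cons (hne _ _) hb (ih (b :: acc))).of_eq ?_ ?_
    · simp
    · simp only [List.length_cons]; omega

theorem run_parse_pair (x y : List Bool) :
    Run parse (init (pair x y)) (st3 y x.reverse []) (6 * x.length + 7) := by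
  have e : update (init (pair x y)) 2 (true :: (init (pair x y)) 2) = st3 (pair x y) [] [true] := by
    funext j; rcases j with _ | _ | _ | j <;> simp [st3, init]
  refine (((run_push 2 true (init (pair x y))).of_eq e le_rfl).seq
    (run_parse_pair_loop x y [])).of_eq ?_ (by omega)
  simp

/-- running a shifted program on a store glued from lower stacks -/
theorem run_glue {c : Cmd} {s s' : Store} {n : ℕ} (h : Run c s s' n) (m : ℕ) (S : Store) :
    Run (c.shift m) (glue m S s) (glue m S s') n := by
  obtain ⟨t, ht, h⟩ := h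
  exact ⟨t, ht, h.shift m S⟩

theorem glue_two (a b x y z : List Bool) (S : Store) (h0 : S 0 = a) (h1 : S 1 = b) :
    glue 2 S (st3 x y z) = st6 a b x y z [] := by
  funext j
  rcases j with _ | _ | _ | _ | _ | _ | j <;> simp [glue, st3, st6, h0, h1]

/-- parse the first element of the list on stack `2` to stack `3` (reversed) -/
theorem run_parse2 (a b x y : List Bool) :
    Run (parse.shift 2) (st6 a b (pair x y) [] [] []) (st6 a b y x.reverse [] [])
      (6 * x.length + 7) := by
  have h := run_glue (run_parse_pair x y) 2 (st6 a b [] [] [] [])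
  have e1 : glue 2 (st6 a b [] [] [] []) (init (pair x y)) = st6 a b (pair x y) [] [] [] := by
    have : init (pair x y) = st3 (pair x y) [] [] := init_eq_st3 _
    rw [this, glue_two a b _ _ _ _ rfl rfl]
  have e2 : glue 2 (st6 a b [] [] [] []) (st3 y x.reverse []) = st6 a b y x.reverse [] [] :=
    glue_two a b _ _ _ _ rfl rfl
  rwa [e1, e2] at h

theorem call4 {c : Cmd} {x y : List Bool} {n : ℕ} (h : Run c (init x) (init y) n)
    (a b d e : List Bool) :
    Run (c.shift 4) (st6 a b d e x []) (st6 a b d e y []) n := by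
  refine (call_run h 4 (st6 a b d e x []) rfl ?_).of_eq (by simp) le_rfl
  intro j hj
  rcases j with _ | _ | _ | _ | _ | _ | j
  · omega
  · omega
  · omega
  · omega
  · omega
  all_goals rfl

/-- `b ↦ [true, b]` -/
abbrev dbl : Bool → List Bool := fun b => [true, b]

/-- load the code of `(k, a)` on stack `4`, `k` on stack `1`, `a` (reversed) on stack `3` -/
def loadKA : Cmd :=
  .seq (mv 3 4) (.seq (.push 4 false) (.seq (mv2 1 3 5) (.seq (mvMap 5 4 dbl) (mv 3 1))))

theorem run_loadKA (o k r a : List Bool) :
    Run loadKA (st6 o k r a.reverse [] []) (st6 o k r [] (pair k a) [])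
      (4 * a.length + 17 * k.length + 5) := by
  have h1 : Run (mv 3 4) (st6 o k r a.reverse [] []) (st6 o k r [] a []) (4 * a.length + 1) :=
    (run_mv (by decide) _).of_eq (by simp) (by simp)
  have h2 : Run (.push 4 false) (st6 o k r [] a []) (st6 o k r [] (false :: a) []) 1 :=
    (run_push 4 false _).of_eq (by simp) le_rfl
  have h3 : Run (mv2 1 3 5) (st6 o k r [] (false :: a) [])
      (st6 o [] r k.reverse (false :: a) k.reverse) (5 * k.length + 1) :=
    (run_mv2 (by decide) (by decide) (by decide) _).of_eq (by simp) (by simp)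
  have h4 : Run (mvMap 5 4 dbl) (st6 o [] r k.reverse (false :: a) k.reverse)
      (st6 o [] r k.reverse (pair k a) []) (8 * k.length + 1) := by
    refine (run_mvMap (by decide) _ _).of_eq ?_ (by simp)
    simp [Lib.PT.pair]
  have h5 : Run (mv 3 1) (st6 o [] r k.reverse (pair k a) []) (st6 o k r [] (pair k a) [])
      (4 * k.length + 1) := (run_mv (by decide) _).of_eq (by simp) (by simp)
  exact (h1.seq (h2.seq (h3.seq (h4.seq h5)))).mono (by omega)

/-- one round of the flat map -/
def fmBody (cf : Cmd) : Cmd :=
  .seq (parse.shift 2) (.seq loadKA (.seq (cf.shift 4) (mv 4 0)))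

theorem run_fmBody {cf : Cmd} {k a r y o : List Bool} {n : ℕ}
    (h : Run cf (init (pair k a)) (init y) n) :
    Run (fmBody cf) (st6 o k (pair a r) [] [] []) (st6 (y.reverse ++ o) k r [] [] [])
      (n + 10 * a.length + 17 * k.length + 4 * y.length + 13) := by
  have h1 := run_parse2 o k a r
  have h2 := run_loadKA o k r a
  have h3 := call4 h o k r []
  have h4 : Run (mv 4 0) (st6 o k r [] y []) (st6 (y.reverse ++ o) k r [] [] [])
      (4 * y.length + 1) := (run_mv (by decide) _).of_eq (by simp) (by simp)
  exact (h1.seq (h2.seq (h3.seq h4))).mono (by omega)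

theorem encList_append (l l' : List α) : enc (l ++ l') = enc l ++ enc l' := by
  induction l with
  | nil => rfl
  | cons a l ih =>
    rw [List.cons_append, enc_cons, enc_cons, ih]
    simp [Lib.PT.pair]

theorem run_fmLoop {cf : Cmd} {f : κ × α → List β} (k : κ) (τ : α → ℕ) (l : List α)
    (h : ∀ a ∈ l, Run cf (init (enc (k, a))) (init (enc (f (k, a)))) (τ a)) (o : List Bool) :
    Run (.loop 2 (fmBody cf)) (st6 o (enc k) (enc l) [] [] [])
      (st6 ((enc (l.flatMap fun a => f (k, a))).reverse ++ o) (enc k) [] [] [] [])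
      ((l.map fun a => τ a + 10 * sz a + 17 * sz k + 4 * sz (f (k, a)) + 14).sum + 1) := by
  induction l generalizing o with
  | nil => exact (Run.loop_nil (k := 2) rfl).of_eq (by simp) (by simp)
  | cons a l ih =>
    have hb := run_fmBody (r := enc l) (o := o) (h a (by simp))
    have hl := ih (fun b hb => h b (by simp [hb])) ((enc (f (k, a))).reverse ++ o)
    have hne : st6 o (enc k) (enc (a :: l)) [] [] [] 2 ≠ [] := by
      rw [st6_2, enc_cons]; exact pair_ne_nil _ _
    refine (Run.loop_cons hne hb hl).of_eq ?_ ?_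
    · rw [List.flatMap_cons, encList_append, List.reverse_append, List.append_assoc]
    · simp only [List.map_cons, List.sum_cons, sz]
      omega

/-- flat map over the list in `(l, k)` -/
def fmProg (cf : Cmd) : Cmd :=
  .seq parse (.seq (mv 1 2) (.seq (mv 0 3) (.seq (mv 3 1) (.seq (.loop 2 (fmBody cf))
    (.seq (clear 1) (.seq (mv 0 1) (.seq (mv 1 2) (mv 2 0))))))))

theorem run_fmProg {cf : Cmd} {f : κ × α → List β} (l : List α) (k : κ) (τ : α → ℕ)
    (h : ∀ a ∈ l, Run cf (init (enc (k, a))) (init (enc (f (k, a)))) (τ a)) :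
    Run (fmProg cf) (init (enc (l, k))) (init (enc (l.flatMap fun a => f (k, a))))
      ((l.map fun a => τ a + 10 * sz a + 17 * sz k + 4 * sz (f (k, a)) + 14).sum +
        10 * sz l + 10 * sz k + 12 * sz (l.flatMap fun a => f (k, a)) + 15) := by
  have h0 := run_parse_pair (enc l) (enc k)
  rw [st3_eq_st6] at h0
  have h1 : Run (mv 1 2) (st6 (enc k) (enc l).reverse [] [] [] [])
      (st6 (enc k) [] (enc l) [] [] []) (4 * (enc l).length + 1) :=
    (run_mv (by decide) _).of_eq (by simp) (by simp)
  have h2 : Run (mv 0 3) (st6 (enc k) [] (enc l) [] [] [])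
      (st6 [] [] (enc l) (enc k).reverse [] []) (4 * (enc k).length + 1) :=
    (run_mv (by decide) _).of_eq (by simp) (by simp)
  have h3 : Run (mv 3 1) (st6 [] [] (enc l) (enc k).reverse [] [])
      (st6 [] (enc k) (enc l) [] [] []) (4 * (enc k).length + 1) :=
    (run_mv (by decide) _).of_eq (by simp) (by simp)
  have h4 := run_fmLoop k τ l h []
  rw [List.append_nil] at h4
  set y := enc (l.flatMap fun a => f (k, a)) with hy
  have h5 : Run (clear 1) (st6 y.reverse (enc k) [] [] [] [])
      (st6 y.reverse [] [] [] [] []) (2 * (enc k).length + 1) :=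
    (run_clear 1 _).of_eq (by simp) (by simp)
  have h6 : Run (mv 0 1) (st6 y.reverse [] [] [] [] []) (st6 [] y [] [] [] [])
      (4 * y.length + 1) := (run_mv (by decide) _).of_eq (by simp) (by simp)
  have h7 : Run (mv 1 2) (st6 [] y [] [] [] []) (st6 [] [] y.reverse [] [] [])
      (4 * y.length + 1) := (run_mv (by decide) _).of_eq (by simp) (by simp)
  have h8 : Run (mv 2 0) (st6 [] [] y.reverse [] [] []) (init y)
      (4 * y.length + 1) := (run_mv (by decide) _).of_eq (by simp [init_eq_st6]) (by simp)
  refine (h0.seq (h1.seq (h2.seq (h3.seq (h4.seq (h5.seq (h6.seq (h7.seq h8)))))))).mono ?_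
  simp only [sz]
  rw [← hy]
  omega

/-! ### left fold -/

/-- load the code of `(k, (s, a))` on stack `4`; `s` on `0`, `k` on `1`, `a` (reversed) on `3` -/
def loadKSA : Cmd :=
  .seq (mv 3 4) (.seq (.push 4 false) (.seq (mv 0 3) (.seq (mvMap 3 4 dbl)
    (.seq (.push 4 false) (.seq (mv2 1 3 5) (.seq (mvMap 5 4 dbl) (mv 3 1)))))))

theorem run_loadKSA (s k r a : List Bool) :
    Run loadKSA (st6 s k r a.reverse [] []) (st6 [] k r [] (pair k (pair s a)) [])
      (4 * a.length + 12 * s.length + 17 * k.length + 8) := by
  have h1 : Run (mv 3 4) (st6 s k r a.reverse [] []) (st6 s k r [] a []) (4 * a.length + 1) :=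
    (run_mv (by decide) _).of_eq (by simp) (by simp)
  have h2 : Run (.push 4 false) (st6 s k r [] a []) (st6 s k r [] (false :: a) []) 1 :=
    (run_push 4 false _).of_eq (by simp) le_rfl
  have h3 : Run (mv 0 3) (st6 s k r [] (false :: a) []) (st6 [] k r s.reverse (false :: a) [])
      (4 * s.length + 1) := (run_mv (by decide) _).of_eq (by simp) (by simp)
  have h4 : Run (mvMap 3 4 dbl) (st6 [] k r s.reverse (false :: a) [])
      (st6 [] k r [] (pair s a) []) (8 * s.length + 1) := by
    refine (run_mvMap (by decide) _ _).of_eq ?_ (by simp)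
    simp [Lib.PT.pair]
  have h5 : Run (.push 4 false) (st6 [] k r [] (pair s a) [])
      (st6 [] k r [] (false :: pair s a) []) 1 :=
    (run_push 4 false _).of_eq (by simp) le_rfl
  have h6 : Run (mv2 1 3 5) (st6 [] k r [] (false :: pair s a) [])
      (st6 [] [] r k.reverse (false :: pair s a) k.reverse) (5 * k.length + 1) :=
    (run_mv2 (by decide) (by decide) (by decide) _).of_eq (by simp) (by simp)
  have h7 : Run (mvMap 5 4 dbl) (st6 [] [] r k.reverse (false :: pair s a) k.reverse)
      (st6 [] [] r k.reverse (pair k (pair s a)) []) (8 * k.length + 1) := by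
    refine (run_mvMap (by decide) _ _).of_eq ?_ (by simp)
    simp [Lib.PT.pair]
  have h8 : Run (mv 3 1) (st6 [] [] r k.reverse (pair k (pair s a)) [])
      (st6 [] k r [] (pair k (pair s a)) [])
      (4 * k.length + 1) := (run_mv (by decide) _).of_eq (by simp) (by simp)
  exact (h1.seq (h2.seq (h3.seq (h4.seq (h5.seq (h6.seq (h7.seq h8))))))).mono (by omega)

/-- one round of the fold -/
def foBody (cf : Cmd) : Cmd :=
  .seq (parse.shift 2) (.seq loadKSA (.seq (cf.shift 4) (.seq (mv 4 3) (mv 3 0))))

theorem run_foBody {cf : Cmd} {k a r y s : List Bool} {n : ℕ}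
    (h : Run cf (init (pair k (pair s a))) (init y) n) :
    Run (foBody cf) (st6 s k (pair a r) [] [] []) (st6 y k r [] [] [])
      (n + 10 * a.length + 12 * s.length + 17 * k.length + 8 * y.length + 17) := by
  have h1 := run_parse2 s k a r
  have h2 := run_loadKSA s k r a
  have h3 := call4 h [] k r []
  have h4 : Run (mv 4 3) (st6 [] k r [] y []) (st6 [] k r y.reverse [] [])
      (4 * y.length + 1) := (run_mv (by decide) _).of_eq (by simp) (by simp)
  have h5 : Run (mv 3 0) (st6 [] k r y.reverse [] []) (st6 y k r [] [] [])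
      (4 * y.length + 1) := (run_mv (by decide) _).of_eq (by simp) (by simp)
  exact (h1.seq (h2.seq (h3.seq (h4.seq h5)))).mono (by omega)

theorem run_foLoop {cf : Cmd} {f : κ × (σ × α) → σ} (k : κ) (N : ℕ) (l : List α) (s : σ)
    (h : ∀ l1 a l2, l = l1 ++ a :: l2 →
      Run cf (init (enc (k, (l1.foldl (fun t b => f (k, (t, b))) s, a))))
        (init (enc (f (k, (l1.foldl (fun t b => f (k, (t, b))) s, a))))) N)
    (M : ℕ) (hM : ∀ l1 a l2, l = l1 ++ a :: l2 →
      sz a + sz k + sz (l1.foldl (fun t b => f (k, (t, b))) s) +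
        sz (f (k, (l1.foldl (fun t b => f (k, (t, b))) s, a))) ≤ M) :
    Run (.loop 2 (foBody cf)) (st6 (enc s) (enc k) (enc l) [] [] [])
      (st6 (enc (l.foldl (fun t b => f (k, (t, b))) s)) (enc k) [] [] [] [])
      (l.length * (N + 17 * M + 18) + 1) := by
  induction l generalizing s with
  | nil => exact (Run.loop_nil (k := 2) rfl).of_eq (by simp) (by simp)
  | cons a l ih =>
    have h0 := h [] a l rfl
    have m0 := hM [] a l rfl
    simp only [List.foldl_nil] at h0 m0
    have hb := run_foBody (r := enc l) h0
    have hl := ih (f (k, (s, a)))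
      (fun l1 b l2 e => by
        have := h (a :: l1) b l2 (by rw [e]; rfl)
        simpa only [List.foldl_cons] using this)
      (fun l1 b l2 e => by
        have := hM (a :: l1) b l2 (by rw [e]; rfl)
        simpa only [List.foldl_cons] using this)
    have hne : st6 (enc s) (enc k) (enc (a :: l)) [] [] [] 2 ≠ [] := by
      rw [st6_2, enc_cons]; exact pair_ne_nil _ _
    refine (Run.loop_cons hne hb hl).of_eq ?_ ?_
    · rw [List.foldl_cons]
    · simp only [List.length_cons, add_mul, one_mul]
      simp only [sz] at m0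
      have e1 : 10 * (enc a).length + 12 * (enc s).length + 17 * (enc k).length +
          8 * (enc (f (k, (s, a)))).length ≤ 17 * M := by omega
      omega

/-- left fold over the list in `(l, (k, s))` -/
def foProg (cf : Cmd) : Cmd :=
  .seq parse (.seq (mv 0 2) (.seq (mv 2 3) (.seq (mv 1 2) (.seq (parse.shift 3) (.seq (mv 4 1)
    (.seq (mv 3 4) (.seq (mv 4 0) (.seq (.loop 2 (foBody cf)) (clear 1)))))))))

theorem glue_three (a b c x y z : List Bool) (S : Store) (h0 : S 0 = a) (h1 : S 1 = b)
    (h2 : S 2 = c) : glue 3 S (st3 x y z) = st6 a b c x y z := by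
  funext j
  rcases j with _ | _ | _ | _ | _ | _ | j <;> simp [glue, st3, st6, h0, h1, h2]

theorem run_parse3 (a b c x y : List Bool) :
    Run (parse.shift 3) (st6 a b c (pair x y) [] []) (st6 a b c y x.reverse [])
      (6 * x.length + 7) := by
  have h := run_glue (run_parse_pair x y) 3 (st6 a b c [] [] [])
  have e1 : glue 3 (st6 a b c [] [] []) (init (pair x y)) = st6 a b c (pair x y) [] [] := by
    have : init (pair x y) = st3 (pair x y) [] [] := init_eq_st3 _
    rw [this, glue_three a b c _ _ _ _ rfl rfl rfl]
  have e2 : glue 3 (st6 a b c [] [] []) (st3 y x.reverse []) = st6 a b c y x.reverse [] :=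
    glue_three a b c _ _ _ _ rfl rfl rfl
  rwa [e1, e2] at h

theorem run_foProg {cf : Cmd} {f : κ × (σ × α) → σ} (k : κ) (N : ℕ) (l : List α) (s : σ)
    (h : ∀ l1 a l2, l = l1 ++ a :: l2 →
      Run cf (init (enc (k, (l1.foldl (fun t b => f (k, (t, b))) s, a))))
        (init (enc (f (k, (l1.foldl (fun t b => f (k, (t, b))) s, a))))) N)
    (M : ℕ) (hM : ∀ l1 a l2, l = l1 ++ a :: l2 →
      sz a + sz k + sz (l1.foldl (fun t b => f (k, (t, b))) s) +
        sz (f (k, (l1.foldl (fun t b => f (k, (t, b))) s, a))) ≤ M) :
    Run (foProg cf) (init (enc (l, (k, s))))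
      (init (enc (l.foldl (fun t b => f (k, (t, b))) s)))
      (l.length * (N + 17 * M + 18) + 10 * sz l + 28 * sz k + 16 * sz s + 30) := by
  have h0 := run_parse_pair (enc l) (enc (k, s))
  rw [st3_eq_st6] at h0
  set q := enc (k, s) with hq
  have hq' : q.length = 2 * (enc k).length + (enc s).length + 1 := by
    rw [hq, enc_prod]; exact core_length_pair _ _
  have h1 : Run (mv 0 2) (st6 q (enc l).reverse [] [] [] [])
      (st6 [] (enc l).reverse q.reverse [] [] []) (4 * q.length + 1) :=
    (run_mv (by decide) _).of_eq (by simp) (by simp)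
  have h2 : Run (mv 2 3) (st6 [] (enc l).reverse q.reverse [] [] [])
      (st6 [] (enc l).reverse [] q [] []) (4 * q.length + 1) :=
    (run_mv (by decide) _).of_eq (by simp) (by simp)
  have h3 : Run (mv 1 2) (st6 [] (enc l).reverse [] q [] [])
      (st6 [] [] (enc l) q [] []) (4 * (enc l).length + 1) :=
    (run_mv (by decide) _).of_eq (by simp) (by simp)
  have h4 : Run (parse.shift 3) (st6 [] [] (enc l) q [] [])
      (st6 [] [] (enc l) (enc s) (enc k).reverse []) (6 * (enc k).length + 7) :=
    run_parse3 [] [] (enc l) (enc k) (enc s)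
  have h5 : Run (mv 4 1) (st6 [] [] (enc l) (enc s) (enc k).reverse [])
      (st6 [] (enc k) (enc l) (enc s) [] []) (4 * (enc k).length + 1) :=
    (run_mv (by decide) _).of_eq (by simp) (by simp)
  have h6 : Run (mv 3 4) (st6 [] (enc k) (enc l) (enc s) [] [])
      (st6 [] (enc k) (enc l) [] (enc s).reverse []) (4 * (enc s).length + 1) :=
    (run_mv (by decide) _).of_eq (by simp) (by simp)
  have h7 : Run (mv 4 0) (st6 [] (enc k) (enc l) [] (enc s).reverse [])
      (st6 (enc s) (enc k) (enc l) [] [] []) (4 * (enc s).length + 1) :=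
    (run_mv (by decide) _).of_eq (by simp) (by simp)
  have h8 := run_foLoop k N l s h M hM
  have h9 : Run (clear 1) (st6 (enc (l.foldl (fun t b => f (k, (t, b))) s)) (enc k) [] [] [] [])
      (init (enc (l.foldl (fun t b => f (k, (t, b))) s))) (2 * (enc k).length + 1) :=
    (run_clear 1 _).of_eq (by simp [init_eq_st6]) (by simp)
  refine (h0.seq (h1.seq (h2.seq (h3.seq (h4.seq (h5.seq (h6.seq (h7.seq (h8.seq h9))))))))).mono ?_
  simp only [sz]
  omega

end Crest.Agent.R286
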