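import Crest.Agent.R286.StepUpd
import Crest.Agent.R286.ExRel

/-!
# Row 286: theorem (T) in relation form (note 13110)
-/

set_option autoImplicit false
set_option linter.unusedVariables false

namespace Crest.Agent.R286.TFull

open Classical StepAbs ExRel

variable {α : Type*}

/-- described sets: three stairs -/
def Desc (R : α → α → Prop) (nu : α → ℕ) (S : Set α) : Prop :=
  ∃ F0 F1 F2 : Set α, Frame R F0 ∧ Frame R F1 ∧ Frame R F2 ∧ ∃ a0 a1 a2 : ℕ,
    S = {z | (z ∈ F0 ∧ nu z < a0) ∨ (z ∈ F1 ∧ nu z < a1) ∨ (z ∈ F2 ∧ nu z < a2)}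

/-- the cut `t` has no nontrivial left separator -/
def LFree (R : α → α → Prop) (X : Finset α) (s : α → ℕ) (t : ℕ) : Prop :=
  ∀ q, 1 ≤ q → q < t → ∃ x ∈ X, q < s x ∧ s x ≤ t ∧ ∀ w ∈ X, s w = q → ¬ R w x

theorem T0 {R : α → α → Prop} {nu : α → ℕ} (htr : ∀ a b c, R a b → R b c → R a c)
    (hir : ∀ a, ¬ R a a) (hinj : Function.Injective nu) (hmono : ∀ a b, R a b → nu a < nu b) :
    ∀ (N : ℕ) (D : Finset α) (St : Set α), SD R nu St → (∀ z ∈ D, z ∈ St) →
      (∃ s, Pack R D N s) →
      ∃ s, Pack R D N s ∧ ∀ t, 1 ≤ t → t ≤ N → LFree R D s t →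
        ∃ S : Set α, SD R nu S ∧ S ⊆ St ∧
          ∀ z ∈ D, (s z ≤ t ↔ z ∈ S ∧ ∀ w ∈ D, s w = t → ¬ R w z) := by
  intro N
  induction N with
  | zero =>
    intro D St hSt hD ⟨s, hs⟩
    refine ⟨s, hs, ?_⟩
    intro t h1 h2
    omega
  | succ N ih =>
    intro D St hSt hD ⟨s0, hs0⟩
    have H : StepData R nu D
        (fun S => S ⊆ D ∧ S.card = 3 ∧ (∀ s ∈ S, ∀ z ∈ D, ¬ R s z) ∧ ∃ s, Pack R (D \ S) N s)
        (fun S g => ∃ s, Pack R (D \ S) N s ∧ Free R (D \ S) s N g) := by
      refine ⟨htr, hinj, hmono, fun S h => h.1, fun S h => h.2.1, fun S h => h.2.2.1, ?_, ?_⟩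
      · rintro S g y ⟨hSD, hc, hm, -⟩ hg ⟨s, hs, hf⟩ hy hyS hym
        have hgD := hSD hg
        have hyg : y ≠ g := fun h => hyS (h ▸ hg)
        obtain ⟨s', hs'⟩ := exch0 htr hir N (D \ S) s g y hs
          (fun h => (Finset.mem_sdiff.mp h).2 hg)
          (fun z hz => hm g hg z (Finset.mem_sdiff.mp hz).1)
          (Finset.mem_sdiff.mpr ⟨hy, hyS⟩)
          (fun z hz => hym z (Finset.mem_sdiff.mp hz).1) (hym g hgD) hf
        have hset : D \ (insert y (S.erase g)) = insert g ((D \ S).erase y) := by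
          ext x
          simp only [Finset.mem_sdiff, Finset.mem_insert, Finset.mem_erase, not_or, not_and]
          constructor
          · rintro ⟨h1, h2, h3⟩
            by_cases hxg : x = g
            · exact Or.inl hxg
            · exact Or.inr ⟨h2, h1, h3 hxg⟩
          · rintro (rfl | ⟨h1, h2, h3⟩)
            · exact ⟨hgD, hyg.symm, fun h => absurd rfl h⟩
            · exact ⟨h2, h1, fun _ => h3⟩
        refine ⟨?_, ?_, ?_, s', by rw [hset]; exact hs'⟩
        · intro x hx
          rcases Finset.mem_insert.mp hx with rfl | hx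
          · exact hy
          · exact hSD (Finset.mem_of_mem_erase hx)
        · rw [Finset.card_insert_of_notMem (fun h => hyS (Finset.mem_of_mem_erase h)),
            Finset.card_erase_of_mem hg, hc]
        · intro x hx z hz
          rcases Finset.mem_insert.mp hx with rfl | hx
          · exact hym z hz
          · exact hm x (Finset.mem_of_mem_erase hx) z hz
      · have hset : D \ D.filter (fun x => s0 x = N + 1) = D.filter (fun x => s0 x ≤ N) := by
          ext x
          simp only [Finset.mem_sdiff, Finset.mem_filter, not_and]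
          constructor
          · rintro ⟨h1, h2⟩
            have := h2 h1
            have := hs0.1 x h1
            exact ⟨h1, by omega⟩
          · rintro ⟨h1, h2⟩
            exact ⟨h1, fun _ => by omega⟩
        refine ⟨D.filter (fun x => s0 x = N + 1), Finset.filter_subset _ _,
          hs0.2.1 (N + 1) (by omega) le_rfl, ?_, s0, by rw [hset]; exact hs0.restrict⟩
        intro x hx z hz hxz
        simp only [Finset.mem_filter] at hx
        have := hs0.2.2 x hx.1 z hz hxz
        have := hs0.1 z hz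
        omega
    obtain ⟨S, St', ⟨hSD, hc, hm, hpk⟩, hSt', hsub, hin, hout⟩ := step H hSt hD
    obtain ⟨s1, hs1, hcut⟩ := ih (D \ S) St' hSt'
      (fun z hz => hin z (Finset.mem_sdiff.mp hz).1 (Finset.mem_sdiff.mp hz).2) hpk
    have hun : (D \ S) ∪ S = D := Finset.sdiff_union_of_subset hSD
    have hP := hs1.snoc hc Finset.sdiff_disjoint (by
      rw [hun]
      exact hm)
    rw [hun] at hP
    set s : α → ℕ := fun x => if x ∈ S then N + 1 else s1 x with hs
    have hsS : ∀ x ∈ S, s x = N + 1 := fun x hx => by simp [hs, hx]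
    have hsn : ∀ x, x ∉ S → s x = s1 x := fun x hx => by simp [hs, hx]
    refine ⟨s, hP, ?_⟩
    intro t ht1 ht2 hfree
    rcases Nat.lt_or_ge N t with htN | htN
    · have htt : t = N + 1 := by omega
      subst htt
      refine ⟨St, hSt, subset_rfl, ?_⟩
      intro z hz
      constructor
      · intro _
        refine ⟨hD z hz, ?_⟩
        intro w hw hwt
        have hwS : w ∈ S := by
          by_contra hcon
          rw [hsn w hcon] at hwt
          have := (hs1.1 w (Finset.mem_sdiff.mpr ⟨hw, hcon⟩)).2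
          omega
        exact hm w hwS z hz
      · intro _
        exact (hP.1 z hz).2
    · have hfree1 : LFree R (D \ S) s1 t := by
        intro q hq1 hq2
        obtain ⟨x, hx, hqx, hxt, hw⟩ := hfree q hq1 hq2
        have hxS : x ∉ S := by
          intro h
          have := hsS x h
          omega
        rw [hsn x hxS] at hqx hxt
        refine ⟨x, Finset.mem_sdiff.mpr ⟨hx, hxS⟩, hqx, hxt, ?_⟩
        intro w hwD hwq
        obtain ⟨hw1, hw2⟩ := Finset.mem_sdiff.mp hwD
        exact hw w hw1 (by rw [hsn w hw2]; exact hwq)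
      obtain ⟨S1, hS1, hS1sub, hS1iff⟩ := hcut t ht1 htN hfree1
      refine ⟨S1, hS1, hS1sub.trans hsub, ?_⟩
      have hquant : ∀ z, (∀ w ∈ D, s w = t → ¬ R w z) ↔ (∀ w ∈ D \ S, s1 w = t → ¬ R w z) := by
        intro z
        constructor
        · intro h w hw hwt
          obtain ⟨hw1, hw2⟩ := Finset.mem_sdiff.mp hw
          exact h w hw1 (by rw [hsn w hw2]; exact hwt)
        · intro h w hw hwt
          have hwS : w ∉ S := by
            intro h'
            have := hsS w h'
            omega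
          exact h w (Finset.mem_sdiff.mpr ⟨hw, hwS⟩) (by rw [← hsn w hwS]; exact hwt)
      intro z hz
      by_cases hzS : z ∈ S
      · constructor
        · intro h
          have := hsS z hzS
          omega
        · rintro ⟨hz1, hz2⟩
          exfalso
          rw [hquant z] at hz2
          by_cases hpred : ∃ w ∈ D, R w z ∧ t < s w
          · obtain ⟨w, hw, hwz, hwt⟩ := hpred
            have hwS : w ∉ S := fun h => hm w h z hz hwz
            have hwDS : w ∈ D \ S := Finset.mem_sdiff.mpr ⟨hw, hwS⟩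
            rw [hsn w hwS] at hwt
            have := (hS1iff w hwDS).mpr ⟨hS1.down htr hmono hwz hz1, fun v hv hvt hvw =>
              hz2 v hv hvt (htr _ _ _ hvw hwz)⟩
            omega
          · push Not at hpred
            refine hout z hzS ⟨s1, hs1, ?_⟩ (hS1sub hz1)
            intro q hq w hw hwq hwz
            obtain ⟨hw1, hw2⟩ := Finset.mem_sdiff.mp hw
            have hwt := hpred w hw1 hwz
            rw [hsn w hw2] at hwt
            rcases lt_trichotomy q t with h | h | h
            · obtain ⟨x, hx, hqx, hxt, hxw⟩ := hfree1 q hq.1 h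
              obtain ⟨v, hv, hvq, hvx⟩ := hq.2.2 x hx hqx (by omega)
              exact hxw v hv hvq hvx
            · exact hz2 w hw (by omega) hwz
            · omega
      · rw [hsn z hzS, hquant z]
        exact hS1iff z (Finset.mem_sdiff.mpr ⟨hz, hzS⟩)

/-- (T), exact form of note 13110. -/
theorem T {R : α → α → Prop} {nu : α → ℕ} (htr : ∀ a b c, R a b → R b c → R a c)
    (hir : ∀ a, ¬ R a a) (hinj : Function.Injective nu) (hmono : ∀ a b, R a b → nu a < nu b)
    {X : Finset α} {N : ℕ} (h : ∃ s, Pack R X N s) :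
    ∃ s, Pack R X N s ∧ ∀ t, 1 ≤ t → t ≤ N → LFree R X s t →
      ∃ S : Set α, Desc R nu S ∧
        ∀ z ∈ X, (s z ≤ t ↔ z ∈ S ∧ ∀ w ∈ X, s w = t → ¬ R w z) := by
  set M : ℕ := ∑ x ∈ X, nu x + 1 with hM
  have hSt : SD R nu {z | nu z < M} := by
    refine ⟨Set.univ, Set.univ, Set.univ, M, M, M, Or.inl rfl, Or.inl rfl, Or.inl rfl,
      subset_rfl, subset_rfl, le_rfl, le_rfl, ?_⟩
    ext z
    simp [stair]
  have hX : ∀ z ∈ X, z ∈ {z | nu z < M} := by
    intro z hz
    have := Finset.single_le_sum (f := nu) (fun i _ => Nat.zero_le _) hz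
    simp only [Set.mem_ofPred_eq]
    omega
  obtain ⟨s, hs, hcut⟩ := T0 htr hir hinj hmono N X _ hSt hX h
  refine ⟨s, hs, ?_⟩
  intro t h1 h2 h3
  obtain ⟨S, hS, -, hiff⟩ := hcut t h1 h2 h3
  obtain ⟨F0, F1, F2, a0, a1, a2, f0, f1, f2, -, -, -, -, rfl⟩ := hS
  exact ⟨_, ⟨F0, F1, F2, f0, f1, f2, a0, a1, a2, rfl⟩, hiff⟩

end Crest.Agent.R286.TFull
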