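import Crest.Agent.R286.TimeDefs

/-! # Relative time bounds: case analysis, iteration, folds -/

set_option autoImplicit false
set_option linter.dupNamespace false
set_option linter.unusedVariables false
set_option linter.unusedSectionVars false

namespace Crest.Agent.R286

open Function Crest.Agent.Lib.PT

variable {α β γ δ σ κ : Type} [PTCode α] [PTCode β] [PTCode γ] [PTCode δ] [PTCode σ] [PTCode κ]

/-- ordinary time bounds as relative ones -/
theorem TR.ofTF {P : ℕ → α → Prop} {b e D : ℕ} {g : α → β} (hg : TF b g)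
    (gi : GR P e (fun a : α => a)) (h : e * b ≤ D) : TR P D g := by
  obtain ⟨c, C, hc⟩ := hg
  obtain ⟨A, hA⟩ := gi
  refine ⟨c, C * (A + 1) ^ b, fun m a ha => (hc a).mono ?_⟩
  exact (mul_pow_comp (hA m a ha)).trans (Nat.mul_le_mul_left _ (pow_mono' h))

theorem GR.ofGF {P : ℕ → α → Prop} {b e D : ℕ} {g : α → β} (hg : GF b g)
    (gi : GR P e (fun a : α => a)) (h : e * b ≤ D) : GR P D g := by
  obtain ⟨C, hc⟩ := hg
  obtain ⟨A, hA⟩ := gi
  refine ⟨C * (A + 1) ^ b, fun m a ha => (hc a).trans ?_⟩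
  exact (mul_pow_comp (hA m a ha)).trans (Nat.mul_le_mul_left _ (pow_mono' h))

/-- stronger predicates -/
theorem TR.weaken {P P' : ℕ → α → Prop} {D : ℕ} {f : α → β} (hf : TR P D f)
    (h : ∀ m a, P' m a → P m a) : TR P' D f := by
  obtain ⟨c, C, hc⟩ := hf
  exact ⟨c, C, fun m a ha => hc m a (h m a ha)⟩

theorem GR.weaken {P P' : ℕ → α → Prop} {D : ℕ} {f : α → β} (hf : GR P D f)
    (h : ∀ m a, P' m a → P m a) : GR P' D f := by
  obtain ⟨C, hc⟩ := hf
  exact ⟨C, fun m a ha => hc m a (h m a ha)⟩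

/-- change of the size parameter -/
theorem TR.rescale {P P' : ℕ → α → Prop} {D K : ℕ} {φ : ℕ → ℕ} {f : α → β} (hf : TR P D f)
    (hφ : ∀ m, φ m + 1 ≤ K * (m + 1)) (h : ∀ m a, P' m a → P (φ m) a) : TR P' D f := by
  obtain ⟨c, C, hc⟩ := hf
  refine ⟨c, C * K ^ D, fun m a ha => (hc _ a (h m a ha)).mono ?_⟩
  rw [mul_assoc, ← mul_pow]
  exact Nat.mul_le_mul_left _ (Nat.pow_le_pow_left (hφ m) D)

theorem GR.rescale {P P' : ℕ → α → Prop} {D K : ℕ} {φ : ℕ → ℕ} {f : α → β} (hf : GR P D f)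
    (hφ : ∀ m, φ m + 1 ≤ K * (m + 1)) (h : ∀ m a, P' m a → P (φ m) a) : GR P' D f := by
  obtain ⟨C, hc⟩ := hf
  refine ⟨C * K ^ D, fun m a ha => (hc _ a (h m a ha)).trans ?_⟩
  rw [mul_assoc, ← mul_pow]
  exact Nat.mul_le_mul_left _ (Nat.pow_le_pow_left (hφ m) D)

/-- the output is no longer than input plus time -/
theorem TR.toGR {P : ℕ → α → Prop} {D : ℕ} {f : α → β} (hf : TR P D f)
    (gi : GR P D (fun a : α => a)) : GR P D f := by
  obtain ⟨c, C, hc⟩ := hf
  obtain ⟨A, hA⟩ := gi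
  refine ⟨A + C, fun m a ha => ?_⟩
  obtain ⟨t, ht, h'⟩ := hc m a ha
  have := h'.length_le 0
  simp only [init_zero] at this
  calc sz (f a) ≤ sz a + t := this
    _ ≤ A * (m + 1) ^ D + C * (m + 1) ^ D := Nat.add_le_add (hA m a ha) ht
    _ = _ := by ring

theorem TR.id {P : ℕ → α → Prop} : TR P 0 (fun a : α => a) :=
  ⟨.skip, 1, fun m a _ => by simpa using run_skip (init (enc a))⟩

theorem TR.ite {P : ℕ → α → Prop} {D : ℕ} {p : α → Bool} {f g : α → β} (hp : TR P D p)
    (hf : TR P D f) (hg : TR P D g) (gi : GR P D (fun a : α => a)) :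
    TR P D (fun a => if p a then f a else g a) := by
  obtain ⟨cp, Cp, hcp⟩ := hp
  obtain ⟨cf, F, hcf⟩ := hf
  obtain ⟨cg, G, hcg⟩ := hg
  obtain ⟨I, hI⟩ := gi
  refine ⟨.seq dup (.seq (cp.shift 1) (.ite 1 cg (.seq (clear 1) cf) (.seq (clear 1) cg))),
    Cp + (F + G) + 13 * I + 8, fun m a ha => ?_⟩
  have key : Run (.seq dup (.seq (cp.shift 1) (.ite 1 cg (.seq (clear 1) cf) (.seq (clear 1) cg))))
      (init (enc a)) (init (enc (if p a then f a else g a)))
      (Cp * (m + 1) ^ D + (F + G) * (m + 1) ^ D + 13 * (enc a).length + 8) := by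
    refine run_ite (b := p a) (hcp m a ha) (fun h => ?_) (fun h => ?_)
    · rw [if_pos h]
      exact (hcf m a ha).mono (by rw [add_mul]; omega)
    · rw [if_neg (by simp [h])]
      exact (hcg m a ha).mono (by rw [add_mul]; omega)
  refine key.mono ?_
  have e1 : (enc a).length ≤ I * (m + 1) ^ D := hI m a ha
  have e4 : 1 ≤ (m + 1) ^ D := Nat.one_le_pow _ _ (Nat.succ_pos _)
  generalize (m + 1) ^ D = X at *
  calc Cp * X + (F + G) * X + 13 * (enc a).length + 8
      ≤ Cp * X + (F + G) * X + 13 * (I * X) + 8 * X := by omega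
    _ = _ := by ring

/-- case analysis on an option, relative version -/
theorem TR.optCase0 {P : ℕ → γ × Option α → Prop} {P0 : ℕ → γ → Prop} {P1 : ℕ → γ × α → Prop}
    {D : ℕ} {g : γ → β} {f : γ × α → β} (hg : TR P0 D g) (hf : TR P1 D f)
    (gi : GR P D (fun a : γ × Option α => a))
    (h0 : ∀ m c, P m (c, none) → P0 m c) (h1 : ∀ m c a, P m (c, some a) → P1 m (c, a)) :
    TR P D (fun p : γ × Option α => match p.2 with | none => g p.1 | some a => f (p.1, a)) := by
  obtain ⟨cg, G, hcg⟩ := hg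
  obtain ⟨cf, F, hcf⟩ := hf
  obtain ⟨I, hI⟩ := gi
  refine ⟨optCmd cg cf, F + G + 14 * I + 20, fun m p hp => ?_⟩
  obtain ⟨c, o⟩ := p
  have e4 : 1 ≤ (m + 1) ^ D := Nat.one_le_pow _ _ (Nat.succ_pos _)
  have e8 := hI m _ hp
  simp only at e8
  cases o with
  | none =>
    have h := hcg m c (h0 m c hp)
    refine (run_optCmd_none h).mono ?_
    have e6 : (pair (enc c) []).length = sz (c, (none : Option α)) := rfl
    have e7 : (enc c).length ≤ sz (c, (none : Option α)) := by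
      rw [sz_prod]; simp only [sz]; omega
    rw [e6]
    generalize (m + 1) ^ D = X at *
    calc _ ≤ 6 * (I * X) + 4 * (I * X) + G * X + 9 * X := by omega
      _ ≤ (F + G + 14 * I + 20) * X := by
        have : 0 ≤ F * X := Nat.zero_le _
        have : 0 ≤ I * X := Nat.zero_le _
        nlinarith
  | some a =>
    have h := hcf m (c, a) (h1 m c a hp)
    refine (run_optCmd_some (x := enc c) (a := enc a) h).mono ?_
    have e6 : (pair (enc c) (true :: enc a)).length = sz (c, some a) := rfl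
    have e7 : (enc c).length ≤ sz (c, some a) := by
      rw [sz_prod]; simp only [sz]; omega
    rw [e6]
    generalize (m + 1) ^ D = X at *
    calc _ ≤ 6 * (I * X) + 8 * (I * X) + F * X + 11 * X := by omega
      _ ≤ (F + G + 14 * I + 20) * X := by
        have : 0 ≤ G * X := Nat.zero_le _
        nlinarith

/-- Bounded iteration: the size of `N a` is the number of rounds. -/
theorem TR.iterate {P : ℕ → α → Prop} {Q : ℕ → σ → Prop} {φ : ℕ → ℕ} {K eN df b D : ℕ}
    {N : α → κ} {s : α → σ} {f : σ → σ}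
    (hN : TR P D N) (hs : TR P D s) (hf : TR Q df f) (gN : GR P eN N)
    (ga : GR P D (fun a : α => a)) (hφ : ∀ m, φ m + 1 ≤ K * (m + 1))
    (hQ : ∀ m a, P m a → ∀ i, i < sz (N a) → Q (φ m) (f^[i] (s a)))
    (hb : ∃ B, ∀ m a, P m a → ∀ i, i ≤ sz (N a) → sz (f^[i] (s a)) ≤ B * (m + 1) ^ b)
    (h3 : eN + df ≤ D) (h4 : b ≤ D) : TR P D (fun a => f^[sz (N a)] (s a)) := by
  obtain ⟨B, hB⟩ := hb
  obtain ⟨cf, F, hcf⟩ := hf
  obtain ⟨cu, U, hcu⟩ := hN
  obtain ⟨cs, S, hcs⟩ := hs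
  obtain ⟨A, hA⟩ := gN
  obtain ⟨I, hI⟩ := ga
  refine ⟨.seq (both cu cs) (.seq (mv 1 0) (.seq (mv 2 3) (.seq (mv 3 1)
    (.seq (.loop 0 (.seq (.pop 0) (cf.shift 1))) (.seq (mv 1 2) (mv 2 0)))))),
    U + S + 21 * I + 4 * A + (A * (F * K ^ df) + 2 * A) + 16 * B + 11, fun m x hx => ?_⟩
  have h1 := run_both (hcu m x hx) (hcs m x hx)
  have h2 : Run (mv 1 0) (st4 [] (enc (N x)) (enc (s x)) []) (st4 (enc (N x)).reverse [] (enc (s x)) [])
      (4 * (enc (N x)).length + 1) := (run_mv (by decide) _).of_eq (by simp) (by simp)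
  have h3' : Run (mv 2 3) (st4 (enc (N x)).reverse [] (enc (s x)) [])
      (st4 (enc (N x)).reverse [] [] (enc (s x)).reverse) (4 * (enc (s x)).length + 1) :=
    (run_mv (by decide) _).of_eq (by simp) (by simp)
  have h4' : Run (mv 3 1) (st4 (enc (N x)).reverse [] [] (enc (s x)).reverse)
      (st4 (enc (N x)).reverse (enc (s x)) [] []) (4 * (enc (s x)).length + 1) :=
    (run_mv (by decide) _).of_eq (by simp) (by simp)
  have hstep : F * (φ m + 1) ^ df ≤ F * K ^ df * (m + 1) ^ df := by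
    rw [mul_assoc, ← mul_pow]
    exact Nat.mul_le_mul_left _ (Nat.pow_le_pow_left (hφ m) df)
  have h5' : Run (.loop 0 (.seq (.pop 0) (cf.shift 1))) (st4 (enc (N x)).reverse (enc (s x)) [] [])
      (st4 [] (enc (f^[sz (N x)] (s x))) [] [])
      (sz (N x) * (F * K ^ df * (m + 1) ^ df + 2) + 1) := by
    have := run_iter_loop' (c := cf) (f := f) (n := F * K ^ df * (m + 1) ^ df)
      (enc (N x)).reverse (s x)
      (fun i hi => (hcf (φ m) _ (hQ m x hx i (by simpa [sz] using hi))).mono hstep)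
    simpa [sz] using this
  set z := f^[sz (N x)] (s x) with hz
  have h6 : Run (mv 1 2) (st4 [] (enc z) [] [])
      (st4 [] [] (enc z).reverse [])
      (4 * (enc z).length + 1) :=
    (run_mv (by decide) _).of_eq (by simp) (by simp)
  have h7 : Run (mv 2 0) (st4 [] [] (enc z).reverse [])
      (init (enc z))
      (4 * (enc z).length + 1) :=
    (run_mv (by decide) _).of_eq (by simp [init_eq_st4]) (by simp)
  refine (h1.seq (h2.seq (h3'.seq (h4'.seq (h5'.seq (h6.seq h7)))))).mono ?_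
  have e0 : (enc x).length ≤ I * (m + 1) ^ D := hI m x hx
  have e1 : (enc (N x)).length ≤ A * (m + 1) ^ eN := hA m x hx
  have e1' : A * (m + 1) ^ eN ≤ A * (m + 1) ^ D :=
    Nat.mul_le_mul_left _ (pow_mono' (by omega))
  have e2 : (enc (s x)).length ≤ B * (m + 1) ^ D := by
    have := hB m x hx 0 (Nat.zero_le _)
    simp only [iterate_zero, id_eq] at this
    exact this.trans (Nat.mul_le_mul_left _ (pow_mono' h4))
  have e3 : (enc z).length ≤ B * (m + 1) ^ D :=
    (hB m x hx _ le_rfl).trans (Nat.mul_le_mul_left _ (pow_mono' h4))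
  have e4 : 1 ≤ (m + 1) ^ D := Nat.one_le_pow _ _ (Nat.succ_pos _)
  have e5 : sz (N x) * (F * K ^ df * (m + 1) ^ df + 2) ≤
      (A * (F * K ^ df) + 2 * A) * (m + 1) ^ D := by
    have k1 : sz (N x) * (F * K ^ df * (m + 1) ^ df) ≤
        A * (F * K ^ df) * (m + 1) ^ D := by
      calc _ ≤ (A * (m + 1) ^ eN) * (F * K ^ df * (m + 1) ^ df) :=
            Nat.mul_le_mul_right _ (hA m x hx)
        _ = A * (F * K ^ df) * (m + 1) ^ (eN + df) := by rw [pow_add]; ring
        _ ≤ _ := Nat.mul_le_mul_left _ (pow_mono' h3)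
    have k2 : sz (N x) ≤ A * (m + 1) ^ D := (hA m x hx).trans e1'
    calc _ = sz (N x) * (F * K ^ df * (m + 1) ^ df) + 2 * sz (N x) := by ring
      _ ≤ A * (F * K ^ df) * (m + 1) ^ D + 2 * (A * (m + 1) ^ D) := by omega
      _ = _ := by ring
  generalize (m + 1) ^ D = X at *
  have e6 := e1.trans e1'
  calc _ ≤ U * X + S * X + 21 * (I * X) + 4 * (A * X) + (A * (F * K ^ df) + 2 * A) * X
        + 16 * (B * X) + 11 * X := by omega
    _ = _ := by ring

/-- one fold step, relative version -/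
theorem TR.stepF {Q : ℕ → (α × σ) × β → Prop} {φ : ℕ → ℕ} {K df b B : ℕ} {f : α → σ → β → σ}
    (hf : TR Q df (fun p : (α × σ) × β => f p.1.1 p.1.2 p.2))
    (hφ : ∀ m, φ m + 1 ≤ K * (m + 1)) (h2 : b ≤ df) :
    TR (fun m (s : (α × σ) × List β) => sz s ≤ B * (m + 1) ^ b ∧
      ∀ x l, s.2 = x :: l → Q (φ m) (s.1, x)) df (R286.stepF f) := by
  have g1 : TR (fun m (s : (α × σ) × List β) => sz s ≤ B * (m + 1) ^ b ∧
      ∀ x l, s.2 = x :: l → Q (φ m) (s.1, x)) df
      (fun s : (α × σ) × List β => (s.1, R286.uncons s.2)) := by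
    refine TR.ofTF (b := 1) (e := b) ?_ ⟨B, fun m a ha => ha.1⟩ (by omega)
    exact TF.prodMk TF.fst (TF.comp (a := 1) (e := 1) (b := 0) TF.uncons TF.snd GF.snd le_rfl
      (by omega)) GF.fst (GF.comp GF.uncons GF.snd le_rfl) le_rfl le_rfl
  have e1 : TR (fun m (c : α × σ) => sz c ≤ (B + 1) * (m + 1) ^ b) df
      (fun c : α × σ => (c, ([] : List β))) := by
    refine TR.ofTF (b := 1) (e := b) ?_ ⟨B + 1, fun m a ha => ha⟩ (by omega)
    exact TF.prodMk (TF.mono TF.id (Nat.zero_le _)) (TF.const _) (GF.ofEnc fun _ => rfl)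
      (GF.mono (GF.const _) (Nat.zero_le _)) le_rfl le_rfl
  let P1 : ℕ → (α × σ) × (β × List β) → Prop := fun m q =>
    sz q ≤ (B + 1) * (m + 1) ^ b ∧ Q (φ m) (q.1, q.2.1)
  have gi1 : GR P1 df (fun q : (α × σ) × (β × List β) => q) :=
    ⟨B + 1, fun m a ha => ha.1.trans (Nat.mul_le_mul_left _ (pow_mono' h2))⟩
  have gi1' : GR P1 b (fun q : (α × σ) × (β × List β) => q) := ⟨B + 1, fun m a ha => ha.1⟩
  have e2 : TR P1 df (fun q : (α × σ) × (β × List β) => (q.1, q.2.1)) := by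
    refine TR.ofTF (b := 1) (e := b) ?_ gi1' (by omega)
    exact TF.prodMk TF.fst (TF.comp TF.fst TF.snd GF.snd le_rfl le_rfl) GF.fst
      (GF.comp GF.fst GF.snd le_rfl) le_rfl le_rfl
  have e3 : TR P1 df (fun q : (α × σ) × (β × List β) => f q.1.1 q.1.2 q.2.1) := by
    have hf' : TR (fun m (p : (α × σ) × β) => Q (φ m) p) df
        (fun p : (α × σ) × β => f p.1.1 p.1.2 p.2) := hf.rescale hφ fun m a ha => ha
    exact TR.comp (K := 1) (f := fun q : (α × σ) × (β × List β) => (q.1, q.2.1)) hf' e2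
      (fun m x hx => by rw [one_mul]; exact hx.2) le_rfl le_rfl
  have ge3 := e3.toGR gi1
  have e4 : TR P1 df (fun q : (α × σ) × (β × List β) => (q.1.1, f q.1.1 q.1.2 q.2.1)) :=
    TR.prodMk (TR.ofTF (b := 1) (e := b) (TF.comp TF.fst TF.fst GF.fst le_rfl le_rfl) gi1'
      (by omega)) e3
      (GR.ofGF (b := 1) (e := b) (GF.comp GF.fst GF.fst le_rfl) gi1' (by omega)) ge3 gi1
  have e5 : TR P1 df (fun q : (α × σ) × (β × List β) =>
      ((q.1.1, f q.1.1 q.1.2 q.2.1), q.2.2)) :=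
    TR.prodMk e4 (TR.ofTF (b := 1) (e := b) (TF.comp TF.snd TF.snd GF.snd le_rfl le_rfl) gi1'
      (by omega)) (e4.toGR gi1)
      (GR.ofGF (b := 1) (e := b) (GF.comp GF.snd GF.snd le_rfl) gi1' (by omega)) gi1
  have e6 := TR.optCase0 (P := fun m (p : (α × σ) × Option (β × List β)) =>
      sz p ≤ (B + 1) * (m + 1) ^ b ∧ ∀ q, p.2 = some q → Q (φ m) (p.1, q.1)) e1 e5
    ⟨B + 1, fun m a ha => ha.1.trans (Nat.mul_le_mul_left _ (pow_mono' h2))⟩
    (fun m c hc => by
      have := hc.1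
      rw [sz_prod] at this
      simp only at this
      show sz c ≤ _
      omega)
    (fun m c a hc => ⟨by
      have := hc.1
      rw [sz_prod, sz_some] at this
      rw [sz_prod]
      simp only at this ⊢
      omega, hc.2 a rfl⟩)
  refine (TR.comp (K := 1) e6 g1 (fun m s hs => ?_) le_rfl le_rfl).congr fun s => by
    rcases s with ⟨c, l⟩
    cases l <;> rfl
  rw [one_mul]
  obtain ⟨c, l⟩ := s
  obtain ⟨hs1, hs2⟩ := hs
  have e7 : 1 ≤ (m + 1) ^ b := Nat.one_le_pow _ _ (Nat.succ_pos _)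
  rw [sz_prod] at hs1
  refine ⟨?_, fun q hq => ?_⟩
  · cases l with
    | nil =>
      rw [sz_prod]
      simp only [R286.uncons_nil, sz_none, sz_nil] at hs1 ⊢
      rw [add_mul]
      omega
    | cons x l =>
      rw [sz_prod]
      simp only [R286.uncons_cons, sz_some, sz_cons, sz_prod] at hs1 ⊢
      rw [add_mul]
      omega
  · cases l with
    | nil => simp at hq
    | cons x l =>
      simp only [R286.uncons_cons, Option.some.injEq] at hq
      subst hq
      exact hs2 x l rfl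

/-- relative fold -/
theorem TR.foldl {P : ℕ → α → Prop} {Q : ℕ → (α × σ) × β → Prop} {K D df eN b : ℕ} {φ : ℕ → ℕ}
    {l : α → List β} {i : α → σ} {f : α → σ → β → σ}
    (hl : TR P D l) (gl : GR P eN l) (hi : TR P D i) (ga : GR P b (fun a : α => a))
    (hf : TR Q df (fun p : (α × σ) × β => f p.1.1 p.1.2 p.2))
    (hφ : ∀ m, φ m + 1 ≤ K * (m + 1))
    (hQ : ∀ m a, P m a → ∀ l1 x l2, l a = l1 ++ x :: l2 →
      Q (φ m) ((a, l1.foldl (f a) (i a)), x))
    (hb : ∃ B, ∀ m a, P m a → ∀ l1 l2, l a = l1 ++ l2 →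
      sz (l1.foldl (f a) (i a)) ≤ B * (m + 1) ^ b)
    (h0 : eN ≤ b) (h1 : 1 ≤ b) (h2 : b ≤ df) (h3 : eN + df ≤ D) :
    TR P D (fun a => (l a).foldl (f a) (i a)) := by
  obtain ⟨B, hB⟩ := hb
  have gl' := gl
  obtain ⟨A, hA⟩ := gl'
  have ga' := ga
  obtain ⟨I, hI⟩ := ga'
  have hbD : b ≤ D := by omega
  have gi : GR P b i := ⟨B, fun m a ha => by simpa using hB m a ha [] (l a) rfl⟩
  have gaD : GR P D (fun a : α => a) := ga.mono hbD
  have s1 : TR P D (fun a => (a, i a)) :=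
    TR.prodMk (TR.id.mono (Nat.zero_le _)) hi gaD (gi.mono hbD) gaD
  have gs1 : GR P b (fun a => (a, i a)) := GR.prodMk ga gi
  have s2 : TR P D (fun a => ((a, i a), l a)) :=
    TR.prodMk s1 hl (gs1.mono hbD) (gl.mono (by omega)) gaD
  have hsize : ∀ m a, P m a → ∀ n, sz ((R286.stepF f)^[n] ((a, i a), l a)) ≤
      (4 * I + 2 * B + A + 3) * (m + 1) ^ b := by
    intro m a ha n
    obtain ⟨l1, l2, k1, k2, -⟩ := iter_stepF f a (i a) (l a) n
    rw [k2, sz_prod, sz_prod]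
    simp only
    have m1 := hB m a ha l1 l2 k1
    have m2 : sz l2 ≤ A * (m + 1) ^ b := by
      have : sz l2 ≤ sz (l a) := by rw [k1, sz_append]; omega
      exact this.trans ((hA m a ha).trans (Nat.mul_le_mul_left _ (pow_mono' h0)))
    have m3 : sz a ≤ I * (m + 1) ^ b := hI m a ha
    have m4 : 1 ≤ (m + 1) ^ b := Nat.one_le_pow _ _ (Nat.succ_pos _)
    generalize (m + 1) ^ b = X at *
    calc 2 * (2 * sz a + 1 + sz (l1.foldl (f a) (i a))) + 1 + sz l2
        ≤ 2 * (2 * (I * X) + X + B * X) + X + A * X := by omega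
      _ = (4 * I + 2 * B + A + 3) * X := by ring
  have s3 := TR.stepF (B := 4 * I + 2 * B + A + 3) hf hφ h2
  have key : TR P D (fun a => (R286.stepF f)^[sz (l a)] ((a, i a), l a)) := by
    refine TR.iterate (φ := fun m => m) (K := 1) (b := b) (df := df) (eN := eN) hl s2 s3 gl gaD
      (fun m => by omega) (fun m a ha n _ => ⟨hsize m a ha n, fun x r hx => ?_⟩)
      ⟨_, fun m a ha n _ => hsize m a ha n⟩ h3 hbD
    obtain ⟨l1, l2, k1, k2, -⟩ := iter_stepF f a (i a) (l a) n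
    rw [k2] at hx ⊢
    simp only at hx ⊢
    subst hx
    exact hQ m a ha l1 x r k1
  have gkey : GR P b (fun a => (R286.stepF f)^[sz (l a)] ((a, i a), l a)) :=
    ⟨_, fun m a ha => hsize m a ha _⟩
  have out : TF 1 (fun s : (α × σ) × List β => s.1.2) := TF.comp TF.snd TF.fst GF.fst le_rfl le_rfl
  refine (TF.compR out key gkey le_rfl (by omega)).congr fun a => ?_
  obtain ⟨l1, l2, k1, k2, k3⟩ := iter_stepF f a (i a) (l a) (sz (l a))
  rw [k2]
  have := k3 (length_le_sz _)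
  subst this
  rw [List.append_nil] at k1
  rw [k1]

end Crest.Agent.R286
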