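import Crest.Agent.R286.LF
import Crest.Agent.R286.Algo

/-!
# Row 286, time side: relative time bounds and the frozen interface of the time modules

`TR P D f`: on inputs `a` with `P m a` the program takes `C (m+1)^D` steps.
`GR P e f`: on inputs `a` with `P m a` the output has size `C (m+1)^e`.
-/

set_option autoImplicit false
set_option linter.dupNamespace false
set_option linter.unusedVariables false
set_option linter.unusedSectionVars false

namespace Crest.Agent.R286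

open Function Crest.Agent.Lib.PT

section

variable {α β γ δ σ κ : Type} [PTCode α] [PTCode β] [PTCode γ] [PTCode δ] [PTCode σ] [PTCode κ]

/-- time relative to a size parameter -/
def TR (P : ℕ → α → Prop) (D : ℕ) (f : α → β) : Prop :=
  ∃ (c : Cmd) (C : ℕ), ∀ m a, P m a →
    Run c (init (enc a)) (init (enc (f a))) (C * (m + 1) ^ D)

/-- growth relative to a size parameter -/
def GR (P : ℕ → α → Prop) (e : ℕ) (f : α → β) : Prop :=
  ∃ C : ℕ, ∀ m a, P m a → sz (f a) ≤ C * (m + 1) ^ e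

variable {P : ℕ → α → Prop} {Q : ℕ → β → Prop}

theorem TR.mono {D D' : ℕ} {f : α → β} (hf : TR P D f) (h : D ≤ D') : TR P D' f := by
  obtain ⟨c, C, hc⟩ := hf
  exact ⟨c, C, fun m a ha => (hc m a ha).mono (Nat.mul_le_mul_left _ (pow_mono' h))⟩

theorem GR.mono {D D' : ℕ} {f : α → β} (hf : GR P D f) (h : D ≤ D') : GR P D' f := by
  obtain ⟨C, hc⟩ := hf
  exact ⟨C, fun m a ha => (hc m a ha).trans (Nat.mul_le_mul_left _ (pow_mono' h))⟩

theorem TR.congr {D : ℕ} {f g : α → β} (hf : TR P D f) (h : ∀ a, f a = g a) : TR P D g := by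
  have : f = g := funext h
  rwa [← this]

/-- ordinary time bounds are relative ones -/
theorem TF.toTR {D : ℕ} {f : α → β} (hf : TF D f) : TR (fun m a => sz a ≤ m) D f := by
  obtain ⟨c, C, hc⟩ := hf
  exact ⟨c, C, fun m a ha => (hc a).mono (Nat.mul_le_mul_left _
    (Nat.pow_le_pow_left (Nat.succ_le_succ ha) D))⟩

theorem GF.toGR {D : ℕ} {f : α → β} (hf : GF D f) : GR (fun m a => sz a ≤ m) D f := by
  obtain ⟨C, hc⟩ := hf
  exact ⟨C, fun m a ha => (hc a).trans (Nat.mul_le_mul_left _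
    (Nat.pow_le_pow_left (Nat.succ_le_succ ha) D))⟩

theorem TR.toTF {D : ℕ} {f : α → β} (hf : TR (fun m a => sz a ≤ m) D f) : TF D f := by
  obtain ⟨c, C, hc⟩ := hf
  exact ⟨c, C, fun a => hc _ a le_rfl⟩

/-- an ordinary function after a function with relative growth -/
theorem TF.compR {a e b D : ℕ} {g : β → γ} {f : α → β} (hg : TF b g) (hf : TR P a f)
    (gf : GR P e f) (h1 : a ≤ D) (h2 : e * b ≤ D) : TR P D (fun x => g (f x)) := by
  obtain ⟨c, C, hc⟩ := hf
  obtain ⟨c', C', hc'⟩ := hg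
  obtain ⟨A, hA⟩ := gf
  refine ⟨.seq c c', C + C' * (A + 1) ^ b, fun m x hx => ((hc m x hx).seq (hc' (f x))).mono ?_⟩
  rw [add_mul]
  refine Nat.add_le_add (Nat.mul_le_mul_left _ (pow_mono' h1)) ?_
  exact (mul_pow_comp (hA m x hx)).trans (Nat.mul_le_mul_left _ (pow_mono' h2))

theorem GF.compR {e b D : ℕ} {g : β → γ} {f : α → β} (hg : GF b g)
    (gf : GR P e f) (h2 : e * b ≤ D) : GR P D (fun x => g (f x)) := by
  obtain ⟨C', hc'⟩ := hg
  obtain ⟨A, hA⟩ := gf
  refine ⟨C' * (A + 1) ^ b, fun m x hx => (hc' (f x)).trans ?_⟩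
  exact (mul_pow_comp (hA m x hx)).trans (Nat.mul_le_mul_left _ (pow_mono' h2))

/-- relative composition; the size parameter may grow by a constant factor -/
theorem TR.comp {a b D K : ℕ} {g : β → γ} {f : α → β} (hg : TR Q b g) (hf : TR P a f)
    (hPQ : ∀ m x, P m x → Q (K * m) (f x)) (h1 : a ≤ D) (h2 : b ≤ D) :
    TR P D (fun x => g (f x)) := by
  obtain ⟨c, C, hc⟩ := hf
  obtain ⟨c', C', hc'⟩ := hg
  refine ⟨.seq c c', C + C' * (K + 1) ^ b,
    fun m x hx => ((hc m x hx).seq (hc' _ (f x) (hPQ m x hx))).mono ?_⟩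
  rw [add_mul]
  refine Nat.add_le_add (Nat.mul_le_mul_left _ (pow_mono' h1)) ?_
  have e1 : K * m + 1 ≤ (K + 1) * (m + 1) := by nlinarith [Nat.zero_le K, Nat.zero_le m]
  calc C' * (K * m + 1) ^ b ≤ C' * ((K + 1) * (m + 1)) ^ b :=
        Nat.mul_le_mul_left _ (Nat.pow_le_pow_left e1 b)
    _ = C' * (K + 1) ^ b * (m + 1) ^ b := by rw [mul_pow, mul_assoc]
    _ ≤ _ := Nat.mul_le_mul_left _ (pow_mono' h2)

theorem GR.comp {b D K : ℕ} {g : β → γ} {f : α → β} (hg : GR Q b g)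
    (hPQ : ∀ m x, P m x → Q (K * m) (f x)) (h2 : b ≤ D) :
    GR P D (fun x => g (f x)) := by
  obtain ⟨C', hc'⟩ := hg
  refine ⟨C' * (K + 1) ^ b, fun m x hx => (hc' _ (f x) (hPQ m x hx)).trans ?_⟩
  have e1 : K * m + 1 ≤ (K + 1) * (m + 1) := by nlinarith [Nat.zero_le K, Nat.zero_le m]
  calc C' * (K * m + 1) ^ b ≤ C' * ((K + 1) * (m + 1)) ^ b :=
        Nat.mul_le_mul_left _ (Nat.pow_le_pow_left e1 b)
    _ = C' * (K + 1) ^ b * (m + 1) ^ b := by rw [mul_pow, mul_assoc]
    _ ≤ _ := Nat.mul_le_mul_left _ (pow_mono' h2)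

/-- relative pairing; `gi`: the input itself has relative size `D` -/
theorem TR.prodMk {D : ℕ} {f : α → β} {g : α → γ} (hf : TR P D f) (hg : TR P D g)
    (gf : GR P D f) (gg : GR P D g) (gi : GR P D (fun a : α => a)) :
    TR P D (fun a => (f a, g a)) := by
  obtain ⟨c, C, hc⟩ := hf
  obtain ⟨c', C', hc'⟩ := hg
  obtain ⟨A, hA⟩ := gf
  obtain ⟨A', hA'⟩ := gg
  obtain ⟨I, hI⟩ := gi
  refine ⟨_, C + C' + 21 * I + 12 * A + 8 * A' + 10,
    fun m a ha => (run_pair (hc m a ha) (hc' m a ha)).mono ?_⟩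
  have e1 : (enc a).length ≤ I * (m + 1) ^ D := hI m a ha
  have e2 : (enc (f a)).length ≤ A * (m + 1) ^ D := hA m a ha
  have e3 : (enc (g a)).length ≤ A' * (m + 1) ^ D := hA' m a ha
  have e4 : 1 ≤ (m + 1) ^ D := Nat.one_le_pow _ _ (Nat.succ_pos _)
  generalize (m + 1) ^ D = X at *
  calc C * X + C' * X + 21 * (enc a).length + 12 * (enc (f a)).length + 8 * (enc (g a)).length + 10
      ≤ C * X + C' * X + 21 * (I * X) + 12 * (A * X) + 8 * (A' * X) + 10 * X := by omega
    _ = _ := by ring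

theorem GR.prodMk {D : ℕ} {f : α → β} {g : α → γ} (gf : GR P D f) (gg : GR P D g) :
    GR P D (fun a => (f a, g a)) := by
  obtain ⟨A, hA⟩ := gf
  obtain ⟨A', hA'⟩ := gg
  refine ⟨2 * A + A' + 1, fun m a ha => ?_⟩
  rw [sz_prod]
  have h1 := hA m a ha
  have h2 := hA' m a ha
  have e4 : 1 ≤ (m + 1) ^ D := Nat.one_le_pow _ _ (Nat.succ_pos _)
  generalize (m + 1) ^ D = X at *
  calc _ ≤ 2 * (A * X) + X + A' * X := by simp only; omega
    _ = _ := by ring

end

/-! ### size predicates -/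

/-- at most `m` ids, each of size at most `m` -/
def IdsLe (m : ℕ) (J : List ℕ) : Prop := J.length ≤ m ∧ ∀ x ∈ J, sz x ≤ m

/-- at most `m ^ 2` pairs of ids of size at most `m` -/
def RelLe (m : ℕ) (R : Rel) : Prop := R.length ≤ m ^ 2 ∧ ∀ p ∈ R, sz p.1 ≤ m ∧ sz p.2 ≤ m

/-- instances of size `m` -/
def Inst (m : ℕ) (p : List ℕ × Rel) : Prop := IdsLe m p.1 ∧ RelLe m p.2

/-- parsed inputs of size `m`: (jobs, n, relation) -/
def PIn (m : ℕ) (p : List ℕ × ℕ × Rel) : Prop := IdsLe m p.1 ∧ sz p.2.1 ≤ m ∧ RelLe m p.2.2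

theorem IdsLe.mono {m m' : ℕ} {J : List ℕ} (h : IdsLe m J) (hm : m ≤ m') : IdsLe m' J :=
  ⟨h.1.trans hm, fun x hx => (h.2 x hx).trans hm⟩

theorem RelLe.mono {m m' : ℕ} {R : Rel} (h : RelLe m R) (hm : m ≤ m') : RelLe m' R :=
  ⟨h.1.trans (Nat.pow_le_pow_left hm 2), fun x hx => ⟨(h.2 x hx).1.trans hm, (h.2 x hx).2.trans hm⟩⟩

theorem sz_le_of_forall {β : Type} [PTCode β] {B : ℕ} (l : List β) (h : ∀ x ∈ l, sz x ≤ B) :
    sz l ≤ l.length * (2 * B + 1) := by
  induction l with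
  | nil => simp [sz_nil]
  | cons b l ih =>
    have h1 := h b (by simp)
    have h2 := ih (fun x hx => h x (by simp [hx]))
    rw [sz_cons, List.length_cons]
    calc 2 * sz b + 1 + sz l ≤ (2 * B + 1) + l.length * (2 * B + 1) := by omega
      _ = _ := by ring

theorem IdsLe.sz_le {m : ℕ} {J : List ℕ} (h : IdsLe m J) : sz J ≤ 2 * (m + 1) ^ 2 := by
  have h1 := sz_le_of_forall J h.2
  have h2 : J.length * (2 * m + 1) ≤ m * (2 * m + 1) := Nat.mul_le_mul_right _ h.1
  nlinarith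

theorem RelLe.sz_le {m : ℕ} {R : Rel} (h : RelLe m R) : sz R ≤ 6 * (m + 1) ^ 3 := by
  have h1 := sz_le_of_forall (B := 3 * m + 1) R (fun p hp => by
    have := h.2 p hp
    rw [sz_prod]; omega)
  have h2 : R.length * (2 * (3 * m + 1) + 1) ≤ m ^ 2 * (2 * (3 * m + 1) + 1) :=
    Nat.mul_le_mul_right _ h.1
  have h3 : m ^ 2 * (2 * (3 * m + 1) + 1) ≤ 6 * (m + 1) ^ 3 := by
    ring_nf; nlinarith [Nat.zero_le m]
  omega

/-! ### the functions of the algorithm as functions on coded types -/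

/-- search with a given family -/
def solveTab (J : List ℕ) (R : Rel) (F : List (List ℕ)) : Option (List ℕ) :=
  firstSome (fun p : List ℕ × Option (List ℕ) => if p.1 = J then p.2 else none)
    ((0 :: J).foldl (fun T _ => tabRound R T) (F.map fun X => (X, none)))

theorem solve_eq (d : ℕ) (J : List ℕ) (R : Rel) : solve d J R = solveTab J R (fam d J R) := rfl

/-! ### frozen statements of the modules -/

/-- parser: time -/
def ParseTime : Prop := TF 40 (fun x : Bits => parseIn x.val)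
/-- parser: sizes -/
def ParseSize : Prop := ∀ x : List Bool, PIn x.length (parseIn x)
/-- transitive closure: time -/
def TcTime : Prop := TF 40 (fun p : List ℕ × Rel => tc p.1 p.2)
/-- transitive closure: sizes -/
def TcSize : Prop := ∀ (m : ℕ) (J : List ℕ) (R : Rel), Inst m (J, R) → RelLe m (tc J R)
/-- topological order: time -/
def TopoTime : Prop := TF 40 (fun p : List ℕ × Rel => topo p.2 p.1)
/-- topological order: sizes -/
def TopoSize : Prop := ∀ (J : List ℕ) (R : Rel), (topo R J).length ≤ J.length ∧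
  ∀ x ∈ topo R J, x ∈ J
/-- family: time -/
def FamTime : Prop := ∀ d : ℕ, TR Inst (16 * 2 ^ d + 64) (fun p : List ℕ × Rel => fam d p.1 p.2)
/-- family: sizes -/
def FamSize : Prop := ∀ d : ℕ, GR Inst (2 ^ d + 2) (fun p : List ℕ × Rel => fam d p.1 p.2)
/-- table search: time and growth -/
def SearchTime : Prop :=
  TF 16 (fun q : (List ℕ × Rel) × List (List ℕ) => solveTab q.1.1 q.1.2 q.2) ∧
    GF 1 (fun q : (List ℕ × Rel) × List (List ℕ) => solveTab q.1.1 q.1.2 q.2)
/-- one call of the solver: time and growth -/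
def SolveTime (d D e : ℕ) : Prop :=
  TR Inst D (fun p : List ℕ × Rel => solve d p.1 p.2) ∧
    GR Inst e (fun p : List ℕ × Rel => solve d p.1 p.2)
/-- main loop (from the solver): time and growth -/
def MainTime : Prop := ∀ d D e : ℕ, 10 ≤ e → 16 * e ≤ D → SolveTime d D e →
  TR PIn (D + 10) (fun p : List ℕ × ℕ × Rel => mainAlg d p.1 p.2.1 p.2.2) ∧
    GR PIn e (fun p : List ℕ × ℕ × Rel => mainAlg d p.1 p.2.1 p.2.2)
/-- output -/
def OutTime : Prop :=
  TF 16 (fun p : List ℕ × List ℕ => (⟨Crest.Enc.listCode (p.1.map (slotOf p.2))⟩ : Bits))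
/-- the whole algorithm -/
def AlgoTime : Prop := ∃ C : ℕ, Crest.DTime.TimeBound (algo 13) (fun L => C * (L + 2) ^ 150020 + C)

end Crest.Agent.R286
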