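import Crest.Agent.R286.TRIter

/-!
# Row 286, time side: the main loop (`MainTime`)
-/

set_option autoImplicit false
set_option linter.dupNamespace false
set_option linter.unusedVariables false
set_option linter.unusedSectionVars false

namespace Crest.Agent.R286.TimeMain

open Function Crest.Agent.Lib.PT Crest.Agent.R286

/-! ### the state of the main loop -/

/-- states: (jobs, next id, result) -/
abbrev St : Type := List ℕ × ℕ × Option (List ℕ)

/-- state invariant with size parameter `M`; `C`, `e`: growth of the solver -/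
def StOk (C e M : ℕ) (s : St) : Prop :=
  IdsLe M s.1 ∧ sz s.2.1 ≤ M ∧ sz s.2.2 ≤ C * (M + 1) ^ e

theorem StOk.mono {C e M M' : ℕ} {s : St} (h : StOk C e M s) (hM : M ≤ M') : StOk C e M' s :=
  ⟨h.1.mono hM, h.2.1.trans hM, h.2.2.trans (Nat.mul_le_mul_left _
    (Nat.pow_le_pow_left (Nat.succ_le_succ hM) e))⟩

theorem StOk.sz_le {C e M : ℕ} {s : St} (h : StOk C e M s) (he : 2 ≤ e) :
    sz s ≤ (C + 7) * (M + 1) ^ e := by
  have h1 := h.1.sz_le
  have h2 := h.2.1
  have h3 := h.2.2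
  have e1 : (M + 1) ^ 2 ≤ (M + 1) ^ e := pow_mono' he
  have e2 : M + 1 ≤ (M + 1) ^ e := by
    calc M + 1 = (M + 1) ^ 1 := (pow_one _).symm
      _ ≤ _ := pow_mono' (by omega)
  rw [sz_prod, sz_prod]
  rw [add_mul]
  omega

theorem stOk_step {d C e M : ℕ} {R : Rel} {s : St}
    (hC : ∀ m p, Inst m p → sz (solve d p.1 p.2) ≤ C * (m + 1) ^ e)
    (hR : RelLe M R) (hs : StOk C e M s) : StOk C e (M + 1) (fillStep d R s) := by
  unfold fillStep
  split
  · exact hs.mono (Nat.le_succ _)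
  · refine ⟨⟨?_, ?_⟩, ?_, ?_⟩
    · rw [List.length_append]
      exact Nat.succ_le_succ hs.1.1
    · intro x hx
      rcases List.mem_append.1 hx with hx | hx
      · exact (hs.1.2 x hx).trans (Nat.le_succ _)
      · rw [List.mem_singleton] at hx
        subst hx
        exact hs.2.1.trans (Nat.le_succ _)
    · exact (sz_succ _).trans (Nat.succ_le_succ hs.2.1)
    · refine (hC M (s.1, R) ⟨hs.1, hR⟩).trans (Nat.mul_le_mul_left _
        (Nat.pow_le_pow_left (Nat.le_succ _) e))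

theorem stOk_fold {d C e m : ℕ} {R : Rel}
    (hC : ∀ m p, Inst m p → sz (solve d p.1 p.2) ≤ C * (m + 1) ^ e)
    (hR : RelLe m R) (l : List ℕ) : ∀ (k : ℕ) (s : St), StOk C e (m + k) s →
      StOk C e (m + k + l.length) (l.foldl (fun s _ => fillStep d R s) s) := by
  induction l with
  | nil => intro k s hs; exact hs
  | cons x l ih =>
    intro k s hs
    rw [List.foldl_cons, List.length_cons]
    have h1 := stOk_step (d := d) hC (hR.mono (Nat.le_add_right m k)) hs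
    have h2 := ih (k + 1) _ h1
    have e1 : m + (k + 1) + l.length = m + k + (l.length + 1) := by ring
    rwa [e1] at h2

/-! ### one step -/

/-- environments of the fold: relation, loop list, initial state -/
abbrev Env : Type := Rel × List ℕ × St

/-- size predicate on environments -/
def EnvOk (C e m : ℕ) (q : Env) : Prop :=
  RelLe m q.1 ∧ (q.2.1.length ≤ 3 * m ∧ ∀ x ∈ q.2.1, sz x ≤ m) ∧ StOk C e m q.2.2

theorem EnvOk.szList {C e m : ℕ} {q : Env} (h : EnvOk C e m q) :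
    sz q.2.1 ≤ 6 * (m + 1) ^ 2 := by
  have h2 : sz q.2.1 ≤ 3 * m * (2 * m + 1) :=
    (sz_le_of_forall q.2.1 h.2.1.2).trans (Nat.mul_le_mul_right _ h.2.1.1)
  have h3 : 3 * m * (2 * m + 1) ≤ 6 * (m + 1) ^ 2 := by nlinarith
  omega

theorem EnvOk.sz_le {C e m : ℕ} {q : Env} (h : EnvOk C e m q) (he : 3 ≤ e) :
    sz q ≤ (C + 40) * (m + 1) ^ e := by
  have h1 := h.1.sz_le
  have h2 := h.szList
  have h4 := h.2.2.sz_le (by omega)
  have e1 : (m + 1) ^ 2 ≤ (m + 1) ^ e := pow_mono' (by omega)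
  have e2 : (m + 1) ^ 3 ≤ (m + 1) ^ e := pow_mono' he
  have e3 : 1 ≤ (m + 1) ^ e := Nat.one_le_pow _ _ (Nat.succ_pos _)
  rw [sz_prod, sz_prod]
  generalize (m + 1) ^ e = X at *
  have e5 : (C + 7) * X = C * X + 7 * X := by ring
  have e6 : (C + 40) * X = C * X + 40 * X := by ring
  rw [e6]
  rw [e5] at h4
  omega

/-- predicate for the inputs of one step -/
def StepOk (C e M : ℕ) (p : (Env × St) × ℕ) : Prop :=
  RelLe M p.1.1.1 ∧ StOk C e M p.1.2 ∧ sz p.1.1 ≤ (C + 40) * (M + 1) ^ e ∧ sz p.2 ≤ M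

theorem stepGR (C e : ℕ) (he : 3 ≤ e) :
    GR (StepOk C e) e (fun p : (Env × St) × ℕ => p) := by
  refine ⟨6 * C + 200, fun m p hp => ?_⟩
  obtain ⟨h1, h2, h3, h4⟩ := hp
  have h5 := h2.sz_le (by omega)
  have e3 : m + 1 ≤ (m + 1) ^ e := by
    calc m + 1 = (m + 1) ^ 1 := (pow_one _).symm
      _ ≤ _ := pow_mono' (by omega)
  show sz p ≤ _
  rw [sz_prod, sz_prod]
  generalize (m + 1) ^ e = X at *
  have e5 : (C + 7) * X = C * X + 7 * X := by ring
  have e6 : (C + 40) * X = C * X + 40 * X := by ring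
  have e7 : (6 * C + 200) * X = 6 * (C * X) + 200 * X := by ring
  rw [e5] at h5
  rw [e6] at h3
  rw [e7]
  omega

theorem stepTR {d D e C : ℕ} (he : 10 ≤ e) (hD : 16 * e ≤ D)
    (hs : TR Inst D (fun p : List ℕ × Rel => solve d p.1 p.2)) :
    TR (StepOk C e) D (fun p : (Env × St) × ℕ => fillStep d p.1.1.1 p.1.2) := by
  have g0 := stepGR C e (by omega)
  have gD : GR (StepOk C e) D (fun p : (Env × St) × ℕ => p) := g0.mono (by omega)
  have t0 : TF 1 (fun p : (Env × St) × ℕ => p.1.2.2.2.isSome) := by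
    have : LF 0 (fun p : (Env × St) × ℕ => p.1.2.2.2.isSome) := by fun_prop
    exact this.1
  have t1 : TF 1 (fun p : (Env × St) × ℕ => p.1.2) := by
    have : LF 0 (fun p : (Env × St) × ℕ => p.1.2) := by fun_prop
    exact this.1
  have t2 : TF 2 (fun p : (Env × St) × ℕ => p.1.2.1 ++ [p.1.2.2.1]) := by
    have : LF 1 (fun p : (Env × St) × ℕ => p.1.2.1 ++ [p.1.2.2.1]) :=
      LF.append (k := 0) (by fun_prop) (by fun_prop)
    exact this.1
  have t3 : TF 1 (fun p : (Env × St) × ℕ => p.1.2.2.1 + 1) := by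
    have : LF 0 (fun p : (Env × St) × ℕ => p.1.2.2.1 + 1) := by fun_prop
    exact this.1
  have t4 : TF 1 (fun p : (Env × St) × ℕ => (p.1.2.1, p.1.1.1)) := by
    have : LF 0 (fun p : (Env × St) × ℕ => (p.1.2.1, p.1.1.1)) := by fun_prop
    exact this.1
  have r2 : TR (StepOk C e) D (fun p : (Env × St) × ℕ => p.1.2.1 ++ [p.1.2.2.1]) :=
    TR.ofTF t2 g0 (by omega)
  have r3 : TR (StepOk C e) D (fun p : (Env × St) × ℕ => p.1.2.2.1 + 1) :=
    TR.ofTF t3 g0 (by omega)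
  have r4 : TR (StepOk C e) D (fun p : (Env × St) × ℕ => solve d p.1.2.1 p.1.1.1) :=
    TR.comp (K := 1) (a := e) (b := D) (f := fun p : (Env × St) × ℕ => (p.1.2.1, p.1.1.1)) hs
      (TR.ofTF t4 g0 (by omega)) (fun m p hp => by
        rw [one_mul]
        exact ⟨hp.2.1.1, hp.1⟩) (by omega) le_rfl
  have r5 : TR (StepOk C e) D
      (fun p : (Env × St) × ℕ => (p.1.2.2.1 + 1, solve d p.1.2.1 p.1.1.1)) :=
    TR.prodMk r3 r4 (r3.toGR gD) (r4.toGR gD) gD
  have r6 : TR (StepOk C e) D (fun p : (Env × St) × ℕ =>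
      (p.1.2.1 ++ [p.1.2.2.1], p.1.2.2.1 + 1, solve d p.1.2.1 p.1.1.1)) :=
    TR.prodMk r2 r5 (r2.toGR gD) (r5.toGR gD) gD
  exact TR.ite (TR.ofTF t0 g0 (by omega)) (TR.ofTF t1 g0 (by omega)) r6 gD

/-! ### the loop -/

theorem loopTR {d D e C : ℕ} (he : 10 ≤ e) (hD : 16 * e ≤ D)
    (hC : ∀ m p, Inst m p → sz (solve d p.1 p.2) ≤ C * (m + 1) ^ e)
    (hs : TR Inst D (fun p : List ℕ × Rel => solve d p.1 p.2)) :
    TR (EnvOk C e) (D + 2)
      (fun q : Env => q.2.1.foldl (fun s _ => fillStep d q.1 s) q.2.2) := by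
  have ga : GR (EnvOk C e) e (fun q : Env => q) :=
    ⟨C + 40, fun m q hq => hq.sz_le (by omega)⟩
  have t1 : TF 1 (fun q : Env => q.2.1) := by
    have : LF 0 (fun q : Env => q.2.1) := by fun_prop
    exact this.1
  have t2 : TF 1 (fun q : Env => q.2.2) := by
    have : LF 0 (fun q : Env => q.2.2) := by fun_prop
    exact this.1
  have inv : ∀ m q, EnvOk C e m q → ∀ l1 l2, q.2.1 = l1 ++ l2 →
      StOk C e (4 * m) (l1.foldl (fun s _ => fillStep d q.1 s) q.2.2) := by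
    intro m q hq l1 l2 hl
    have h1 := stOk_fold hC hq.1 l1 0 q.2.2 hq.2.2
    have h2 : l1.length ≤ 3 * m := by
      have := hq.2.1.1
      rw [hl, List.length_append] at this
      omega
    exact h1.mono (by omega)
  refine TR.foldl (Q := StepOk C e) (K := 4) (φ := fun m => 4 * m) (eN := 2) (b := e) (df := D)
    (l := fun q : Env => q.2.1) (i := fun q : Env => q.2.2)
    (f := fun q s (_ : ℕ) => fillStep d q.1 s) (TR.ofTF t1 ga (by omega))
    ⟨6, fun m q hq => hq.szList⟩ (TR.ofTF t2 ga (by omega)) ga (stepTR he hD hs)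
    (fun m => by omega) ?_ ?_ (by omega) (by omega) (by omega) (by omega)
  · intro m q hq l1 x l2 hl
    refine ⟨hq.1.mono (by omega), inv m q hq l1 (x :: l2) hl, ?_, ?_⟩
    · exact (hq.sz_le (by omega)).trans (Nat.mul_le_mul_left _
        (Nat.pow_le_pow_left (by omega) e))
    · exact (hq.2.1.2 x (by rw [hl]; simp)).trans (by omega)
  · refine ⟨(C + 7) * 4 ^ e, fun m q hq l1 l2 hl => ?_⟩
    refine ((inv m q hq l1 l2 hl).sz_le (by omega)).trans ?_
    rw [mul_assoc, ← mul_pow]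
    exact Nat.mul_le_mul_left _ (Nat.pow_le_pow_left (by omega) e)

/-! ### the initial environment -/

/-- initial environment -/
def env0 (p : List ℕ × ℕ × Rel) : Env :=
  (tc p.1 p.2.2, p.1 ++ (p.1 ++ p.1), topo (tc p.1 p.2.2) p.1, p.2.1, none)

theorem mainAlg_eq (d : ℕ) (p : List ℕ × ℕ × Rel) :
    mainAlg d p.1 p.2.1 p.2.2 =
      ((env0 p).2.1.foldl (fun s _ => fillStep d (env0 p).1 s) (env0 p).2.2).2.2 := rfl

theorem pinGR : GR PIn 3 (fun p : List ℕ × ℕ × Rel => p) := by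
  refine ⟨40, fun m p hp => ?_⟩
  have h1 := hp.1.sz_le
  have h2 := hp.2.1
  have h3 := hp.2.2.sz_le
  have e1 : (m + 1) ^ 2 ≤ (m + 1) ^ 3 := pow_mono' (by omega)
  have e2 : m + 1 ≤ (m + 1) ^ 3 := by
    calc m + 1 = (m + 1) ^ 1 := (pow_one _).symm
      _ ≤ _ := pow_mono' (by omega)
  show sz p ≤ _
  rw [sz_prod, sz_prod]
  omega

theorem env0_ok (htcs : TcSize) (htopos : TopoSize) (C e m : ℕ) (p : List ℕ × ℕ × Rel)
    (hp : PIn m p) : EnvOk C e m (env0 p) := by
  have hR : RelLe m (tc p.1 p.2.2) := htcs m p.1 p.2.2 ⟨hp.1, hp.2.2⟩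
  refine ⟨hR, ⟨?_, ?_⟩, ⟨⟨?_, ?_⟩, hp.2.1, ?_⟩⟩
  · show (p.1 ++ (p.1 ++ p.1)).length ≤ 3 * m
    rw [List.length_append, List.length_append]
    have := hp.1.1
    omega
  · intro x hx
    have : x ∈ p.1 ++ (p.1 ++ p.1) := hx
    simp only [List.mem_append, or_self] at this
    exact hp.1.2 x this
  · exact ((htopos p.1 (tc p.1 p.2.2)).1).trans hp.1.1
  · intro x hx
    exact hp.1.2 x ((htopos p.1 (tc p.1 p.2.2)).2 x hx)
  · show sz (none : Option (List ℕ)) ≤ _
    rw [sz_none]; exact Nat.zero_le _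

theorem env0TR (htc : TcTime) (htcs : TcSize) (htopo : TopoTime) :
    TR PIn 130 env0 := by
  have t1 : TF 1 (fun p : List ℕ × ℕ × Rel => (p.1, p.2.2)) := by
    have : LF 0 (fun p : List ℕ × ℕ × Rel => (p.1, p.2.2)) := by fun_prop
    exact this.1
  have g1 : GF 1 (fun p : List ℕ × ℕ × Rel => (p.1, p.2.2)) := by
    have : LF 0 (fun p : List ℕ × ℕ × Rel => (p.1, p.2.2)) := by fun_prop
    exact this.2
  have t2 : TF 40 (fun p : List ℕ × ℕ × Rel => tc p.1 p.2.2) :=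
    TF.comp (g := fun p : List ℕ × Rel => tc p.1 p.2)
      (f := fun p : List ℕ × ℕ × Rel => (p.1, p.2.2)) htc t1 g1 (by omega) (by omega)
  have r2 : TR PIn 130 (fun p : List ℕ × ℕ × Rel => tc p.1 p.2.2) :=
    TR.ofTF t2 pinGR (by omega)
  have gr2 : GR PIn 3 (fun p : List ℕ × ℕ × Rel => tc p.1 p.2.2) :=
    ⟨6, fun m p hp => (htcs m p.1 p.2.2 ⟨hp.1, hp.2.2⟩).sz_le⟩
  have t3 : TF 3 (fun p : List ℕ × ℕ × Rel => p.1 ++ (p.1 ++ p.1)) := by
    have h : LF 1 (fun p : List ℕ × ℕ × Rel => p.1 ++ p.1) :=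
      LF.append (k := 0) (by fun_prop) (by fun_prop)
    have : LF 2 (fun p : List ℕ × ℕ × Rel => p.1 ++ (p.1 ++ p.1)) :=
      LF.append (k := 1) (by fun_prop) h
    exact this.1
  have r3 : TR PIn 130 (fun p : List ℕ × ℕ × Rel => p.1 ++ (p.1 ++ p.1)) :=
    TR.ofTF t3 pinGR (by omega)
  have t4 : TF 1 (fun p : List ℕ × ℕ × Rel => p.1) := TF.fst
  have r4 : TR PIn 130 (fun p : List ℕ × ℕ × Rel => p.1) := TR.ofTF t4 pinGR (by omega)
  have gr4 : GR PIn 3 (fun p : List ℕ × ℕ × Rel => p.1) := by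
    refine ⟨2, fun m p hp => hp.1.sz_le.trans (Nat.mul_le_mul_left _ (pow_mono' (by omega)))⟩
  have gi : GR PIn 130 (fun p : List ℕ × ℕ × Rel => p) := pinGR.mono (by omega)
  have r5 : TR PIn 130 (fun p : List ℕ × ℕ × Rel => (p.1, tc p.1 p.2.2)) :=
    TR.prodMk r4 r2 (gr4.mono (by omega)) (gr2.mono (by omega)) gi
  have gr5 : GR PIn 3 (fun p : List ℕ × ℕ × Rel => (p.1, tc p.1 p.2.2)) := GR.prodMk gr4 gr2
  have r6 : TR PIn 130 (fun p : List ℕ × ℕ × Rel => topo (tc p.1 p.2.2) p.1) :=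
    TF.compR (g := fun p : List ℕ × Rel => topo p.2 p.1)
      (f := fun p : List ℕ × ℕ × Rel => (p.1, tc p.1 p.2.2)) htopo r5 gr5 le_rfl (by omega)
  have t7 : TF 1 (fun p : List ℕ × ℕ × Rel => (p.2.1, (none : Option (List ℕ)))) := by
    have : LF 0 (fun p : List ℕ × ℕ × Rel => (p.2.1, (none : Option (List ℕ)))) := by fun_prop
    exact this.1
  have r7 : TR PIn 130 (fun p : List ℕ × ℕ × Rel => (p.2.1, (none : Option (List ℕ)))) :=
    TR.ofTF t7 pinGR (by omega)
  have r8 : TR PIn 130 (fun p : List ℕ × ℕ × Rel =>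
      (topo (tc p.1 p.2.2) p.1, p.2.1, (none : Option (List ℕ)))) :=
    TR.prodMk r6 r7 (r6.toGR gi) (r7.toGR gi) gi
  have r9 : TR PIn 130 (fun p : List ℕ × ℕ × Rel =>
      (p.1 ++ (p.1 ++ p.1), topo (tc p.1 p.2.2) p.1, p.2.1, (none : Option (List ℕ)))) :=
    TR.prodMk r3 r8 (r3.toGR gi) (r8.toGR gi) gi
  exact TR.prodMk r2 r9 (r2.toGR gi) (r9.toGR gi) gi

/-- the main loop, from the modules for the transitive closure and the topological order -/
theorem mainTime_of (htc : TcTime) (htcs : TcSize) (htopo : TopoTime) (htopos : TopoSize) :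
    MainTime := by
  intro d D e he hD hs
  obtain ⟨hsT, C, hC⟩ := hs
  have h1 := loopTR (d := d) (D := D) (e := e) (C := C) he hD hC hsT
  have h2 := env0TR htc htcs htopo
  have h3 : TR PIn (D + 2) (fun p : List ℕ × ℕ × Rel =>
      (env0 p).2.1.foldl (fun s _ => fillStep d (env0 p).1 s) (env0 p).2.2) :=
    TR.comp (K := 1) (a := 130) (b := D + 2) (f := env0) h1 h2
      (fun m p hp => by rw [one_mul]; exact env0_ok htcs htopos C e m p hp) (by omega) le_rfl
  have inv : ∀ m (p : List ℕ × ℕ × Rel), PIn m p →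
      StOk C e (4 * m) ((env0 p).2.1.foldl (fun s _ => fillStep d (env0 p).1 s)
        (env0 p).2.2) := by
    intro m p hp
    have hq := env0_ok htcs htopos C e m p hp
    have h1 := stOk_fold hC hq.1 (env0 p).2.1 0 (env0 p).2.2 hq.2.2
    exact h1.mono (by have := hq.2.1.1; omega)
  have h4 : GR PIn e (fun p : List ℕ × ℕ × Rel =>
      (env0 p).2.1.foldl (fun s _ => fillStep d (env0 p).1 s) (env0 p).2.2) := by
    refine ⟨(C + 7) * 4 ^ e, fun m p hp => ?_⟩
    refine ((inv m p hp).sz_le (by omega)).trans ?_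
    rw [mul_assoc, ← mul_pow]
    exact Nat.mul_le_mul_left _ (Nat.pow_le_pow_left (by omega) e)
  constructor
  · have t : TF 1 (fun s : St => s.2.2) := by
      have : LF 0 (fun s : St => s.2.2) := by fun_prop
      exact this.1
    exact TF.compR t h3 h4 (by omega) (by omega)
  · refine ⟨C * 4 ^ e, fun m p hp => ?_⟩
    refine (inv m p hp).2.2.trans ?_
    rw [mul_assoc, ← mul_pow]
    exact Nat.mul_le_mul_left _ (Nat.pow_le_pow_left (by omega) e)

end Crest.Agent.R286.TimeMain
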