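import Crest.Agent.R286.TFFlat
import Crest.Agent.R286.TimeDefs

/-! # Row 286, time side: transitive closure and topological order -/

set_option autoImplicit false
set_option linter.dupNamespace false
set_option linter.unusedVariables false
set_option linter.unusedSectionVars false

namespace Crest.Agent.R286.TimeTc

open Function Crest.Agent.Lib.PT Crest.Agent.R286

/-! ### pairsL -/

theorem sz_row (x : ℕ) (J : List ℕ) :
    sz (J.map fun y => (x, y)) ≤ J.length * (4 * sz x + 3) + 2 * sz J := by
  induction J with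
  | nil => simp [sz_nil]
  | cons y J ih =>
    rw [List.map_cons, sz_cons, sz_prod, sz_cons, List.length_cons, add_mul, one_mul]
    simp only
    omega

theorem sz_pairsL (J : List ℕ) : sz (pairsL J) ≤ 9 * (sz J + 1) ^ 2 := by
  have h : ∀ x ∈ J, sz (J.map fun y => (x, y)) ≤ 9 * (sz J + 1) * (sz J + 1) := by
    intro x hx
    have h1 := sz_row x J
    have h2 := sz_mem_le' hx
    have h3 := length_le_sz J
    nlinarith
  -- finer: sum over rows
  have key : ∀ K : List ℕ, sz (K.flatMap fun x => J.map fun y => (x, y)) ≤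
      (J.length) * (4 * sz K + 3 * K.length) + 2 * K.length * sz J := by
    intro K
    induction K with
    | nil => simp [sz_nil]
    | cons x K ih =>
      rw [List.flatMap_cons, sz_append, sz_cons, List.length_cons]
      have h1 := sz_row x J
      nlinarith
  have h1 := key J
  have h3 := length_le_sz J
  unfold pairsL
  nlinarith

theorem gf_pairsL : GF 2 (fun J : List ℕ => pairsL J) := ⟨9, fun J => sz_pairsL J⟩

theorem tf_pairsL : TF 4 (fun J : List ℕ => pairsL J) := by
  have hrow : TF 2 (fun q : List ℕ × ℕ => q.1.map fun y => (q.2, y)) :=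
    TF.mapN (df := 1) (b := 1) (l := fun q : List ℕ × ℕ => q.1) (k := fun q : List ℕ × ℕ => q.2)
      (f := fun (x : ℕ) (y : ℕ) => (x, y))
      (TF.fst.mono (by omega)) GF.fst (TF.snd.mono (by omega)) GF.snd
      (TF.id.mono (by omega)) le_rfl le_rfl (by omega)
  exact TF.flatMapN (df := 2) (b := 1) (l := fun J : List ℕ => J) (k := fun J : List ℕ => J)
    (f := fun (J : List ℕ) (x : ℕ) => J.map fun y => (x, y))
    (TF.id.mono (by omega)) (GF.ofEnc fun _ => rfl) (TF.id.mono (by omega)) (GF.ofEnc fun _ => rfl)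
    hrow le_rfl (by omega) (by omega)

/-! ### membership in relations -/

theorem contains_bridge (R : Rel) (p : ℕ × ℕ) :
    @List.contains (ℕ × ℕ) instBEqOfDecidableEq R p = R.contains p := by
  have h1 : @List.contains (ℕ × ℕ) instBEqOfDecidableEq R p = true ↔ p ∈ R :=
    @List.contains_iff_mem (ℕ × ℕ) instBEqOfDecidableEq inferInstance _ _
  have h2 : @List.contains (ℕ × ℕ) instBEqProd R p = true ↔ p ∈ R :=
    @List.contains_iff_mem (ℕ × ℕ) instBEqProd inferInstance _ _
  rw [Bool.eq_iff_iff]
  exact h1.trans h2.symm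

theorem lf_contR {α : Type} [PTCode α] {k : ℕ} {l : α → Rel} {x : α → ℕ × ℕ} (hl : LF k l)
    (hx : LF k x) : LF (k + 1) (fun a => (l a).contains (x a)) :=
  (LF.contains hl hx).congr fun a => contains_bridge _ _

/-! ### one step of the closure -/

theorem lf_pred : LF 2 (fun q : (List ℕ × Rel) × (ℕ × ℕ) =>
    q.1.2.contains q.2 || q.1.1.any fun z => q.1.2.contains (q.2.1, z) && q.1.2.contains (z, q.2.2)) := by
  have h1 : LF 1 (fun q : (List ℕ × Rel) × (ℕ × ℕ) => q.1.2.contains q.2) :=
    lf_contR (k := 0) (l := fun q : (List ℕ × Rel) × (ℕ × ℕ) => q.1.2) (x := fun q => q.2)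
      (by fun_prop) (by fun_prop)
  have h2 : LF 2 (fun q : (List ℕ × Rel) × (ℕ × ℕ) =>
      q.1.1.any fun z => q.1.2.contains (q.2.1, z) && q.1.2.contains (z, q.2.2)) := by
    refine LF.any (k := 1) (l := fun q : (List ℕ × Rel) × (ℕ × ℕ) => q.1.1)
      (p := fun q z => q.1.2.contains (q.2.1, z) && q.1.2.contains (z, q.2.2)) (by fun_prop) ?_
    refine LF.and ?_ ?_
    · exact lf_contR (k := 0) (l := fun q : ((List ℕ × Rel) × (ℕ × ℕ)) × ℕ => q.1.1.2)
        (x := fun q => (q.1.2.1, q.2)) (by fun_prop) (by fun_prop)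
    · exact lf_contR (k := 0) (l := fun q : ((List ℕ × Rel) × (ℕ × ℕ)) × ℕ => q.1.1.2)
        (x := fun q => (q.2, q.1.2.2)) (by fun_prop) (by fun_prop)
  exact LF.or (h1.mono (by omega)) h2

theorem tf_tcStep : TF 8 (fun c : List ℕ × Rel => tcStep c.1 (pairsL c.1) c.2) := by
  have hl : TF 8 (fun c : List ℕ × Rel => pairsL c.1) :=
    TF.comp (a := 1) (e := 1) (b := 4) (g := fun J : List ℕ => pairsL J)
      (f := fun c : List ℕ × Rel => c.1) tf_pairsL TF.fst GF.fst (by omega) (by omega)
  have gl : GF 2 (fun c : List ℕ × Rel => pairsL c.1) :=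
    GF.comp (g := fun J : List ℕ => pairsL J) (f := fun c : List ℕ × Rel => c.1)
      (e := 1) (b := 2) gf_pairsL GF.fst (by omega)
  exact TF.filterN (df := 3) (b := 2) (l := fun c : List ℕ × Rel => pairsL c.1)
    (k := fun c : List ℕ × Rel => c)
    (p := fun (c : List ℕ × Rel) (p : ℕ × ℕ) =>
      c.2.contains p || c.1.any fun z => c.2.contains (p.1, z) && c.2.contains (z, p.2))
    hl gl (TF.id.mono (by omega)) ((GF.ofEnc fun _ => rfl).mono (by omega)) lf_pred.1
    (by omega) (by omega) (by omega)

theorem sz_tcStep_le (J : List ℕ) (P R : Rel) : sz (tcStep J P R) ≤ sz P := sz_filter_le _ _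

/-- states of the closure loop -/
theorem tc_foldl_sz (J : List ℕ) (l : List ℕ) (R : Rel) :
    sz (l.foldl (fun R' _ => tcStep J (pairsL J) R') R) ≤ sz R + sz (pairsL J) := by
  induction l using List.reverseRecOn with
  | nil => simp
  | append_singleton l a ih =>
    rw [List.foldl_append]
    simp only [List.foldl_cons, List.foldl_nil]
    exact (sz_tcStep_le _ _ _).trans (Nat.le_add_left _ _)

/-- time of the transitive closure -/
theorem tcTime : TcTime := by
  have hf : TF 8 (fun p : ((List ℕ × Rel) × Rel) × ℕ => tcStep p.1.1.1 (pairsL p.1.1.1) p.1.2) := by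
    have h0 : LF 0 (fun p : ((List ℕ × Rel) × Rel) × ℕ => (p.1.1.1, p.1.2)) := by fun_prop
    exact TF.comp (a := 1) (e := 1) (b := 8)
      (g := fun c : List ℕ × Rel => tcStep c.1 (pairsL c.1) c.2)
      (f := fun p : ((List ℕ × Rel) × Rel) × ℕ => (p.1.1.1, p.1.2)) tf_tcStep h0.1 h0.2
      (by omega) (by omega)
  refine (TF.foldl (D := 40) (df := 8) (eN := 1) (b := 2) (l := fun p : List ℕ × Rel => p.1)
    (i := fun p : List ℕ × Rel => p.2)
    (f := fun (p : List ℕ × Rel) (R' : Rel) (_ : ℕ) => tcStep p.1 (pairsL p.1) R')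
    (TF.fst.mono (by omega)) GF.fst (TF.snd.mono (by omega)) hf
    ⟨10, fun a l1 l2 _ => ?_⟩ (by omega) (by omega) (by omega) (by omega))
  have h1 := tc_foldl_sz a.1 l1 a.2
  have h2 := sz_pairsL a.1
  have h3 : sz a = 2 * sz a.1 + 1 + sz a.2 := sz_prod a
  have h4 : (sz a.1 + 1) ^ 2 ≤ (sz a + 1) ^ 2 := Nat.pow_le_pow_left (by omega) 2
  have h5 : sz a.2 ≤ (sz a + 1) ^ 2 := by nlinarith
  refine h1.trans ?_
  omega

/-! ### sizes of the closure -/

theorem length_pairsL (J : List ℕ) : (pairsL J).length = J.length ^ 2 := by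
  unfold pairsL
  rw [List.length_flatMap]
  simp [pow_two]

theorem mem_pairsL {J : List ℕ} {p : ℕ × ℕ} (h : p ∈ pairsL J) : p.1 ∈ J ∧ p.2 ∈ J := by
  unfold pairsL at h
  rw [List.mem_flatMap] at h
  obtain ⟨x, hx, h⟩ := h
  rw [List.mem_map] at h
  obtain ⟨y, hy, rfl⟩ := h
  exact ⟨hx, hy⟩

theorem relLe_tcStep {m : ℕ} {J : List ℕ} (R : Rel) (hJ : IdsLe m J) :
    RelLe m (tcStep J (pairsL J) R) := by
  constructor
  · have h1 : (tcStep J (pairsL J) R).length ≤ (pairsL J).length := List.length_filter_le _ _
    rw [length_pairsL] at h1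
    exact h1.trans (Nat.pow_le_pow_left hJ.1 2)
  · intro p hp
    have := mem_pairsL (List.mem_of_mem_filter hp)
    exact ⟨hJ.2 _ this.1, hJ.2 _ this.2⟩

/-- sizes of the transitive closure -/
theorem tcSize : TcSize := by
  intro m J R h
  obtain ⟨hJ, hR⟩ := h
  simp only at hJ hR
  have key : ∀ l : List ℕ, RelLe m (l.foldl (fun R' _ => tcStep J (pairsL J) R') R) := by
    intro l
    induction l using List.reverseRecOn with
    | nil => simpa using hR
    | append_singleton l a ih =>
      rw [List.foldl_append]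
      simp only [List.foldl_cons, List.foldl_nil]
      exact relLe_tcStep _ hJ
  exact key J

/-! ### topological order -/

theorem sz_filter_add (p : ℕ → Bool) (l : List ℕ) :
    sz (l.filter p) + sz (l.filter fun x => !p x) = sz l := by
  induction l with
  | nil => rfl
  | cons a l ih =>
    cases h : p a <;> simp only [List.filter_cons, h, sz_cons, Bool.not_false, Bool.not_true,
      if_true, Bool.false_eq_true, if_false] <;> omega

theorem sz_topoStep (R : Rel) (s : List ℕ × List ℕ) :
    sz (topoStep R s).1 + sz (topoStep R s).2 = sz s.1 + sz s.2 := by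
  unfold topoStep
  simp only
  rw [sz_append]
  have := sz_filter_add (fun x => s.1.any fun y => R.contains (y, x)) s.1
  omega

theorem topo_foldl_sz (R : Rel) (l J : List ℕ) :
    sz (l.foldl (fun s _ => topoStep R s) (J, ([] : List ℕ))).1 +
      sz (l.foldl (fun s _ => topoStep R s) (J, ([] : List ℕ))).2 = sz J := by
  induction l using List.reverseRecOn with
  | nil => simp [sz_nil]
  | append_singleton l a ih =>
    rw [List.foldl_append]
    simp only [List.foldl_cons, List.foldl_nil]
    rw [sz_topoStep, ih]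

theorem lf_topoStep : LF 4 (fun q : Rel × (List ℕ × List ℕ) => topoStep q.1 q.2) := by
  have hany : LF 2 (fun q : (Rel × (List ℕ × List ℕ)) × ℕ =>
      q.1.2.1.any fun y => q.1.1.contains (y, q.2)) := by
    refine LF.any (k := 1) (l := fun q : (Rel × (List ℕ × List ℕ)) × ℕ => q.1.2.1)
      (p := fun q y => q.1.1.contains (y, q.2)) (by fun_prop) ?_
    exact lf_contR (k := 0) (l := fun q : ((Rel × (List ℕ × List ℕ)) × ℕ) × ℕ => q.1.1.1)
        (x := fun q => (q.2, q.1.2)) (by fun_prop) (by fun_prop)
  have h1 : LF 3 (fun q : Rel × (List ℕ × List ℕ) =>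
      q.2.1.filter fun x => q.2.1.any fun y => q.1.contains (y, x)) :=
    LF.filter (k := 2) (l := fun q : Rel × (List ℕ × List ℕ) => q.2.1)
      (p := fun q x => q.2.1.any fun y => q.1.contains (y, x)) (by fun_prop) hany
  have h2 : LF 3 (fun q : Rel × (List ℕ × List ℕ) =>
      q.2.1.filter fun x => !(q.2.1.any fun y => q.1.contains (y, x))) :=
    LF.filter (k := 2) (l := fun q : Rel × (List ℕ × List ℕ) => q.2.1)
      (p := fun q x => !(q.2.1.any fun y => q.1.contains (y, x))) (by fun_prop) (LF.not hany)
  have h3 : LF 4 (fun q : Rel × (List ℕ × List ℕ) =>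
      q.2.2 ++ q.2.1.filter fun x => !(q.2.1.any fun y => q.1.contains (y, x))) :=
    LF.append (k := 3) (by fun_prop) h2
  exact LF.prodMk (h1.mono (by omega)) h3

theorem lf_topo : LF 5 (fun p : List ℕ × Rel => topo p.2 p.1) := by
  have hf : LF 4 (fun q : ((List ℕ × Rel) × (List ℕ × List ℕ)) × ℕ => topoStep q.1.1.2 q.1.2) :=
    LF.comp (g := fun q : Rel × (List ℕ × List ℕ) => topoStep q.1 q.2)
      (f := fun q : ((List ℕ × Rel) × (List ℕ × List ℕ)) × ℕ => (q.1.1.2, q.1.2)) lf_topoStep
      (by fun_prop)
  have h := LF.foldl (k := 4) (l := fun p : List ℕ × Rel => p.1)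
    (i := fun p : List ℕ × Rel => (p.1, ([] : List ℕ)))
    (f := fun (p : List ℕ × Rel) (s : List ℕ × List ℕ) (_ : ℕ) => topoStep p.2 s)
    (by fun_prop) (by fun_prop) hf ⟨2, fun a l1 l2 _ => by
      have h1 := topo_foldl_sz a.2 l1 a.1
      have h3 : sz a = 2 * sz a.1 + 1 + sz a.2 := sz_prod a
      rw [sz_prod]
      omega⟩
  exact LF.comp (g := fun s : List ℕ × List ℕ => s.2) (by fun_prop) h

/-- time of the topological order -/
theorem topoTime : TopoTime := lf_topo.1.mono (by omega)

/-- sizes of the topological order -/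
theorem topoSize : TopoSize := by
  intro J R
  have key : ∀ l : List ℕ,
      (l.foldl (fun s _ => topoStep R s) (J, ([] : List ℕ))).1.length +
        (l.foldl (fun s _ => topoStep R s) (J, ([] : List ℕ))).2.length = J.length ∧
      (∀ x ∈ (l.foldl (fun s _ => topoStep R s) (J, ([] : List ℕ))).1, x ∈ J) ∧
      ∀ x ∈ (l.foldl (fun s _ => topoStep R s) (J, ([] : List ℕ))).2, x ∈ J := by
    intro l
    induction l using List.reverseRecOn with
    | nil => simp
    | append_singleton l a ih =>
      rw [List.foldl_append]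
      simp only [List.foldl_cons, List.foldl_nil]
      generalize l.foldl (fun s _ => topoStep R s) (J, ([] : List ℕ)) = s at ih
      obtain ⟨i1, i2, i3⟩ := ih
      unfold topoStep
      simp only
      refine ⟨?_, ?_, ?_⟩
      · rw [List.length_append]
        have : ∀ (p : ℕ → Bool) (l : List ℕ),
            (l.filter p).length + (l.filter fun x => !p x).length = l.length := by
          intro p l
          induction l with
          | nil => rfl
          | cons a l ih =>
            cases h : p a <;> simp only [List.filter_cons, h, List.length_cons, Bool.not_false,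
              Bool.not_true, if_true, Bool.false_eq_true, if_false] <;> omega
        have := this (fun x => s.1.any fun y => R.contains (y, x)) s.1
        omega
      · intro x hx
        exact i2 x (List.mem_of_mem_filter hx)
      · intro x hx
        rcases List.mem_append.1 hx with hx | hx
        · exact i3 x hx
        · exact i2 x (List.mem_of_mem_filter hx)
  have h := key J
  refine ⟨?_, h.2.2⟩
  unfold topo
  omega

end Crest.Agent.R286.TimeTc
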