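import Crest.Agent.R286.TimeMain
import Crest.Agent.R286.TimeTc

/-!
# Row 286, time side: `MainTime`
-/

namespace Crest.Agent.R286.TimeMain

open Crest.Agent.R286

theorem mainTime : MainTime :=
  mainTime_of TimeTc.tcTime TimeTc.tcSize TimeTc.topoTime TimeTc.topoSize

end Crest.Agent.R286.TimeMain
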