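import Crest.Agent.R286.LFMore

/-! # Time of the table search (second run by helper941) -/

set_option autoImplicit false
set_option linter.dupNamespace false
set_option linter.unusedVariables false
set_option linter.unusedSectionVars false

namespace Crest.Agent.R286.SearchB

open Function Crest.Agent.Lib.PT

/-! ### sizes -/

theorem sz_eq_sum {β : Type} [PTCode β] (l : List β) :
    sz l = (l.map fun b => 2 * sz b + 1).sum := by
  induction l with
  | nil => rfl
  | cons b l ih => rw [sz_cons, List.map_cons, List.sum_cons, ih]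

theorem sz_perm {β : Type} [PTCode β] {l l' : List β} (h : l.Perm l') : sz l = sz l' := by
  rw [sz_eq_sum, sz_eq_sum]
  exact (h.map _).sum_eq

theorem sz_sublist {β : Type} [PTCode β] {l l' : List β} (h : l.Sublist l') : sz l ≤ sz l' := by
  induction h with
  | slnil => exact le_rfl
  | cons b h ih => rw [sz_cons]; omega
  | cons_cons b h ih => rw [sz_cons, sz_cons]; omega

theorem good_sz {R : Rel} {X w1 w2 : List ℕ} (h : good R X w1 w2 = true) :
    sz (w1 ++ w2) ≤ sz X := by
  simp only [good, Bool.and_eq_true, decide_eq_true_eq, List.all_eq_true,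
    List.contains_eq_mem] at h
  obtain ⟨h1, h2, -⟩ := h
  have h3 : (w1 ++ w2) ⊆ X := fun a ha => h2 a ha
  obtain ⟨l, h4, h5⟩ := List.subperm_of_subset h1 h3
  rw [← sz_perm h4]
  exact sz_sublist h5

theorem search_sz (R : Rel) (T : Tab) (X : List ℕ) : sz (search R T X) ≤ sz X + 1 := by
  rcases h : search R T X with _ | w
  · exact Nat.zero_le _
  · rw [sz_some]
    obtain ⟨p, -, h1⟩ := firstSome_some h
    rcases hp : p.2 with _ | w1
    · rw [hp] at h1; simp at h1
    · rw [hp] at h1
      obtain ⟨q, -, h2⟩ := firstSome_some h1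
      rcases hq : q.2 with _ | w2
      · rw [hq] at h2; simp at h2
      · rw [hq] at h2
        simp only at h2
        split at h2
        · rename_i hg
          have := good_sz hg
          simp only [Option.some.injEq] at h2
          rw [← h2]; omega
        · exact absurd h2 (by simp)

/-- capacity of a table -/
def cap (T : Tab) : ℕ :=
  (T.map fun p => 2 * (2 * sz p.1 + 1 + max (sz p.2) (sz p.1 + 1)) + 1).sum

theorem cap_cons (p : List ℕ × Option (List ℕ)) (T : Tab) :
    cap (p :: T) = 2 * (2 * sz p.1 + 1 + max (sz p.2) (sz p.1 + 1)) + 1 + cap T := by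
  simp [cap]

theorem sz_le_cap (T : Tab) : sz T ≤ cap T := by
  induction T with
  | nil => exact Nat.zero_le _
  | cons p T ih =>
    rw [sz_cons, cap_cons, sz_prod]
    have := le_max_left (sz p.2) (sz p.1 + 1)
    omega

theorem cap_le (T : Tab) : cap T ≤ 3 * sz T := by
  induction T with
  | nil => exact Nat.zero_le _
  | cons p T ih =>
    rw [sz_cons, cap_cons, sz_prod]
    have : max (sz p.2) (sz p.1 + 1) ≤ sz p.2 + (sz p.1 + 1) :=
      max_le (Nat.le_add_right _ _) (Nat.le_add_left _ _)
    omega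

/-- the new entry -/
def newEntry (R : Rel) (T : Tab) (p : List ℕ × Option (List ℕ)) : Option (List ℕ) :=
  match p.2 with
  | some w => some w
  | none => if isLeaf R p.1 then some p.1 else search R T p.1

theorem tabRound_eq (R : Rel) (T : Tab) : tabRound R T = T.map fun p => (p.1, newEntry R T p) := rfl

theorem newEntry_sz (R : Rel) (T : Tab) (p : List ℕ × Option (List ℕ)) :
    sz (newEntry R T p) ≤ max (sz p.2) (sz p.1 + 1) := by
  unfold newEntry
  rcases h : p.2 with _ | w
  · simp only
    split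
    · rw [sz_some]; exact le_max_right _ _
    · exact (search_sz R T p.1).trans (le_max_right _ _)
  · exact le_max_left _ _

theorem cap_map_le (R : Rel) (T0 T : Tab) :
    cap (T.map fun p => (p.1, newEntry R T0 p)) ≤ cap T := by
  induction T with
  | nil => exact le_rfl
  | cons p T ih =>
    rw [List.map_cons, cap_cons, cap_cons]
    have h1 := newEntry_sz R T0 p
    have h2 : max (sz (newEntry R T0 p)) (sz p.1 + 1) ≤ max (sz p.2) (sz p.1 + 1) :=
      max_le h1 (le_max_right _ _)
    simp only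
    omega

theorem cap_round (R : Rel) (T : Tab) : cap (tabRound R T) ≤ cap T := cap_map_le R T T

theorem cap_rounds {β : Type} (R : Rel) (l : List β) (T : Tab) :
    cap (l.foldl (fun T _ => tabRound R T) T) ≤ cap T := by
  induction l generalizing T with
  | nil => exact le_rfl
  | cons b l ih => rw [List.foldl_cons]; exact (ih _).trans (cap_round R T)

theorem sz_init (F : List (List ℕ)) :
    sz (F.map fun X => (X, (none : Option (List ℕ)))) ≤ 3 * sz F := by
  induction F with
  | nil => exact Nat.zero_le _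
  | cons X F ih =>
    rw [List.map_cons, sz_cons, sz_cons, sz_prod, sz_none]
    simp only
    omega

/-! ### programs -/

theorem lf_isLeaf : LF 3 (fun p : Rel × List ℕ => isLeaf p.1 p.2) := by
  have h1 : LF 1 (fun q : ((Rel × List ℕ) × ℕ) × ℕ => q.1.1.1.contains (q.1.2, q.2)) :=
    LF.containsB (k := 0) (by fun_prop) (by fun_prop)
  have h2 : LF 2 (fun q : (Rel × List ℕ) × ℕ => q.1.2.any fun y => q.1.1.contains (q.2, y)) :=
    LF.any (p := fun (q : (Rel × List ℕ) × ℕ) y => q.1.1.contains (q.2, y)) (by fun_prop) h1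
  have h3 : LF 3 (fun q : Rel × List ℕ => q.2.any fun x => q.2.any fun y => q.1.contains (x, y)) :=
    LF.any (p := fun (q : Rel × List ℕ) x => q.2.any fun y => q.1.contains (x, y))
      (by fun_prop) h2
  unfold isLeaf
  fun_prop

theorem lf_good : LF 3 (fun q : (Rel × List ℕ) × (List ℕ × List ℕ) =>
    good q.1.1 q.1.2 q.2.1 q.2.2) := by
  have hw1 : LF 1 (fun q : (Rel × List ℕ) × (List ℕ × List ℕ) => q.2.1 ++ q.2.2) :=
    LF.append (k := 0) (by fun_prop) (by fun_prop)
  have hw := hw1.mono (k' := 3) (by omega)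
  have g1 := LF.nodup (k := 3) hw (by omega)
  have g2 : LF 2 (fun q : (Rel × List ℕ) × (List ℕ × List ℕ) =>
      (q.2.1 ++ q.2.2).all fun a => q.1.2.contains a) := by
    refine LF.all (p := fun (q : (Rel × List ℕ) × (List ℕ × List ℕ)) a => q.1.2.contains a)
      hw1 ?_
    exact LF.containsB (k := 0) (by fun_prop) (by fun_prop)
  have g3 : LF 3 (fun q : (Rel × List ℕ) × (List ℕ × List ℕ) =>
      q.1.2.all fun a => (q.2.1 ++ q.2.2).contains a) := by
    refine LF.all (k := 2)
      (p := fun (q : (Rel × List ℕ) × (List ℕ × List ℕ)) a => (q.2.1 ++ q.2.2).contains a)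
      (by fun_prop) ?_
    refine LF.containsB (k := 1) ?_ (by fun_prop)
    exact LF.comp (g := fun q : (Rel × List ℕ) × (List ℕ × List ℕ) => q.2.1 ++ q.2.2) hw1 LF.fst
  have g4 : LF 3 (fun q : (Rel × List ℕ) × (List ℕ × List ℕ) =>
      q.2.2.any fun z => q.2.1.any fun y => q.1.1.contains (z, y)) := by
    refine LF.any (k := 2) (p := fun (q : (Rel × List ℕ) × (List ℕ × List ℕ)) z =>
      q.2.1.any fun y => q.1.1.contains (z, y)) (by fun_prop) ?_
    refine LF.any (k := 1) (p := fun (q : ((Rel × List ℕ) × (List ℕ × List ℕ)) × ℕ) y =>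
      q.1.1.1.contains (q.2, y)) (by fun_prop) ?_
    exact LF.containsB (k := 0) (by fun_prop) (by fun_prop)
  have g2' := g2.mono (k' := 3) (by omega)
  exact LF.and g1 (LF.and g2' (LF.and g3 (LF.not g4)))

/-- inner candidate -/
def cand (R : Rel) (X w1 : List ℕ) (q : List ℕ × Option (List ℕ)) : Option (List ℕ) :=
  match q.2 with
  | none => none
  | some w2 => if good R X w1 w2 then some (w1 ++ w2) else none

theorem lf_cand : LF 3 (fun q : ((Rel × List ℕ) × List ℕ) × (List ℕ × Option (List ℕ)) =>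
    cand q.1.1.1 q.1.1.2 q.1.2 q.2) := by
  have h1 : LF 3 (fun p : (((Rel × List ℕ) × List ℕ) × (List ℕ × Option (List ℕ))) × List ℕ =>
      good p.1.1.1.1 p.1.1.1.2 p.1.1.2 p.2) :=
    LF.comp (f := fun p : (((Rel × List ℕ) × List ℕ) × (List ℕ × Option (List ℕ))) × List ℕ =>
      ((p.1.1.1.1, p.1.1.1.2), (p.1.1.2, p.2))) lf_good (by fun_prop)
  have h2' : LF 1 (fun p : (((Rel × List ℕ) × List ℕ) × (List ℕ × Option (List ℕ))) × List ℕ =>
      p.1.1.2 ++ p.2) :=
    LF.append (k := 0) (by fun_prop) (by fun_prop)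
  have h2 := h2'.mono (k' := 3) (by omega)
  refine (LF.optCase (s := fun q : ((Rel × List ℕ) × List ℕ) × (List ℕ × Option (List ℕ)) => q.2.2)
    (f := fun _ => (none : Option (List ℕ)))
    (g := fun q w2 => if good q.1.1.1 q.1.1.2 q.1.2 w2 = true then some (q.1.2 ++ w2) else none)
    (by fun_prop) (by fun_prop) (by fun_prop)).congr fun q => ?_
  unfold cand
  cases q.2.2 <;> rfl

/-- middle candidate -/
def cand2 (R : Rel) (T : Tab) (X : List ℕ) (p : List ℕ × Option (List ℕ)) : Option (List ℕ) :=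
  match p.2 with
  | none => none
  | some w1 => firstSome (cand R X w1) T

theorem lf_cand2 : LF 4 (fun q : ((Rel × Tab) × List ℕ) × (List ℕ × Option (List ℕ)) =>
    cand2 q.1.1.1 q.1.1.2 q.1.2 q.2) := by
  have h1 : LF 4 (fun p : (((Rel × Tab) × List ℕ) × (List ℕ × Option (List ℕ))) × List ℕ =>
      firstSome (cand p.1.1.1.1 p.1.1.2 p.2) p.1.1.1.2) := by
    refine LF.firstSome (k := 3)
      (f := fun (p : (((Rel × Tab) × List ℕ) × (List ℕ × Option (List ℕ))) × List ℕ) x =>
        cand p.1.1.1.1 p.1.1.2 p.2 x) (by fun_prop) ?_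
    exact LF.comp (f := fun p : ((((Rel × Tab) × List ℕ) × (List ℕ × Option (List ℕ))) × List ℕ) ×
      (List ℕ × Option (List ℕ)) => (((p.1.1.1.1.1, p.1.1.1.2), p.1.2), p.2)) lf_cand
      (by fun_prop)
  refine (LF.optCase (s := fun q : ((Rel × Tab) × List ℕ) × (List ℕ × Option (List ℕ)) => q.2.2)
    (f := fun _ => (none : Option (List ℕ)))
    (g := fun q w1 => firstSome (cand q.1.1.1 q.1.2 w1) q.1.1.2)
    (by fun_prop) (by fun_prop) h1).congr fun q => ?_
  unfold cand2
  cases q.2.2 <;> rfl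

theorem lf_search : LF 5 (fun q : (Rel × Tab) × List ℕ => search q.1.1 q.1.2 q.2) :=
  LF.firstSome (k := 4) (l := fun q : (Rel × Tab) × List ℕ => q.1.2)
    (f := fun (q : (Rel × Tab) × List ℕ) p => cand2 q.1.1 q.1.2 q.2 p) (by fun_prop) lf_cand2

theorem lf_newEntry : LF 5 (fun q : (Rel × Tab) × (List ℕ × Option (List ℕ)) =>
    newEntry q.1.1 q.1.2 q.2) := by
  have h1 : LF 5 (fun q : (Rel × Tab) × (List ℕ × Option (List ℕ)) => isLeaf q.1.1 q.2.1) :=
    (LF.comp (f := fun q : (Rel × Tab) × (List ℕ × Option (List ℕ)) => (q.1.1, q.2.1)) lf_isLeaf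
      (by fun_prop)).mono (by omega)
  have h2 : LF 5 (fun q : (Rel × Tab) × (List ℕ × Option (List ℕ)) => search q.1.1 q.1.2 q.2.1) :=
    LF.comp (f := fun q : (Rel × Tab) × (List ℕ × Option (List ℕ)) => ((q.1.1, q.1.2), q.2.1))
      lf_search (by fun_prop)
  refine (LF.optCase (s := fun q : (Rel × Tab) × (List ℕ × Option (List ℕ)) => q.2.2)
    (f := fun q => if isLeaf q.1.1 q.2.1 = true then some q.2.1 else search q.1.1 q.1.2 q.2.1)
    (g := fun _ w => some w) (by fun_prop) (by fun_prop) (by fun_prop)).congr fun q => ?_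
  unfold newEntry
  cases q.2.2 <;> rfl

theorem lf_round : LF 6 (fun q : Rel × Tab => tabRound q.1 q.2) := by
  have h1 : LF 5 (fun q : (Rel × Tab) × (List ℕ × Option (List ℕ)) =>
      (q.2.1, newEntry q.1.1 q.1.2 q.2)) := LF.prodMk (by fun_prop) lf_newEntry
  refine LF.map (k := 5) (l := fun q : Rel × Tab => q.2)
    (f := fun (q : Rel × Tab) p => (p.1, newEntry q.1 q.2 p)) (by fun_prop) h1 ⟨3, fun q => ?_⟩
  have h2 : sz (tabRound q.1 q.2) ≤ 3 * sz q.2 :=
    (sz_le_cap _).trans ((cap_round q.1 q.2).trans (cap_le _))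
  have h3 : sz (q.2.map fun p => (p.1, newEntry q.1 q.2 p)) = sz (tabRound q.1 q.2) := rfl
  rw [h3, sz_prod]
  omega

theorem lf_rounds : LF 7 (fun q : (List ℕ × Rel) × Tab =>
    (0 :: q.1.1).foldl (fun T _ => tabRound q.1.2 T) q.2) := by
  refine LF.foldl (k := 6) (l := fun q : (List ℕ × Rel) × Tab => 0 :: q.1.1)
    (i := fun q => q.2) (f := fun (q : (List ℕ × Rel) × Tab) T _ => tabRound q.1.2 T)
    (by fun_prop) (by fun_prop) ?_ ⟨3, fun q l1 l2 _ => ?_⟩
  · exact LF.comp (f := fun p : (((List ℕ × Rel) × Tab) × Tab) × ℕ => (p.1.1.1.2, p.1.2)) lf_round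
      (by fun_prop)
  · have h := (sz_le_cap _).trans ((cap_rounds q.1.2 l1 q.2).trans (cap_le _))
    refine h.trans ?_
    rw [sz_prod]
    omega

theorem lf_solveTab : LF 7 (fun q : (List ℕ × Rel) × List (List ℕ) =>
    solveTab q.1.1 q.1.2 q.2) := by
  have h0 : LF 1 (fun q : (List ℕ × Rel) × List (List ℕ) =>
      q.2.map fun X => (X, (none : Option (List ℕ)))) :=
    LF.map (k := 0) (f := fun _ X => (X, (none : Option (List ℕ)))) (by fun_prop) (by fun_prop)
      ⟨3, fun q => (sz_init _).trans (by rw [sz_prod]; omega)⟩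
  have h0' := h0.mono (k' := 7) (by omega)
  have h1 : LF 7 (fun q : (List ℕ × Rel) × List (List ℕ) =>
      (0 :: q.1.1).foldl (fun T _ => tabRound q.1.2 T) (q.2.map fun X => (X, none))) :=
    LF.comp (f := fun q : (List ℕ × Rel) × List (List ℕ) =>
      (q.1, q.2.map fun X => (X, (none : Option (List ℕ))))) lf_rounds
      (LF.prodMk (by fun_prop) h0')
  have h2 : LF 1 (fun q : List ℕ × Tab =>
      firstSome (fun p : List ℕ × Option (List ℕ) => if p.1 = q.1 then p.2 else none) q.2) :=
    LF.firstSome (k := 0) (f := fun (q : List ℕ × Tab) (p : List ℕ × Option (List ℕ)) =>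
      if p.1 = q.1 then p.2 else none) (by fun_prop) (by fun_prop)
  exact LF.comp (f := fun q : (List ℕ × Rel) × List (List ℕ) => (q.1.1,
    (0 :: q.1.1).foldl (fun T _ => tabRound q.1.2 T) (q.2.map fun X => (X, none))))
    (h2.mono (by omega)) (LF.prodMk (by fun_prop) h1)

theorem searchTime : SearchTime := ⟨lf_solveTab.1.mono (by norm_num), lf_solveTab.2⟩

end Crest.Agent.R286.SearchB
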