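import Crest.Agent.R286.Step2

/-!
Row 286, node T: the greedy packing.
-/

set_option autoImplicit false

namespace Crest.Agent.R286.T3

variable {α : Type*} [DecidableEq α] {r : α → α → Prop} {ν : α → ℕ}

theorem OK.subset {F : ℕ → Set α} {a : ℕ → ℕ} {I J : Finset ℕ} (h : OK r F a I) (hJ : J ⊆ I) :
    OK r F a J :=
  ⟨(Finset.card_le_card hJ).trans h.card, fun i hi => h.frame i (hJ hi),
    fun i hi j hj => h.mono i (hJ hi) j (hJ hj)⟩

/-- REDUCE -/
theorem reduce {F : ℕ → Set α} {a : ℕ → ℕ} {I : Finset ℕ} (hok : OK r F a I) (D : Finset α)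
    (hcov : ∀ z ∈ D, ∃ i ∈ I, Cov ν F a i z) :
    ∃ J ⊆ I, OK r F a J ∧ (∀ z ∈ D, ∃ i ∈ J, Cov ν F a i z) ∧
      ∀ i ∈ J, ∃ z ∈ D, Cell ν F a J i z := by
  classical
  obtain ⟨P, hP⟩ : ∃ P : Finset ℕ → Prop, ∀ J, P J ↔ ∀ z ∈ D, ∃ i ∈ J, Cov ν F a i z :=
    ⟨_, fun _ => Iff.rfl⟩
  have hne : (I.powerset.filter fun J => P J).Nonempty :=
    ⟨I, Finset.mem_filter.2 ⟨Finset.mem_powerset.2 subset_rfl, (hP I).2 hcov⟩⟩
  obtain ⟨J, hJ, hmin⟩ := Finset.exists_min_image _ Finset.card hne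
  rw [Finset.mem_filter, Finset.mem_powerset, hP] at hJ
  refine ⟨J, hJ.1, hok.subset hJ.1, hJ.2, fun i hi => ?_⟩
  by_contra hc
  push Not at hc
  have : J.erase i ∈ I.powerset.filter fun J => P J := by
    rw [Finset.mem_filter, Finset.mem_powerset, hP]
    refine ⟨(Finset.erase_subset _ _).trans hJ.1, fun z hz => ?_⟩
    obtain ⟨j, hj, hcj⟩ := hJ.2 z hz
    by_cases hji : j = i
    · subst hji
      have h1 := hc z hz
      unfold Cell at h1
      push Not at h1
      obtain ⟨k, hk, hkj, hck⟩ := h1 hcj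
      exact ⟨k, Finset.mem_erase.2 ⟨hkj, hk⟩, hck⟩
    · exact ⟨j, Finset.mem_erase.2 ⟨hji, hj⟩, hcj⟩
  have h1 := hmin _ this
  rw [Finset.card_erase_of_mem hi] at h1
  have := Finset.card_pos.2 ⟨i, hi⟩
  omega

/-- the greedy choice -/
theorem choice (hirr : ∀ x : α, ¬ r x x) (htr : ∀ ⦃x y z : α⦄, r x y → r y z → r x z)
    (hmon : ∀ ⦃x y⦄, r x y → ν x < ν y) (hinj : Function.Injective ν)
    {F : ℕ → Set α} {a : ℕ → ℕ} {I : Finset ℕ} (hok : OK r F a I) (D : Finset α)
    (hcov : ∀ z ∈ D, ∃ i ∈ I, Cov ν F a i z) (hcell : ∀ i ∈ I, ∃ z ∈ D, Cell ν F a I i z)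
    {S0 : Finset α} {l0 : List (Finset α)} (h0 : IsPk r (S0 :: l0) D) :
    ∃ (S : Finset α) (l : List (Finset α)), IsPk r (S :: l) D ∧
      Sit r ν F a I D S (fun g => g ∈ S ∧ ∃ l', IsPk r l' (D \ S) ∧ ¬ Blk r l' g) := by
  classical
  have hne : (D.powerset.filter fun S => ∃ l, IsPk r (S :: l) D).Nonempty :=
    ⟨S0, by simp only [Finset.mem_filter, Finset.mem_powerset]; exact ⟨h0.1, l0, h0⟩⟩
  obtain ⟨S, hS, hmax⟩ := Finset.exists_max_image _
    (fun T : Finset α => toLex (hits ν F a I T, ∑ x ∈ T, ν x)) hne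
  rw [Finset.mem_filter, Finset.mem_powerset] at hS
  obtain ⟨hSD, l, hl⟩ := hS
  refine ⟨S, l, hl, hirr, htr, hmon, hinj, hok, hcov, hcell, hSD, hl.2.1, hl.2.2.1,
    fun g hg => hg.1, ?_⟩
  rintro g ⟨hgS, l', hl', hb⟩ y hyD hyx hyS
  have hyDS : y ∈ D \ S := Finset.mem_sdiff.2 ⟨hyD, hyS⟩
  obtain ⟨l'', hl'', _⟩ := exch hirr htr hl' (g := g) (by simp [hgS])
    (fun x hx => hl.2.2.1 g hgS x (Finset.sdiff_subset hx)) hb hyDS
    (fun x hx => hyx x (Finset.sdiff_subset hx)) (hyx g (hSD hgS))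
  have hset : D \ insert y (S.erase g) = insert g ((D \ S).erase y) := by
    ext x
    simp only [Finset.mem_sdiff, Finset.mem_insert, Finset.mem_erase]
    constructor
    · rintro ⟨h1, h2⟩
      push Not at h2
      by_cases hxg : x = g
      · exact Or.inl hxg
      · exact Or.inr ⟨h2.1, h1, h2.2 hxg⟩
    · rintro (rfl | ⟨h1, h2, h3⟩)
      · refine ⟨hSD hgS, ?_⟩
        rintro (h | h)
        · exact hyS (h ▸ hgS)
        · exact h.1 rfl
      · refine ⟨h2, ?_⟩
        rintro (h | h)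
        · exact h1 h
        · exact h3 h.2
  have hT : insert y (S.erase g) ∈ D.powerset.filter fun S => ∃ l, IsPk r (S :: l) D := by
    rw [Finset.mem_filter, Finset.mem_powerset]
    have hsub : insert y (S.erase g) ⊆ D := by
      intro x hx
      simp only [Finset.mem_insert, Finset.mem_erase] at hx
      rcases hx with rfl | hx
      · exact hyD
      · exact hSD hx.2
    refine ⟨hsub, l'', hsub, ?_, ?_, ?_⟩
    · rw [Finset.card_insert_of_notMem (by simp [hyS]), Finset.card_erase_of_mem hgS, hl.2.1]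
    · intro x hx z hz
      simp only [Finset.mem_insert, Finset.mem_erase] at hx
      rcases hx with rfl | hx
      · exact hyx z hz
      · exact hl.2.2.1 x hx.2 z hz
    · rw [hset]; exact hl''
  have h1 := hmax _ hT
  rw [Prod.Lex.toLex_le_toLex] at h1
  rcases h1 with h1 | h1
  · exact Or.inl h1
  · exact Or.inr h1

/-- the good packings -/
def Good (r : α → α → Prop) (ν : α → ℕ) (X : Finset α) : List (Finset α) → Finset α → Prop
  | [], _ => True
  | S :: l, D => (∃ St : Set α, IsSt r ν St ∧ (∀ z ∈ D, z ∈ St) ∧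
      ∀ z ∈ X, z ∉ D → z ∈ St → Blk r (S :: l) z) ∧ Good r ν X l (D \ S)

/-- the induction -/
theorem exists_good (hirr : ∀ x : α, ¬ r x x) (htr : ∀ ⦃x y z : α⦄, r x y → r y z → r x z)
    (hmon : ∀ ⦃x y⦄, r x y → ν x < ν y) (hinj : Function.Injective ν) (X : Finset α) (n : ℕ) :
    ∀ (D : Finset α) (St : Set α), IsSt r ν St → (∀ z ∈ D, z ∈ St) →
      (∃ l, IsPk r l D ∧ l.length = n) → D.card = 3 * n →
      (∀ l, IsPk r l D → ∀ z ∈ X, z ∉ D → z ∈ St → Blk r l z) →
      ∃ l, IsPk r l D ∧ l.length = n ∧ Good r ν X l D := by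
  induction n with
  | zero =>
    intro D St _ _ hl _ _
    obtain ⟨l, hl, hn⟩ := hl
    exact ⟨l, hl, hn, by
      have := List.length_eq_zero_iff.1 hn
      subst this
      trivial⟩
  | succ n ih =>
    intro D St hSt hD hl hcard hInv
    obtain ⟨l0, hl0, hn0⟩ := hl
    obtain ⟨S0, l0, rfl⟩ : ∃ S l, l0 = S :: l := by
      cases l0 with
      | nil => simp at hn0
      | cons S l => exact ⟨S, l, rfl⟩
    have hSt' := hSt
    obtain ⟨F, a, I, hok, rfl⟩ := hSt
    obtain ⟨J, hJ, hokJ, hcov, hcell⟩ := reduce (ν := ν) hok D hD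
    obtain ⟨S, l, hl, hsit⟩ := choice hirr htr hmon hinj hokJ D hcov hcell hl0
    obtain ⟨Y, hY, hYsub, hDY, hYG⟩ := hsit.step
    have hYSt : Y ⊆ Stc ν F a I := by
      refine hYsub.trans ?_
      rintro z ⟨i, hi, hc⟩
      exact ⟨i, hJ hi, hc⟩
    have hcard' : (D \ S).card = 3 * n := by
      rw [Finset.card_sdiff_of_subset hl.1, hcard, hl.2.1]; omega
    have hlen : ∀ (l : List (Finset α)) (D : Finset α), IsPk r l D → D.card = 3 * l.length := by
      intro l
      induction l with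
      | nil => intro D h; simp only [IsPk] at h; subst h; simp
      | cons S l ihl =>
        intro D h
        have h1 := ihl _ h.2.2.2
        have h2 := Finset.card_sdiff_add_card_eq_card h.1
        rw [h.2.1] at h2
        simp only [List.length_cons]
        omega
    obtain ⟨l', hl', hn', hg'⟩ := ih (D \ S) Y hY
      (fun z hz => hDY z (Finset.mem_sdiff.1 hz).1 (Finset.mem_sdiff.1 hz).2)
      ⟨l, hl.2.2.2, by have := hlen l _ hl.2.2.2; omega⟩ hcard' (by
        intro l' hl' z hz hzD hzY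
        have hS' : ∀ w ∈ S, w ∈ Y → Blk r l' w := by
          intro w hw hwY
          by_contra hb
          exact hYG w ⟨hw, l', hl', hb⟩ hwY
        by_cases hzS : z ∈ S
        · exact hS' z hzS hzY
        · have hzD' : z ∉ D := fun h => hzD (Finset.mem_sdiff.2 ⟨h, hzS⟩)
          obtain ⟨s, hs, w, hw, hwz⟩ := hInv (S :: l') ⟨hl.1, hl.2.1, hl.2.2.1, hl'⟩ z hz hzD'
            (hYSt hzY)
          rcases hs with rfl | ⟨hs, _⟩
          · obtain ⟨s', hs', w', hw', h'⟩ := hS' w hw (hY.down htr hmon hwz hzY)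
            exact ⟨s', hs', w', hw', htr h' hwz⟩
          · exact ⟨s, hs, w, hw, hwz⟩)
    have hpk : IsPk r (S :: l') D := ⟨hl.1, hl.2.1, hl.2.2.1, hl'⟩
    exact ⟨S :: l', hpk, by simp [hn'], ⟨_, hSt', hD, hInv _ hpk⟩, hg'⟩

theorem IsPk.card {l : List (Finset α)} : ∀ {D : Finset α}, IsPk r l D → D.card = 3 * l.length := by
  induction l with
  | nil => intro D h; simp only [IsPk] at h; subst h; simp
  | cons S l ihl =>
    intro D h
    have h1 := ihl h.2.2.2
    have h2 := Finset.card_sdiff_add_card_eq_card h.1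
    rw [h.2.1] at h2
    simp only [List.length_cons]
    omega

theorem exists_good_top (hirr : ∀ x : α, ¬ r x x) (htr : ∀ ⦃x y z : α⦄, r x y → r y z → r x z)
    (hmon : ∀ ⦃x y⦄, r x y → ν x < ν y) (hinj : Function.Injective ν) (X : Finset α)
    {l0 : List (Finset α)} (h0 : IsPk r l0 X) :
    ∃ l, IsPk r l X ∧ l.length = l0.length ∧ Good r ν X l X := by
  classical
  refine exists_good hirr htr hmon hinj X l0.length X
    (Stc ν (fun _ => Set.univ) (fun _ => X.sup ν + 1) {0}) ⟨_, _, _, ⟨by simp, ?_, ?_⟩, rfl⟩ ?_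
    ⟨l0, h0, rfl⟩ h0.card ?_
  · intro i _
    exact Or.inl rfl
  · intro i _ j _ _
    exact ⟨subset_rfl, le_rfl⟩
  · intro z hz
    exact ⟨0, by simp, trivial, Nat.lt_succ_of_le (Finset.le_sup (f := ν) hz)⟩
  · intro l _ z hz hz'
    exact absurd hz hz'

end Crest.Agent.R286.T3
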