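import Mathlib

set_option autoImplicit false
set_option linter.unusedVariables false

namespace Crest.Agent.R286.Tst

open Finset

/-- frames of the staircase -/
def IsFrame {α : Type*} (R : α → α → Prop) (F : Set α) : Prop :=
  F = Set.univ ∨ F = ∅ ∨ ∃ p q, F = {z | R z p ∨ R z q}

/-- staircase with (at most) three stairs -/
structure St3 (α : Type*) where
  F0 : Set α
  F1 : Set α
  F2 : Set α
  b1 : ℕ
  b2 : ℕ
  b3 : ℕ

variable {α : Type*}

def St3.Mem (ν : α → ℕ) (s : St3 α) (z : α) : Prop :=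
  (z ∈ s.F0 ∧ ν z < s.b1) ∨ (z ∈ s.F1 ∧ ν z < s.b2) ∨ (z ∈ s.F2 ∧ ν z < s.b3)

/-- the three cells -/
def St3.cell (ν : α → ℕ) (s : St3 α) (i : Fin 3) (z : α) : Prop :=
  match i with
  | 0 => z ∈ s.F0 ∧ z ∉ s.F1 ∧ ν z < s.b1
  | 1 => z ∈ s.F1 ∧ z ∉ s.F2 ∧ s.b1 ≤ ν z ∧ ν z < s.b2
  | 2 => z ∈ s.F2 ∧ s.b2 ≤ ν z ∧ ν z < s.b3

structure Valid (R : α → α → Prop) (ν : α → ℕ) (D : Finset α) (s : St3 α) : Prop where
  f0 : IsFrame R s.F0
  f1 : IsFrame R s.F1
  f2 : IsFrame R s.F2
  n1 : s.F1 ⊆ s.F0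
  n2 : s.F2 ⊆ s.F1
  t1 : s.b1 ≤ s.b2
  t2 : s.b2 ≤ s.b3
  inc : ∀ z ∈ D, s.Mem ν z

variable {R : α → α → Prop} {ν : α → ℕ}

theorem IsFrame.down (htr : ∀ a b c, R a b → R b c → R a c) {F : Set α} (hF : IsFrame R F)
    {a b : α} (hab : R a b) (hb : b ∈ F) : a ∈ F := by
  rcases hF with h | h | ⟨p, q, h⟩
  · rw [h]; trivial
  · rw [h] at hb; exact absurd hb (by simp)
  · rw [h] at hb ⊢
    rcases hb with hb | hb
    · exact Or.inl (htr _ _ _ hab hb)
    · exact Or.inr (htr _ _ _ hab hb)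

/-- the staircase set is a down-set -/
theorem Valid.mem_down (htr : ∀ a b c, R a b → R b c → R a c) (hmono : ∀ a b, R a b → ν a < ν b)
    {D : Finset α} {s : St3 α} (hs : Valid R ν D s) {a b : α} (hab : R a b) (hb : s.Mem ν b) :
    s.Mem ν a := by
  have := hmono a b hab
  rcases hb with ⟨h1, h2⟩ | ⟨h1, h2⟩ | ⟨h1, h2⟩
  · exact Or.inl ⟨hs.f0.down htr hab h1, by omega⟩
  · exact Or.inr (Or.inl ⟨hs.f1.down htr hab h1, by omega⟩)
  · exact Or.inr (Or.inr ⟨hs.f2.down htr hab h1, by omega⟩)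

theorem Valid.mem_F0 {D : Finset α} {s : St3 α} (hs : Valid R ν D s) {z : α} (hz : z ∈ D) :
    z ∈ s.F0 ∧ ν z < s.b3 := by
  have h1 := hs.t1
  have h2 := hs.t2
  rcases hs.inc z hz with ⟨h, h'⟩ | ⟨h, h'⟩ | ⟨h, h'⟩
  · exact ⟨h, by omega⟩
  · exact ⟨hs.n1 h, by omega⟩
  · exact ⟨hs.n1 (hs.n2 h), h'⟩

/-- cells are disjoint -/
theorem cell_disj {D : Finset α} {s : St3 α} (hs : Valid R ν D s) {i j : Fin 3} {z : α}
    (hi : s.cell ν i z) (hj : s.cell ν j z) : i = j := by
  have h1 := hs.t1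
  have h2 := hs.t2
  have n2 : z ∈ s.F2 → z ∈ s.F1 := fun h => hs.n2 h
  fin_cases i <;> fin_cases j <;> simp only [St3.cell] at hi hj <;> first | rfl | (exfalso; tauto) |
    (exfalso; omega)

/-- cells are up-closed in D -/
theorem cell_up (htr : ∀ a b c, R a b → R b c → R a c) (hmono : ∀ a b, R a b → ν a < ν b)
    {D : Finset α} {s : St3 α} (hs : Valid R ν D s) {i : Fin 3} {z w : α}
    (hi : s.cell ν i z) (hzw : R z w) (hw : w ∈ D) : s.cell ν i w := by
  have h1 := hs.t1
  have h2 := hs.t2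
  have hlt := hmono z w hzw
  have n1 := @(hs.n1)
  have n2 := @(hs.n2)
  have d0 : w ∈ s.F0 → z ∈ s.F0 := fun h => hs.f0.down htr hzw h
  have d1 : w ∈ s.F1 → z ∈ s.F1 := fun h => hs.f1.down htr hzw h
  have d2 : w ∈ s.F2 → z ∈ s.F2 := fun h => hs.f2.down htr hzw h
  have hm := hs.inc w hw
  have hF0 := (hs.mem_F0 hw).1
  unfold St3.Mem at hm
  fin_cases i <;> simp only [St3.cell] at hi ⊢
  · obtain ⟨a1, a2, a3⟩ := hi
    have b1 : w ∉ s.F1 := fun h => a2 (d1 h)
    have b2 : w ∉ s.F2 := fun h => b1 (n2 h)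
    rcases hm with h | h | h
    · exact ⟨h.1, b1, h.2⟩
    · exact absurd h.1 b1
    · exact absurd h.1 b2
  · obtain ⟨a1, a2, a3, a4⟩ := hi
    have b2 : w ∉ s.F2 := fun h => a2 (d2 h)
    rcases hm with h | h | h
    · exfalso; omega
    · exact ⟨h.1, b2, by omega, h.2⟩
    · exact absurd h.1 b2
  · obtain ⟨a1, a2, a3⟩ := hi
    rcases hm with h | h | h
    · exfalso; omega
    · exfalso; omega
    · exact ⟨h.1, by omega, h.2⟩

/-! ### reduction -/

/-- one stair -/
def Red1 (s : St3 α) : Prop := s.F1 = ∅ ∧ s.F2 = ∅ ∧ s.b2 = s.b1 ∧ s.b3 = s.b1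

/-- two stairs, both cells alive -/
def Red2 (ν : α → ℕ) (D : Finset α) (s : St3 α) : Prop :=
  s.F2 = ∅ ∧ s.b3 = s.b2 ∧ (∃ z ∈ D, s.cell ν 0 z) ∧ ∃ z ∈ D, s.cell ν 1 z

def Red3 (ν : α → ℕ) (D : Finset α) (s : St3 α) : Prop :=
  (∃ z ∈ D, s.cell ν 0 z) ∧ (∃ z ∈ D, s.cell ν 1 z) ∧ ∃ z ∈ D, s.cell ν 2 z

theorem isFrame_empty : IsFrame R (∅ : Set α) := Or.inr (Or.inl rfl)

/-- reduce two stairs -/
theorem reduce2 (hdec : ∀ a b, R a b → ν a < ν b) {D : Finset α} {s : St3 α}
    (hs : Valid R ν D s) (hF2 : s.F2 = ∅) (hb3 : s.b3 = s.b2) :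
    ∃ s' : St3 α, Valid R ν D s' ∧ (∀ z, s'.Mem ν z → s.Mem ν z) ∧
      (Red1 s' ∨ Red2 ν D s') := by
  classical
  by_cases h0 : ∃ z ∈ D, s.cell ν 0 z
  · by_cases h1 : ∃ z ∈ D, s.cell ν 1 z
    · exact ⟨s, hs, fun z h => h, Or.inr ⟨hF2, hb3, h0, h1⟩⟩
    · -- drop stair 1
      refine ⟨⟨s.F0, ∅, ∅, s.b1, s.b1, s.b1⟩, ⟨hs.f0, isFrame_empty, isFrame_empty,
        Set.empty_subset _, Set.empty_subset _, le_rfl, le_rfl, ?_⟩, ?_, Or.inl ⟨rfl, rfl, rfl, rfl⟩⟩
      · intro z hz
        left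
        push Not at h1
        have h1z := h1 z hz
        have hm := hs.inc z hz
        simp only [St3.Mem, St3.cell, hF2, Set.mem_empty_iff_false, false_and, or_false,
          not_false_eq_true, true_and] at hm h1z ⊢
        rcases hm with h | h
        · exact h
        · refine ⟨hs.n1 h.1, ?_⟩
          by_contra hc
          exact h1z ⟨h.1, by omega, h.2⟩
      · intro z hz
        simp only [St3.Mem, Set.mem_empty_iff_false, false_and, or_false] at hz
        exact Or.inl hz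
  · -- drop stair 0
    refine ⟨⟨s.F1, ∅, ∅, s.b2, s.b2, s.b2⟩, ⟨hs.f1, isFrame_empty, isFrame_empty,
      Set.empty_subset _, Set.empty_subset _, le_rfl, le_rfl, ?_⟩, ?_, Or.inl ⟨rfl, rfl, rfl, rfl⟩⟩
    · intro z hz
      left
      push Not at h0
      have h0z := h0 z hz
      have hm := hs.inc z hz
      have := hs.t1
      simp only [St3.Mem, St3.cell, hF2, Set.mem_empty_iff_false, false_and, or_false] at hm h0z ⊢
      by_cases hF1 : z ∈ s.F1
      · rcases hm with h | h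
        · exact ⟨hF1, by omega⟩
        · exact h
      · exfalso
        rcases hm with h | h
        · exact h0z ⟨h.1, hF1, h.2⟩
        · exact hF1 h.1
    · intro z hz
      simp only [St3.Mem, Set.mem_empty_iff_false, false_and, or_false] at hz
      exact Or.inr (Or.inl hz)

theorem reduce (hdec : ∀ a b, R a b → ν a < ν b) {D : Finset α} {s : St3 α}
    (hs : Valid R ν D s) :
    ∃ s' : St3 α, Valid R ν D s' ∧ (∀ z, s'.Mem ν z → s.Mem ν z) ∧
      (Red1 s' ∨ Red2 ν D s' ∨ Red3 ν D s') := by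
  classical
  have key : ∀ s' : St3 α, Valid R ν D s' → (∀ z, s'.Mem ν z → s.Mem ν z) → s'.F2 = ∅ →
      s'.b3 = s'.b2 → ∃ s' : St3 α, Valid R ν D s' ∧ (∀ z, s'.Mem ν z → s.Mem ν z) ∧
      (Red1 s' ∨ Red2 ν D s' ∨ Red3 ν D s') := by
    intro s' h1 h2 h3 h4
    obtain ⟨t, ht, hts, hr⟩ := reduce2 hdec h1 h3 h4
    exact ⟨t, ht, fun z hz => h2 z (hts z hz), by tauto⟩
  by_cases h0 : ∃ z ∈ D, s.cell ν 0 z
  · by_cases h1 : ∃ z ∈ D, s.cell ν 1 z
    · by_cases h2 : ∃ z ∈ D, s.cell ν 2 z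
      · exact ⟨s, hs, fun z h => h, Or.inr (Or.inr ⟨h0, h1, h2⟩)⟩
      · -- drop stair 2
        apply key ⟨s.F0, s.F1, ∅, s.b1, s.b2, s.b2⟩ ⟨hs.f0, hs.f1, isFrame_empty, hs.n1,
          Set.empty_subset _, hs.t1, le_rfl, ?_⟩ ?_ rfl rfl
        · intro z hz
          push Not at h2
          have h2z := h2 z hz
          have hm := hs.inc z hz
          have n2 : z ∈ s.F2 → z ∈ s.F1 := fun h => hs.n2 h
          simp only [St3.Mem, St3.cell, Set.mem_empty_iff_false, false_and, or_false]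
            at hm h2z ⊢
          rcases hm with h | h | h
          · exact Or.inl h
          · exact Or.inr h
          · refine Or.inr ⟨n2 h.1, ?_⟩
            by_contra hc
            exact h2z ⟨h.1, by omega, h.2⟩
        · intro z hz
          simp only [St3.Mem, Set.mem_empty_iff_false, false_and, or_false] at hz
          rcases hz with h | h
          · exact Or.inl h
          · exact Or.inr (Or.inl h)
    · -- drop stair 1
      apply key ⟨s.F0, s.F2, ∅, s.b1, s.b3, s.b3⟩ ⟨hs.f0, hs.f2, isFrame_empty,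
        fun z h => hs.n1 (hs.n2 h), Set.empty_subset _, hs.t1.trans hs.t2, le_rfl, ?_⟩ ?_ rfl rfl
      · intro z hz
        push Not at h1
        have h1z := h1 z hz
        have hm := hs.inc z hz
        have n1 : z ∈ s.F1 → z ∈ s.F0 := fun h => hs.n1 h
        have t1 := hs.t1
        have t2 := hs.t2
        simp only [St3.Mem, St3.cell, Set.mem_empty_iff_false, false_and, or_false]
          at hm h1z ⊢
        rcases hm with h | h | h
        · exact Or.inl h
        · by_cases hz2 : z ∈ s.F2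
          · exact Or.inr ⟨hz2, by omega⟩
          · refine Or.inl ⟨n1 h.1, ?_⟩
            by_contra hc
            exact h1z ⟨h.1, hz2, by omega, h.2⟩
        · exact Or.inr h
      · intro z hz
        simp only [St3.Mem, Set.mem_empty_iff_false, false_and, or_false] at hz
        rcases hz with h | h
        · exact Or.inl h
        · exact Or.inr (Or.inr h)
  · -- drop stair 0
    apply key ⟨s.F1, s.F2, ∅, s.b2, s.b3, s.b3⟩ ⟨hs.f1, hs.f2, isFrame_empty,
      fun z h => hs.n2 h, Set.empty_subset _, hs.t2, le_rfl, ?_⟩ ?_ rfl rfl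
    · intro z hz
      push Not at h0
      have h0z := h0 z hz
      have hm := hs.inc z hz
      have t1 := hs.t1
      simp only [St3.Mem, St3.cell, Set.mem_empty_iff_false, false_and, or_false]
        at hm h0z ⊢
      rcases hm with h | h | h
      · by_cases hz1 : z ∈ s.F1
        · exact Or.inl ⟨hz1, by omega⟩
        · exact absurd ⟨h.1, hz1, h.2⟩ h0z
      · exact Or.inl h
      · exact Or.inr h
    · intro z hz
      simp only [St3.Mem, Set.mem_empty_iff_false, false_and, or_false] at hz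
      rcases hz with h | h
      · exact Or.inr (Or.inl h)
      · exact Or.inr (Or.inr h)

/-! ### the potential -/

open Classical in
/-- cells hit by `P` -/
noncomputable def hset (ν : α → ℕ) (s : St3 α) (P : Finset α) : Finset (Fin 3) :=
  Finset.univ.filter (fun i => ∃ z ∈ P, s.cell ν i z)

theorem mem_hset {s : St3 α} {P : Finset α} {i : Fin 3} :
    i ∈ hset ν s P ↔ ∃ z ∈ P, s.cell ν i z := by
  classical
  simp [hset]

/-- `φ P ≤ φ Q` -/
def LeP (ν : α → ℕ) (s : St3 α) (P Q : Finset α) : Prop :=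
  (hset ν s P).card < (hset ν s Q).card ∨
    ((hset ν s P).card = (hset ν s Q).card ∧ ∑ z ∈ P, ν z ≤ ∑ z ∈ Q, ν z)

theorem exists_maxP (s : St3 α) (𝓢 : Finset (Finset α)) (h𝓢 : 𝓢.Nonempty) :
    ∃ S ∈ 𝓢, ∀ Q ∈ 𝓢, LeP ν s Q S := by
  obtain ⟨S, hS, hmax⟩ := Finset.exists_max_image 𝓢
    (fun P => toLex ((hset ν s P).card, ∑ z ∈ P, ν z)) h𝓢
  refine ⟨S, hS, fun Q hQ => ?_⟩
  have := hmax Q hQ
  rw [Prod.Lex.toLex_le_toLex] at this
  exact this

theorem exists_top (htr : ∀ a b c, R a b → R b c → R a c) (hmono : ∀ a b, R a b → ν a < ν b)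
    {D : Finset α} {s : St3 α} (hs : Valid R ν D s) {i : Fin 3} (hi : ∃ z ∈ D, s.cell ν i z) :
    ∃ y ∈ D, s.cell ν i y ∧ (∀ z ∈ D, s.cell ν i z → ν z ≤ ν y) ∧ ∀ w ∈ D, ¬ R y w := by
  classical
  obtain ⟨z, hz, hcz⟩ := hi
  obtain ⟨y, hy, hmax⟩ := Finset.exists_max_image (D.filter (fun z => s.cell ν i z)) ν
    ⟨z, by simp [hz, hcz]⟩
  simp only [Finset.mem_filter] at hy hmax
  refine ⟨y, hy.1, hy.2, fun z hz hc => hmax z ⟨hz, hc⟩, fun w hw hyw => ?_⟩
  have h1 := cell_up htr hmono hs hy.2 hyw hw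
  have h2 := hmax w ⟨hw, h1⟩
  have h3 := hmono _ _ hyw
  omega

theorem exists_above (htr : ∀ a b c, R a b → R b c → R a c) (hmono : ∀ a b, R a b → ν a < ν b)
    {D : Finset α} {z : α} (hz : z ∈ D) :
    ∃ y ∈ D, (z = y ∨ R z y) ∧ ∀ w ∈ D, ¬ R y w := by
  classical
  obtain ⟨y, hy, hmax⟩ := Finset.exists_max_image (D.filter (fun y => z = y ∨ R z y)) ν
    ⟨z, by simp [hz]⟩
  simp only [Finset.mem_filter] at hy hmax
  refine ⟨y, hy.1, hy.2, fun w hw hyw => ?_⟩
  have h1 : z = w ∨ R z w := by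
    rcases hy.2 with h | h
    · right; rw [h]; exact hyw
    · right; exact htr _ _ _ h hyw
  have h2 := hmax w ⟨hw, h1⟩
  have h3 := hmono _ _ hyw
  omega

section alphabeta

variable [DecidableEq α]

theorem alpha (htr : ∀ a b c, R a b → R b c → R a c) (hmono : ∀ a b, R a b → ν a < ν b)
    {D : Finset α} {s : St3 α} (hs : Valid R ν D s) {S : Finset α} {g : α} (hgS : g ∈ S)
    (hSD : S ⊆ D)
    (hmax : ∀ y ∈ D, (∀ w ∈ D, ¬ R y w) → y ∉ S → LeP ν s (insert y (S.erase g)) S)
    {i : Fin 3} (hi : ∃ z ∈ D, s.cell ν i z) (hiP : ∀ z ∈ S.erase g, ¬ s.cell ν i z) :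
    ∃ l, s.cell ν l g ∧ ∀ z ∈ D, s.cell ν l z → ν z ≤ ν g := by
  classical
  obtain ⟨y, hyD, hyc, hyt, hym⟩ := exists_top htr hmono hs hi
  by_cases hyg : y = g
  · subst hyg
    exact ⟨i, hyc, hyt⟩
  · have hyP : y ∉ S.erase g := fun h => hiP y h hyc
    have hyS : y ∉ S := fun h => hyP (Finset.mem_erase.2 ⟨hyg, h⟩)
    have hle := hmax y hyD hym hyS
    set H := hset ν s (S.erase g) with hH
    have hiH : i ∉ H := by
      rw [hH, mem_hset]; push Not; exact hiP
    have hc1 : H.card + 1 ≤ (hset ν s (insert y (S.erase g))).card := by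
      rw [← Finset.card_insert_of_notMem hiH]
      apply Finset.card_le_card
      intro m hm
      rw [Finset.mem_insert] at hm
      rw [mem_hset]
      rcases hm with rfl | hm
      · exact ⟨y, Finset.mem_insert_self _ _, hyc⟩
      · rw [hH, mem_hset] at hm
        obtain ⟨z, hz, hc⟩ := hm
        exact ⟨z, Finset.mem_insert_of_mem hz, hc⟩
    have hc2 : H.card + 1 ≤ (hset ν s S).card := by
      rcases hle with h | h <;> omega
    -- g hits a new cell
    have hex : ∃ l, s.cell ν l g ∧ l ∉ H := by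
      by_contra hcon
      push Not at hcon
      have : hset ν s S ⊆ H := by
        intro m hm
        rw [mem_hset] at hm
        obtain ⟨z, hz, hc⟩ := hm
        by_cases hzg : z = g
        · subst hzg; exact hcon m hc
        · rw [hH, mem_hset]
          exact ⟨z, Finset.mem_erase.2 ⟨hzg, hz⟩, hc⟩
      have := Finset.card_le_card this
      omega
    obtain ⟨l, hlg, hlH⟩ := hex
    obtain ⟨y', hyD', hyc', hyt', hym'⟩ := exists_top htr hmono hs ⟨g, hSD hgS, hlg⟩
    by_cases hyg' : y' = g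
    · subst hyg'
      exact ⟨l, hlg, hyt'⟩
    · have hlP : ∀ z ∈ S.erase g, ¬ s.cell ν l z := by
        intro z hz hc
        exact hlH (by rw [hH, mem_hset]; exact ⟨z, hz, hc⟩)
      have hyP' : y' ∉ S.erase g := fun h => hlP y' h hyc'
      have hyS' : y' ∉ S := fun h => hyP' (Finset.mem_erase.2 ⟨hyg', h⟩)
      have hle' := hmax y' hyD' hym' hyS'
      have hc3 : H.card + 1 ≤ (hset ν s (insert y' (S.erase g))).card := by
        rw [← Finset.card_insert_of_notMem hlH]
        apply Finset.card_le_card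
        intro m hm
        rw [Finset.mem_insert] at hm
        rw [mem_hset]
        rcases hm with rfl | hm
        · exact ⟨y', Finset.mem_insert_self _ _, hyc'⟩
        · rw [hH, mem_hset] at hm
          obtain ⟨z, hz, hc⟩ := hm
          exact ⟨z, Finset.mem_insert_of_mem hz, hc⟩
      have hc4 : (hset ν s S).card ≤ H.card + 1 := by
        rw [← Finset.card_insert_of_notMem hlH]
        apply Finset.card_le_card
        intro m hm
        rw [mem_hset] at hm
        obtain ⟨z, hz, hc⟩ := hm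
        rw [Finset.mem_insert]
        by_cases hzg : z = g
        · subst hzg
          exact Or.inl (cell_disj hs hc hlg)
        · right
          rw [hH, mem_hset]
          exact ⟨z, Finset.mem_erase.2 ⟨hzg, hz⟩, hc⟩
      have hsum : ∑ z ∈ insert y' (S.erase g), ν z ≤ ∑ z ∈ S, ν z := by
        rcases hle' with h | h
        · omega
        · exact h.2
      rw [Finset.sum_insert hyP', ← Finset.add_sum_erase _ _ hgS] at hsum
      refine ⟨l, hlg, fun z hz hc => ?_⟩
      have := hyt' z hz hc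
      omega

theorem beta {D : Finset α} {s : St3 α} {S : Finset α} {g : α}
    (hinj : Function.Injective ν) (hgS : g ∈ S) (hSD : S ⊆ D)
    (hmax : ∀ y ∈ D, (∀ w ∈ D, ¬ R y w) → y ∉ S → LeP ν s (insert y (S.erase g)) S)
    (hall : ∀ i, (∃ z ∈ D, s.cell ν i z) → ∃ z ∈ S.erase g, s.cell ν i z) :
    ∀ y ∈ D, (∀ w ∈ D, ¬ R y w) → y ∉ S → ν y < ν g := by
  classical
  intro y hyD hym hyS
  have hle := hmax y hyD hym hyS
  have hyP : y ∉ S.erase g := fun h => hyS (Finset.mem_of_mem_erase h)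
  have h1 : hset ν s S ⊆ hset ν s (insert y (S.erase g)) := by
    intro m hm
    rw [mem_hset] at hm ⊢
    obtain ⟨z, hz, hc⟩ := hm
    obtain ⟨z', hz', hc'⟩ := hall m ⟨z, hSD hz, hc⟩
    exact ⟨z', Finset.mem_insert_of_mem hz', hc'⟩
  have h2 := Finset.card_le_card h1
  have hsum : ∑ z ∈ insert y (S.erase g), ν z ≤ ∑ z ∈ S, ν z := by
    rcases hle with h | h
    · omega
    · exact h.2
  rw [Finset.sum_insert hyP, ← Finset.add_sum_erase _ _ hgS] at hsum
  have hne : ν y ≠ ν g := fun h => hyS (hinj h ▸ hgS)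
  omega

theorem beta' (htr : ∀ a b c, R a b → R b c → R a c) (hmono : ∀ a b, R a b → ν a < ν b)
    {D : Finset α} {s : St3 α} {S : Finset α} {g : α}
    (hinj : Function.Injective ν) (hgS : g ∈ S) (hSD : S ⊆ D)
    (hmax : ∀ y ∈ D, (∀ w ∈ D, ¬ R y w) → y ∉ S → LeP ν s (insert y (S.erase g)) S)
    (hall : ∀ i, (∃ z ∈ D, s.cell ν i z) → ∃ z ∈ S.erase g, s.cell ν i z) :
    ∀ z ∈ D \ S, ν z < ν g ∨ ∃ p ∈ S.erase g, R z p := by
  intro z hz
  rw [Finset.mem_sdiff] at hz
  obtain ⟨y, hyD, hzy, hym⟩ := exists_above htr hmono hz.1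
  by_cases hyS : y ∈ S
  · have hzy' : R z y := by
      rcases hzy with h | h
      · exact absurd (h ▸ hyS) hz.2
      · exact h
    by_cases hyg : y = g
    · subst hyg
      exact Or.inl (hmono _ _ hzy')
    · exact Or.inr ⟨y, Finset.mem_erase.2 ⟨hyg, hyS⟩, hzy'⟩
  · have h1 := beta hinj hgS hSD hmax hall y hyD hym hyS
    left
    rcases hzy with h | h
    · rw [h]; exact h1
    · exact (hmono _ _ h).trans h1

/-- lowering of one threshold -/
theorem pickb {D S : Finset α} (hinj : Function.Injective ν) (G : α → Prop) (c : α → Prop) (b : ℕ)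
    (hcb : ∀ z, c z → ν z < b) (hSD : S ⊆ D)
    (hG : ∀ g ∈ S, G g → c g → ∀ z ∈ D, c z → ν z ≤ ν g) :
    ∃ b', b' ≤ b ∧ (∀ g ∈ S, G g → c g → b' ≤ ν g) ∧ (∀ z ∈ D \ S, c z → ν z < b') ∧
      (b' = b ∨ ∃ g ∈ S, c g ∧ b' = ν g) := by
  classical
  by_cases h : ∃ g ∈ S, G g ∧ c g
  · obtain ⟨g, hgS, hGg, hcg⟩ := h
    refine ⟨ν g, (hcb g hcg).le, fun g' hg' hG' hc' => hG g' hg' hG' hc' g (hSD hgS) hcg, ?_,
      Or.inr ⟨g, hgS, hcg, rfl⟩⟩
    intro z hz hcz
    rw [Finset.mem_sdiff] at hz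
    have h1 := hG g hgS hGg hcg z hz.1 hcz
    have h2 : ν z ≠ ν g := fun h => hz.2 (hinj h ▸ hgS)
    omega
  · push Not at h
    refine ⟨b, le_rfl, fun g hg hGg hcg => absurd hcg (h g hg hGg), fun z _ hcz => hcb z hcz,
      Or.inl rfl⟩

/-- the update when every element of `G` is of type alpha -/
theorem updAlpha {D S : Finset α} {s : St3 α} (hinj : Function.Injective ν)
    (hs : Valid R ν D s) (hSD : S ⊆ D) (G : α → Prop)
    (hG : ∀ g ∈ S, G g → ∃ l, s.cell ν l g ∧ ∀ z ∈ D, s.cell ν l z → ν z ≤ ν g) :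
    ∃ s' : St3 α, Valid R ν (D \ S) s' ∧ (∀ z, s'.Mem ν z → s.Mem ν z) ∧
      ∀ g ∈ S, G g → ¬ s'.Mem ν g := by
  have hG' : ∀ i : Fin 3, ∀ g ∈ S, G g → s.cell ν i g → ∀ z ∈ D, s.cell ν i z → ν z ≤ ν g := by
    intro i g hg hGg hc z hz hcz
    obtain ⟨l, hl, hmaxl⟩ := hG g hg hGg
    have := cell_disj hs hc hl
    subst this
    exact hmaxl z hz hcz
  obtain ⟨b1', e1, e2, e3, e4⟩ := pickb hinj G (s.cell ν 0) s.b1 (fun z hz => hz.2.2) hSD (hG' 0)
  obtain ⟨b2', f1, f2, f3, f4⟩ := pickb hinj G (s.cell ν 1) s.b2 (fun z hz => hz.2.2.2) hSD (hG' 1)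
  obtain ⟨b3', g1, g2, g3, g4⟩ := pickb hinj G (s.cell ν 2) s.b3 (fun z hz => hz.2.2) hSD (hG' 2)
  have t1 := hs.t1
  have t2 := hs.t2
  have hb2 : s.b1 ≤ b2' := by
    rcases f4 with h | ⟨g, _, hc, h⟩
    · omega
    · have := hc.2.2.1; omega
  have hb3 : s.b2 ≤ b3' := by
    rcases g4 with h | ⟨g, _, hc, h⟩
    · omega
    · have := hc.2.1; omega
  refine ⟨⟨s.F0, s.F1, s.F2, b1', b2', b3'⟩, ⟨hs.f0, hs.f1, hs.f2, hs.n1, hs.n2, ?_, ?_, ?_⟩, ?_, ?_⟩
  · simp only; omega
  · simp only; omega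
  · intro z hz
    have hzD : z ∈ D := (Finset.mem_sdiff.1 hz).1
    have hm := hs.inc z hzD
    have h0 := e3 z hz
    have h1 := f3 z hz
    have h2 := g3 z hz
    simp only [St3.Mem, St3.cell] at hm h0 h1 h2 ⊢
    by_cases hF1 : z ∈ s.F1
    · by_cases hF2 : z ∈ s.F2
      · right; right
        refine ⟨hF2, ?_⟩
        by_cases hlt : ν z < s.b2
        · omega
        · apply h2
          refine ⟨hF2, by omega, ?_⟩
          rcases hm with h | h | h
          · omega
          · omega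
          · exact h.2
      · right; left
        refine ⟨hF1, ?_⟩
        by_cases hlt : ν z < s.b1
        · omega
        · apply h1
          refine ⟨hF1, hF2, by omega, ?_⟩
          rcases hm with h | h | h
          · omega
          · exact h.2
          · exact absurd h.1 hF2
    · have hF2 : z ∉ s.F2 := fun h => hF1 (hs.n2 h)
      left
      rcases hm with h | h | h
      · exact ⟨h.1, h0 ⟨h.1, hF1, h.2⟩⟩
      · exact absurd h.1 hF1
      · exact absurd h.1 hF2
  · intro z hz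
    simp only [St3.Mem] at hz ⊢
    rcases hz with h | h | h
    · exact Or.inl ⟨h.1, by omega⟩
    · exact Or.inr (Or.inl ⟨h.1, by omega⟩)
    · exact Or.inr (Or.inr ⟨h.1, by omega⟩)
  · intro g hg hGg hmem
    obtain ⟨l, hl, _⟩ := hG g hg hGg
    have h0 := e2 g hg hGg
    have h1 := f2 g hg hGg
    have h2 := g2 g hg hGg
    have n2 : g ∈ s.F2 → g ∈ s.F1 := fun h => hs.n2 h
    simp only [St3.Mem] at hmem
    fin_cases l
    · have h0' := h0 hl
      simp only [St3.cell] at hl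
      rcases hmem with h | h | h
      · omega
      · exact hl.2.1 h.1
      · exact hl.2.1 (n2 h.1)
    · have h1' := h1 hl
      simp only [St3.cell] at hl
      rcases hmem with h | h | h
      · omega
      · omega
      · exact hl.2.1 h.1
    · have h2' := h2 hl
      simp only [St3.cell] at hl
      rcases hmem with h | h | h
      · omega
      · omega
      · omega

end alphabeta

/-! ### the step -/

section step

variable [DecidableEq α]

theorem isFrame_two (p q : α) : IsFrame R {z | R z p ∨ R z q} := Or.inr (Or.inr ⟨p, q, rfl⟩)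

theorem isFrame_one (p : α) : IsFrame R {z | R z p} :=
  Or.inr (Or.inr ⟨p, p, by ext z; simp⟩)

/-- beta update, one stair -/
theorem updBeta1 (htr : ∀ a b c, R a b → R b c → R a c) (hmono : ∀ a b, R a b → ν a < ν b)
    (hinj : Function.Injective ν)
    {D S : Finset α} {s : St3 α} (hs : Valid R ν D s) (hr : Red1 s) (hSD : S ⊆ D)
    (hSmax : ∀ z ∈ S, ∀ w ∈ D, ¬ R z w) (hcard : S.card = 3) (G : α → Prop)
    (hmax : ∀ g ∈ S, G g → ∀ y ∈ D, (∀ w ∈ D, ¬ R y w) → y ∉ S → LeP ν s (insert y (S.erase g)) S)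
    {g0 : α} (hg0 : g0 ∈ S) (hGg0 : G g0) :
    ∃ s' : St3 α, Valid R ν (D \ S) s' ∧ (∀ z, s'.Mem ν z → s.Mem ν z) ∧
      ∀ g ∈ S, G g → ¬ s'.Mem ν g := by
  classical
  obtain ⟨hF1, hF2, hb2, hb3⟩ := hr
  -- everything in D is in cell 0
  have hD0 : ∀ z ∈ D, z ∈ s.F0 ∧ ν z < s.b1 := by
    intro z hz
    have := hs.mem_F0 hz
    exact ⟨this.1, by omega⟩
  obtain ⟨g, hg, hgmin⟩ := Finset.exists_min_image (S.filter G) ν ⟨g0, by simp [hg0, hGg0]⟩
  simp only [Finset.mem_filter] at hg hgmin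
  obtain ⟨hgS, hGg⟩ := hg
  have hc2 : (S.erase g).card = 2 := by rw [Finset.card_erase_of_mem hgS, hcard]
  obtain ⟨p, q, hpq, hP⟩ := Finset.card_eq_two.1 hc2
  have hp : p ∈ S.erase g := by rw [hP]; simp
  have hq : q ∈ S.erase g := by rw [hP]; simp
  have hpS := Finset.mem_of_mem_erase hp
  have hqS := Finset.mem_of_mem_erase hq
  have hall : ∀ i, (∃ z ∈ D, s.cell ν i z) → ∃ z ∈ S.erase g, s.cell ν i z := by
    rintro i ⟨z, hz, hc⟩
    refine ⟨p, hp, ?_⟩
    fin_cases i
    · refine ⟨(hD0 p (hSD hpS)).1, ?_, (hD0 p (hSD hpS)).2⟩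
      rw [hF1]; simp
    · exfalso
      have := hc.1
      rw [hF1] at this; simp at this
    · exfalso
      have := hc.1
      rw [hF2] at this; simp at this
  have hb := beta' htr hmono hinj hgS hSD (hmax g hgS hGg) hall
  have hgb := (hD0 g (hSD hgS)).2
  have hfr : IsFrame R {z | R z p ∨ R z q} := isFrame_two p q
  refine ⟨⟨s.F0, {z | R z p ∨ R z q}, ∅, ν g, s.b1, s.b1⟩,
    ⟨hs.f0, hfr, isFrame_empty, ?_, Set.empty_subset _, hgb.le, le_rfl, ?_⟩, ?_, ?_⟩
  · rintro z (h | h)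
    · exact hs.f0.down htr h (hD0 p (hSD hpS)).1
    · exact hs.f0.down htr h (hD0 q (hSD hqS)).1
  · intro z hz
    have hzD : z ∈ D := (Finset.mem_sdiff.1 hz).1
    rcases hb z hz with h | ⟨r, hr, hzr⟩
    · exact Or.inl ⟨(hD0 z hzD).1, h⟩
    · right; left
      refine ⟨?_, (hD0 z hzD).2⟩
      rw [hP] at hr
      simp only [Finset.mem_insert, Finset.mem_singleton] at hr
      rcases hr with rfl | rfl
      · exact Or.inl hzr
      · exact Or.inr hzr
  · intro z hz
    simp only [St3.Mem, Set.mem_empty_iff_false, false_and, or_false] at hz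
    rcases hz with h | h
    · exact Or.inl ⟨h.1, by omega⟩
    · refine Or.inl ⟨?_, h.2⟩
      rcases h.1 with h' | h'
      · exact hs.f0.down htr h' (hD0 p (hSD hpS)).1
      · exact hs.f0.down htr h' (hD0 q (hSD hqS)).1
  · intro g' hg' hGg' hmem
    simp only [St3.Mem, Set.mem_empty_iff_false, false_and, or_false] at hmem
    rcases hmem with h | h
    · have := hgmin g' ⟨hg', hGg'⟩
      omega
    · rcases h.1 with h' | h'
      · exact hSmax g' hg' p (hSD hpS) h'
      · exact hSmax g' hg' q (hSD hqS) h'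

/-- beta update, two stairs -/
theorem updBeta2 (htr : ∀ a b c, R a b → R b c → R a c) (hmono : ∀ a b, R a b → ν a < ν b)
    (hinj : Function.Injective ν)
    {D S : Finset α} {s : St3 α} (hs : Valid R ν D s) (hr : Red2 ν D s) (hSD : S ⊆ D)
    (hSmax : ∀ z ∈ S, ∀ w ∈ D, ¬ R z w) (hcard : S.card = 3) (G : α → Prop)
    (hmax : ∀ g ∈ S, G g → ∀ y ∈ D, (∀ w ∈ D, ¬ R y w) → y ∉ S → LeP ν s (insert y (S.erase g)) S)
    {g0 : α} (hg0 : g0 ∈ S) (hGg0 : G g0)
    (hb0 : ∀ i, (∃ z ∈ D, s.cell ν i z) → ∃ z ∈ S.erase g0, s.cell ν i z) :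
    ∃ s' : St3 α, Valid R ν (D \ S) s' ∧ (∀ z, s'.Mem ν z → s.Mem ν z) ∧
      ∀ g ∈ S, G g → ¬ s'.Mem ν g := by
  classical
  obtain ⟨hF2, hb3, hne0, hne1⟩ := hr
  have t1 := hs.t1
  obtain ⟨g, hg, hgmin⟩ := Finset.exists_min_image
    (S.filter (fun g => G g ∧ ∀ i, (∃ z ∈ D, s.cell ν i z) → ∃ z ∈ S.erase g, s.cell ν i z)) ν
    ⟨g0, by simp only [Finset.mem_filter]; exact ⟨hg0, hGg0, hb0⟩⟩
  simp only [Finset.mem_filter] at hg hgmin
  obtain ⟨hgS, hGg, hall⟩ := hg
  have hc2 : (S.erase g).card = 2 := by rw [Finset.card_erase_of_mem hgS, hcard]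
  obtain ⟨p0, hp0, hc0⟩ := hall 0 hne0
  obtain ⟨p1, hp1, hc1⟩ := hall 1 hne1
  have hne : p0 ≠ p1 := by
    rintro rfl
    have := cell_disj hs hc0 hc1
    exact absurd this (by decide)
  have hP : S.erase g = {p0, p1} := by
    symm
    apply Finset.eq_of_subset_of_card_le
    · intro z hz
      simp only [Finset.mem_insert, Finset.mem_singleton] at hz
      rcases hz with rfl | rfl
      · exact hp0
      · exact hp1
    · rw [hc2, Finset.card_pair hne]
  have hp0S := Finset.mem_of_mem_erase hp0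
  have hp1S := Finset.mem_of_mem_erase hp1
  have hSel : ∀ z ∈ S, z = g ∨ z = p0 ∨ z = p1 := by
    intro z hz
    by_cases hzg : z = g
    · exact Or.inl hzg
    · right
      have : z ∈ S.erase g := Finset.mem_erase.2 ⟨hzg, hz⟩
      rw [hP] at this
      simpa using this
  -- elements of G that are not beta are alpha
  have halpha : ∀ g' ∈ S, G g' →
      ¬ (∀ i, (∃ z ∈ D, s.cell ν i z) → ∃ z ∈ S.erase g', s.cell ν i z) →
      ∃ l, s.cell ν l g' ∧ ∀ z ∈ D, s.cell ν l z → ν z ≤ ν g' := by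
    intro g' hg' hGg' hn
    push Not at hn
    obtain ⟨i, hi, hiP⟩ := hn
    exact alpha htr hmono hs hg' hSD (hmax g' hg' hGg') hi hiP
  have hb := beta' htr hmono hinj hgS hSD (hmax g hgS hGg) hall
  have hb' : ∀ z ∈ D \ S, ν z < ν g ∨ R z p0 ∨ R z p1 := by
    intro z hz
    rcases hb z hz with h | ⟨r, hr, hzr⟩
    · exact Or.inl h
    · right
      rw [hP] at hr
      simp only [Finset.mem_insert, Finset.mem_singleton] at hr
      rcases hr with rfl | rfl
      · exact Or.inl hzr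
      · exact Or.inr hzr
  have hgF := hs.mem_F0 (hSD hgS)
  have hc0' := hc0
  have hc1' := hc1
  simp only [St3.cell] at hc0' hc1'
  obtain ⟨x1, x2, x3⟩ := hc0'
  obtain ⟨y1, y2, y3, y4⟩ := hc1'
  -- all of D is in `F0` and below `b2`
  have hDF : ∀ z ∈ D, z ∈ s.F0 ∧ ν z < s.b2 := by
    intro z hz
    have := hs.mem_F0 hz
    exact ⟨this.1, by omega⟩
  have hmemD : ∀ z ∈ D, (z ∈ s.F0 ∧ ν z < s.b1) ∨ (z ∈ s.F1 ∧ ν z < s.b2) := by
    intro z hz
    have := hs.inc z hz
    simp only [St3.Mem, hF2, Set.mem_empty_iff_false, false_and, or_false] at this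
    exact this
  by_cases hgb : s.b1 ≤ ν g
  · -- C1
    have hmax0 : ∀ g' ∈ S, G g' → s.cell ν 0 g' → ∀ z ∈ D, s.cell ν 0 z → ν z ≤ ν g' := by
      intro g' hg' hGg' hc z hz hcz
      have hgp : g' = p0 := by
        rcases hSel g' hg' with rfl | rfl | rfl
        · have := hc.2.2; omega
        · rfl
        · have := cell_disj hs hc hc1
          exact absurd this (by decide)
      have hna : ¬ (∀ i, (∃ z ∈ D, s.cell ν i z) → ∃ z ∈ S.erase g', s.cell ν i z) := by
        intro hcon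
        obtain ⟨w, hw, hwc⟩ := hcon 0 hne0
        have hwS := Finset.mem_of_mem_erase hw
        rcases hSel w hwS with rfl | rfl | rfl
        · have := hwc.2.2; omega
        · exact (Finset.mem_erase.1 hw).1 hgp.symm
        · have := cell_disj hs hwc hc1
          exact absurd this (by decide)
      obtain ⟨l, hl, hlm⟩ := halpha g' hg' hGg' hna
      have := cell_disj hs hc hl
      subst this
      exact hlm z hz hcz
    obtain ⟨b1', e1, e2, e3, e4⟩ := pickb hinj G (s.cell ν 0) s.b1 (fun z hz => hz.2.2) hSD hmax0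
    refine ⟨⟨s.F0, s.F1, {z | R z p1}, b1', ν g, s.b2⟩,
      ⟨hs.f0, hs.f1, isFrame_one p1, hs.n1, ?_, ?_, ?_, ?_⟩, ?_, ?_⟩
    · intro z hz
      exact hs.f1.down htr hz y1
    · simp only; omega
    · simp only; omega
    · intro z hz
      have hzD : z ∈ D := (Finset.mem_sdiff.1 hz).1
      have h0 := e3 z hz
      simp only [St3.Mem, St3.cell] at h0 ⊢
      by_cases hF1 : z ∈ s.F1
      · rcases hb' z hz with h | h | h
        · exact Or.inr (Or.inl ⟨hF1, h⟩)
        · have := hmono _ _ h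
          exact Or.inr (Or.inl ⟨hF1, by omega⟩)
        · exact Or.inr (Or.inr ⟨h, (hDF z hzD).2⟩)
      · rcases hmemD z hzD with h | h
        · exact Or.inl ⟨h.1, h0 ⟨h.1, hF1, h.2⟩⟩
        · exact absurd h.1 hF1
    · intro z hz
      simp only [St3.Mem] at hz ⊢
      rcases hz with h | h | h
      · exact Or.inl ⟨h.1, by omega⟩
      · exact Or.inr (Or.inl ⟨h.1, by have := h.2; omega⟩)
      · exact Or.inr (Or.inl ⟨hs.f1.down htr h.1 y1, h.2⟩)
    · intro g' hg' hGg' hmem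
      have h0 := e2 g' hg' hGg'
      have hlast : ¬ R g' p1 := hSmax g' hg' p1 (hSD hp1S)
      have hx : ν g ≤ ν g' ∨ g' = p0 := by
        rcases hSel g' hg' with rfl | rfl | rfl
        · exact Or.inl le_rfl
        · exact Or.inr rfl
        · left
          apply hgmin g' ⟨hg', hGg', ?_⟩
          -- p1 is beta
          intro i hi
          have hgD := hmemD g (hSD hgS)
          have hgp1 : g ∈ S.erase g' := Finset.mem_erase.2 ⟨by
            rintro rfl
            exact (Finset.mem_erase.1 hp1).1 rfl, hgS⟩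
          have hp0p1 : p0 ∈ S.erase g' := Finset.mem_erase.2 ⟨hne, hp0S⟩
          fin_cases i
          · exact ⟨p0, hp0p1, hc0⟩
          · refine ⟨g, hgp1, ?_⟩
            rcases hgD with h | h
            · omega
            · exact ⟨h.1, by rw [hF2]; simp, hgb, h.2⟩
          · exfalso
            obtain ⟨z, hz, hc⟩ := hi
            have := hc.1
            rw [hF2] at this
            simp at this
      simp only [St3.Mem] at hmem
      rcases hx with hx | rfl
      · rcases hmem with h | h | h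
        · omega
        · omega
        · exact hlast h.1
      · have h0' := h0 hc0
        rcases hmem with h | h | h
        · omega
        · exact x2 h.1
        · exact hlast h.1
  · push Not at hgb
    by_cases hcase : G p0 ∧ ν p0 < ν g
    · -- C2a
      obtain ⟨hGp0, hlt⟩ := hcase
      have hp0max : ∀ z ∈ D, s.cell ν 0 z → ν z ≤ ν p0 := by
        have hna : ¬ (∀ i, (∃ z ∈ D, s.cell ν i z) → ∃ z ∈ S.erase p0, s.cell ν i z) := by
          intro hcon
          have := hgmin p0 ⟨hp0S, hGp0, hcon⟩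
          omega
        obtain ⟨l, hl, hlm⟩ := halpha p0 hp0S hGp0 hna
        have := cell_disj hs hc0 hl
        subst this
        exact hlm
      refine ⟨⟨s.F0, s.F1, {z | R z p1}, ν p0, ν g, s.b2⟩,
        ⟨hs.f0, hs.f1, isFrame_one p1, hs.n1, ?_, hlt.le, ?_, ?_⟩, ?_, ?_⟩
      · intro z hz
        exact hs.f1.down htr hz y1
      · simp only; omega
      · intro z hz
        have hzD : z ∈ D := (Finset.mem_sdiff.1 hz).1
        have hzS : z ∉ S := (Finset.mem_sdiff.1 hz).2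
        simp only [St3.Mem]
        by_cases hF1 : z ∈ s.F1
        · rcases hb' z hz with h | h | h
          · exact Or.inr (Or.inl ⟨hF1, h⟩)
          · have := hmono _ _ h
            exact Or.inr (Or.inl ⟨hF1, by omega⟩)
          · exact Or.inr (Or.inr ⟨h, (hDF z hzD).2⟩)
        · rcases hmemD z hzD with h | h
          · have h1 := hp0max z hzD ⟨h.1, hF1, h.2⟩
            have h2 : ν z ≠ ν p0 := fun h => hzS (hinj h ▸ hp0S)
            exact Or.inl ⟨h.1, by omega⟩
          · exact absurd h.1 hF1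
      · intro z hz
        simp only [St3.Mem] at hz ⊢
        rcases hz with h | h | h
        · exact Or.inl ⟨h.1, by omega⟩
        · exact Or.inr (Or.inl ⟨h.1, by have := h.2; omega⟩)
        · exact Or.inr (Or.inl ⟨hs.f1.down htr h.1 y1, h.2⟩)
      · intro g' hg' hGg' hmem
        have hlast : ¬ R g' p1 := hSmax g' hg' p1 (hSD hp1S)
        simp only [St3.Mem] at hmem
        rcases hSel g' hg' with rfl | rfl | rfl
        · rcases hmem with h | h | h
          · omega
          · omega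
          · exact hlast h.1
        · rcases hmem with h | h | h
          · omega
          · exact x2 h.1
          · exact hlast h.1
        · rcases hmem with h | h | h
          · omega
          · omega
          · exact hlast h.1
    · -- C2b
      refine ⟨⟨s.F0, {z | R z p0 ∨ R z p1}, ∅, ν g, s.b2, s.b2⟩,
        ⟨hs.f0, isFrame_two p0 p1, isFrame_empty, ?_, Set.empty_subset _, ?_, le_rfl, ?_⟩, ?_, ?_⟩
      · rintro z (h | h)
        · exact hs.f0.down htr h x1
        · exact hs.f0.down htr h (hs.n1 y1)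
      · simp only; omega
      · intro z hz
        have hzD : z ∈ D := (Finset.mem_sdiff.1 hz).1
        rcases hb' z hz with h | h
        · exact Or.inl ⟨(hDF z hzD).1, h⟩
        · exact Or.inr (Or.inl ⟨h, (hDF z hzD).2⟩)
      · intro z hz
        simp only [St3.Mem, Set.mem_empty_iff_false, false_and, or_false] at hz
        rcases hz with h | h
        · exact Or.inl ⟨h.1, by omega⟩
        · rcases h.1 with h' | h'
          · have := hmono _ _ h'
            exact Or.inl ⟨hs.f0.down htr h' x1, by omega⟩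
          · exact Or.inr (Or.inl ⟨hs.f1.down htr h' y1, h.2⟩)
      · intro g' hg' hGg' hmem
        have hl0 : ¬ R g' p0 := hSmax g' hg' p0 (hSD hp0S)
        have hl1 : ¬ R g' p1 := hSmax g' hg' p1 (hSD hp1S)
        simp only [St3.Mem, Set.mem_empty_iff_false, false_and, or_false] at hmem
        rcases hmem with h | h
        · rcases hSel g' hg' with rfl | rfl | rfl
          · omega
          · exact hcase ⟨hGg', h.2⟩
          · omega
        · rcases h.1 with h' | h'
          · exact hl0 h'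
          · exact hl1 h'

/-- THE STEP: choice of the last slot and update of the staircase. -/
theorem step (htr : ∀ a b c, R a b → R b c → R a c) (hmono : ∀ a b, R a b → ν a < ν b)
    (hinj : Function.Injective ν)
    {D : Finset α} {s : St3 α} (hs : Valid R ν D s)
    (𝓢 : Finset (Finset α)) (h𝓢 : 𝓢.Nonempty) (hSD : ∀ S ∈ 𝓢, S ⊆ D)
    (hSmax : ∀ S ∈ 𝓢, ∀ z ∈ S, ∀ w ∈ D, ¬ R z w) (hcard : ∀ S ∈ 𝓢, S.card = 3)
    (G : Finset α → α → Prop)
    (hex : ∀ S ∈ 𝓢, ∀ g ∈ S, G S g → ∀ y ∈ D, (∀ w ∈ D, ¬ R y w) → y ∉ S →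
      insert y (S.erase g) ∈ 𝓢) :
    ∃ S ∈ 𝓢, ∃ s' : St3 α, Valid R ν (D \ S) s' ∧ (∀ z, s'.Mem ν z → s.Mem ν z) ∧
      ∀ g ∈ S, G S g → ¬ s'.Mem ν g := by
  classical
  obtain ⟨s1, hs1, hsub, hred⟩ := reduce hmono hs
  obtain ⟨S, hS, hbest⟩ := exists_maxP (ν := ν) s1 𝓢 h𝓢
  refine ⟨S, hS, ?_⟩
  have hmax : ∀ g ∈ S, G S g → ∀ y ∈ D, (∀ w ∈ D, ¬ R y w) → y ∉ S →
      LeP ν s1 (insert y (S.erase g)) S :=
    fun g hg hGg y hy hym hyS => hbest _ (hex S hS g hg hGg y hy hym hyS)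
  suffices hmain : ∃ s' : St3 α, Valid R ν (D \ S) s' ∧ (∀ z, s'.Mem ν z → s1.Mem ν z) ∧
      ∀ g ∈ S, G S g → ¬ s'.Mem ν g by
    obtain ⟨s', h1, h2, h3⟩ := hmain
    exact ⟨s', h1, fun z hz => hsub z (h2 z hz), h3⟩
  by_cases hb : ∃ g ∈ S, G S g ∧ ∀ i, (∃ z ∈ D, s1.cell ν i z) → ∃ z ∈ S.erase g, s1.cell ν i z
  · obtain ⟨g0, hg0, hGg0, hall⟩ := hb
    rcases hred with hr | hr | hr
    · exact updBeta1 htr hmono hinj hs1 hr (hSD S hS) (hSmax S hS) (hcard S hS) (G S) hmax hg0 hGg0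
    · exact updBeta2 htr hmono hinj hs1 hr (hSD S hS) (hSmax S hS) (hcard S hS) (G S) hmax
        hg0 hGg0 hall
    · exfalso
      obtain ⟨h0, h1, h2⟩ := hr
      obtain ⟨z0, hz0, hc0⟩ := hall 0 h0
      obtain ⟨z1, hz1, hc1⟩ := hall 1 h1
      obtain ⟨z2, hz2, hc2⟩ := hall 2 h2
      have n01 : z0 ≠ z1 := by
        rintro rfl; exact absurd (cell_disj hs1 hc0 hc1) (by decide)
      have n02 : z0 ≠ z2 := by
        rintro rfl; exact absurd (cell_disj hs1 hc0 hc2) (by decide)
      have n12 : z1 ≠ z2 := by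
        rintro rfl; exact absurd (cell_disj hs1 hc1 hc2) (by decide)
      have hsubset : ({z0, z1, z2} : Finset α) ⊆ S.erase g0 := by
        intro z hz
        simp only [Finset.mem_insert, Finset.mem_singleton] at hz
        rcases hz with rfl | rfl | rfl
        · exact hz0
        · exact hz1
        · exact hz2
      have h3 := Finset.card_le_card hsubset
      rw [Finset.card_erase_of_mem hg0, hcard S hS] at h3
      have h4 : ({z0, z1, z2} : Finset α).card = 3 := by
        rw [Finset.card_eq_three]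
        exact ⟨z0, z1, z2, n01, n02, n12, rfl⟩
      omega
  · push Not at hb
    apply updAlpha hinj hs1 (hSD S hS) (G S)
    intro g hg hGg
    obtain ⟨i, hi, hiP⟩ := hb g hg hGg
    exact alpha htr hmono hs1 hg (hSD S hS) (hmax g hg hGg) hi hiP

end step

end Crest.Agent.R286.Tst
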