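import Crest.Agent.R286.TstStep

set_option autoImplicit false
set_option linter.unusedVariables false

namespace Crest.Agent.R286.Tst

open Finset

/-- `s` is a perfect packing of `X` into slots `1..N`, three jobs per slot -/
def Pack {α : Type*} (R : α → α → Prop) (X : Finset α) (N : ℕ) (s : α → ℕ) : Prop :=
  (∀ x ∈ X, 1 ≤ s x ∧ s x ≤ N) ∧
  (∀ i, 1 ≤ i → i ≤ N → (X.filter (fun x => s x = i)).card = 3) ∧
  (∀ x ∈ X, ∀ y ∈ X, R x y → s x < s y)

/-- frames -/
def Frame {α : Type*} (R : α → α → Prop) (F : Set α) : Prop :=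
  F = Set.univ ∨ ∃ b c, F = {z | R z b ∨ R z c}

/-- staircases -/
def Desc {α : Type*} (R : α → α → Prop) (ν : α → ℕ) (S : Set α) : Prop :=
  ∃ F0 F1 F2 : Set α, Frame R F0 ∧ Frame R F1 ∧ Frame R F2 ∧ ∃ a0 a1 a2 : ℕ,
    S = {z | (z ∈ F0 ∧ ν z < a0) ∨ (z ∈ F1 ∧ ν z < a1) ∨ (z ∈ F2 ∧ ν z < a2)}

/-- nested staircases with sorted thresholds -/
def DescN {α : Type*} (R : α → α → Prop) (ν : α → ℕ) (S : Set α) : Prop :=
  ∃ F0 F1 F2 : Set α, Frame R F0 ∧ Frame R F1 ∧ Frame R F2 ∧ F1 ⊆ F0 ∧ F2 ⊆ F1 ∧
    ∃ a0 a1 a2 : ℕ, a0 ≤ a1 ∧ a1 ≤ a2 ∧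
    S = {z | (z ∈ F0 ∧ ν z < a0) ∨ (z ∈ F1 ∧ ν z < a1) ∨ (z ∈ F2 ∧ ν z < a2)}

theorem DescN.desc {α : Type*} {R : α → α → Prop} {ν : α → ℕ} {S : Set α}
    (h : DescN R ν S) : Desc R ν S := by
  obtain ⟨F0, F1, F2, f0, f1, f2, _, _, a0, a1, a2, _, _, e⟩ := h
  exact ⟨F0, F1, F2, f0, f1, f2, a0, a1, a2, e⟩

/-- cut `t` is L-free -/
def LFree {α : Type*} (R : α → α → Prop) (X : Finset α) (s : α → ℕ) (t : ℕ) : Prop :=
  ∀ q, 1 ≤ q → q < t → ∃ x ∈ X, q < s x ∧ s x ≤ t ∧ ∀ w ∈ X, s w = q → ¬ R w x

/-- `g` (in slot `j`) is free -/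
def Free {α : Type*} (R : α → α → Prop) (D : Finset α) (s : α → ℕ) (j : ℕ) (g : α) : Prop :=
  ∀ q, 1 ≤ q → q < j → (∀ z ∈ D, q < s z → s z < j → ∃ w ∈ D, s w = q ∧ R w z) →
    ∀ w ∈ D, s w = q → ¬ R w g

variable {α : Type*} {R : α → α → Prop} {ν : α → ℕ}

/-! ### the exchange lemma -/

theorem card_update [DecidableEq α] {D : Finset α} (s : α → ℕ) {u : α} (hu : u ∈ D) (q i : ℕ) :
    (D.filter (fun z => Function.update s u q z = i)).card + (if i = s u then 1 else 0) =
      (D.filter (fun z => s z = i)).card + (if i = q then 1 else 0) := by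
  have h1 : D = insert u (D.erase u) := (Finset.insert_erase hu).symm
  have hnot : u ∉ D.erase u := Finset.notMem_erase u D
  have h2 : (D.erase u).filter (fun z => Function.update s u q z = i) =
      (D.erase u).filter (fun z => s z = i) := by
    apply Finset.filter_congr
    intro z hz
    rw [Function.update_of_ne (Finset.ne_of_mem_erase hz)]
  have h3 : (D.filter (fun z => Function.update s u q z = i)).card =
      ((D.erase u).filter (fun z => s z = i)).card + (if i = q then 1 else 0) := by
    conv_lhs => rw [h1]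
    rw [Finset.filter_insert, Function.update_self, h2]
    by_cases hq : q = i
    · rw [if_pos hq, if_pos hq.symm, Finset.card_insert_of_notMem (by simp)]
    · rw [if_neg hq, if_neg (fun h => hq h.symm), Nat.add_zero]
  have h4 : (D.filter (fun z => s z = i)).card =
      ((D.erase u).filter (fun z => s z = i)).card + (if i = s u then 1 else 0) := by
    conv_lhs => rw [h1]
    rw [Finset.filter_insert]
    by_cases hq : s u = i
    · rw [if_pos hq, if_pos hq.symm, Finset.card_insert_of_notMem (by simp)]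
    · rw [if_neg hq, if_neg (fun h => hq h.symm), Nat.add_zero]
  rw [h3, h4]
  omega

/-- `g` can be inserted, by moves to the left, with the defect at slot `q` -/
def Reach [DecidableEq α] (R : α → α → Prop) (D : Finset α) (s : α → ℕ) (j : ℕ) (g : α)
    (q : ℕ) : Prop :=
  ∃ s' : α → ℕ, (∀ x ∈ D, 1 ≤ s' x ∧ s' x ≤ s x) ∧ (∀ x ∈ D, ∀ w ∈ D, R w x → s' w < s' x) ∧
    (∀ x ∈ D, x ≠ g → s x ≤ q → s' x = s x) ∧
    (∀ i, (D.filter (fun z => s' z = i)).card + (if i = j then 1 else 0) =
      (D.filter (fun z => s z = i)).card + (if i = q then 1 else 0)) ∧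
    D.filter (fun z => s' z = j) = (D.filter (fun z => s z = j)).erase g

theorem reach_direct [DecidableEq α] {D : Finset α} {s : α → ℕ} {j : ℕ} (hs : Pack R D j s)
    {g : α} (hgD : g ∈ D) (hgj : s g = j) {q : ℕ} (hq1 : 1 ≤ q) (hqj : q < j)
    (hp : ∀ w ∈ D, R w g → s w < q) : Reach R D s j g q := by
  obtain ⟨hb, hc, hr⟩ := hs
  refine ⟨Function.update s g q, ?_, ?_, ?_, ?_, ?_⟩
  · intro x hx
    by_cases hxg : x = g
    · subst hxg; rw [Function.update_self]; omega
    · rw [Function.update_of_ne hxg]; exact ⟨(hb x hx).1, le_rfl⟩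
  · intro x hx w hw hwx
    have h1 := hr w hw x hx hwx
    have h2 := hb x hx
    by_cases hxg : x = g
    · subst hxg
      have hwg : w ≠ x := by rintro rfl; omega
      rw [Function.update_self, Function.update_of_ne hwg]
      exact hp w hw hwx
    · by_cases hwg : w = g
      · subst hwg; omega
      · rw [Function.update_of_ne hxg, Function.update_of_ne hwg]; exact h1
  · intro x hx hxg _
    rw [Function.update_of_ne hxg]
  · intro i
    have := card_update s hgD q i
    rw [hgj] at this
    exact this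
  · ext x
    simp only [Finset.mem_filter, Finset.mem_erase]
    constructor
    · rintro ⟨h1, h2⟩
      by_cases hxg : x = g
      · subst hxg; rw [Function.update_self] at h2; omega
      · rw [Function.update_of_ne hxg] at h2
        exact ⟨hxg, h1, h2⟩
    · rintro ⟨h1, h2, h3⟩
      rw [Function.update_of_ne h1]
      exact ⟨h2, h3⟩

theorem reach_step [DecidableEq α] {D : Finset α} {s : α → ℕ} {j : ℕ} (hs : Pack R D j s)
    {g : α} (hgD : g ∈ D) (hgj : s g = j) {q q' : ℕ} (hq1 : 1 ≤ q') (hqq : q' < q) (hqj : q < j)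
    (hreach : Reach R D s j g q) {u : α} (huD : u ∈ D) (huq : s u = q)
    (hp : ∀ w ∈ D, R w u → s w < q') : Reach R D s j g q' := by
  obtain ⟨s', h1, h2, h3, h4, h5⟩ := hreach
  have hug : u ≠ g := by rintro rfl; omega
  have hsu : s' u = s u := h3 u huD hug (by omega)
  refine ⟨Function.update s' u q', ?_, ?_, ?_, ?_, ?_⟩
  · intro x hx
    by_cases hxu : x = u
    · subst hxu; rw [Function.update_self]; omega
    · rw [Function.update_of_ne hxu]; exact h1 x hx
  · intro x hx w hw hwx
    have e1 := h2 x hx w hw hwx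
    by_cases hxu : x = u
    · subst hxu
      have hwu : w ≠ x := by rintro rfl; omega
      rw [Function.update_self, Function.update_of_ne hwu]
      have := (h1 w hw).2
      have := hp w hw hwx
      omega
    · by_cases hwu : w = u
      · subst hwu
        rw [Function.update_self, Function.update_of_ne hxu]
        omega
      · rw [Function.update_of_ne hxu, Function.update_of_ne hwu]; exact e1
  · intro x hx hxg hxq
    have hxu : x ≠ u := by rintro rfl; omega
    rw [Function.update_of_ne hxu]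
    exact h3 x hx hxg (by omega)
  · intro i
    have e1 := card_update s' huD q' i
    have e2 := h4 i
    rw [hsu, huq] at e1
    omega
  · rw [← h5]
    ext x
    simp only [Finset.mem_filter]
    by_cases hxu : x = u
    · subst hxu
      rw [Function.update_self, hsu]
      constructor
      · rintro ⟨_, h⟩; omega
      · rintro ⟨_, h⟩; omega
    · rw [Function.update_of_ne hxu]

/-- THE EXCHANGE LEMMA. -/
theorem exch [DecidableEq α] (htr : ∀ a b c, R a b → R b c → R a c)
    {D : Finset α} {s : α → ℕ} {j : ℕ} (hs : Pack R D j s)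
    {g : α} (hgD : g ∈ D) (hgj : s g = j) (hfree : Free R D s j g)
    {y : α} (hyD : y ∈ D) (hym : ∀ w ∈ D, ¬ R y w) (hyj : s y < j) :
    ∃ s', Pack R D j s' ∧
      D.filter (fun z => s' z = j) = insert y ((D.filter (fun z => s z = j)).erase g) := by
  classical
  obtain ⟨hb, hc, hr⟩ := hs
  have hs : Pack R D j s := ⟨hb, hc, hr⟩
  have hreach : Reach R D s j g (s y) := by
    by_contra hcon
    -- the largest unreachable slot
    obtain ⟨q, hq, hqmax⟩ := Finset.exists_max_image
      ((Finset.Ico 1 j).filter (fun q => ¬ Reach R D s j g q)) id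
      ⟨s y, by simp only [Finset.mem_filter, Finset.mem_Ico]; exact ⟨⟨(hb y hyD).1, hyj⟩, hcon⟩⟩
    simp only [Finset.mem_filter, Finset.mem_Ico, id] at hq hqmax
    obtain ⟨⟨hq1, hqj⟩, hqn⟩ := hq
    have hR : ∀ q', q < q' → q' < j → Reach R D s j g q' := by
      intro q' h1 h2
      by_contra hc
      have := hqmax q' ⟨⟨by omega, h2⟩, hc⟩
      omega
    -- all jobs strictly between are above slot q
    have hsep : ∀ n, ∀ z ∈ D, s z = n → q < s z → s z < j → ∃ w ∈ D, s w = q ∧ R w z := by
      intro n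
      induction n using Nat.strong_induction_on with
      | _ n ih =>
        intro z hz hzn hqz hzj
        have hex : ∃ w ∈ D, R w z ∧ q ≤ s w := by
          by_contra hno
          push Not at hno
          exact hqn (reach_step hs hgD hgj hq1 hqz hzj (hR _ hqz hzj) hz rfl hno)
        obtain ⟨w, hw, hwz, hqw⟩ := hex
        have hlt := hr w hw z hz hwz
        rcases Nat.eq_or_lt_of_le hqw with h | h
        · exact ⟨w, hw, h.symm, hwz⟩
        · obtain ⟨w', hw', h1, h2⟩ := ih (s w) (by omega) w hw rfl h (by omega)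
          exact ⟨w', hw', h1, htr _ _ _ h2 hwz⟩
    have hf := hfree q hq1 hqj (fun z hz h1 h2 => hsep _ z hz rfl h1 h2)
    apply hqn
    apply reach_direct hs hgD hgj hq1 hqj
    intro w hw hwg
    by_contra hcon2
    push Not at hcon2
    have hlt := hr w hw g hgD hwg
    rcases Nat.eq_or_lt_of_le hcon2 with h | h
    · exact hf w hw h.symm hwg
    · obtain ⟨w', hw', h1, h2⟩ := hsep _ w hw rfl h (by omega)
      exact hf w' hw' h1 (htr _ _ _ h2 hwg)
  obtain ⟨s', h1, h2, h3, h4, h5⟩ := hreach
  have hyg : y ≠ g := by rintro rfl; omega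
  have hsy : s' y = s y := h3 y hyD hyg le_rfl
  have hyb := hb y hyD
  refine ⟨Function.update s' y j, ⟨?_, ?_, ?_⟩, ?_⟩
  · intro x hx
    have e1 := h1 x hx
    have e2 := hb x hx
    by_cases hxy : x = y
    · subst hxy; rw [Function.update_self]; omega
    · rw [Function.update_of_ne hxy]; omega
  · intro i hi1 hij
    have e1 := card_update s' hyD j i
    have e2 := h4 i
    have e3 := hc i hi1 hij
    rw [hsy] at e1
    omega
  · intro x hx w hw hxw
    have e1 := h2 w hw x hx hxw
    by_cases hxy : x = y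
    · subst hxy; exact absurd hxw (hym w hw)
    · by_cases hwy : w = y
      · subst hwy
        rw [Function.update_self, Function.update_of_ne hxy]
        omega
      · rw [Function.update_of_ne hxy, Function.update_of_ne hwy]; exact e1
  · rw [← h5]
    ext x
    simp only [Finset.mem_filter, Finset.mem_insert]
    by_cases hxy : x = y
    · subst hxy
      rw [Function.update_self]
      simp [hyD]
    · rw [Function.update_of_ne hxy]
      simp [hxy]

/-! ### the induction over the slots -/

theorem Valid.mono_D {D D' : Finset α} {st : St3 α} (h : Valid R ν D st) (hD : D' ⊆ D) :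
    Valid R ν D' st :=
  ⟨h.f0, h.f1, h.f2, h.n1, h.n2, h.t1, h.t2, fun z hz => h.inc z (hD hz)⟩

theorem main_ind (htr : ∀ a b c, R a b → R b c → R a c) (hmono : ∀ a b, R a b → ν a < ν b)
    (hinj : Function.Injective ν) (j : ℕ) :
    ∀ (D : Finset α) (st : St3 α), Valid R ν D st → (∃ s, Pack R D j s) →
    ∃ (s : α → ℕ) (T : ℕ → St3 α), Pack R D j s ∧ T j = st ∧
      (∀ t ≤ j, Valid R ν (D.filter (fun x => s x ≤ t)) (T t)) ∧
      (∀ t < j, ∀ z, (T t).Mem ν z → (T (t + 1)).Mem ν z) ∧
      (∀ t, 1 ≤ t → t ≤ j → ∀ g ∈ D, s g = t → Free R D s t g → ¬ (T (t - 1)).Mem ν g) := by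
  classical
  induction j with
  | zero =>
    rintro D st hst ⟨s, hs⟩
    refine ⟨s, fun _ => st, hs, rfl, fun t _ => hst.mono_D (Finset.filter_subset _ _),
      fun t _ z h => h, ?_⟩
    intro t h1 h2
    omega
  | succ j ih =>
    rintro D st hst ⟨s00, hs00⟩
    set 𝓢 : Finset (Finset α) := D.powerset.filter (fun S =>
      ∃ s, Pack R D (j + 1) s ∧ D.filter (fun x => s x = j + 1) = S) with h𝓢
    have hmem : ∀ S, S ∈ 𝓢 ↔ ∃ s, Pack R D (j + 1) s ∧ D.filter (fun x => s x = j + 1) = S := by
      intro S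
      rw [h𝓢, Finset.mem_filter, Finset.mem_powerset]
      constructor
      · rintro ⟨_, h⟩; exact h
      · rintro ⟨s, h1, h2⟩
        exact ⟨h2 ▸ Finset.filter_subset _ _, s, h1, h2⟩
    have hne : 𝓢.Nonempty := ⟨_, (hmem _).2 ⟨s00, hs00, rfl⟩⟩
    obtain ⟨S, hS, st', hv', hsub', hexcl⟩ := step htr hmono hinj hst 𝓢 hne
      (fun S hS => by
        obtain ⟨s, _, h⟩ := (hmem S).1 hS
        rw [← h]; exact Finset.filter_subset _ _)
      (fun S hS z hz w hw hzw => by
        obtain ⟨s, h1, h⟩ := (hmem S).1 hS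
        rw [← h, Finset.mem_filter] at hz
        have e1 := h1.2.2 z hz.1 w hw hzw
        have e2 := (h1.1 w hw).2
        omega)
      (fun S hS => by
        obtain ⟨s, h1, h⟩ := (hmem S).1 hS
        rw [← h]
        exact h1.2.1 (j + 1) (by omega) le_rfl)
      (fun S g => ∃ s, Pack R D (j + 1) s ∧ D.filter (fun x => s x = j + 1) = S ∧
        Free R D s (j + 1) g)
      (fun S hS g hg hG y hy hym hyS => by
        obtain ⟨s, h1, h2, h3⟩ := hG
        rw [← h2, Finset.mem_filter] at hg
        have hyj : s y < j + 1 := by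
          have e1 := (h1.1 y hy).2
          have e2 : s y ≠ j + 1 := by
            intro h
            exact hyS (by rw [← h2, Finset.mem_filter]; exact ⟨hy, h⟩)
          omega
        obtain ⟨s', e1, e2⟩ := exch htr h1 hg.1 hg.2 h3 hy hym hyj
        rw [hmem]
        refine ⟨s', e1, ?_⟩
        rw [e2, h2])
    obtain ⟨s0, hs0, hS0⟩ := (hmem S).1 hS
    have hSD : S ⊆ D := hS0 ▸ Finset.filter_subset _ _
    have hSmem : ∀ x ∈ D, (x ∈ S ↔ s0 x = j + 1) := by
      intro x hx
      rw [← hS0, Finset.mem_filter]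
      exact ⟨fun h => h.2, fun h => ⟨hx, h⟩⟩
    have hScard : S.card = 3 := by
      rw [← hS0]; exact hs0.2.1 (j + 1) (by omega) le_rfl
    have hpk : Pack R (D \ S) j s0 := by
      refine ⟨?_, ?_, ?_⟩
      · intro x hx
        rw [Finset.mem_sdiff] at hx
        have e1 := hs0.1 x hx.1
        have e2 : s0 x ≠ j + 1 := fun h => hx.2 ((hSmem x hx.1).2 h)
        omega
      · intro i hi1 hij
        rw [← hs0.2.1 i hi1 (by omega)]
        congr 1
        ext x
        simp only [Finset.mem_filter, Finset.mem_sdiff]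
        constructor
        · rintro ⟨⟨h1, h2⟩, h3⟩; exact ⟨h1, h3⟩
        · rintro ⟨h1, h3⟩
          refine ⟨⟨h1, fun h => ?_⟩, h3⟩
          have := (hSmem x h1).1 h
          omega
      · intro x hx y hy hxy
        exact hs0.2.2 x (Finset.mem_sdiff.1 hx).1 y (Finset.mem_sdiff.1 hy).1 hxy
    obtain ⟨s1, T1, p1, hT1, v1, m1, x1⟩ := ih (D \ S) st' hv' ⟨s0, hpk⟩
    set s : α → ℕ := fun x => if x ∈ S then j + 1 else s1 x with hs_def
    have hsS : ∀ x ∈ S, s x = j + 1 := fun x hx => by simp [hs_def, hx]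
    have hsn : ∀ x, x ∉ S → s x = s1 x := fun x hx => by simp [hs_def, hx]
    have hsle : ∀ x ∈ D, x ∉ S → s x ≤ j ∧ 1 ≤ s x := by
      intro x hx hxS
      rw [hsn x hxS]
      have := p1.1 x (Finset.mem_sdiff.2 ⟨hx, hxS⟩)
      omega
    have hSiff : ∀ x ∈ D, (x ∈ S ↔ s x = j + 1) := by
      intro x hx
      constructor
      · exact hsS x
      · intro h
        by_contra hxS
        have := hsle x hx hxS
        omega
    have hpack : Pack R D (j + 1) s := by
      refine ⟨?_, ?_, ?_⟩
      · intro x hx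
        by_cases hxS : x ∈ S
        · rw [hsS x hxS]; omega
        · have := hsle x hx hxS; omega
      · intro i hi1 hij
        by_cases hi : i = j + 1
        · subst hi
          rw [← hScard]
          congr 1
          ext x
          simp only [Finset.mem_filter]
          constructor
          · rintro ⟨h1, h2⟩; exact (hSiff x h1).2 h2
          · intro h; exact ⟨hSD h, hsS x h⟩
        · rw [← p1.2.1 i hi1 (by omega)]
          congr 1
          ext x
          simp only [Finset.mem_filter, Finset.mem_sdiff]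
          constructor
          · rintro ⟨h1, h2⟩
            have hxS : x ∉ S := fun h => hi (by rw [← h2, hsS x h])
            exact ⟨⟨h1, hxS⟩, by rw [← hsn x hxS]; exact h2⟩
          · rintro ⟨⟨h1, h2⟩, h3⟩
            exact ⟨h1, by rw [hsn x h2]; exact h3⟩
      · intro x hx y hy hxy
        by_cases hxS : x ∈ S
        · exfalso
          have e1 := (hSmem x hx).1 hxS
          have e2 := hs0.2.2 x hx y hy hxy
          have e3 := (hs0.1 y hy).2
          omega
        · by_cases hyS : y ∈ S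
          · have := hsle x hx hxS
            rw [hsS y hyS]; omega
          · rw [hsn x hxS, hsn y hyS]
            exact p1.2.2 x (Finset.mem_sdiff.2 ⟨hx, hxS⟩) y (Finset.mem_sdiff.2 ⟨hy, hyS⟩) hxy
    refine ⟨s, fun t => if t = j + 1 then st else T1 t, hpack, by simp, ?_, ?_, ?_⟩
    · intro t ht
      by_cases htj : t = j + 1
      · simp only [htj, if_true]
        exact hst.mono_D (Finset.filter_subset _ _)
      · simp only [htj, if_false]
        apply (v1 t (by omega)).mono_D
        intro x hx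
        simp only [Finset.mem_filter, Finset.mem_sdiff] at hx ⊢
        have hxS : x ∉ S := fun h => by have := hsS x h; omega
        exact ⟨⟨hx.1, hxS⟩, by rw [← hsn x hxS]; exact hx.2⟩
    · intro t ht z hz
      by_cases htj : t = j
      · subst htj
        simp only [show ¬ (t = t + 1) by omega, if_false] at hz
        simp only [if_true]
        rw [hT1] at hz
        exact hsub' z hz
      · have h1 : ¬ (t = j + 1) := by omega
        have h2 : ¬ (t + 1 = j + 1) := by omega
        simp only [h1, if_false] at hz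
        simp only [h2, if_false]
        exact m1 t (by omega) z hz
    · intro t ht1 htj g hg hgt hfree
      have h1 : ¬ (t - 1 = j + 1) := by omega
      simp only [h1, if_false]
      by_cases htj' : t = j + 1
      · subst htj'
        have hgS := (hSiff g hg).2 hgt
        rw [Nat.add_sub_cancel, hT1]
        refine hexcl g hgS ⟨s, hpack, ?_, hfree⟩
        ext x
        simp only [Finset.mem_filter]
        constructor
        · rintro ⟨h1, h2⟩; exact (hSiff x h1).2 h2
        · intro h; exact ⟨hSD h, hsS x h⟩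
      · have hgS : g ∉ S := fun h => htj' (by rw [← hgt, hsS g h])
        apply x1 t ht1 (by omega) g (Finset.mem_sdiff.2 ⟨hg, hgS⟩) (by rw [← hsn g hgS]; exact hgt)
        intro q hq1 hqt hsep w hw hwq
        rw [Finset.mem_sdiff] at hw
        apply hfree q hq1 hqt ?_ w hw.1 (by rw [hsn w hw.2]; exact hwq)
        intro z hz hqz hzt
        have hzS : z ∉ S := fun h => by have := hsS z h; omega
        rw [hsn z hzS] at hqz hzt
        obtain ⟨w', hw', e1, e2⟩ := hsep z (Finset.mem_sdiff.2 ⟨hz, hzS⟩) hqz hzt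
        rw [Finset.mem_sdiff] at hw'
        exact ⟨w', hw'.1, by rw [hsn w' hw'.2]; exact e1, e2⟩

/-- conversion of frames -/
theorem IsFrame.frame {F : Set α} (h : IsFrame R F) (hne : F ≠ ∅) : Frame R F := by
  rcases h with h | h | h
  · exact Or.inl h
  · exact absurd h hne
  · exact Or.inr h

theorem Valid.descN {D : Finset α} {st : St3 α} (h : Valid R ν D st) :
    DescN R ν {z | st.Mem ν z} := by
  classical
  have t1 := h.t1
  have t2 := h.t2
  by_cases h0 : st.F0 = ∅
  · refine ⟨Set.univ, Set.univ, Set.univ, Or.inl rfl, Or.inl rfl, Or.inl rfl, Set.Subset.refl _,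
      Set.Subset.refl _, 0, 0, 0, le_rfl, le_rfl, ?_⟩
    have h1 : st.F1 = ∅ := Set.subset_empty_iff.1 (h0 ▸ h.n1)
    have h2 : st.F2 = ∅ := Set.subset_empty_iff.1 (h1 ▸ h.n2)
    ext z
    simp [St3.Mem, h0, h1, h2]
  · by_cases h1 : st.F1 = ∅
    · have h2 : st.F2 = ∅ := Set.subset_empty_iff.1 (h1 ▸ h.n2)
      refine ⟨st.F0, st.F0, st.F0, h.f0.frame h0, h.f0.frame h0, h.f0.frame h0,
        Set.Subset.refl _, Set.Subset.refl _, st.b1, st.b1, st.b1, le_rfl, le_rfl, ?_⟩
      ext z
      simp [St3.Mem, h1, h2]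
    · by_cases h2 : st.F2 = ∅
      · refine ⟨st.F0, st.F1, st.F1, h.f0.frame h0, h.f1.frame h1, h.f1.frame h1,
          h.n1, Set.Subset.refl _, st.b1, st.b2, st.b2, t1, le_rfl, ?_⟩
        ext z
        simp [St3.Mem, h2]
      · exact ⟨st.F0, st.F1, st.F2, h.f0.frame h0, h.f1.frame h1, h.f2.frame h2,
          h.n1, h.n2, st.b1, st.b2, st.b3, t1, t2, rfl⟩

/-- **NODE T** (nested form). -/
theorem T_nested (htr : ∀ a b c, R a b → R b c → R a c)
    (hinj : Function.Injective ν) (hmono : ∀ a b, R a b → ν a < ν b)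
    {X : Finset α} {N : ℕ} (h : ∃ s, Pack R X N s) :
    ∃ s, Pack R X N s ∧ ∀ t, 1 ≤ t → t ≤ N → LFree R X s t →
      ∃ S : Set α, DescN R ν S ∧ ∀ z ∈ X, (s z ≤ t ↔ z ∈ S ∧ ∀ w ∈ X, s w = t → ¬ R w z) := by
  classical
  obtain ⟨s, T, hpk, _, hv, hm, hx⟩ := main_ind (ν := ν) htr hmono hinj N X
    ⟨Set.univ, ∅, ∅, X.sup ν + 1, X.sup ν + 1, X.sup ν + 1⟩
    ⟨Or.inl rfl, isFrame_empty, isFrame_empty, Set.empty_subset _, Set.empty_subset _, le_rfl,
      le_rfl, fun z hz => Or.inl ⟨trivial, Nat.lt_succ_of_le (Finset.le_sup (f := ν) hz)⟩⟩ h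
  refine ⟨s, hpk, fun t ht1 htN hL => ⟨{z | (T t).Mem ν z}, (hv t htN).descN, ?_⟩⟩
  intro z hz
  constructor
  · intro hzt
    refine ⟨(hv t htN).inc z (by simp [hz, hzt]), fun w hw hwt hwz => ?_⟩
    have := hpk.2.2 w hw z hz hwz
    omega
  · rintro ⟨hzS, hzA⟩
    by_contra hcon
    push Not at hcon
    -- minimal waiting job below z
    obtain ⟨z', hz', hmin⟩ := Finset.exists_min_image
      (X.filter (fun z' => (z' = z ∨ R z' z) ∧ t < s z')) s ⟨z, by simp [hz, hcon]⟩
    simp only [Finset.mem_filter] at hz' hmin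
    obtain ⟨hz'X, hz'z, htz'⟩ := hz'
    have hpred : ∀ w ∈ X, R w z' → s w ≤ t := by
      intro w hw hwz'
      by_contra hc
      push Not at hc
      have h1 : w = z ∨ R w z := by
        right
        rcases hz'z with e | e
        · rw [← e]; exact hwz'
        · exact htr _ _ _ hwz' e
      have h2 := hmin w ⟨hw, h1, hc⟩
      have h3 := hpk.2.2 w hw z' hz'X hwz'
      omega
    have hA' : ∀ w ∈ X, s w = t → ¬ R w z' := by
      intro w hw hwt hwz'
      apply hzA w hw hwt
      rcases hz'z with e | e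
      · rw [← e]; exact hwz'
      · exact htr _ _ _ hwz' e
    have hfree : Free R X s (s z') z' := by
      intro q hq1 hqz hsep w hw hwq hwz'
      have h1 := hpred w hw hwz'
      have h2 : q ≤ t := by omega
      rcases Nat.eq_or_lt_of_le h2 with e | e
      · exact hA' w hw (by omega) hwz'
      · obtain ⟨x, hxX, hqx, hxt, hxn⟩ := hL q hq1 e
        obtain ⟨w', hw', e1, e2⟩ := hsep x hxX hqx (by omega)
        exact hxn w' hw' e1 e2
    have hzN := (hpk.1 z' hz'X).2
    have hnot := hx (s z') (by omega) hzN z' hz'X rfl hfree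
    apply hnot
    -- monotonicity
    have hmono' : ∀ k, t + k ≤ N → ∀ z, (T t).Mem ν z → (T (t + k)).Mem ν z := by
      intro k
      induction k with
      | zero => intro _ z h; exact h
      | succ k ih =>
        intro hk z hz
        have := hm (t + k) (by omega) z (ih (by omega) z hz)
        exact this
    have h1 := hmono' (s z' - 1 - t) (by omega) z'
    have h2 : t + (s z' - 1 - t) = s z' - 1 := by omega
    rw [h2] at h1
    apply h1
    rcases hz'z with e | e
    · rw [e]; exact hzS
    · exact (hv t htN).mem_down htr hmono e hzS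

/-- **NODE T**, exactly as frozen in note 13110. -/
theorem T (htr : ∀ a b c, R a b → R b c → R a c)
    (hinj : Function.Injective ν) (hmono : ∀ a b, R a b → ν a < ν b)
    {X : Finset α} {N : ℕ} (h : ∃ s, Pack R X N s) :
    ∃ s, Pack R X N s ∧ ∀ t, 1 ≤ t → t ≤ N → LFree R X s t →
      ∃ S : Set α, Desc R ν S ∧ ∀ z ∈ X, (s z ≤ t ↔ z ∈ S ∧ ∀ w ∈ X, s w = t → ¬ R w z) := by
  obtain ⟨s, h1, h2⟩ := T_nested htr hinj hmono h
  refine ⟨s, h1, fun t ht1 htN hL => ?_⟩
  obtain ⟨S, hS, h3⟩ := h2 t ht1 htN hL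
  exact ⟨S, hS.desc, h3⟩

end Crest.Agent.R286.Tst
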