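import Crest.Agent.R286.TstT
import Crest.Agent.R286.WinFam
import Crest.Agent.R286.PureTop

set_option autoImplicit false

namespace Crest.Agent.R286.Tst

open Crest.Agent.R286

theorem tClaim : Win.TClaim := by
  intro α _ _ R nu _ htr hinj hmono X N h
  exact T htr hinj hmono h

/-- the combinatorial theorem at level 12 -/
theorem mathClaim12 : MathClaim 12 := Win.mathClaim_of_T tClaim

/-- the algorithm is correct at level 12 -/
theorem algoCorrect12 : AlgoCorrect 12 := PureTop.algoCorrect mathClaim12

end Crest.Agent.R286.Tst
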