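import Crest.Agent.R286.Algo

/-!
# Row 286, node R: the windows between consecutive L-free cuts

From the structure theorem `TClaim` (every L-free cut of a suitable packing is a described set) and
its order dual to the splitting tree (`MathClaim 12`).
-/

set_option autoImplicit false
set_option linter.dupNamespace false

namespace Crest.Agent.R286.Win

open Crest.Agent.R286

/-! ### the structure theorem (hypothesis) -/

/-- `s` packs `X` into `N` slots of exactly three jobs. -/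
def Pack {α : Type} [DecidableEq α] (R : α → α → Prop) (X : Finset α) (N : ℕ) (s : α → ℕ) : Prop :=
  (∀ x ∈ X, 1 ≤ s x ∧ s x ≤ N) ∧ (∀ i, 1 ≤ i → i ≤ N → (X.filter (fun x => s x = i)).card = 3) ∧
    (∀ x ∈ X, ∀ y ∈ X, R x y → s x < s y)

/-- frames: everything, or the jobs below one of two jobs -/
def Frame {α : Type} (R : α → α → Prop) (F : Set α) : Prop :=
  F = Set.univ ∨ ∃ b c, F = {z | R z b ∨ R z c}

/-- staircases -/
def Desc {α : Type} (R : α → α → Prop) (nu : α → ℕ) (S : Set α) : Prop :=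
  ∃ F0 F1 F2 : Set α, Frame R F0 ∧ Frame R F1 ∧ Frame R F2 ∧ ∃ a0 a1 a2 : ℕ,
    S = {z | (z ∈ F0 ∧ nu z < a0) ∨ (z ∈ F1 ∧ nu z < a1) ∨ (z ∈ F2 ∧ nu z < a2)}

/-- the cut `t` is L-free -/
def LFree {α : Type} (R : α → α → Prop) (X : Finset α) (s : α → ℕ) (t : ℕ) : Prop :=
  ∀ q, 1 ≤ q → q < t → ∃ x ∈ X, q < s x ∧ s x ≤ t ∧ ∀ w ∈ X, s w = q → ¬ R w x

/-- the structure theorem -/
def TClaim : Prop :=
  ∀ (α : Type) [Fintype α] [DecidableEq α] (R : α → α → Prop) (nu : α → ℕ),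
    (∀ a, ¬ R a a) → (∀ a b c, R a b → R b c → R a c) →
    Function.Injective nu → (∀ a b, R a b → nu a < nu b) →
    ∀ (X : Finset α) (N : ℕ), (∃ s, Pack R X N s) →
      ∃ s, Pack R X N s ∧ ∀ t, 1 ≤ t → t ≤ N → LFree R X s t →
        ∃ S, Desc R nu S ∧ ∀ z ∈ X, (s z ≤ t ↔ z ∈ S ∧ ∀ w ∈ X, s w = t → ¬ R w z)

/-! ### abstract trees -/

variable {α : Type}

/-- splitting trees over an arbitrary class `K` of sets -/
inductive TreeK (lt : α → α → Prop) (K : Set α → Prop) : Set α → Prop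
  | empty : TreeK lt K ∅
  | leaf (X : Set α) : X.ncard = 3 → (∀ a ∈ X, ∀ b ∈ X, ¬ lt a b) → TreeK lt K X
  | node (Y Z : Set α) : K Y → K Z → Disjoint Y Z →
      (∀ y ∈ Y, ∀ z ∈ Z, ¬ lt z y) → TreeK lt K Y → TreeK lt K Z → TreeK lt K (Y ∪ Z)

theorem TreeK.flip {lt : α → α → Prop} {K : Set α → Prop} {X : Set α} (h : TreeK lt K X) :
    TreeK (fun a b => lt b a) K X := by
  induction h with
  | empty => exact .empty
  | leaf X h1 h2 => exact .leaf X h1 fun a ha b hb => h2 b hb a ha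
  | node Y Z hY hZ hd ho _ _ ihY ihZ =>
    rw [Set.union_comm]
    exact .node Z Y hZ hY hd.symm (fun z hz y hy => ho y hy z hz) ihZ ihY

theorem TreeK.toTree {lt : α → α → Prop} {nu : α → ℕ} {d : ℕ} {X : Set α}
    (h : TreeK lt (Fam lt nu d) X) : Tree lt nu d X := by
  induction h with
  | empty => exact .empty
  | leaf X h1 h2 => exact .leaf X h1 h2
  | node Y Z hY hZ hd ho _ _ ihY ihZ => exact .node Y Z hY hZ hd ho ihY ihZ

/-! ### shapes -/

/-- everything, or the jobs below one of three jobs -/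
def PD (lt : α → α → Prop) (D : Set α) : Prop :=
  D = Set.univ ∨ ∃ a b c, D = {z | lt z a ∨ lt z b ∨ lt z c}

/-- nothing, or the jobs below one of three jobs -/
def NV (lt : α → α → Prop) (D : Set α) : Prop :=
  D = ∅ ∨ ∃ a b c, D = {z | lt z a ∨ lt z b ∨ lt z c}

/-- everything, or a staircase -/
def DescU (lt : α → α → Prop) (nu : α → ℕ) (S : Set α) : Prop :=
  S = Set.univ ∨ Desc lt nu S

/-- nothing, or three jobs -/
def Slot (S : Set α) : Prop := S = ∅ ∨ ∃ a b c, S = {a, b, c}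

/-- the described sets -/
def Sh (lt : α → α → Prop) (nu nu' : α → ℕ) (Q : Set α) : Prop :=
  ∃ D U St St' V V' S : Set α, PD lt D ∧ PD (fun a b => lt b a) U ∧ DescU lt nu St ∧
    DescU (fun a b => lt b a) nu' St' ∧ NV (fun a b => lt b a) V ∧ NV lt V' ∧ Slot S ∧
    ∀ z, z ∈ Q ↔ z ∈ D ∧ z ∈ U ∧ z ∈ St ∧ z ∈ St' ∧ z ∉ V ∧ z ∉ V' ∧ z ∉ S

theorem Sh.flip {lt : α → α → Prop} {nu nu' : α → ℕ} {Q : Set α} (h : Sh lt nu nu' Q) :
    Sh (fun a b => lt b a) nu' nu Q := by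
  obtain ⟨D, U, St, St', V, V', S, h1, h2, h3, h4, h5, h6, h7, h8⟩ := h
  refine ⟨U, D, St', St, V', V, S, h2, h1, h4, h3, h6, h5, h7, fun z => ?_⟩
  rw [h8]
  tauto

/-- contexts whose upper boundary is pure -/
def IsV (lt : α → α → Prop) (nu' : α → ℕ) (X : Set α) : Prop :=
  ∃ D U St' V' S : Set α, PD lt D ∧ PD (fun a b => lt b a) U ∧
    DescU (fun a b => lt b a) nu' St' ∧ NV lt V' ∧ Slot S ∧
    (∀ x y, x ∈ U → x ∈ St' → x ∉ V' → x ∉ S → lt x y → y ∈ U ∧ y ∈ St' ∧ y ∉ V' ∧ y ∉ S) ∧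
    ∀ z, z ∈ X ↔ z ∈ D ∧ z ∈ U ∧ z ∈ St' ∧ z ∉ V' ∧ z ∉ S

/-- the hypotheses, symmetric under duality -/
structure Hyp [DecidableEq α] (lt : α → α → Prop) (nu nu' : α → ℕ) (K : Set α → Prop) : Prop where
  irr : ∀ a, ¬ lt a a
  trans : ∀ a b c, lt a b → lt b c → lt a c
  mono : ∀ a b, lt a b → nu a < nu b
  mono' : ∀ a b, lt b a → nu' a < nu' b
  T : ∀ (X : Finset α) (N : ℕ), (∃ s, Pack lt X N s) →
      ∃ s, Pack lt X N s ∧ ∀ t, 1 ≤ t → t ≤ N → LFree lt X s t →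
        ∃ S, Desc lt nu S ∧ ∀ z ∈ X, (s z ≤ t ↔ z ∈ S ∧ ∀ w ∈ X, s w = t → ¬ lt w z)
  T' : ∀ (X : Finset α) (N : ℕ), (∃ s, Pack (fun a b => lt b a) X N s) →
      ∃ s, Pack (fun a b => lt b a) X N s ∧ ∀ t, 1 ≤ t → t ≤ N → LFree (fun a b => lt b a) X s t →
        ∃ S, Desc (fun a b => lt b a) nu' S ∧ ∀ z ∈ X, (s z ≤ t ↔ z ∈ S ∧ ∀ w ∈ X, s w = t → ¬ lt z w)
  K0 : K ∅
  K1 : ∀ S, Slot S → K S
  K2 : ∀ Q, Sh lt nu nu' Q → K Q
  K3 : ∀ Q S, Sh lt nu nu' Q → Slot S → K (Q ∪ S)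

theorem Hyp.flip [DecidableEq α] {lt : α → α → Prop} {nu nu' : α → ℕ} {K : Set α → Prop}
    (h : Hyp lt nu nu' K) : Hyp (fun a b => lt b a) nu' nu K where
  irr := h.irr
  trans := fun a b c h1 h2 => h.trans c b a h2 h1
  mono := h.mono'
  mono' := h.mono
  T := h.T'
  T' := h.T
  K0 := h.K0
  K1 := h.K1
  K2 := fun Q hQ => h.K2 Q hQ.flip
  K3 := fun Q S hQ hS => h.K3 Q S hQ.flip hS

/-- staircases are down-closed -/
theorem Desc.down {lt : α → α → Prop} {nu : α → ℕ} (htr : ∀ a b c, lt a b → lt b c → lt a c)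
    (hm : ∀ a b, lt a b → nu a < nu b) {S : Set α} (h : Desc lt nu S) {x y : α} (hx : x ∈ S)
    (hy : lt y x) : y ∈ S := by
  obtain ⟨F0, F1, F2, h0, h1, h2, a0, a1, a2, rfl⟩ := h
  have key : ∀ F : Set α, Frame lt F → x ∈ F → y ∈ F := by
    rintro F (rfl | ⟨b, c, rfl⟩) hF
    · trivial
    · rcases hF with hF | hF
      · exact Or.inl (htr _ _ _ hy hF)
      · exact Or.inr (htr _ _ _ hy hF)
  have hn := hm _ _ hy
  rcases hx with ⟨hx, hx'⟩ | ⟨hx, hx'⟩ | ⟨hx, hx'⟩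
  · exact Or.inl ⟨key _ h0 hx, hn.trans hx'⟩
  · exact Or.inr (Or.inl ⟨key _ h1 hx, hn.trans hx'⟩)
  · exact Or.inr (Or.inr ⟨key _ h2 hx, hn.trans hx'⟩)

theorem PD.down {lt : α → α → Prop} (htr : ∀ a b c, lt a b → lt b c → lt a c)
    {S : Set α} (h : PD lt S) {x y : α} (hx : x ∈ S) (hy : lt y x) : y ∈ S := by
  rcases h with rfl | ⟨a, b, c, rfl⟩
  · trivial
  · rcases hx with hx | hx | hx
    · exact Or.inl (htr _ _ _ hy hx)
    · exact Or.inr (Or.inl (htr _ _ _ hy hx))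
    · exact Or.inr (Or.inr (htr _ _ _ hy hx))

section step

variable [DecidableEq α] {lt : α → α → Prop} {nu nu' : α → ℕ} {K : Set α → Prop}

/-- left separators: every job in the slots `(q, t]` has a predecessor in slot `q` -/
def Sep (lt : α → α → Prop) (X : Finset α) (s : α → ℕ) (q t : ℕ) : Prop :=
  1 ≤ q ∧ ∀ x ∈ X, q < s x → s x ≤ t → ∃ w ∈ X, s w = q ∧ lt w x

omit [DecidableEq α] in
theorem exists_min_sep (htr : ∀ a b c, lt a b → lt b c → lt a c) (X : Finset α) (s : α → ℕ)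
    (t : ℕ) (ht : 1 ≤ t) : ∃ c, 1 ≤ c ∧ c ≤ t ∧ Sep lt X s c t ∧ LFree lt X s c := by
  classical
  have hex : ∃ q, Sep lt X s q t := ⟨t, ht, fun x _ h1 h2 => absurd h2 (not_le.2 h1)⟩
  refine ⟨Nat.find hex, (Nat.find_spec hex).1, Nat.find_min' hex ⟨ht, fun x _ h1 h2 =>
    absurd h2 (not_le.2 h1)⟩, Nat.find_spec hex, fun q hq1 hq2 => ?_⟩
  by_contra hcon
  push Not at hcon
  refine Nat.find_min hex hq2 ⟨hq1, fun x hx h1 h2 => ?_⟩
  by_cases h3 : s x ≤ Nat.find hex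
  · exact hcon x hx h1 h3
  · push Not at h3
    obtain ⟨w, hw, hw1, hw2⟩ := (Nat.find_spec hex).2 x hx h3 h2
    obtain ⟨w', hw', hw1', hw2'⟩ := hcon w hw (by omega) hw1.le
    exact ⟨w', hw', hw1', htr _ _ _ hw2' hw2⟩

/-- a slot as a set -/
theorem slot_of_pack {X : Finset α} {N : ℕ} {s : α → ℕ} (hp : Pack lt X N s) {t : ℕ} (h1 : 1 ≤ t)
    (h2 : t ≤ N) : ∃ a b c, ∀ x, (x ∈ X ∧ s x = t) ↔ x = a ∨ x = b ∨ x = c := by
  obtain ⟨a, b, c, -, -, -, h⟩ := Finset.card_eq_three.1 (hp.2.1 t h1 h2)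
  refine ⟨a, b, c, fun x => ?_⟩
  have := Finset.ext_iff.1 h x
  simpa only [Finset.mem_filter, Finset.mem_insert, Finset.mem_singleton] using this

/-- the windows are packable for the dual order -/
theorem pack_window {X : Finset α} {N : ℕ} {s : α → ℕ} (hp : Pack lt X N s) {c t : ℕ}
    (h2 : t ≤ N + 1) :
    Pack (fun a b => lt b a) (X.filter (fun x => c < s x ∧ s x < t)) (t - 1 - c)
      (fun x => t - s x) := by
  refine ⟨fun x hx => ?_, fun i h1 h2 => ?_, fun x hx y hy hxy => ?_⟩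
  · rw [Finset.mem_filter] at hx
    obtain ⟨_, h3, h4⟩ := hx
    show 1 ≤ t - s x ∧ t - s x ≤ t - 1 - c
    omega
  · rw [← hp.2.1 (t - i) (by omega) (by omega)]
    congr 1
    ext x
    simp only [Finset.mem_filter]
    constructor
    · rintro ⟨⟨hx, h3, h4⟩, h5⟩
      exact ⟨hx, by omega⟩
    · rintro ⟨hx, h3⟩
      refine ⟨⟨hx, ?_, ?_⟩, ?_⟩ <;> omega
  · rw [Finset.mem_filter] at hx hy
    have := hp.2.2 y hy.1 x hx.1 hxy
    show t - s x < t - s y
    omega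

/-- the step: a context with pure upper boundary -/
theorem stepV (H : Hyp lt nu nu' K) (X : Finset α) (hX : IsV lt nu' (X : Set α))
    (N : ℕ) (hpk : ∃ s, Pack lt X N s)
    (IH : ∀ W : Finset α, W.card < X.card → IsV (fun a b => lt b a) nu (W : Set α) →
      (∀ N', (∃ s, Pack (fun a b => lt b a) W N' s) → TreeK (fun a b => lt b a) K (W : Set α))) :
    TreeK lt K (X : Set α) := by
  obtain ⟨D, U, St', V', S0, hD, hU, hSt', hV', hS0, hL, hXd⟩ := hX
  obtain ⟨s, hs, hT⟩ := H.T X N hpk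
  have hXm : ∀ z, z ∈ X ↔ z ∈ D ∧ z ∈ U ∧ z ∈ St' ∧ z ∉ V' ∧ z ∉ S0 := fun z => by
    rw [← hXd z, Finset.mem_coe]
  -- the description of the L-free cuts
  have hcut : ∀ t, 1 ≤ t → t ≤ N → LFree lt X s t → ∃ St V : Set α, Desc lt nu St ∧
      (∃ a b c, V = {z | lt a z ∨ lt b z ∨ lt c z}) ∧
      (∀ z, z ∈ V ↔ ∃ w ∈ X, s w = t ∧ lt w z) ∧
      ∀ z ∈ X, s z ≤ t ↔ z ∈ St ∧ z ∉ V := by
    intro t h1 h2 hf
    obtain ⟨St, hSt, hSt2⟩ := hT t h1 h2 hf
    obtain ⟨a, b, c, habc⟩ := slot_of_pack hs h1 h2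
    refine ⟨St, {z | lt a z ∨ lt b z ∨ lt c z}, hSt, ⟨a, b, c, rfl⟩, fun z => ?_, fun z hz => ?_⟩
    · constructor
      · rintro (h | h | h)
        · obtain ⟨h3, h4⟩ := (habc a).2 (Or.inl rfl)
          exact ⟨a, h3, h4, h⟩
        · obtain ⟨h3, h4⟩ := (habc b).2 (Or.inr (Or.inl rfl))
          exact ⟨b, h3, h4, h⟩
        · obtain ⟨h3, h4⟩ := (habc c).2 (Or.inr (Or.inr rfl))
          exact ⟨c, h3, h4, h⟩
      · rintro ⟨w, hw, hw2, hw3⟩
        rcases (habc w).1 ⟨hw, hw2⟩ with rfl | rfl | rfl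
        · exact Or.inl hw3
        · exact Or.inr (Or.inl hw3)
        · exact Or.inr (Or.inr hw3)
    · rw [hSt2 z hz]
      refine and_congr_right fun _ => ?_
      constructor
      · intro h h'
        rcases h' with h' | h' | h'
        · obtain ⟨h3, h4⟩ := (habc a).2 (Or.inl rfl)
          exact h a h3 h4 h'
        · obtain ⟨h3, h4⟩ := (habc b).2 (Or.inr (Or.inl rfl))
          exact h b h3 h4 h'
        · obtain ⟨h3, h4⟩ := (habc c).2 (Or.inr (Or.inr rfl))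
          exact h c h3 h4 h'
      · intro h w hw hw2 hw3
        apply h
        rcases (habc w).1 ⟨hw, hw2⟩ with rfl | rfl | rfl
        · exact Or.inl hw3
        · exact Or.inr (Or.inl hw3)
        · exact Or.inr (Or.inr hw3)
  -- cuts
  have hKcut : ∀ t, 1 ≤ t → t ≤ N → LFree lt X s t → K {x | x ∈ X ∧ s x ≤ t} := by
    intro t h1 h2 hf
    obtain ⟨St, V, hSt, hV, hVm, hcm⟩ := hcut t h1 h2 hf
    refine H.K2 _ ⟨D, U, St, St', V, V', S0, hD, hU, Or.inr hSt, hSt', Or.inr hV, hV', hS0,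
      fun z => ?_⟩
    show (z ∈ X ∧ s z ≤ t) ↔ _
    constructor
    · rintro ⟨hz, hz2⟩
      have h3 := (hXm z).1 hz
      have h4 := (hcm z hz).1 hz2
      tauto
    · intro h
      have hz : z ∈ X := (hXm z).2 (by tauto)
      exact ⟨hz, (hcm z hz).2 (by tauto)⟩
  -- the windows below an L-free cut
  have hwin : ∀ t c, 1 ≤ t → t ≤ N → LFree lt X s t → 1 ≤ c → c ≤ t - 1 → Sep lt X s c (t - 1) →
      Sh lt nu nu' {x | x ∈ X ∧ c < s x ∧ s x < t} ∧
      IsV (fun a b => lt b a) nu {x | x ∈ X ∧ c < s x ∧ s x < t} := by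
    intro t c h1 h2 hf hc1 hc2 hsep
    obtain ⟨St, V, hSt, hV, hVm, hcm⟩ := hcut t h1 h2 hf
    obtain ⟨a, b, e, habc⟩ := slot_of_pack hs hc1 (hc2.trans (by omega))
    obtain ⟨a', b', e', habc'⟩ := slot_of_pack hs h1 h2
    set Uc : Set α := {z | lt a z ∨ lt b z ∨ lt e z} with hUc
    have hUcm : ∀ z, z ∈ Uc ↔ ∃ w ∈ X, s w = c ∧ lt w z := by
      intro z
      constructor
      · rintro (h | h | h)
        · obtain ⟨h3, h4⟩ := (habc a).2 (Or.inl rfl)
          exact ⟨a, h3, h4, h⟩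
        · obtain ⟨h3, h4⟩ := (habc b).2 (Or.inr (Or.inl rfl))
          exact ⟨b, h3, h4, h⟩
        · obtain ⟨h3, h4⟩ := (habc e).2 (Or.inr (Or.inr rfl))
          exact ⟨e, h3, h4, h⟩
      · rintro ⟨w, hw, hw2, hw3⟩
        rcases (habc w).1 ⟨hw, hw2⟩ with rfl | rfl | rfl
        · exact Or.inl hw3
        · exact Or.inr (Or.inl hw3)
        · exact Or.inr (Or.inr hw3)
    have hS' : ∀ z, z ∈ ({a', b', e'} : Set α) ↔ z ∈ X ∧ s z = t := by
      intro z
      rw [habc' z]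
      simp
    have hmem : ∀ z, (z ∈ X ∧ c < s z ∧ s z < t) ↔
        z ∈ D ∧ z ∈ Uc ∧ z ∈ St ∧ z ∉ V ∧ z ∉ ({a', b', e'} : Set α) := by
      intro z
      constructor
      · rintro ⟨hz, h3, h4⟩
        have h5 := (hXm z).1 hz
        have h6 := (hcm z hz).1 h4.le
        refine ⟨h5.1, (hUcm z).2 (hsep.2 z hz h3 (by omega)), h6.1, h6.2, fun h7 => ?_⟩
        have := ((hS' z).1 h7).2
        omega
      · rintro ⟨h3, h4, h5, h6, h7⟩
        obtain ⟨w, hw, hw2, hw3⟩ := (hUcm z).1 h4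
        have hwL := (hXm w).1 hw
        have hzL := hL w z hwL.2.1 hwL.2.2.1 hwL.2.2.2.1 hwL.2.2.2.2 hw3
        have hz : z ∈ X := (hXm z).2 ⟨h3, hzL⟩
        have h8 := (hcm z hz).2 ⟨h5, h6⟩
        have h9 := hs.2.2 w hw z hz hw3
        refine ⟨hz, by omega, lt_of_le_of_ne h8 fun h10 => h7 ((hS' z).2 ⟨hz, h10⟩)⟩
    constructor
    · refine ⟨D, Uc, St, Set.univ, V, ∅, {a', b', e'}, hD, Or.inr ⟨a, b, e, rfl⟩, Or.inr hSt,
        Or.inl rfl, Or.inr hV, Or.inl rfl, Or.inr ⟨a', b', e', rfl⟩, fun z => ?_⟩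
      show (z ∈ X ∧ c < s z ∧ s z < t) ↔ _
      rw [hmem z]
      simp only [Set.mem_univ, Set.mem_empty_iff_false, not_false_eq_true, true_and]
    · refine ⟨Uc, D, St, V, {a', b', e'}, Or.inr ⟨a, b, e, rfl⟩, hD, Or.inr hSt, Or.inr hV,
        Or.inr ⟨a', b', e', rfl⟩, fun x y h3 h4 h5 h6 h7 => ?_, fun z => ?_⟩
      · have hyx : lt y x := h7
        refine ⟨PD.down H.trans hD h3 hyx, hSt.down H.trans H.mono h4 hyx, fun h8 => ?_,
          fun h8 => ?_⟩
        · obtain ⟨w, hw, hw2, hw3⟩ := (hVm y).1 h8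
          exact h5 ((hVm x).2 ⟨w, hw, hw2, H.trans _ _ _ hw3 hyx⟩)
        · obtain ⟨h9, h10⟩ := (hS' y).1 h8
          exact h5 ((hVm x).2 ⟨y, h9, h10, hyx⟩)
      · show (z ∈ X ∧ c < s z ∧ s z < t) ↔ _
        rw [hmem z]
        tauto
  -- trees of windows
  have hcardW : ∀ c t, 1 ≤ c → c ≤ N → (X.filter (fun x => c < s x ∧ s x < t)).card < X.card := by
    intro c t h1 h2
    apply Finset.card_lt_card
    refine ⟨Finset.filter_subset _ _, fun hsub => ?_⟩
    obtain ⟨a, b, e, habc⟩ := slot_of_pack hs h1 h2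
    obtain ⟨h3, h4⟩ := (habc a).2 (Or.inl rfl)
    have := Finset.mem_filter.1 (hsub h3)
    omega
  have hcoe : ∀ c t, ((X.filter (fun x => c < s x ∧ s x < t) : Finset α) : Set α) =
      {x | x ∈ X ∧ c < s x ∧ s x < t} := by
    intro c t
    ext x
    simp
  have hslotset : ∀ t, 1 ≤ t → t ≤ N → Slot {x | x ∈ X ∧ s x = t} := by
    intro t h1 h2
    obtain ⟨a, b, e, habc⟩ := slot_of_pack hs h1 h2
    refine Or.inr ⟨a, b, e, ?_⟩
    ext x
    show (x ∈ X ∧ s x = t) ↔ _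
    rw [habc x]
    simp
  have hslottree : ∀ t, 1 ≤ t → t ≤ N → TreeK lt K {x | x ∈ X ∧ s x = t} := by
    intro t h1 h2
    refine .leaf _ ?_ fun x hx y hy hxy => ?_
    · rw [← hs.2.1 t h1 h2, ← Set.ncard_coe_finset]
      congr 1
      ext x
      simp
    · have := hs.2.2 x hx.1 y hy.1 hxy
      have h3 := hx.2
      have h4 := hy.2
      omega
  -- trees of the L-free cuts
  have htree : ∀ t, 1 ≤ t → t ≤ N → LFree lt X s t → TreeK lt K {x | x ∈ X ∧ s x ≤ t} := by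
    intro t
    induction t using Nat.strong_induction_on with
    | _ t ih =>
      intro h1 h2 hf
      rcases Nat.eq_or_lt_of_le h1 with h1' | h1'
      · have : {x | x ∈ X ∧ s x ≤ t} = {x | x ∈ X ∧ s x = t} := by
          ext x
          constructor
          · rintro ⟨hx, hx2⟩
            have := (hs.1 x hx).1
            exact ⟨hx, by omega⟩
          · rintro ⟨hx, hx2⟩
            exact ⟨hx, hx2.le⟩
        rw [this]
        exact hslottree t h1 h2
      · obtain ⟨c, hc1, hc2, hsep, hcf⟩ := exists_min_sep H.trans X s (t - 1) (by omega)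
        obtain ⟨hw1, hw2⟩ := hwin t c h1 h2 hf hc1 hc2 hsep
        have htW : TreeK lt K {x | x ∈ X ∧ c < s x ∧ s x < t} := by
          have := IH (X.filter (fun x => c < s x ∧ s x < t)) (hcardW c t hc1 (by omega))
            (by rw [hcoe]; exact hw2) _ ⟨_, pack_window hs (by omega)⟩
          rw [hcoe] at this
          exact this.flip
        have htc := ih c (by omega) hc1 (by omega) hcf
        have hWS : TreeK lt K ({x | x ∈ X ∧ c < s x ∧ s x < t} ∪ {x | x ∈ X ∧ s x = t}) := by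
          refine .node _ _ (H.K2 _ hw1) (H.K1 _ (hslotset t h1 h2)) ?_ ?_ htW (hslottree t h1 h2)
          · rw [Set.disjoint_left]
            rintro x ⟨_, _, h3⟩ ⟨_, h4⟩
            omega
          · rintro y ⟨hy, _, h3⟩ z ⟨hz, h4⟩ hzy
            have := hs.2.2 z hz y hy hzy
            omega
        have heq : {x | x ∈ X ∧ s x ≤ t} = {x | x ∈ X ∧ s x ≤ c} ∪
            ({x | x ∈ X ∧ c < s x ∧ s x < t} ∪ {x | x ∈ X ∧ s x = t}) := by
          ext x
          simp only [Set.mem_ofPred_eq, Set.mem_union]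
          constructor
          · rintro ⟨hx, h3⟩
            rcases lt_trichotomy (s x) t with h4 | h4 | h4
            · by_cases h5 : s x ≤ c
              · exact Or.inl ⟨hx, h5⟩
              · exact Or.inr (Or.inl ⟨hx, by omega, h4⟩)
            · exact Or.inr (Or.inr ⟨hx, h4⟩)
            · omega
          · rintro (⟨hx, h3⟩ | ⟨hx, h3, h4⟩ | ⟨hx, h3⟩)
            · exact ⟨hx, by omega⟩
            · exact ⟨hx, by omega⟩
            · exact ⟨hx, by omega⟩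
        rw [heq]
        refine .node _ _ (hKcut c hc1 (by omega) hcf) (H.K3 _ _ hw1 (hslotset t h1 h2)) ?_ ?_
          htc hWS
        · rw [Set.disjoint_left]
          rintro x ⟨_, h3⟩ (⟨_, h4, _⟩ | ⟨_, h4⟩) <;> omega
        · rintro y ⟨hy, h3⟩ z (⟨hz, h4, h5⟩ | ⟨hz, h4⟩) hzy
          · have := hs.2.2 z hz y hy hzy
            omega
          · have := hs.2.2 z hz y hy hzy
            omega
  -- conclusion
  rcases Nat.eq_zero_or_pos N with hN | hN
  · have : (X : Set α) = ∅ := by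
      ext x
      simp only [Finset.mem_coe, Set.mem_empty_iff_false, iff_false]
      intro hx
      have := hs.1 x hx
      omega
    rw [this]
    exact .empty
  · obtain ⟨c, hc1, hc2, hsep, hcf⟩ := exists_min_sep H.trans X s N hN
    obtain ⟨a, b, e, habc⟩ := slot_of_pack hs hc1 hc2
    set Uc : Set α := {z | lt a z ∨ lt b z ∨ lt e z} with hUc
    have hUcm : ∀ z, z ∈ Uc ↔ ∃ w ∈ X, s w = c ∧ lt w z := by
      intro z
      constructor
      · rintro (h | h | h)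
        · obtain ⟨h3, h4⟩ := (habc a).2 (Or.inl rfl)
          exact ⟨a, h3, h4, h⟩
        · obtain ⟨h3, h4⟩ := (habc b).2 (Or.inr (Or.inl rfl))
          exact ⟨b, h3, h4, h⟩
        · obtain ⟨h3, h4⟩ := (habc e).2 (Or.inr (Or.inr rfl))
          exact ⟨e, h3, h4, h⟩
      · rintro ⟨w, hw, hw2, hw3⟩
        rcases (habc w).1 ⟨hw, hw2⟩ with rfl | rfl | rfl
        · exact Or.inl hw3
        · exact Or.inr (Or.inl hw3)
        · exact Or.inr (Or.inr hw3)
    have hmem : ∀ z, (z ∈ X ∧ c < s z ∧ s z < N + 1) ↔ z ∈ D ∧ z ∈ Uc := by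
      intro z
      constructor
      · rintro ⟨hz, h3, h4⟩
        exact ⟨((hXm z).1 hz).1, (hUcm z).2 (hsep.2 z hz h3 (by omega))⟩
      · rintro ⟨h3, h4⟩
        obtain ⟨w, hw, hw2, hw3⟩ := (hUcm z).1 h4
        have hwL := (hXm w).1 hw
        have hzL := hL w z hwL.2.1 hwL.2.2.1 hwL.2.2.2.1 hwL.2.2.2.2 hw3
        have hz : z ∈ X := (hXm z).2 ⟨h3, hzL⟩
        have h9 := hs.2.2 w hw z hz hw3
        have h10 := hs.1 z hz
        exact ⟨hz, by omega, by omega⟩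
    have hw1 : Sh lt nu nu' {x | x ∈ X ∧ c < s x ∧ s x < N + 1} := by
      refine ⟨D, Uc, Set.univ, Set.univ, ∅, ∅, ∅, hD, Or.inr ⟨a, b, e, rfl⟩, Or.inl rfl,
        Or.inl rfl, Or.inl rfl, Or.inl rfl, Or.inl rfl, fun z => ?_⟩
      show (z ∈ X ∧ c < s z ∧ s z < N + 1) ↔ _
      rw [hmem z]
      simp
    have hw2 : IsV (fun a b => lt b a) nu {x | x ∈ X ∧ c < s x ∧ s x < N + 1} := by
      refine ⟨Uc, D, Set.univ, ∅, ∅, Or.inr ⟨a, b, e, rfl⟩, hD, Or.inl rfl, Or.inl rfl,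
        Or.inl rfl, fun x y h3 _ _ _ h7 => ?_, fun z => ?_⟩
      · exact ⟨PD.down H.trans hD h3 h7, trivial, fun h => h, fun h => h⟩
      · show (z ∈ X ∧ c < s z ∧ s z < N + 1) ↔ _
        rw [hmem z]
        simp [and_comm]
    have htW : TreeK lt K {x | x ∈ X ∧ c < s x ∧ s x < N + 1} := by
      have := IH (X.filter (fun x => c < s x ∧ s x < N + 1)) (hcardW c (N + 1) hc1 hc2)
        (by rw [hcoe]; exact hw2) _ ⟨_, pack_window hs (by omega)⟩
      rw [hcoe] at this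
      exact this.flip
    have heq : (X : Set α) = {x | x ∈ X ∧ s x ≤ c} ∪ {x | x ∈ X ∧ c < s x ∧ s x < N + 1} := by
      ext x
      simp only [Set.mem_ofPred_eq, Set.mem_union, Finset.mem_coe]
      constructor
      · intro hx
        have := hs.1 x hx
        by_cases h5 : s x ≤ c
        · exact Or.inl ⟨hx, h5⟩
        · exact Or.inr ⟨hx, by omega, by omega⟩
      · rintro (⟨hx, _⟩ | ⟨hx, _⟩) <;> exact hx
    rw [heq]
    refine .node _ _ (hKcut c hc1 hc2 hcf) (H.K2 _ hw1) ?_ ?_ (htree c hc1 hc2 hcf) htW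
    · rw [Set.disjoint_left]
      rintro x ⟨_, h3⟩ ⟨_, h4, _⟩
      omega
    · rintro y ⟨hy, h3⟩ z ⟨hz, h4, h5⟩ hzy
      have := hs.2.2 z hz y hy hzy
      omega

/-- the recursion over contexts -/
theorem tree_of_isV (n : ℕ) : ∀ (lt : α → α → Prop) (nu nu' : α → ℕ) (_ : Hyp lt nu nu' K)
    (X : Finset α), X.card ≤ n → IsV lt nu' (X : Set α) → ∀ N, (∃ s, Pack lt X N s) →
    TreeK lt K (X : Set α) := by
  induction n with
  | zero =>
    intro lt nu nu' H X hX hV N hp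
    have : X = ∅ := Finset.card_eq_zero.1 (Nat.le_zero.1 hX)
    subst this
    rw [Finset.coe_empty]
    exact .empty
  | succ n ih =>
    intro lt nu nu' H X hX hV N hp
    refine stepV H X hV N hp fun W hW hWV N' hp' => ?_
    exact ih (fun a b => lt b a) nu' nu H.flip W (by omega) hWV N' hp'

end step

end Crest.Agent.R286.Win
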