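import Mathlib

/-!
# Row 286: left windows between consecutive L-free cuts (helper957)

Everything is stated in unfolded form for a relation `R`, a finite set `X` of jobs and a slot
function `s : α → ℕ`.  A cut `t` is L-free iff
`∀ q, 1 ≤ q → q < t → ∃ x ∈ X, q < s x ∧ s x ≤ t ∧ ∀ w ∈ X, s w = q → ¬ R w x`.
-/

set_option autoImplicit false
set_option linter.dupNamespace false

namespace Crest.Agent.R286.WinL

variable {α : Type} {R : α → α → Prop} {X : Finset α} {s : α → ℕ} {N : ℕ}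

/-- cut `t` is L-free (same text as `LFree` of note 13110) -/
def LF (R : α → α → Prop) (X : Finset α) (s : α → ℕ) (t : ℕ) : Prop :=
  ∀ q, 1 ≤ q → q < t → ∃ x ∈ X, q < s x ∧ s x ≤ t ∧ ∀ w ∈ X, s w = q → ¬ R w x

theorem LF.one : LF R X s 1 := fun q h1 h2 => absurd h1 (by omega)

/-- Every cut `t ≥ 1` has an L-free cut `c ≤ t` such that all jobs of the slots `(c, t]` are
strictly above a job of slot `c`. -/
theorem exists_prev (htr : ∀ a b c, R a b → R b c → R a c) (t : ℕ) (ht : 1 ≤ t) :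
    ∃ c, 1 ≤ c ∧ c ≤ t ∧ LF R X s c ∧
      ∀ x ∈ X, c < s x → s x ≤ t → ∃ w ∈ X, s w = c ∧ R w x := by
  induction t using Nat.strong_induction_on with
  | _ t ih =>
    by_cases hf : LF R X s t
    · exact ⟨t, ht, le_rfl, hf, fun x _ h1 h2 => absurd h1 (by omega)⟩
    · unfold LF at hf
      push Not at hf
      obtain ⟨q, h1, h2, h3⟩ := hf
      obtain ⟨c, hc1, hc2, hc3, hc4⟩ := ih q h2 h1
      refine ⟨c, hc1, by omega, hc3, fun x hx hx1 hx2 => ?_⟩
      by_cases hq : s x ≤ q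
      · exact hc4 x hx hx1 hq
      · obtain ⟨w, hw, hw1, hw2⟩ := h3 x hx (by omega) hx2
        rcases Nat.lt_or_ge c (s w) with hcw | hcw
        · obtain ⟨v, hv, hv1, hv2⟩ := hc4 w hw hcw (by omega)
          exact ⟨v, hv, hv1, htr _ _ _ hv2 hw2⟩
        · exact ⟨w, hw, by omega, hw2⟩

/-- The window between `c` and `t` as a strict up-set cut by the prefix. -/
theorem window_eq {c t : ℕ} (hmono : ∀ x ∈ X, ∀ y ∈ X, R x y → s x < s y)
    (h : ∀ x ∈ X, c < s x → s x ≤ t → ∃ w ∈ X, s w = c ∧ R w x) :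
    {x | x ∈ X ∧ c < s x ∧ s x ≤ t} =
      {x | ∃ a ∈ {w | w ∈ X ∧ s w = c}, R a x} ∩ {x | x ∈ X ∧ s x ≤ t} := by
  ext x
  constructor
  · rintro ⟨h1, h2, h3⟩
    obtain ⟨w, hw, hw1, hw2⟩ := h x h1 h2 h3
    exact ⟨⟨w, ⟨hw, hw1⟩, hw2⟩, h1, h3⟩
  · rintro ⟨⟨w, ⟨hw, hw1⟩, hw2⟩, h1, h3⟩
    exact ⟨h1, by have := hmono w hw x h1 hw2; omega, h3⟩

/-- Shifted slots: a block of consecutive slots is packed again. -/
theorem block_card {c t : ℕ} (hc : t ≤ N)
    (h3 : ∀ i, 1 ≤ i → i ≤ N → (X.filter fun x => s x = i).card = 3) (i : ℕ) (h1 : 1 ≤ i)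
    (h2 : i ≤ t - c) :
    ((X.filter fun x => c < s x ∧ s x ≤ t).filter fun x => s x - c = i).card = 3 := by
  rw [← h3 (i + c) (by omega) (by omega), Finset.filter_filter]
  congr 1
  ext x
  simp only [Finset.mem_filter]
  constructor
  · rintro ⟨h4, ⟨h5, h6⟩, h7⟩
    exact ⟨h4, by omega⟩
  · rintro ⟨h4, h5⟩
    exact ⟨h4, ⟨by omega, by omega⟩, by omega⟩

end Crest.Agent.R286.WinL
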