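import Crest.Agent.R286.WinL
import Crest.Agent.R286.Algo

/-!
# Row 286: the splitting tree of a context from its L-free cuts and windows (helper957)
-/

set_option autoImplicit false
set_option linter.dupNamespace false

namespace Crest.Agent.R286.WinL

variable {α : Type} {R : α → α → Prop} {nu : α → ℕ} {X : Finset α} {s : α → ℕ} {N d : ℕ}

/-- prefix -/
def Dt (X : Finset α) (s : α → ℕ) (t : ℕ) : Set α := {x | x ∈ X ∧ s x ≤ t}

/-- slot -/
def Sl (X : Finset α) (s : α → ℕ) (t : ℕ) : Set α := {x | x ∈ X ∧ s x = t}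

/-- window -/
def Wd (X : Finset α) (s : α → ℕ) (c t : ℕ) : Set α := {x | x ∈ X ∧ c < s x ∧ s x ≤ t}

theorem Dt_succ (t : ℕ) : Dt X s (t + 1) = Dt X s t ∪ Sl X s (t + 1) := by
  ext x; simp only [Dt, Sl, Set.mem_ofPred_eq, Set.mem_union]
  constructor
  · rintro ⟨h1, h2⟩
    by_cases h : s x ≤ t
    · exact Or.inl ⟨h1, h⟩
    · exact Or.inr ⟨h1, by omega⟩
  · rintro (⟨h1, h2⟩ | ⟨h1, h2⟩)
    · exact ⟨h1, by omega⟩
    · exact ⟨h1, by omega⟩

theorem Dt_window {c t : ℕ} (h : c ≤ t) : Dt X s t = Dt X s c ∪ Wd X s c t := by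
  ext x; simp only [Dt, Wd, Set.mem_ofPred_eq, Set.mem_union]
  constructor
  · rintro ⟨h1, h2⟩
    by_cases h : s x ≤ c
    · exact Or.inl ⟨h1, h⟩
    · exact Or.inr ⟨h1, by omega, h2⟩
  · rintro (⟨h1, h2⟩ | ⟨h1, h2, h3⟩)
    · exact ⟨h1, by omega⟩
    · exact ⟨h1, h3⟩

theorem tree_slot (hmono : ∀ x ∈ X, ∀ y ∈ X, R x y → s x < s y)
    (h3 : ∀ i, 1 ≤ i → i ≤ N → (X.filter fun x => s x = i).card = 3) {t : ℕ}
    (h1 : 1 ≤ t) (h2 : t ≤ N) : Tree R nu d (Sl X s t) := by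
  refine Tree.leaf _ ?_ ?_
  · rw [← h3 t h1 h2, ← Set.ncard_coe_finset]
    congr 1
    ext x; simp [Sl]
  · rintro a ⟨ha, ha'⟩ b ⟨hb, hb'⟩ hab
    have := hmono a ha b hb hab
    omega

/-- Tree of an L-free prefix. -/
theorem tree_prefix (htr : ∀ a b c, R a b → R b c → R a c)
    (hmono : ∀ x ∈ X, ∀ y ∈ X, R x y → s x < s y)
    (hpos : ∀ x ∈ X, 1 ≤ s x)
    (h3 : ∀ i, 1 ≤ i → i ≤ N → (X.filter fun x => s x = i).card = 3)
    (hD : ∀ t, 1 ≤ t → t ≤ N → LF R X s t → Fam R nu d (Dt X s t))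
    (hD' : ∀ t, 1 ≤ t → t + 1 ≤ N → LF R X s (t + 1) → Fam R nu d (Dt X s t))
    (hS : ∀ t, 1 ≤ t → t ≤ N → Fam R nu d (Sl X s t))
    (hW : ∀ c t, 1 ≤ c → c ≤ t → LF R X s c → (t = N ∨ (t + 1 ≤ N ∧ LF R X s (t + 1))) →
      (∀ x ∈ X, c < s x → s x ≤ t → ∃ w ∈ X, s w = c ∧ R w x) →
      Fam R nu d (Wd X s c t) ∧ Tree R nu d (Wd X s c t))
    (t : ℕ) (h1 : 1 ≤ t) (h2 : t ≤ N) (hf : LF R X s t) : Tree R nu d (Dt X s t) := by
  induction t using Nat.strong_induction_on with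
  | _ t ih =>
    obtain ⟨t, rfl⟩ : ∃ t', t = t' + 1 := ⟨t - 1, by omega⟩
    rcases Nat.eq_zero_or_pos t with rfl | ht
    · have : Dt X s (0 + 1) = Sl X s (0 + 1) := by
        ext x; simp only [Dt, Sl, Set.mem_ofPred_eq]
        constructor
        · rintro ⟨ha, hb⟩
          exact ⟨ha, by have := hpos x ha; omega⟩
        · rintro ⟨ha, hb⟩
          exact ⟨ha, by omega⟩
      rw [this]
      exact tree_slot hmono h3 h1 h2
    · obtain ⟨c, hc1, hc2, hc3, hc4⟩ := exists_prev (R := R) (X := X) (s := s) htr t ht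
      have hWt := hW c t hc1 hc2 hc3 (Or.inr ⟨h2, hf⟩) hc4
      have hDc := ih c (by omega) hc1 (by omega) hc3
      have hDt : Tree R nu d (Dt X s t) := by
        rw [Dt_window hc2]
        refine Tree.node _ _ (hD c hc1 (by omega) hc3) hWt.1 ?_ ?_ hDc hWt.2
        · rw [Set.disjoint_left]
          rintro x ⟨_, h⟩ ⟨_, h', _⟩
          omega
        · rintro y ⟨hy, hy'⟩ z ⟨hz, hz', _⟩ hzy
          have := hmono z hz y hy hzy
          omega
      rw [Dt_succ]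
      refine Tree.node _ _ (hD' t ht h2 hf) (hS (t + 1) h1 h2) ?_ ?_ hDt (tree_slot hmono h3 h1 h2)
      · rw [Set.disjoint_left]
        rintro x ⟨_, h⟩ ⟨_, h'⟩
        omega
      · rintro y ⟨hy, hy'⟩ z ⟨hz, hz'⟩ hzy
        have := hmono z hz y hy hzy
        omega

/-- Tree of the whole context. -/
theorem tree_context (htr : ∀ a b c, R a b → R b c → R a c)
    (hmono : ∀ x ∈ X, ∀ y ∈ X, R x y → s x < s y)
    (hpos : ∀ x ∈ X, 1 ≤ s x) (hle : ∀ x ∈ X, s x ≤ N)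
    (h3 : ∀ i, 1 ≤ i → i ≤ N → (X.filter fun x => s x = i).card = 3)
    (hD : ∀ t, 1 ≤ t → t ≤ N → LF R X s t → Fam R nu d (Dt X s t))
    (hD' : ∀ t, 1 ≤ t → t + 1 ≤ N → LF R X s (t + 1) → Fam R nu d (Dt X s t))
    (hS : ∀ t, 1 ≤ t → t ≤ N → Fam R nu d (Sl X s t))
    (hW : ∀ c t, 1 ≤ c → c ≤ t → LF R X s c → (t = N ∨ (t + 1 ≤ N ∧ LF R X s (t + 1))) →
      (∀ x ∈ X, c < s x → s x ≤ t → ∃ w ∈ X, s w = c ∧ R w x) →
      Fam R nu d (Wd X s c t) ∧ Tree R nu d (Wd X s c t)) : Tree R nu d (X : Set α) := by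
  rcases Nat.eq_zero_or_pos N with rfl | hN
  · have : (X : Set α) = ∅ := by
      ext x
      simp only [Finset.mem_coe, Set.mem_empty_iff_false, iff_false]
      intro hx
      have := hpos x hx
      have := hle x hx
      omega
    rw [this]
    exact Tree.empty
  · obtain ⟨c, hc1, hc2, hc3, hc4⟩ := exists_prev (R := R) (X := X) (s := s) htr N hN
    have hWt := hW c N hc1 hc2 hc3 (Or.inl rfl) hc4
    have hDc := tree_prefix htr hmono hpos h3 hD hD' hS hW c hc1 hc2 hc3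
    have hX : (X : Set α) = Dt X s c ∪ Wd X s c N := by
      rw [← Dt_window hc2]
      ext x
      simp only [Finset.mem_coe, Dt, Set.mem_ofPred_eq]
      exact ⟨fun h => ⟨h, hle x h⟩, fun h => h.1⟩
    rw [hX]
    refine Tree.node _ _ (hD c hc1 hc2 hc3) hWt.1 ?_ ?_ hDc hWt.2
    · rw [Set.disjoint_left]
      rintro x ⟨_, h⟩ ⟨_, h', _⟩
      omega
    · rintro y ⟨hy, hy'⟩ z ⟨hz, hz', _⟩ hzy
      have := hmono z hz y hy hzy
      omega

end Crest.Agent.R286.WinL
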