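import Crest.Agent.R286.WinL
import Crest.Agent.R286.RDefs

/-!
# Row 286: R1 (V-step), helper957

`vstep`: node T for `lt` implies the V-step of `RDefs.lean`.
-/

set_option autoImplicit false
set_option linter.dupNamespace false

namespace Crest.Agent.R286.WinV

open Crest.Agent.R286 Crest.Agent.R286.RD

variable {α : Type} {R : α → α → Prop} {Dsc : Set α → Prop} {X : Finset α} {s : α → ℕ} {N : ℕ}

/-- prefix -/
def Dt (X : Finset α) (s : α → ℕ) (t : ℕ) : Set α := {x | x ∈ X ∧ s x ≤ t}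

/-- slot -/
def Sl (X : Finset α) (s : α → ℕ) (t : ℕ) : Set α := {x | x ∈ X ∧ s x = t}

/-- window -/
def Wd (X : Finset α) (s : α → ℕ) (c t : ℕ) : Set α := {x | x ∈ X ∧ c < s x ∧ s x ≤ t}

theorem Dt_succ (t : ℕ) : Dt X s (t + 1) = Dt X s t ∪ Sl X s (t + 1) := by
  ext x; simp only [Dt, Sl, Set.mem_ofPred_eq, Set.mem_union]
  constructor
  · rintro ⟨h1, h2⟩
    by_cases h : s x ≤ t
    · exact Or.inl ⟨h1, h⟩
    · exact Or.inr ⟨h1, by omega⟩
  · rintro (⟨h1, h2⟩ | ⟨h1, h2⟩)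
    · exact ⟨h1, by omega⟩
    · exact ⟨h1, by omega⟩

theorem Dt_window {c t : ℕ} (h : c ≤ t) : Dt X s t = Dt X s c ∪ Wd X s c t := by
  ext x; simp only [Dt, Wd, Set.mem_ofPred_eq, Set.mem_union]
  constructor
  · rintro ⟨h1, h2⟩
    by_cases h : s x ≤ c
    · exact Or.inl ⟨h1, h⟩
    · exact Or.inr ⟨h1, by omega, h2⟩
  · rintro (⟨h1, h2⟩ | ⟨h1, h2, h3⟩)
    · exact ⟨h1, by omega⟩
    · exact ⟨h1, h3⟩

theorem tree_slot (hmono : ∀ x ∈ X, ∀ y ∈ X, R x y → s x < s y)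
    (h3 : ∀ i, 1 ≤ i → i ≤ N → (X.filter fun x => s x = i).card = 3) {t : ℕ}
    (h1 : 1 ≤ t) (h2 : t ≤ N) : TreeD R Dsc (Sl X s t) := by
  refine TreeD.leaf _ ?_ ?_
  · rw [← h3 t h1 h2, ← Set.ncard_coe_finset]
    congr 1
    ext x; simp [Sl]
  · rintro a ⟨ha, ha'⟩ b ⟨hb, hb'⟩ hab
    have := hmono a ha b hb hab
    omega

/-- Tree of an L-free prefix. -/
theorem tree_prefix (htr : ∀ a b c, R a b → R b c → R a c)
    (hmono : ∀ x ∈ X, ∀ y ∈ X, R x y → s x < s y)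
    (hpos : ∀ x ∈ X, 1 ≤ s x)
    (h3 : ∀ i, 1 ≤ i → i ≤ N → (X.filter fun x => s x = i).card = 3)
    (hD : ∀ t, 1 ≤ t → t ≤ N → LFree R X s t → Dsc (Dt X s t))
    (hD' : ∀ t, 1 ≤ t → t + 1 ≤ N → LFree R X s (t + 1) → Dsc (Dt X s t))
    (hS : ∀ t, 1 ≤ t → t ≤ N → Dsc (Sl X s t))
    (hW : ∀ c t, 1 ≤ c → c ≤ t → LFree R X s c → (t = N ∨ (t + 1 ≤ N ∧ LFree R X s (t + 1))) →
      (∀ x ∈ X, c < s x → s x ≤ t → ∃ w ∈ X, s w = c ∧ R w x) →
      Dsc (Wd X s c t) ∧ TreeD R Dsc (Wd X s c t))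
    (t : ℕ) (h1 : 1 ≤ t) (h2 : t ≤ N) (hf : LFree R X s t) : TreeD R Dsc (Dt X s t) := by
  induction t using Nat.strong_induction_on with
  | _ t ih =>
    obtain ⟨t, rfl⟩ : ∃ t', t = t' + 1 := ⟨t - 1, by omega⟩
    rcases Nat.eq_zero_or_pos t with rfl | ht
    · have : Dt X s (0 + 1) = Sl X s (0 + 1) := by
        ext x; simp only [Dt, Sl, Set.mem_ofPred_eq]
        constructor
        · rintro ⟨ha, hb⟩
          exact ⟨ha, by have := hpos x ha; omega⟩
        · rintro ⟨ha, hb⟩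
          exact ⟨ha, by omega⟩
      rw [this]
      exact tree_slot hmono h3 h1 h2
    · obtain ⟨c, hc1, hc2, hc3, hc4⟩ := WinL.exists_prev (R := R) (X := X) (s := s) htr t ht
      have hWt := hW c t hc1 hc2 hc3 (Or.inr ⟨h2, hf⟩) hc4
      have hDc := ih c (by omega) hc1 (by omega) hc3
      have hDt : TreeD R Dsc (Dt X s t) := by
        rw [Dt_window hc2]
        refine TreeD.node _ _ (hD c hc1 (by omega) hc3) hWt.1 ?_ ?_ hDc hWt.2
        · rw [Set.disjoint_left]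
          rintro x ⟨_, h⟩ ⟨_, h', _⟩
          omega
        · rintro y ⟨hy, hy'⟩ z ⟨hz, hz', _⟩ hzy
          have := hmono z hz y hy hzy
          omega
      rw [Dt_succ]
      refine TreeD.node _ _ (hD' t ht h2 hf) (hS (t + 1) h1 h2) ?_ ?_ hDt
        (tree_slot hmono h3 h1 h2)
      · rw [Set.disjoint_left]
        rintro x ⟨_, h⟩ ⟨_, h'⟩
        omega
      · rintro y ⟨hy, hy'⟩ z ⟨hz, hz'⟩ hzy
        have := hmono z hz y hy hzy
        omega

/-- Tree of the whole context. -/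
theorem tree_context (htr : ∀ a b c, R a b → R b c → R a c)
    (hmono : ∀ x ∈ X, ∀ y ∈ X, R x y → s x < s y)
    (hpos : ∀ x ∈ X, 1 ≤ s x) (hle : ∀ x ∈ X, s x ≤ N)
    (h3 : ∀ i, 1 ≤ i → i ≤ N → (X.filter fun x => s x = i).card = 3)
    (hD : ∀ t, 1 ≤ t → t ≤ N → LFree R X s t → Dsc (Dt X s t))
    (hD' : ∀ t, 1 ≤ t → t + 1 ≤ N → LFree R X s (t + 1) → Dsc (Dt X s t))
    (hS : ∀ t, 1 ≤ t → t ≤ N → Dsc (Sl X s t))
    (hW : ∀ c t, 1 ≤ c → c ≤ t → LFree R X s c → (t = N ∨ (t + 1 ≤ N ∧ LFree R X s (t + 1))) →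
      (∀ x ∈ X, c < s x → s x ≤ t → ∃ w ∈ X, s w = c ∧ R w x) →
      Dsc (Wd X s c t) ∧ TreeD R Dsc (Wd X s c t)) : TreeD R Dsc (X : Set α) := by
  rcases Nat.eq_zero_or_pos N with rfl | hN
  · have : (X : Set α) = ∅ := by
      ext x
      simp only [Finset.mem_coe, Set.mem_empty_iff_false, iff_false]
      intro hx
      have := hpos x hx
      have := hle x hx
      omega
    rw [this]
    exact TreeD.empty
  · obtain ⟨c, hc1, hc2, hc3, hc4⟩ := WinL.exists_prev (R := R) (X := X) (s := s) htr N hN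
    have hWt := hW c N hc1 hc2 hc3 (Or.inl rfl) hc4
    have hDc := tree_prefix htr hmono hpos h3 hD hD' hS hW c hc1 hc2 hc3
    have hX : (X : Set α) = Dt X s c ∪ Wd X s c N := by
      rw [← Dt_window hc2]
      ext x
      simp only [Finset.mem_coe, Dt, Set.mem_ofPred_eq]
      exact ⟨fun h => ⟨h, hle x h⟩, fun h => h.1⟩
    rw [hX]
    refine TreeD.node _ _ (hD c hc1 hc2 hc3) hWt.1 ?_ ?_ hDc hWt.2
    · rw [Set.disjoint_left]
      rintro x ⟨_, h⟩ ⟨_, h', _⟩
      omega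
    · rintro y ⟨hy, hy'⟩ z ⟨hz, hz', _⟩ hzy
      have := hmono z hz y hy hzy
      omega

/-- R1: node T implies the V-step. -/
theorem vstep [Fintype α] [DecidableEq α] {lt : α → α → Prop} {nu : α → ℕ}
    (htr : ∀ a b c, lt a b → lt b c → lt a c) (hT : TStmt lt nu) : VStep lt nu := by
  classical
  intro Dsc X Q L hX hL hPP hC hcut hcut' hWin hUp ihWin ihUp
  obtain ⟨N, s0, h0⟩ := hPP
  obtain ⟨s, ⟨hb, h3, hmono⟩, hs⟩ := hT X N ⟨s0, h0⟩
  have hXm : ∀ x, x ∈ X ↔ x ∈ Q ∧ x ∈ L := fun x => by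
    rw [← Finset.mem_coe, hX]; rfl
  -- the slot as a finset
  set sl : ℕ → Finset α := fun t => X.filter fun x => s x = t with hsl
  have hslX : ∀ t, sl t ⊆ X := fun t => Finset.filter_subset _ _
  have hslm : ∀ t x, x ∈ sl t ↔ x ∈ X ∧ s x = t := fun t x => by
    rw [hsl]; exact Finset.mem_filter
  have hslc : ∀ t, 1 ≤ t → t ≤ N → (sl t).card = 3 := h3
  -- description of an L-free cut
  have hdesc : ∀ t, 1 ≤ t → t ≤ N → LFree lt X s t → ∃ S, Desc lt nu S ∧
      ∀ z ∈ X, (s z ≤ t ↔ z ∈ S \ up lt (sl t : Set α)) := by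
    intro t h1 h2 hf
    obtain ⟨S, hS, h⟩ := hs t h1 h2 hf
    refine ⟨S, hS, fun z hz => (h z hz).trans ?_⟩
    constructor
    · rintro ⟨ha, hb'⟩
      refine ⟨ha, ?_⟩
      rintro ⟨a, ha1, ha2⟩
      have := (hslm t a).1 (Finset.mem_coe.1 ha1)
      exact hb' a this.1 this.2 ha2
    · rintro ⟨ha, hb'⟩
      exact ⟨ha, fun w hw hw' hwz => hb' ⟨w, Finset.mem_coe.2 ((hslm t w).2 ⟨hw, hw'⟩), hwz⟩⟩
  refine tree_context (Dsc := Dsc) htr hmono (fun x hx => (hb x hx).1) (fun x hx => (hb x hx).2) h3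
    ?_ ?_ ?_ ?_
  · intro t h1 h2 hf
    obtain ⟨S, hS, h⟩ := hdesc t h1 h2 hf
    have e : Dt X s t = (X : Set α) ∩ (S \ up lt (sl t : Set α)) := by
      ext z
      simp only [Dt, Set.mem_ofPred_eq, Set.mem_inter_iff, Finset.mem_coe]
      exact ⟨fun hz => ⟨hz.1, (h z hz.1).1 hz.2⟩, fun hz => ⟨hz.1, (h z hz.1).2 hz.2⟩⟩
    rw [e]
    exact hcut S hS (sl t) (hslX t) (hslc t h1 h2)
  · intro t h1 h2 hf
    obtain ⟨S, hS, h⟩ := hdesc (t + 1) (by omega) h2 hf
    have e : Dt X s t = (X : Set α) ∩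
        (S \ (up lt (sl (t + 1) : Set α) ∪ (sl (t + 1) : Set α))) := by
      ext z
      simp only [Dt, Set.mem_ofPred_eq, Set.mem_inter_iff, Finset.mem_coe]
      constructor
      · rintro ⟨hz, hz'⟩
        have h4 := (h z hz).1 (by omega)
        refine ⟨hz, h4.1, ?_⟩
        rintro (h5 | h5)
        · exact h4.2 h5
        · have := (hslm (t + 1) z).1 (Finset.mem_coe.1 h5)
          omega
      · rintro ⟨hz, h4, h5⟩
        have h6 := (h z hz).2 ⟨h4, fun h7 => h5 (Or.inl h7)⟩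
        refine ⟨hz, ?_⟩
        have : s z ≠ t + 1 := fun h7 => h5 (Or.inr (Finset.mem_coe.2 ((hslm _ z).2 ⟨hz, h7⟩)))
        omega
    rw [e]
    exact hcut' S hS (sl (t + 1)) (hslX _) (hslc _ (by omega) h2)
  · intro t h1 h2
    have e : Sl X s t = (sl t : Set α) := by
      ext z
      simp only [Sl, Set.mem_ofPred_eq, Finset.mem_coe, hslm]
    rw [e]
    exact hC _ (hslX t) (hslc t h1 h2).le
  · intro c t hc1 hct hcf ht hw
    have htN : t ≤ N := by rcases ht with h | h <;> omega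
    have hcN : c ≤ N := by omega
    -- the window as a finset
    set W : Finset α := X.filter fun x => c < s x ∧ s x ≤ t with hW
    have hWc : (W : Set α) = Wd X s c t := by
      ext z
      simp only [hW, Wd, Finset.coe_filter, Set.mem_ofPred_eq]
    have hWX : W ⊂ X := by
      refine Finset.ssubset_iff_subset_ne.2 ⟨Finset.filter_subset _ _, fun h => ?_⟩
      have h4 : 0 < (sl c).card := by rw [hslc c hc1 hcN]; norm_num
      obtain ⟨a, ha⟩ := Finset.card_pos.1 h4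
      have ha' := (hslm c a).1 ha
      have : a ∈ W := by rw [h]; exact ha'.1
      rw [hW, Finset.mem_filter] at this
      omega
    have hWP : PP lt W := by
      refine ⟨t - c, fun x => s x - c, ?_, ?_, ?_⟩
      · intro x hx
        rw [hW, Finset.mem_filter] at hx
        dsimp only
        omega
      · intro i h1 h2
        exact WinL.block_card htN h3 i h1 h2
      · intro x hx y hy hxy
        rw [hW, Finset.mem_filter] at hx hy
        have := hmono x hx.1 y hy.1 hxy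
        dsimp only
        omega
    have hupw : ∀ x ∈ X, c < s x → s x ≤ t → x ∈ up lt (sl c : Set α) := by
      intro x hx h1 h2
      obtain ⟨w, hw1, hw2, hw3⟩ := hw x hx h1 h2
      exact ⟨w, Finset.mem_coe.2 ((hslm c w).2 ⟨hw1, hw2⟩), hw3⟩
    -- elements above the slot `c`
    have hupX : ∀ x, x ∈ up lt (sl c : Set α) → x ∈ Q → x ∈ X ∧ c < s x := by
      rintro x ⟨a, ha, hax⟩ hxQ
      have ha' := (hslm c a).1 (Finset.mem_coe.1 ha)
      have hxX : x ∈ X := (hXm x).2 ⟨hxQ, hL a x hax ((hXm a).1 ha'.1).2⟩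
      exact ⟨hxX, by have := hmono a ha'.1 x hxX hax; omega⟩
    rcases ht with rfl | ⟨ht, htf⟩
    · have e : Wd X s c t = up lt (sl c : Set α) ∩ Q := by
        ext z
        simp only [Wd, Set.mem_ofPred_eq, Set.mem_inter_iff]
        constructor
        · rintro ⟨hz, h1, h2⟩
          exact ⟨hupw z hz h1 h2, ((hXm z).1 hz).1⟩
        · rintro ⟨h1, h2⟩
          have h4 := hupX z h1 h2
          exact ⟨h4.1, h4.2, (hb z h4.1).2⟩
      refine ⟨by rw [e]; exact hUp _ (hslX c) (hslc c hc1 hcN), ?_⟩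
      rw [← hWc]
      exact ihUp _ (hslX c) (hslc c hc1 hcN) W (by rw [hWc, e]) hWX hWP
    · obtain ⟨S, hS, h⟩ := hdesc (t + 1) (by omega) ht htf
      have e : Wd X s c t = Win lt Q S (sl c : Set α) (sl (t + 1) : Set α) := by
        ext z
        simp only [Wd, Win, Set.mem_ofPred_eq, Set.mem_inter_iff]
        constructor
        · rintro ⟨hz, h1, h2⟩
          have h4 := (h z hz).1 (by omega)
          refine ⟨hupw z hz h1 h2, ((hXm z).1 hz).1, h4.1, ?_⟩
          rintro (h5 | h5)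
          · exact h4.2 h5
          · have := (hslm (t + 1) z).1 (Finset.mem_coe.1 h5)
            omega
        · rintro ⟨h1, h2, h4, h5⟩
          have h6 := hupX z h1 h2
          have h7 := (h z h6.1).2 ⟨h4, fun h8 => h5 (Or.inl h8)⟩
          refine ⟨h6.1, h6.2, ?_⟩
          have : s z ≠ t + 1 :=
            fun h8 => h5 (Or.inr (Finset.mem_coe.2 ((hslm _ z).2 ⟨h6.1, h8⟩)))
          omega
      have k3 : (sl (t + 1)).card = 3 := hslc _ (by omega) ht
      refine ⟨by rw [e]; exact hWin S hS _ _ (hslX c) (hslX _) (hslc c hc1 hcN) k3, ?_⟩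
      rw [← hWc]
      exact ihWin S hS _ _ (hslX c) (hslX _) (hslc c hc1 hcN) (hslc _ (by omega) ht) W
        (by rw [hWc, e]) hWX hWP

end Crest.Agent.R286.WinV
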